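import Mathlib
import Crest.Agent.R270.BmDefs_360

/-!
Row 260 (S0398): the algebraic side of the twistor space in tuple language (language of
`BmDefs_360`): equations `E` of the multicone over `Z` (blocks `I`), tangent vectors, the contact
form `θ` as a functorial 1-form of weight `w`, the class `β` of `L`-degree one (`w · β = 1`).
-/

namespace Crest.Agent.R260.Lin_678

open Crest.Agent.R270.BM_360

universe u

variable {I : Type} {J : I → Type} [Fintype I] [∀ i, Fintype (J i)]

/-- `t` is a tangent vector of the multicone at the point `v` with entries in the algebra `A`. -/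
def Tan {k : Type u} [Field k] (E : Set (MvPolynomial (Σ i, J i) k)) {A : Type*} [CommRing A]
    [Algebra k A] (v t : ∀ i, J i → A) : Prop :=
  ∀ p ∈ E, ∑ x : Σ i, J i,
    MvPolynomial.aeval (fun y : Σ i, J i => v y.1 y.2) (MvPolynomial.pderiv x p) * t x.1 x.2 = 0

/-- the tangent space of the multicone at `v`. -/
def TanSp {k : Type u} [Field k] (E : Set (MvPolynomial (Σ i, J i) k)) {A : Type*} [CommRing A]
    [Algebra k A] (v : ∀ i, J i → A) : Submodule A (∀ i, J i → A) where
  carrier := {t | Tan E v t}
  add_mem' := by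
    intro s t hs ht p hp
    have h1 := hs p hp
    have h2 := ht p hp
    simp only [Pi.add_apply, mul_add, Finset.sum_add_distrib, h1, h2, add_zero]
  zero_mem' := by
    intro p _
    simp
  smul_mem' := by
    intro a t ht p hp
    have h := ht p hp
    have e : ∑ x : Σ i, J i, MvPolynomial.aeval (fun y : Σ i, J i => v y.1 y.2)
        (MvPolynomial.pderiv x p) * (a • t) x.1 x.2 =
        a * ∑ x : Σ i, J i, MvPolynomial.aeval (fun y : Σ i, J i => v y.1 y.2)
          (MvPolynomial.pderiv x p) * t x.1 x.2 := by
      rw [Finset.mul_sum]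
      refine Finset.sum_congr rfl fun x _ => ?_
      simp only [Pi.smul_apply, smul_eq_mul]
      ring
    rw [e, h, mul_zero]

/-- value of the polynomial 1-form `∑ p_x dX_x` at the point `v` on the vector `t`. -/
noncomputable def form {k : Type u} [Field k] (p : (Σ i, J i) → MvPolynomial (Σ i, J i) k)
    {A : Type*} [CommRing A] [Algebra k A] (v t : ∀ i, J i → A) : A :=
  ∑ x : Σ i, J i, MvPolynomial.aeval (fun y : Σ i, J i => v y.1 y.2) (p x) * t x.1 x.2

/-- value of the exterior derivative of `∑ p_x dX_x` at the point `v` on the vectors `s`, `t`. -/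
noncomputable def dform {k : Type u} [Field k] (p : (Σ i, J i) → MvPolynomial (Σ i, J i) k)
    {A : Type*} [CommRing A] [Algebra k A] (v s t : ∀ i, J i → A) : A :=
  ∑ x : Σ i, J i, ∑ y : Σ i, J i,
    MvPolynomial.aeval (fun y : Σ i, J i => v y.1 y.2) (MvPolynomial.pderiv y (p x)) *
      (s y.1 y.2 * t x.1 x.2 - t y.1 y.2 * s x.1 x.2)

/-- the denominator `∏ v_(i, c i)` in the chart `c`. -/
def den {A : Type*} [CommRing A] (c : ∀ i, J i) (v : ∀ i, J i → A) : A := ∏ i, v i (c i)

/-- A 1-form `θ` of weight `w` on the multicone, basic over `Z` (it kills the Euler fields):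
in the chart `c` (a choice of one coordinate in every block)
`θ_v(t) = form (p c) v t / (den c v) ^ N`, functorially in the `k`-algebra `A`. -/
structure CForm {k : Type u} [Field k] (E : Set (MvPolynomial (Σ i, J i) k)) (w : I → ℤ) where
  /-- pole order -/
  N : ℕ
  /-- coefficients in the chart `c` -/
  p : (∀ i, J i) → (Σ i, J i) → MvPolynomial (Σ i, J i) k
  /-- `p c x` is multihomogeneous of degree `N + w` minus the degree of `X_x` -/
  hom : ∀ c x, ∀ m ∈ (p c x).support, ∀ i,
    ((∑ a, m ⟨i, a⟩ : ℕ) : ℤ) + (open Classical in if x.1 = i then 1 else 0) = N + w i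
  /-- the charts agree on tangent vectors at points of the cone with values in a `k`-algebra -/
  agree : ∀ (A : Type u) [CommRing A] [IsReduced A] [Algebra k A] (v t : ∀ i, J i → A),
    OnX E v → Tan E v t → ∀ c c' : ∀ i, J i,
      den c v ^ N * form (p c') v t = den c' v ^ N * form (p c) v t
  /-- `θ` kills the Euler field of every block -/
  euler : ∀ (A : Type u) [CommRing A] [IsReduced A] [Algebra k A] (v : ∀ i, J i → A),
    OnX E v → ∀ (c : ∀ i, J i) (i : I),
      ∑ a, MvPolynomial.aeval (fun y : Σ i, J i => v y.1 y.2) (p c ⟨i, a⟩) * v i a = 0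

/-- `q` is the value `θ_v(t)` (unique and existing when all blocks of `v` are unimodular). -/
def CForm.Val {k : Type u} [Field k] {E : Set (MvPolynomial (Σ i, J i) k)} {w : I → ℤ}
    (th : CForm E w) {A : Type*} [CommRing A] [Algebra k A] (v t : ∀ i, J i → A) (q : A) : Prop :=
  ∀ c : ∀ i, J i, den c v ^ th.N * q = form (th.p c) v t

open Classical in
/-- the value `θ_v(t)` over a field (for `v` with all blocks non-zero). -/
noncomputable def CForm.val {k : Type u} [Field k] {E : Set (MvPolynomial (Σ i, J i) k)}
    {w : I → ℤ} (th : CForm E w) {K : Type u} [Field K] [Algebra k K] (v t : ∀ i, J i → K) : K :=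
  if h : ∃ c : ∀ i, J i, ∀ i, v i (c i) ≠ 0 then
    form (th.p h.choose) v t / den h.choose v ^ th.N else 0

/-- `φ` is the normalised invariant `Φ_F(x, y) = c² / (a^w b^w)` of the map `F` of `L`-degree two
with leading vector `a · x`, value `b · y` at `0` and contact constant `c`; it does not change under
`z ↦ λ z` and under scaling of the blocks of `F`. -/
def CForm.IsPhi {k : Type u} [Field k] {E : Set (MvPolynomial (Σ i, J i) k)}
    {w : I → ℤ} (th : CForm E w) {K : Type u} [Field K] [Algebra k K]
    (F : ∀ i, J i → Polynomial K) (x y : ∀ i, J i → K) (φ : K) : Prop :=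
  ∃ (c : K) (a b : I → K), (∀ i, a i ≠ 0) ∧ (∀ i, b i ≠ 0) ∧
    (∀ i j, (F i j).coeff (cls F i) = a i * x i j) ∧ (∀ i j, (F i j).coeff 0 = b i * y i j) ∧
    th.Val F (fun i j => Polynomial.derivative (F i j)) (Polynomial.C c) ∧
    c ^ 2 = φ * ∏ i, (a i * b i) ^ w i

/-- **The common data of row 260** over the field `k` (algebraically closed of characteristic
zero in the applications): the contact manifold `Z` of dimension `2m+1` in tuple language. -/
structure CData (k : Type u) [Field k] (I : Type) [Fintype I] (J : I → Type)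
    [∀ i, Fintype (J i)] where
  /-- equations of the multicone -/
  E : Set (MvPolynomial (Σ i, J i) k)
  hom : MHom E
  /-- class of `L`-degree one -/
  β : I → ℕ
  β_pos : ∀ i, 0 < β i
  /-- weight of the contact form -/
  w : I → ℤ
  wβ : ∑ i, w i * (β i : ℤ) = 1
  /-- every map from the projective line has an `L`-degree `e` -/
  cls_eq : ∀ (κ : Type u) [Field κ] [Algebra k κ] (F : ∀ i, J i → Polynomial κ),
    IsMap E F → ∃ e : ℕ, cls F = e • β
  /-- `dim Z = 2m + 1` -/
  m : ℕ
  /-- the multicone is smooth of dimension `dim Z + |I|` away from the irrelevant locus -/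
  tan_dim : ∀ (κ : Type u) [Field κ] [Algebra k κ] (v : ∀ i, J i → κ),
    OnX E v → (∀ i, v i ≠ 0) → Module.finrank κ (TanSp E v) = 2 * m + 1 + Fintype.card I
  /-- contact form -/
  th : CForm E w
  /-- `dθ` is non-degenerate on `ker θ` modulo the Euler fields -/
  nondeg : ∀ (κ : Type u) [Field κ] [Algebra k κ] (v : ∀ i, J i → κ) (c : ∀ i, J i),
    OnX E v → (∀ i, v i (c i) ≠ 0) → ∀ t, Tan E v t → form (th.p c) v t = 0 →
      (∀ t', Tan E v t' → form (th.p c) v t' = 0 → dform (th.p c) v t t' = 0) →
      ∃ a : I → κ, ∀ i j, t i j = a i * v i j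
  /-- `θ` vanishes nowhere -/
  th_ne : ∀ (κ : Type u) [Field κ] [Algebra k κ] (v : ∀ i, J i → κ) (c : ∀ i, J i),
    OnX E v → (∀ i, v i (c i) ≠ 0) → ∃ t, Tan E v t ∧ form (th.p c) v t ≠ 0

end Crest.Agent.R260.Lin_678
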