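import Mathlib
import Crest.Agent.R270.Desc_131
import Crest.Agent.R260.LinDefs_678
import Crest.Agent.R260.Alg0_661

/-!
# Row 260, AG-ALG0 (helper661), part 2: the same in the language of `LinDefs_678`
-/

set_option autoImplicit false
set_option linter.unusedSectionVars false

namespace Crest.Agent.R260.Alg0_661

open Polynomial
open Crest.Agent.R270.BM_360 Crest.Agent.R270.Fr_928 Crest.Agent.R260.Der_169
open Crest.Agent.R260.Lin_678

universe u

variable {I : Type} {J : I → Type} [Fintype I] [∀ i, Fintype (J i)]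

/-- the family with one index. -/
def unc {A : Type*} (v : ∀ i, J i → A) : (Σ i, J i) → A := fun x => v x.1 x.2

/-- the polynomial `(∏ X_(i, c i)) ^ N`. -/
noncomputable def dpol (k : Type*) [CommRing k] (c : ∀ i, J i) (N : ℕ) :
    MvPolynomial (Σ i, J i) k :=
  (∏ i, MvPolynomial.X ⟨i, c i⟩) ^ N

section basic

variable {k : Type u} [Field k] {A : Type*} [CommRing A] [Algebra k A]

theorem form_eq (p : (Σ i, J i) → MvPolynomial (Σ i, J i) k) (v t : ∀ i, J i → A) :
    form p v t = al p (unc v) (unc t) := rfl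

theorem dform_eq (p : (Σ i, J i) → MvPolynomial (Σ i, J i) k) (v s t : ∀ i, J i → A) :
    dform p v s t = dal p (unc v) (unc s) (unc t) := by
  unfold dform dal dfun unc
  refine Finset.sum_congr rfl fun x _ => ?_
  rw [Finset.sum_mul, Finset.sum_mul, ← Finset.sum_sub_distrib]
  exact Finset.sum_congr rfl fun y _ => by ring

theorem aeval_dpol (c : ∀ i, J i) (N : ℕ) (v : ∀ i, J i → A) :
    MvPolynomial.aeval (unc v) (dpol k c N) = den c v ^ N := by
  simp [dpol, den, unc]

theorem dpol_hom (c : ∀ i, J i) (N : ℕ) (b : I → ℕ) :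
    MvPolynomial.IsWeightedHomogeneous (fun x : Σ i, J i => b x.1) (dpol k c N)
      (N * ∑ i, b i) := by
  have h1 : MvPolynomial.IsWeightedHomogeneous (fun x : Σ i, J i => b x.1)
      (∏ i, MvPolynomial.X (⟨i, c i⟩ : Σ i, J i) : MvPolynomial (Σ i, J i) k) (∑ i, b i) := by
    refine MvPolynomial.IsWeightedHomogeneous.prod Finset.univ _ _ fun i _ => ?_
    exact MvPolynomial.isWeightedHomogeneous_X k (fun x : Σ i, J i => b x.1) ⟨i, c i⟩
  have h2 := h1.pow N
  rwa [smul_eq_mul] at h2

variable {E : Set (MvPolynomial (Σ i, J i) k)} {w : I → ℤ}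

/-- weights of the contact form along a curve of class `b` with `w · b = e`. -/
theorem wf (th : CForm E w) (b : I → ℕ) {e : ℕ} (hb : ∑ i, w i * (b i : ℤ) = e)
    (c : ∀ i, J i) : WF (fun x : Σ i, J i => b x.1) (th.p c) (th.N * (∑ i, b i) + e) := by
  classical
  intro x
  by_cases h0 : th.p c x = 0
  · exact Or.inl h0
  right
  -- the weight of every monomial
  have key : ∀ m ∈ (th.p c x).support,
      (∑ y : Σ i, J i, m y * b y.1) + b x.1 = th.N * (∑ i, b i) + e := by
    intro m hm
    have h1 : (∑ y : Σ i, J i, m y * b y.1) = ∑ i, (∑ a, m ⟨i, a⟩) * b i := by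
      rw [Fintype.sum_sigma]
      exact Finset.sum_congr rfl fun i _ => by rw [Finset.sum_mul]
    have h2 : ∀ i, ((∑ a, m ⟨i, a⟩ : ℕ) : ℤ) =
        th.N + w i - (if x.1 = i then 1 else 0) := fun i => by
      have := th.hom c x m hm i
      have h3 : (open Classical in if x.1 = i then (1 : ℤ) else 0) =
        (if x.1 = i then 1 else 0) := by congr
      rw [h3] at this
      linarith
    zify
    rw [show ((∑ y : Σ i, J i, (m y : ℤ) * (b y.1 : ℤ))) =
      ((∑ y : Σ i, J i, m y * b y.1 : ℕ) : ℤ) by push_cast; rfl, h1]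
    push_cast
    have h4 : ∀ i, (∑ a, (m ⟨i, a⟩ : ℤ)) * (b i : ℤ) =
        th.N * (b i : ℤ) + w i * (b i : ℤ) - (if x.1 = i then (b i : ℤ) else 0) := fun i => by
      have := h2 i
      push_cast at this
      rw [this]
      split_ifs <;> ring
    rw [Finset.sum_congr rfl fun i _ => h4 i, Finset.sum_sub_distrib, Finset.sum_add_distrib, hb,
      Finset.sum_ite_eq Finset.univ x.1 (fun i => (b i : ℤ))]
    simp only [Finset.mem_univ, if_true]
    rw [Finset.mul_sum]
    ring
  obtain ⟨m, hm⟩ := MvPolynomial.support_nonempty.2 h0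
  refine ⟨∑ y : Σ i, J i, m y * b y.1, key m hm, ?_⟩
  intro m' hm'
  rw [Finsupp.weight_apply, Finsupp.sum_fintype _ _ (by simp)]
  simp only [smul_eq_mul]
  have h1 := key m hm
  have h2 := key m' (MvPolynomial.mem_support_iff.2 hm')
  omega

/-- the Euler fields combined with the weights `b`. -/
theorem euler_al (th : CForm E w) {A : Type u} [CommRing A] [IsReduced A] [Algebra k A] {v : ∀ i, J i → A}
    (hv : OnX E v) (b : I → ℕ) (c : ∀ i, J i) :
    al (th.p c) (unc v) (fun x => (b x.1 : A) * unc v x) = 0 := by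
  unfold al
  rw [Fintype.sum_sigma]
  refine Finset.sum_eq_zero fun i _ => ?_
  have h := th.euler A v hv c i
  have h2 : ∀ a : J i, MvPolynomial.aeval (unc v) (th.p c ⟨i, a⟩) *
      (((b (⟨i, a⟩ : Σ i, J i).1 : ℕ) : A) * unc v ⟨i, a⟩) =
      (b i : A) * (MvPolynomial.aeval (fun y : Σ i, J i => v y.1 y.2) (th.p c ⟨i, a⟩) * v i a) :=
    fun a => by
      change MvPolynomial.aeval (fun y : Σ i, J i => v y.1 y.2) (th.p c ⟨i, a⟩) *
        ((b i : A) * v i a) = _
      ring
  rw [Finset.sum_congr rfl fun a _ => h2 a, ← Finset.mul_sum, h, mul_zero]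

/-- derivatives are tangent. -/
theorem tan_der {A : Type*} [CommRing A] [Algebra k A] {v : ∀ i, J i → A} (hv : OnX E v)
    (D : Derivation k A A) : Tan E v (fun i a => D (v i a)) := by
  intro p hp
  have h := der_aeval D (unc v) p
  have h1 : MvPolynomial.aeval (unc v) p = 0 := hv p hp
  rw [h1, map_zero] at h
  exact h.symm

end basic

section val

variable {k : Type u} [Field k] {E : Set (MvPolynomial (Σ i, J i) k)} {w : I → ℤ}

/-- all blocks unimodular: the denominators generate the unit ideal. -/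
theorem span_den {A : Type*} [CommRing A] {v : ∀ i, J i → A}
    (hv : ∀ i, Ideal.span (Set.range (v i)) = ⊤) :
    Ideal.span (Set.range fun c : ∀ i, J i => den c v) = ⊤ := by
  classical
  have h1 : ∏ i, Ideal.span (Set.range (v i)) = (⊤ : Ideal A) := by
    rw [Finset.prod_congr rfl fun i _ => hv i]
    simp
  rw [Ideal.prod_span] at h1
  rw [← h1]
  congr 1
  ext a
  rw [Set.mem_range, Set.mem_finsetProd]
  constructor
  · rintro ⟨c, rfl⟩
    exact ⟨fun i => v i (c i), fun {i} _ => ⟨c i, rfl⟩, rfl⟩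
  · rintro ⟨g, hg, rfl⟩
    have h2 : ∀ i, ∃ c, v i c = g i := fun i => hg (Finset.mem_univ i)
    choose c hc using h2
    exact ⟨c, Finset.prod_congr rfl fun i _ => hc i⟩

theorem span_den_pow {A : Type*} [CommRing A] {v : ∀ i, J i → A}
    (hv : ∀ i, Ideal.span (Set.range (v i)) = ⊤) (N : ℕ) :
    Ideal.span (Set.range fun c : ∀ i, J i => den c v ^ N) = ⊤ := by
  have h := Ideal.span_pow_eq_top _ (span_den hv) N
  rw [← Set.range_comp] at h
  exact h

/-- the value of `θ` exists at unimodular points. -/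
theorem exists_val (th : CForm E w) {A : Type u} [CommRing A] [IsReduced A] [Algebra k A]
    {v t : ∀ i, J i → A}
    (hv : ∀ i, Ideal.span (Set.range (v i)) = ⊤) (hX : OnX E v) (ht : Tan E v t) :
    ∃ q, th.Val v t q := by
  classical
  have h1 : (1 : A) ∈ Ideal.span (Set.range fun c : ∀ i, J i => den c v ^ th.N) := by
    rw [span_den_pow hv]; trivial
  rw [Ideal.mem_span_range_iff_exists_fun] at h1
  obtain ⟨h, hh⟩ := h1
  refine ⟨∑ c, h c * form (th.p c) v t, fun c' => ?_⟩
  rw [Finset.mul_sum]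
  have h2 : ∀ c, den c' v ^ th.N * (h c * form (th.p c) v t) =
      h c * den c v ^ th.N * form (th.p c') v t := fun c => by
    have := th.agree A v t hX ht c c'
    calc den c' v ^ th.N * (h c * form (th.p c) v t) =
        h c * (den c' v ^ th.N * form (th.p c) v t) := by ring
      _ = h c * (den c v ^ th.N * form (th.p c') v t) := by rw [this]
      _ = _ := by ring
  rw [Finset.sum_congr rfl fun c _ => h2 c, ← Finset.sum_mul, hh, one_mul]

/-- the value of `θ` is unique at unimodular points. -/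
theorem val_unique (th : CForm E w) {A : Type*} [CommRing A] [Algebra k A] {v t : ∀ i, J i → A}
    (hv : ∀ i, Ideal.span (Set.range (v i)) = ⊤) {q q' : A} (h : th.Val v t q)
    (h' : th.Val v t q') : q = q' := by
  classical
  have h1 : (1 : A) ∈ Ideal.span (Set.range fun c : ∀ i, J i => den c v ^ th.N) := by
    rw [span_den_pow hv]; trivial
  rw [Ideal.mem_span_range_iff_exists_fun] at h1
  obtain ⟨g, hg⟩ := h1
  have h2 : ∀ c, g c * den c v ^ th.N * q = g c * den c v ^ th.N * q' := fun c => by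
    rw [mul_assoc, h c, mul_assoc, h' c]
  calc q = (∑ c, g c * den c v ^ th.N) * q := by rw [hg, one_mul]
    _ = (∑ c, g c * den c v ^ th.N) * q' := by
        rw [Finset.sum_mul, Finset.sum_mul]
        exact Finset.sum_congr rfl fun c _ => h2 c
    _ = q' := by rw [hg, one_mul]

end val

section curve

variable {k : Type u} [Field k] {E : Set (MvPolynomial (Σ i, J i) k)} {w : I → ℤ}
  {κ : Type u} [Field κ] [Algebra k κ]

theorem natDegree_le_cls (F : ∀ i, J i → κ[X]) (x : Σ i, J i) :
    (unc F x).natDegree ≤ cls F x.1 :=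
  Finset.le_sup (f := fun a => (F x.1 a).natDegree) (Finset.mem_univ x.2)

/-- the leading vector. -/
noncomputable def lead (F : ∀ i, J i → κ[X]) : ∀ i, J i → κ := fun i a => (F i a).coeff (cls F i)

/-- the constant vector. -/
noncomputable def bot (F : ∀ i, J i → κ[X]) : ∀ i, J i → κ := fun i a => (F i a).coeff 0

/-- a chart in which the leading vector is finite. -/
theorem exists_chart_lead {F : ∀ i, J i → κ[X]} (hF : ∀ i, F i ≠ 0) :
    ∃ c : ∀ i, J i, den c (lead F) ≠ 0 := by
  choose c hc using fun i => Crest.Agent.R270.Link_131.vec_top_ne (hF i)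
  exact ⟨c, Finset.prod_ne_zero_iff.2 fun i _ => hc i⟩

theorem exists_chart_bot {F : ∀ i, J i → κ[X]} (hF : ∀ i, Cop (F i)) :
    ∃ c : ∀ i, J i, den c (bot F) ≠ 0 := by
  have h : ∀ i, ∃ a, (F i a).coeff 0 ≠ 0 := by
    intro i
    by_contra hcon
    push Not at hcon
    have h1 : (1 : κ[X]) ∈ Ideal.span (Set.range (F i)) := by
      rw [show Ideal.span (Set.range (F i)) = ⊤ from hF i]; trivial
    rw [Ideal.mem_span_range_iff_exists_fun] at h1
    obtain ⟨h, hh⟩ := h1
    have h2 := congrArg (fun p : κ[X] => p.coeff 0) hh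
    simp only [finsetSum_coeff, mul_coeff_zero, hcon, mul_zero, Finset.sum_const_zero,
      coeff_one_zero] at h2
    exact zero_ne_one h2
  choose c hc using h
  exact ⟨c, Finset.prod_ne_zero_iff.2 fun i _ => hc i⟩

theorem coeff_den (F : ∀ i, J i → κ[X]) (c : ∀ i, J i) (N : ℕ) :
    (den c F ^ N).natDegree ≤ N * ∑ i, cls F i ∧
      (den c F ^ N).coeff (N * ∑ i, cls F i) = den c (lead F) ^ N := by
  have h := Crest.Agent.R270.Lift_811.reflect_aeval (fun x : Σ i, J i => cls F x.1)
    (dpol_hom (k := κ) c N (cls F)) (unc F) (natDegree_le_cls F)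
  rw [aeval_dpol] at h
  refine ⟨h.1, ?_⟩
  have h1 := congrArg (fun p : κ[X] => ev0 κ κ p) h.2
  simp only [ev0_apply] at h1
  rw [coeff_reflect, revAt_le (Nat.zero_le _), Nat.sub_zero] at h1
  rw [← h1, ← ev0_apply (k := κ), ← AlgHom.comp_apply]
  have h2 : (ev0 κ κ).comp (MvPolynomial.aeval fun x : Σ i, J i => reflect (cls F x.1) (unc F x)) =
      MvPolynomial.aeval (unc (lead F)) := by
    ext x
    simp [ev0_apply, unc, lead, coeff_reflect, revAt_le]
  rw [h2, aeval_dpol]

theorem coeff_den_zero (F : ∀ i, J i → κ[X]) (c : ∀ i, J i) (N : ℕ) :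
    (den c F ^ N).coeff 0 = den c (bot F) ^ N := by
  rw [← aeval_dpol (k := κ), ← aeval_dpol (k := κ), ← ev0_apply (k := κ), ← AlgHom.comp_apply]
  congr 1
  ext x
  simp [ev0_apply, unc, bot]

theorem sum_w_cls {β : I → ℕ} (hβ : ∑ i, w i * (β i : ℤ) = 1) {F : ∀ i, J i → κ[X]} {e : ℕ}
    (he : cls F = e • β) : ∑ i, w i * (cls F i : ℤ) = e := by
  rw [he]
  have h : ∀ i, w i * (((e • β) i : ℕ) : ℤ) = (e : ℤ) * (w i * (β i : ℤ)) := fun i => by
    simp only [Pi.smul_apply, smul_eq_mul]
    push_cast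
    ring
  rw [Finset.sum_congr rfl fun i _ => h i, ← Finset.mul_sum, hβ, mul_one]

/-- top coefficient of the value of a chart form. -/
theorem coeff_al (th : CForm E w) {F : ∀ i, J i → κ[X]} {e : ℕ}
    (he : ∑ i, w i * (cls F i : ℤ) = e) (c : ∀ i, J i) (t : (Σ i, J i) → κ[X])
    (ht : ∀ x, (t x).natDegree ≤ cls F x.1) :
    (al (th.p c) (unc F) t).natDegree ≤ th.N * (∑ i, cls F i) + e ∧
      (al (th.p c) (unc F) t).coeff (th.N * (∑ i, cls F i) + e) =
        al (th.p c) (unc (lead F)) (fun x => (t x).coeff (cls F x.1)) := by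
  have h := al_reflect (fun x : Σ i, J i => cls F x.1) (wf th (cls F) he c) (unc F) t
    (natDegree_le_cls F) ht
  refine ⟨h.1, ?_⟩
  have h1 := congrArg (fun p : κ[X] => ev0 k κ p) h.2
  simp only [ev0_apply] at h1
  rw [coeff_reflect, revAt_le (Nat.zero_le _), Nat.sub_zero, ← ev0_apply (k := k), al_map] at h1
  rw [← h1]
  congr 1
  · funext x
    simp [ev0_apply, unc, lead, coeff_reflect, revAt_le]
  · funext x
    simp [ev0_apply, coeff_reflect, revAt_le]

/-- degree of the value of `θ` on a tangent tuple. -/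
theorem val_degree (th : CForm E w) {F : ∀ i, J i → κ[X]} (hF : IsMap E F) {e : ℕ}
    (he : ∑ i, w i * (cls F i : ℤ) = e) {t : ∀ i, J i → κ[X]}
    (ht : ∀ i a, (t i a).natDegree ≤ cls F i) {Q : κ[X]} (hQ : th.Val F t Q) :
    Q.natDegree ≤ e := by
  obtain ⟨c, hc⟩ := exists_chart_lead (F := F) fun i => (hF.cop i).ne_zero
  by_cases h0 : Q = 0
  · rw [h0]; simp
  have h1 := coeff_den F c th.N
  have hd0 : (den c F ^ th.N).coeff (th.N * ∑ i, cls F i) ≠ 0 := by
    rw [h1.2]; exact pow_ne_zero _ hc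
  have hd : (den c F ^ th.N).natDegree = th.N * ∑ i, cls F i :=
    le_antisymm h1.1 (le_natDegree_of_ne_zero hd0)
  have h2 := (coeff_al th he c (unc t) fun x => ht x.1 x.2).1
  have h3 : den c F ^ th.N * Q = al (th.p c) (unc F) (unc t) := hQ c
  rw [← h3, natDegree_mul (by intro h; rw [h] at hd0; simp at hd0) h0, hd] at h2
  omega

/-- **(N0) the contact constant**: `θ_F(F')` has degree `≤ e - 2`. -/
theorem val_der_degree (th : CForm E w) {F : ∀ i, J i → κ[X]} (hF : IsMap E F) {e : ℕ}
    (he : ∑ i, w i * (cls F i : ℤ) = e) {P : κ[X]}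
    (hP : th.Val F (fun i a => derivative (F i a)) P) (h0 : P ≠ 0) : P.natDegree + 2 ≤ e := by
  obtain ⟨c, hc⟩ := exists_chart_lead (F := F) fun i => (hF.cop i).ne_zero
  have h1 := coeff_den F c th.N
  have hd0 : (den c F ^ th.N).coeff (th.N * ∑ i, cls F i) ≠ 0 := by
    rw [h1.2]; exact pow_ne_zero _ hc
  have hd : (den c F ^ th.N).natDegree = th.N * ∑ i, cls F i :=
    le_antisymm h1.1 (le_natDegree_of_ne_zero hd0)
  -- the form on `X F'`
  have h2 := coeff_al th he c (fun x => X * derivative (unc F x)) fun x =>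
    natDegree_X_mul_derivative_le _ (natDegree_le_cls F x)
  -- the Euler field
  have h3 := coeff_al th he c (fun x => (cls F x.1 : κ[X]) * unc F x) fun x => by
    refine natDegree_mul_le.trans ?_
    rw [natDegree_natCast, zero_add]
    exact natDegree_le_cls F x
  rw [euler_al th hF.on (cls F) c, coeff_zero] at h3
  have h4 : (fun x : Σ i, J i => (X * derivative (unc F x)).coeff (cls F x.1)) =
      fun x : Σ i, J i => ((cls F x.1 : κ[X]) * unc F x).coeff (cls F x.1) := by
    funext x
    rw [← C_eq_natCast, coeff_C_mul]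
    cases h5 : cls F x.1 with
    | zero => simp
    | succ n => rw [coeff_X_mul, coeff_derivative]; push_cast; ring
  rw [h4, ← h3.2] at h2
  have h5 : al (th.p c) (unc F) (fun x => X * derivative (unc F x)) =
      den c F ^ th.N * (X * P) := by
    rw [al_mul]
    have : den c F ^ th.N * P = al (th.p c) (unc F) (unc fun i a => derivative (F i a)) := hP c
    change X * al (th.p c) (unc F) (unc fun i a => derivative (F i a)) = _
    rw [← this]
    ring
  rw [h5] at h2
  have hdn : den c F ^ th.N ≠ 0 := by intro h; rw [h] at hd0; simp at hd0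
  have hXP : (X * P : κ[X]) ≠ 0 := mul_ne_zero X_ne_zero h0
  have h6 : (den c F ^ th.N * (X * P)).natDegree =
      th.N * (∑ i, cls F i) + (P.natDegree + 1) := by
    rw [natDegree_mul hdn hXP, hd, natDegree_mul X_ne_zero h0, natDegree_X]
    ring
  have h7 : P.natDegree + 1 ≠ e := by
    intro h8
    have h9 : (den c F ^ th.N * (X * P)).leadingCoeff ≠ 0 :=
      leadingCoeff_ne_zero.2 (mul_ne_zero hdn hXP)
    rw [leadingCoeff, h6, h8] at h9
    exact h9 h2.2
  have h8 := h2.1
  rw [h6] at h8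
  omega

theorem cop_span {F : ∀ i, J i → κ[X]} (hF : IsMap E F) :
    ∀ i, Ideal.span (Set.range (F i)) = ⊤ := hF.cop

/-- `θ_F(F')` exists. -/
theorem exists_val_der (th : CForm E w) {F : ∀ i, J i → κ[X]} (hF : IsMap E F) :
    ∃ P, th.Val F (fun i a => derivative (F i a)) P :=
  exists_val th hF.cop hF.on (tan_der hF.on (dz k κ))

/-- **lines are contact.** -/
theorem val_der_line (th : CForm E w) {F : ∀ i, J i → κ[X]} (hF : IsMap E F)
    (he : ∑ i, w i * (cls F i : ℤ) = (1 : ℕ)) : th.Val F (fun i a => derivative (F i a)) 0 := by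
  obtain ⟨P, hP⟩ := exists_val_der th hF
  by_cases h0 : P = 0
  · rwa [h0] at hP
  · have := val_der_degree th hF he hP h0
    omega

/-- **the contact constant of a conic.** -/
theorem exists_const (th : CForm E w) {F : ∀ i, J i → κ[X]} (hF : IsMap E F)
    (he : ∑ i, w i * (cls F i : ℤ) = (2 : ℕ)) :
    ∃ c : κ, th.Val F (fun i a => derivative (F i a)) (C c) := by
  obtain ⟨P, hP⟩ := exists_val_der th hF
  by_cases h0 : P = 0
  · exact ⟨0, by rw [C_0, ← h0]; exact hP⟩
  · have h1 := val_der_degree th hF he hP h0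
    refine ⟨P.coeff 0, ?_⟩
    rwa [← eq_C_of_natDegree_le_zero (by omega)]

/-- **AG-ALG0.** A derivation which kills both end vectors of a conic kills its contact
constant. -/
theorem der_const [CharZero k] (th : CForm E w) {F : ∀ i, J i → κ[X]} (hF : IsMap E F)
    (he : ∑ i, w i * (cls F i : ℤ) = (2 : ℕ)) {c : κ}
    (hc : th.Val F (fun i a => derivative (F i a)) (C c)) (δ : Derivation k κ κ)
    (hx : ∀ i a, δ ((F i a).coeff 0) = 0) (hy : ∀ i a, δ ((F i a).coeff (cls F i)) = 0) :
    δ c = 0 := by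
  obtain ⟨c₀, hc₀⟩ := exists_chart_bot (F := F) hF.cop
  obtain ⟨c₁, hc₁⟩ := exists_chart_lead (F := F) fun i => (hF.cop i).ne_zero
  obtain ⟨Q, hQ⟩ := exists_val th hF.cop hF.on (tan_der hF.on (dX δ))
  have hQd : Q.natDegree ≤ 2 := val_degree th hF he (fun i a => by
    refine (natDegree_le_iff_degree_le.2 ?_)
    exact (degree_dX_le δ (F i a)).trans
      (natDegree_le_iff_degree_le.1 (natDegree_le_cls F ⟨i, a⟩))) hQ
  have key : ∀ c' : ∀ i, J i, MvPolynomial.aeval (unc F) (dpol k c' th.N) * C c =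
      al (th.p c') (unc F) fun x => derivative (unc F x) := fun c' => by
    rw [aeval_dpol]; exact hc c'
  have keyQ : ∀ c' : ∀ i, J i, MvPolynomial.aeval (unc F) (dpol k c' th.N) * Q =
      al (th.p c') (unc F) fun x => dX δ (unc F x) := fun c' => by
    rw [aeval_dpol]; exact hQ c'
  have h := der_const_aux (p₀ := th.p c₀) (G₀ := dpol k c₀ th.N) (G₁ := dpol k c₁ th.N)
    (fun x : Σ i, J i => cls F x.1) (wf th (cls F) he c₁)
    (dpol_hom c₁ th.N (cls F)) (unc F) (natDegree_le_cls F) δ
    (euler_al th hF.on (cls F) c₁) hQd (key c₀) (keyQ c₀) (key c₁) (keyQ c₁)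
    (by
      have : (fun x : Σ i, J i => (unc F x).coeff 0) = unc (bot F) := rfl
      rw [this, aeval_dpol]
      exact pow_ne_zero _ hc₀)
    (by
      have : (fun x : Σ i, J i => (unc F x).coeff (cls F x.1)) = unc (lead F) := rfl
      rw [this, aeval_dpol]
      exact pow_ne_zero _ hc₁)
    (fun x => hx x.1 x.2) (fun x => hy x.1 x.2)
  have : CharZero κ := charZero_of_injective_algebraMap (algebraMap k κ).injective
  exact (mul_eq_zero.1 h).resolve_left two_ne_zero

/-- **first variation of the contact constant of a conic**, both end vectors moving. -/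
theorem variation (th : CForm E w) {F : ∀ i, J i → κ[X]} (hF : IsMap E F)
    (he : ∑ i, w i * (cls F i : ℤ) = (2 : ℕ)) {c : κ}
    (hc : th.Val F (fun i a => derivative (F i a)) (C c)) (δ : Derivation k κ κ) {Q : κ[X]}
    (hQ : th.Val F (fun i a => dX δ (F i a)) Q) {c₀ c₁ : ∀ i, J i}
    (hc₀ : den c₀ (bot F) ≠ 0) (hc₁ : den c₁ (lead F) ≠ 0) :
    2 * δ c =
      dthN (th.p c₀) (dpol k c₀ th.N) (unc (bot F)) (fun x => δ (unc (bot F) x))
        (fun x => (unc F x).coeff 1) (Q.coeff 0) c / den c₀ (bot F) ^ th.N -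
      dthN (th.p c₁) (dpol k c₁ th.N) (unc (lead F)) (fun x => δ (unc (lead F) x))
        (fun x => (reflect (cls F x.1) (unc F x)).coeff 1) (Q.coeff 2) (-c) /
          den c₁ (lead F) ^ th.N := by
  have hQd : Q.natDegree ≤ 2 := val_degree th hF he (fun i a => by
    refine (natDegree_le_iff_degree_le.2 ?_)
    exact (degree_dX_le δ (F i a)).trans
      (natDegree_le_iff_degree_le.1 (natDegree_le_cls F ⟨i, a⟩))) hQ
  have key : ∀ c' : ∀ i, J i, MvPolynomial.aeval (unc F) (dpol k c' th.N) * C c =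
      al (th.p c') (unc F) fun x => derivative (unc F x) := fun c' => by
    rw [aeval_dpol]; exact hc c'
  have keyQ : ∀ c' : ∀ i, J i, MvPolynomial.aeval (unc F) (dpol k c' th.N) * Q =
      al (th.p c') (unc F) fun x => dX δ (unc F x) := fun c' => by
    rw [aeval_dpol]; exact hQ c'
  have e0 : MvPolynomial.aeval (fun x : Σ i, J i => (unc F x).coeff 0) (dpol k c₀ th.N) =
      den c₀ (bot F) ^ th.N := by
    have : (fun x : Σ i, J i => (unc F x).coeff 0) = unc (bot F) := rfl
    rw [this, aeval_dpol]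
  have e1 : MvPolynomial.aeval (fun x : Σ i, J i => (unc F x).coeff (cls F x.1))
      (dpol k c₁ th.N) = den c₁ (lead F) ^ th.N := by
    have : (fun x : Σ i, J i => (unc F x).coeff (cls F x.1)) = unc (lead F) := rfl
    rw [this, aeval_dpol]
  have h := first_variation (p₀ := th.p c₀) (G₀ := dpol k c₀ th.N) (G₁ := dpol k c₁ th.N)
    (fun x : Σ i, J i => cls F x.1) (wf th (cls F) he c₁)
    (dpol_hom c₁ th.N (cls F)) (unc F) (natDegree_le_cls F) δ
    (euler_al th hF.on (cls F) c₁) hQd (key c₀) (keyQ c₀) (key c₁) (keyQ c₁)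
    (by rw [e0]; exact pow_ne_zero _ hc₀) (by rw [e1]; exact pow_ne_zero _ hc₁)
  rw [e0, e1] at h
  exact h

end curve

end Crest.Agent.R260.Alg0_661
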