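import Mathlib
import Crest.Agent.R260.Alg1_661

/-!
# Row 260, AG-ALG0 (helper661), part 3: the contact constant of a conic is algebraic over the field
of the two end vectors, and the conic may be replaced by one with algebraic coefficients.
-/

set_option autoImplicit false
set_option linter.unusedSectionVars false

namespace Crest.Agent.R260.Alg0_661

open Polynomial
open Crest.Agent.R270.BM_360 Crest.Agent.R270.Fr_928 Crest.Agent.R260.Der_169
open Crest.Agent.R260.Lin_678

universe u v

/-- an element killed by all derivations which kill `S` is algebraic over `k(S)`. -/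
theorem isAlgebraic_of_der {k : Type u} {κ : Type v} [Field k] [Field κ] [Algebra k κ] [CharZero k]
    (S : Set κ) (c : κ)
    (h : ∀ δ : Derivation k κ κ, (∀ s ∈ S, δ s = 0) → δ c = 0) :
    IsAlgebraic (IntermediateField.adjoin k S) c := by
  by_contra hcon
  have htr : Transcendental (IntermediateField.adjoin k S) c := hcon
  have : CharZero (IntermediateField.adjoin k S) :=
    charZero_of_injective_algebraMap (algebraMap k (IntermediateField.adjoin k S)).injective
  have hind : AlgebraicIndependent (IntermediateField.adjoin k S) (fun _ : Fin 1 => c) := by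
    rw [algebraicIndependent_unique_type_iff]
    exact htr
  obtain ⟨δ, hδ⟩ := exists_der_indep (k := IntermediateField.adjoin k S) (fun _ : Fin 1 => c) hind
  have h1 := h ((δ 0).restrictScalars k) fun s hs => by
    have hs' : s ∈ IntermediateField.adjoin k S := IntermediateField.subset_adjoin k S hs
    exact (δ 0).map_algebraMap (⟨s, hs'⟩ : IntermediateField.adjoin k S)
  have h2 : (δ 0) c = 1 := by
    have := hδ 0 0
    simpa using this
  have h3 : ((δ 0).restrictScalars k) c = (δ 0) c := rfl
  rw [h3, h2] at h1
  exact one_ne_zero h1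

variable {I : Type} {J : I → Type} [Fintype I] [∀ i, Fintype (J i)]

section map

variable {k : Type u} [Field k] {E : Set (MvPolynomial (Σ i, J i) k)} {w : I → ℤ}
  {A : Type*} [CommRing A] [Algebra k A] {B : Type*} [CommRing B] [Algebra k B]

theorem den_map (φ : A →ₐ[k] B) (c : ∀ i, J i) (v : ∀ i, J i → A) :
    φ (den c v) = den c (fun i a => φ (v i a)) := by
  simp [den]

theorem form_map (φ : A →ₐ[k] B) (p : (Σ i, J i) → MvPolynomial (Σ i, J i) k)
    (v t : ∀ i, J i → A) :
    φ (form p v t) = form p (fun i a => φ (v i a)) (fun i a => φ (t i a)) :=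
  al_map φ p (unc v) (unc t)

theorem Val_map (th : CForm E w) (φ : A →ₐ[k] B) {v t : ∀ i, J i → A} {q : A}
    (h : th.Val v t q) : th.Val (fun i a => φ (v i a)) (fun i a => φ (t i a)) (φ q) := by
  intro c
  rw [← den_map, ← form_map, ← h c, map_mul, map_pow]

theorem Val_of_map (th : CForm E w) (φ : A →ₐ[k] B) (hφ : Function.Injective φ)
    {v t : ∀ i, J i → A} {q : A}
    (h : th.Val (fun i a => φ (v i a)) (fun i a => φ (t i a)) (φ q)) : th.Val v t q := by
  intro c
  apply hφ
  rw [map_mul, map_pow, den_map, form_map]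
  exact h c

end map

section alg

variable {k : Type u} [Field k] {E : Set (MvPolynomial (Σ i, J i) k)} {w : I → ℤ}
  {κ : Type u} [Field κ] [Algebra k κ]

/-- the entries of the two end vectors. -/
def ends (F : ∀ i, J i → κ[X]) : Set κ :=
  {s | ∃ i a, bot F i a = s} ∪ {s | ∃ i a, lead F i a = s}

/-- **AG-ALG0.** The contact constant of a conic is algebraic over the field generated by the two
end vectors. -/
theorem const_algebraic [CharZero k] (th : CForm E w) {F : ∀ i, J i → κ[X]} (hF : IsMap E F)
    (he : ∑ i, w i * (cls F i : ℤ) = (2 : ℕ)) {c : κ}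
    (hc : th.Val F (fun i a => derivative (F i a)) (C c)) :
    IsAlgebraic (IntermediateField.adjoin k (ends F)) c := by
  refine isAlgebraic_of_der (ends F) c fun δ hδ => ?_
  exact der_const th hF he hc δ (fun i a => hδ _ (Or.inl ⟨i, a, rfl⟩))
    (fun i a => hδ _ (Or.inr ⟨i, a, rfl⟩))

/-- descent of a curve with given end vectors and given contact constant (Nullstellensatz). -/
theorem exists_descent {K : Type u} [Field K] [Algebra k K] [IsAlgClosed K] [Algebra K κ]
    [IsScalarTower k K κ] (th : CForm E w) {F : ∀ i, J i → κ[X]} (hF : IsMap E F)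
    {x y : ∀ i, J i → K} {c : K} (hx : ∀ i a, (F i a).coeff 0 = algebraMap K κ (x i a))
    (hy : ∀ i a, (F i a).coeff (cls F i) = algebraMap K κ (y i a))
    (hc : th.Val F (fun i a => derivative (F i a)) (C (algebraMap K κ c))) :
    ∃ G : ∀ i, J i → K[X], IsMap E G ∧ cls G = cls F ∧ (∀ i a, (G i a).coeff 0 = x i a) ∧
      (∀ i a, (G i a).coeff (cls G i) = y i a) ∧
      th.Val G (fun i a => derivative (G i a)) (C c) := by
  obtain ⟨T, hT, hsp⟩ := Crest.Agent.R270.Link_131.spread_map hF
  obtain ⟨A, hK, ψ, hTA, h2⟩ := Crest.Agent.R270.Link_131.exists_sub (k := k) (K := K) T hT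
  obtain ⟨G, hG, hGm, hGc⟩ := hsp A hTA K ψ
  have hcoef : ∀ i a n, ((G i a).coeff n : κ) = (F i a).coeff n := by
    intro i a n
    rw [← hG i a, coeff_map]
    rfl
  refine ⟨fun i a => (G i a).map (ψ : A →+* K), hGm, hGc, fun i a => ?_, fun i a => ?_, ?_⟩
  · rw [coeff_map]
    have h3 : (G i a).coeff 0 = ⟨algebraMap K κ (x i a), hK _⟩ := by
      apply Subtype.ext
      rw [hcoef, hx]
    rw [h3]
    exact h2 _
  · rw [hGc, coeff_map]
    have h3 : (G i a).coeff (cls F i) = ⟨algebraMap K κ (y i a), hK _⟩ := by
      apply Subtype.ext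
      rw [hcoef, hy]
    rw [h3]
    exact h2 _
  · have hinj : Function.Injective (Polynomial.mapAlgHom A.val) :=
      Polynomial.map_injective _ Subtype.val_injective
    have h4 : th.Val G (fun i a => derivative (G i a)) (C ⟨algebraMap K κ c, hK c⟩) := by
      refine Val_of_map th (Polynomial.mapAlgHom A.val) hinj ?_
      have e1 : (fun i a => (Polynomial.mapAlgHom A.val) (G i a)) = F := by
        funext i a
        exact hG i a
      have e2 : (fun i a => (Polynomial.mapAlgHom A.val) (derivative (G i a))) =
          fun i a => derivative (F i a) := by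
        funext i a
        rw [← hG i a]
        exact (derivative_map (G i a) (algebraMap A κ)).symm
      have e3 : (Polynomial.mapAlgHom A.val) (C (⟨algebraMap K κ c, hK c⟩ : A)) =
          C (algebraMap K κ c) := by
        change Polynomial.map _ _ = _
        rw [map_C]
        rfl
      rw [e1, e2, e3]
      exact hc
    have h5 := Val_map th (Polynomial.mapAlgHom ψ) h4
    have e2 : (fun i a => (Polynomial.mapAlgHom ψ) (derivative (G i a))) =
        fun i a => derivative ((G i a).map (ψ : A →+* K)) := by
      funext i a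
      exact (derivative_map (G i a) (ψ : A →+* K)).symm
    have e3 : (Polynomial.mapAlgHom ψ) (C (⟨algebraMap K κ c, hK c⟩ : A)) = C c := by
      change Polynomial.map _ _ = _
      rw [map_C]
      congr 1
      exact h2 c
    rw [e2, e3] at h5
    exact h5

/-- **the conic may be taken algebraic** over the field of its end vectors, with the same end
vectors and the same contact constant. -/
theorem exists_algebraic [CharZero k] [IsAlgClosed κ] (th : CForm E w) {F : ∀ i, J i → κ[X]}
    (hF : IsMap E F) (he : ∑ i, w i * (cls F i : ℤ) = (2 : ℕ)) {c : κ}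
    (hc : th.Val F (fun i a => derivative (F i a)) (C c)) :
    ∃ G : ∀ i, J i → κ[X], IsMap E G ∧ cls G = cls F ∧ bot G = bot F ∧ lead G = lead F ∧
      th.Val G (fun i a => derivative (G i a)) (C c) ∧
      ∀ i a n, IsAlgebraic (IntermediateField.adjoin k (ends F)) ((G i a).coeff n) := by
  let L := IntermediateField.adjoin k (ends F)
  let K : IntermediateField L κ := algebraicClosure L κ
  have hKalg : IsAlgClosed K := (algebraicClosure.isAlgClosure L κ).isAlgClosed
  have hst : IsScalarTower k K κ := IsScalarTower.of_algebraMap_eq fun r => rfl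
  have hmem : ∀ s ∈ ends F, s ∈ K := fun s hs => by
    have hs' : s ∈ L := IntermediateField.subset_adjoin k _ hs
    exact mem_algebraicClosure_iff.2 (isAlgebraic_algebraMap (⟨s, hs'⟩ : L))
  have hcK : c ∈ K := mem_algebraicClosure_iff.2 (const_algebraic th hF he hc)
  obtain ⟨G, hG, hGc, hGx, hGy, hGv⟩ := exists_descent (K := K) th hF
    (x := fun i a => ⟨(F i a).coeff 0, hmem _ (Or.inl ⟨i, a, rfl⟩)⟩)
    (y := fun i a => ⟨(F i a).coeff (cls F i), hmem _ (Or.inr ⟨i, a, rfl⟩)⟩) (c := ⟨c, hcK⟩)
    (fun i a => rfl) (fun i a => rfl) hc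
  have hinj : Function.Injective (algebraMap K κ) := (algebraMap K κ).injective
  let φ : K →ₐ[k] κ := (K.val).restrictScalars k
  have hcls : cls (fun i a => (G i a).map (φ : K →+* κ)) = cls G := by
    funext i
    unfold cls vdeg
    refine Finset.sup_congr rfl fun a _ => ?_
    exact natDegree_map_eq_of_injective (φ : K →+* κ).injective _
  refine ⟨fun i a => (G i a).map (φ : K →+* κ), ⟨?_, fun i => ?_⟩, hcls.trans hGc, ?_, ?_, ?_, ?_⟩
  · exact hG.on.map (Polynomial.mapAlgHom φ)
  · have h3 : (1 : K[X]) ∈ Ideal.span (Set.range (G i)) := by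
      rw [show Ideal.span (Set.range (G i)) = ⊤ from hG.cop i]; trivial
    rw [Ideal.mem_span_range_iff_exists_fun] at h3
    obtain ⟨g, hg⟩ := h3
    unfold Cop
    rw [Ideal.eq_top_iff_one, Ideal.mem_span_range_iff_exists_fun]
    refine ⟨fun a => (g a).map (φ : K →+* κ), ?_⟩
    have h4 := congrArg (Polynomial.map (φ : K →+* κ)) hg
    rw [Polynomial.map_sum, Polynomial.map_one] at h4
    rw [← h4]
    exact Finset.sum_congr rfl fun a _ => by rw [Polynomial.map_mul]
  · funext i a
    change ((G i a).map (φ : K →+* κ)).coeff 0 = (F i a).coeff 0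
    rw [coeff_map, hGx]
    rfl
  · funext i a
    change ((G i a).map (φ : K →+* κ)).coeff (cls (fun i a => (G i a).map (φ : K →+* κ)) i) =
      (F i a).coeff (cls F i)
    rw [hcls, coeff_map, hGy]
    rfl
  · have h5 := Val_map th (Polynomial.mapAlgHom φ) hGv
    have e2 : (fun i a => (Polynomial.mapAlgHom φ) (derivative (G i a))) =
        fun i a => derivative ((G i a).map (φ : K →+* κ)) := by
      funext i a
      exact (derivative_map (G i a) (φ : K →+* κ)).symm
    have e3 : (Polynomial.mapAlgHom φ) (C (⟨c, hcK⟩ : K)) = C c := by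
      change Polynomial.map _ _ = _
      rw [map_C]
      rfl
    rw [e2, e3] at h5
    exact h5
  · intro i a n
    rw [coeff_map]
    exact mem_algebraicClosure_iff.1 ((G i a).coeff n).2

end alg

end Crest.Agent.R260.Alg0_661
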