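import Mathlib
import Crest.Agent.R260.Alg3_661

/-!
# Row 260, AG-ALG0 (helper661), part 5: normalised form, descent to the algebraic closure
-/

set_option autoImplicit false
set_option linter.unusedSectionVars false

namespace Crest.Agent.R260.Alg0_661

open Polynomial
open Crest.Agent.R270.BM_360 Crest.Agent.R270.Fr_928 Crest.Agent.R260.Der_169
open Crest.Agent.R260.Lin_678

universe u v

variable {I : Type} {J : I → Type} [Fintype I] [∀ i, Fintype (J i)]
  {k : Type u} [Field k] {E : Set (MvPolynomial (Σ i, J i) k)} {w : I → ℤ}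
  {κ : Type u} [Field κ] [Algebra k κ]

theorem map_phi {K : Type*} [Field K] {L : Type*} [Field L] (f : K →+* L) (w : I → ℤ)
    (a b : I → K) (c : K) :
    f (phi w a b c) = phi w (fun i => f (a i)) (fun i => f (b i)) (f c) := by
  unfold phi
  rw [map_mul, map_pow, map_prod]
  congr 1
  refine Finset.prod_congr rfl fun i _ => ?_
  rw [map_zpow₀, map_mul]

/-- descent of a curve with given end vectors (up to scalars in the blocks) and given `Φ`. -/
theorem exists_descent_phi {K : Type u} [Field K] [Algebra k K] [IsAlgClosed K] [Algebra K κ]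
    [IsScalarTower k K κ] (th : CForm E w) {F : ∀ i, J i → κ[X]} (hF : IsMap E F)
    {x y : ∀ i, J i → K} {a b : I → κ} (ha : ∀ i, a i ≠ 0) (hb : ∀ i, b i ≠ 0) {c : κ} {φ : K}
    (hx : ∀ i j, bot F i j = a i * algebraMap K κ (x i j))
    (hy : ∀ i j, lead F i j = b i * algebraMap K κ (y i j))
    (hc : th.Val F (fun i a => derivative (F i a)) (C c))
    (hφ : phi w a b c = algebraMap K κ φ) :
    ∃ (G : ∀ i, J i → K[X]) (a' b' : I → K) (c' : K), IsMap E G ∧ cls G = cls F ∧
      (∀ i, a' i ≠ 0) ∧ (∀ i, b' i ≠ 0) ∧ (∀ i j, bot G i j = a' i * x i j) ∧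
      (∀ i j, lead G i j = b' i * y i j) ∧
      th.Val G (fun i a => derivative (G i a)) (C c') ∧ phi w a' b' c' = φ := by
  classical
  obtain ⟨T, hT, hsp⟩ := Crest.Agent.R270.Link_131.spread_map hF
  obtain ⟨A, hK, ψ, hTA, h2⟩ := Crest.Agent.R270.Link_131.exists_sub (k := k) (K := K)
    (T ∪ (Set.range a ∪ Set.range (fun i => (a i)⁻¹) ∪ (Set.range b ∪
      Set.range (fun i => (b i)⁻¹)) ∪ {c}))
    (hT.union ((((Set.finite_range _).union (Set.finite_range _)).union
      ((Set.finite_range _).union (Set.finite_range _))).union (Set.finite_singleton _)))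
  obtain ⟨G, hG, hGm, hGc⟩ := hsp A (fun c hc => hTA (Or.inl hc)) K ψ
  have hcoef : ∀ i a n, ((G i a).coeff n : κ) = (F i a).coeff n := by
    intro i a n
    rw [← hG i a, coeff_map]
    rfl
  have haA : ∀ i, a i ∈ A := fun i => hTA (Or.inr (Or.inl (Or.inl (Or.inl ⟨i, rfl⟩))))
  have haA' : ∀ i, (a i)⁻¹ ∈ A := fun i => hTA (Or.inr (Or.inl (Or.inl (Or.inr ⟨i, rfl⟩))))
  have hbA : ∀ i, b i ∈ A := fun i => hTA (Or.inr (Or.inl (Or.inr (Or.inl ⟨i, rfl⟩))))
  have hbA' : ∀ i, (b i)⁻¹ ∈ A := fun i => hTA (Or.inr (Or.inl (Or.inr (Or.inr ⟨i, rfl⟩))))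
  have hcA : c ∈ A := hTA (Or.inr (Or.inr rfl))
  let ua : I → Aˣ := fun i => ⟨⟨a i, haA i⟩, ⟨_, haA' i⟩,
    Subtype.ext (mul_inv_cancel₀ (ha i)), Subtype.ext (inv_mul_cancel₀ (ha i))⟩
  let ub : I → Aˣ := fun i => ⟨⟨b i, hbA i⟩, ⟨_, hbA' i⟩,
    Subtype.ext (mul_inv_cancel₀ (hb i)), Subtype.ext (inv_mul_cancel₀ (hb i))⟩
  let ψm : A →* K := (ψ : A →* K)
  -- the relation for `Φ` in `A`
  have hrel : (⟨c, hcA⟩ : A) ^ 2 * ∏ i, (((ua i * ub i) ^ (-w i) : Aˣ) : A) =
      ⟨algebraMap K κ φ, hK φ⟩ := by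
    apply Subtype.ext
    change A.val (_ * _) = _
    rw [map_mul, map_prod]
    have h3 : ∀ i, A.val (((ua i * ub i) ^ (-w i) : Aˣ) : A) = (a i * b i) ^ (-w i) := fun i => by
      have h4 := congrArg Units.val (map_zpow (Units.map (A.val : A →* κ)) (ua i * ub i) (-w i))
      rw [Units.val_zpow_eq_zpow_val] at h4
      exact h4
    rw [Finset.prod_congr rfl fun i _ => h3 i]
    exact hφ
  refine ⟨fun i a => (G i a).map (ψ : A →+* K), fun i => ψ ⟨a i, haA i⟩, fun i => ψ ⟨b i, hbA i⟩,
    ψ ⟨c, hcA⟩, hGm, hGc, fun i => ?_, fun i => ?_, fun i j => ?_, fun i j => ?_, ?_, ?_⟩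
  · exact (Units.map ψm (ua i)).ne_zero
  · exact (Units.map ψm (ub i)).ne_zero
  · change ((G i j).map (ψ : A →+* K)).coeff 0 = _
    rw [coeff_map]
    have h3 : (G i j).coeff 0 = ⟨a i, haA i⟩ * ⟨algebraMap K κ (x i j), hK _⟩ := by
      apply Subtype.ext
      rw [hcoef]
      exact hx i j
    rw [h3]
    change ψ (_ * _) = _
    rw [map_mul, h2]
  · change ((G i j).map (ψ : A →+* K)).coeff
      (cls (fun i a => (G i a).map (ψ : A →+* K)) i) = _
    rw [hGc, coeff_map]
    have h3 : (G i j).coeff (cls F i) = ⟨b i, hbA i⟩ * ⟨algebraMap K κ (y i j), hK _⟩ := by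
      apply Subtype.ext
      rw [hcoef]
      exact hy i j
    rw [h3]
    change ψ (_ * _) = _
    rw [map_mul, h2]
  · have hinj : Function.Injective (Polynomial.mapAlgHom A.val) :=
      Polynomial.map_injective _ Subtype.val_injective
    have h4 : th.Val G (fun i a => derivative (G i a)) (C ⟨c, hcA⟩) := by
      refine Val_of_map th (Polynomial.mapAlgHom A.val) hinj ?_
      have e1 : (fun i a => (Polynomial.mapAlgHom A.val) (G i a)) = F := by
        funext i a
        exact hG i a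
      have e2 : (fun i a => (Polynomial.mapAlgHom A.val) (derivative (G i a))) =
          fun i a => derivative (F i a) := by
        funext i a
        rw [← hG i a]
        exact (derivative_map (G i a) (algebraMap A κ)).symm
      have e3 : (Polynomial.mapAlgHom A.val) (C (⟨c, hcA⟩ : A)) = C c := by
        change Polynomial.map _ _ = _
        rw [map_C]
        rfl
      rw [e1, e2, e3]
      exact hc
    have h5 := Val_map th (Polynomial.mapAlgHom ψ) h4
    have e2 : (fun i a => (Polynomial.mapAlgHom ψ) (derivative (G i a))) =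
        fun i a => derivative ((G i a).map (ψ : A →+* K)) := by
      funext i a
      exact (derivative_map (G i a) (ψ : A →+* K)).symm
    have e3 : (Polynomial.mapAlgHom ψ) (C (⟨c, hcA⟩ : A)) = C (ψ ⟨c, hcA⟩) := by
      change Polynomial.map _ _ = _
      rw [map_C]
      rfl
    rw [e2, e3] at h5
    exact h5
  · have h3 := congrArg ψ hrel
    rw [map_mul, map_pow, map_prod, h2] at h3
    have h4 : ∀ i, ψ (((ua i * ub i) ^ (-w i) : Aˣ) : A) =
        (ψ ⟨a i, haA i⟩ * ψ ⟨b i, hbA i⟩) ^ (-w i) := fun i => by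
      have h4 := congrArg Units.val (map_zpow (Units.map ψm) (ua i * ub i) (-w i))
      rw [Units.val_zpow_eq_zpow_val] at h4
      have h5 : ((Units.map ψm (ua i * ub i) : Kˣ) : K) = ψ ⟨a i, haA i⟩ * ψ ⟨b i, hbA i⟩ := by
        rw [map_mul]
        rfl
      rw [h5] at h4
      exact h4
    rw [Finset.prod_congr rfl fun i _ => h4 i] at h3
    exact h3

/-- **the conic may be taken algebraic** over the field of its (unnormalised) end vectors, with
the same `Φ`. -/
theorem exists_algebraic_phi [CharZero k] [IsAlgClosed κ] (th : CForm E w)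
    {F : ∀ i, J i → κ[X]} (hF : IsMap E F) (he : ∑ i, w i * (cls F i : ℤ) = (2 : ℕ))
    {x y : ∀ i, J i → κ} {a b : I → κ} (ha : ∀ i, a i ≠ 0) (hb : ∀ i, b i ≠ 0) {c : κ}
    (hx : ∀ i j, bot F i j = a i * x i j) (hy : ∀ i j, lead F i j = b i * y i j)
    (hc : th.Val F (fun i a => derivative (F i a)) (C c)) :
    ∃ (G : ∀ i, J i → κ[X]) (a' b' : I → κ) (c' : κ), IsMap E G ∧ cls G = cls F ∧
      (∀ i, a' i ≠ 0) ∧ (∀ i, b' i ≠ 0) ∧ (∀ i j, bot G i j = a' i * x i j) ∧
      (∀ i j, lead G i j = b' i * y i j) ∧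
      th.Val G (fun i a => derivative (G i a)) (C c') ∧ phi w a' b' c' = phi w a b c ∧
      (∀ i a n, IsAlgebraic (IntermediateField.adjoin k (ents x y)) ((G i a).coeff n)) ∧
      (∀ i, IsAlgebraic (IntermediateField.adjoin k (ents x y)) (a' i)) ∧
      (∀ i, IsAlgebraic (IntermediateField.adjoin k (ents x y)) (b' i)) ∧
      IsAlgebraic (IntermediateField.adjoin k (ents x y)) c' := by
  let L := IntermediateField.adjoin k (ents x y)
  let K : IntermediateField L κ := algebraicClosure L κ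
  have hKalg : IsAlgClosed K := (algebraicClosure.isAlgClosure L κ).isAlgClosed
  have hst : IsScalarTower k K κ := IsScalarTower.of_algebraMap_eq fun r => rfl
  have hmem : ∀ s ∈ ents x y, s ∈ K := fun s hs => by
    have hs' : s ∈ L := IntermediateField.subset_adjoin k _ hs
    exact mem_algebraicClosure_iff.2 (isAlgebraic_algebraMap (⟨s, hs'⟩ : L))
  have hφK : phi w a b c ∈ K :=
    mem_algebraicClosure_iff.2 (phi_algebraic th hF he hc ha hb hx hy)
  obtain ⟨G, a', b', c', hG, hGc, ha', hb', hGx, hGy, hGv, hGφ⟩ :=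
    exists_descent_phi (K := K) th hF
      (x := fun i j => ⟨x i j, hmem _ (Or.inl ⟨i, j, rfl⟩)⟩)
      (y := fun i j => ⟨y i j, hmem _ (Or.inr ⟨i, j, rfl⟩)⟩) (φ := ⟨_, hφK⟩) ha hb
      hx hy hc rfl
  let φ : K →ₐ[k] κ := (K.val).restrictScalars k
  have hcls : cls (fun i a => (G i a).map (φ : K →+* κ)) = cls G := by
    funext i
    unfold cls vdeg
    refine Finset.sup_congr rfl fun a _ => ?_
    exact natDegree_map_eq_of_injective (φ : K →+* κ).injective _
  have hne : ∀ r : K, r ≠ 0 → (r : κ) ≠ 0 := fun r hr h => hr (Subtype.ext h)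
  refine ⟨fun i a => (G i a).map (φ : K →+* κ), fun i => a' i, fun i => b' i, c',
    ⟨?_, fun i => ?_⟩, hcls.trans hGc, fun i => hne _ (ha' i), fun i => hne _ (hb' i), ?_, ?_, ?_,
    ?_, ?_, ?_, ?_, ?_⟩
  · exact hG.on.map (Polynomial.mapAlgHom φ)
  · have h3 : (1 : K[X]) ∈ Ideal.span (Set.range (G i)) := by
      rw [show Ideal.span (Set.range (G i)) = ⊤ from hG.cop i]; trivial
    rw [Ideal.mem_span_range_iff_exists_fun] at h3
    obtain ⟨g, hg⟩ := h3
    unfold Cop
    rw [Ideal.eq_top_iff_one, Ideal.mem_span_range_iff_exists_fun]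
    refine ⟨fun a => (g a).map (φ : K →+* κ), ?_⟩
    have h4 := congrArg (Polynomial.map (φ : K →+* κ)) hg
    rw [Polynomial.map_sum, Polynomial.map_one] at h4
    rw [← h4]
    exact Finset.sum_congr rfl fun a _ => by rw [Polynomial.map_mul]
  · intro i j
    change ((G i j).map (φ : K →+* κ)).coeff 0 = _
    rw [coeff_map]
    exact congrArg (φ : K →+* κ) (hGx i j)
  · intro i j
    change ((G i j).map (φ : K →+* κ)).coeff (cls (fun i a => (G i a).map (φ : K →+* κ)) i) = _
    rw [hcls, coeff_map]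
    exact congrArg (φ : K →+* κ) (hGy i j)
  · have h5 := Val_map th (Polynomial.mapAlgHom φ) hGv
    have e2 : (fun i a => (Polynomial.mapAlgHom φ) (derivative (G i a))) =
        fun i a => derivative ((G i a).map (φ : K →+* κ)) := by
      funext i a
      exact (derivative_map (G i a) (φ : K →+* κ)).symm
    have e3 : (Polynomial.mapAlgHom φ) (C (c' : K)) = C (c' : κ) := by
      change Polynomial.map _ _ = _
      rw [map_C]
      rfl
    rw [e2, e3] at h5
    exact h5
  · have h3 := congrArg (φ : K →+* κ) hGφ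
    rw [map_phi] at h3
    exact h3
  · intro i a n
    rw [coeff_map]
    exact mem_algebraicClosure_iff.1 ((G i a).coeff n).2
  · exact fun i => mem_algebraicClosure_iff.1 (a' i).2
  · exact fun i => mem_algebraicClosure_iff.1 (b' i).2
  · exact mem_algebraicClosure_iff.1 c'.2

end Crest.Agent.R260.Alg0_661
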