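import Crest.Agent.R260.LinDefs_678

/-!
# Row 260, A-QUAD (helper517): the statement QUAD and the literal leaves of its proof

`D : CData k I J` the contact manifold in tuple language over the algebraically closed field `k`
of characteristic zero; `nn D = 2 m + 1 + |I|` the dimension of the cone, `hc D = 4 m + 3 + |I|`
the dimension of the family of (parametrised, exact) conics, `hl D = 3 m + 2 + |I|` of lines.
`CC` is a class of tuples over all extensions of `k` (a closed irreducible family of conics).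

The number of a conic `f` with leading vector `a • x₀` and `f(0) = b • y` is
`Φ = c ^ 2 * (∏ a_i ^ (-w_i)) * (∏ b_i ^ (-w_i))`, `c` the constant `θ_f(f')`.
-/

set_option autoImplicit false

namespace Crest.Agent.R260.QuadDefs_517

open Polynomial Crest.Agent.R270.BM_360 Crest.Agent.R260.Lin_678

universe u

variable {I : Type} {J : I → Type} [Fintype I] [∀ i, Fintype (J i)]

/-- the set of entries of a vector -/
def ent {A : Type u} (v : ∀ i, J i → A) : Set A := {c | ∃ i b, v i b = c}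

/-- the set of ratios of a vector -/
def rat {A : Type u} [Field A] (v : ∀ i, J i → A) : Set A :=
  {c | ∃ i a b, v i b ≠ 0 ∧ v i a / v i b = c}

open Classical in
/-- multihomogeneous polynomials -/
def MHm {k : Type u} [Field k] (p : MvPolynomial (Σ i, J i) k) : Prop :=
  ∃ d : I → ℕ,
    MvPolynomial.IsWeightedHomogeneous (fun x : Σ i, J i => (Pi.single x.1 1 : I → ℕ)) p d

/-- value of a polynomial at a vector -/
noncomputable def evv {k : Type u} [Field k] {A : Type u} [CommRing A] [Algebra k A]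
    (v : ∀ i, J i → A) (p : MvPolynomial (Σ i, J i) k) : A :=
  MvPolynomial.aeval (fun x : Σ i, J i => v x.1 x.2) p

variable {k : Type u} [Field k]

/-- dimension of the cone -/
def nn (D : CData k I J) : ℕ := 2 * D.m + 1 + Fintype.card I

/-- dimension of the family of exact tuples of class `2 β` -/
def hc (D : CData k I J) : ℕ := 4 * D.m + 3 + Fintype.card I

/-- dimension of the family of exact tuples of class `β` -/
def hl (D : CData k I J) : ℕ := 3 * D.m + 2 + Fintype.card I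

/-- the derivative of a tuple -/
noncomputable def dd {κ : Type u} [Field κ] (F : ∀ i, J i → κ[X]) : ∀ i, J i → κ[X] :=
  fun i a => derivative (F i a)

/-- a class of tuples over all extensions of `k` -/
abbrev Cls (k : Type u) [Field k] (J : I → Type) : Type (u + 1) :=
  ∀ (κ : Type u) [Field κ] [Algebra k κ], (∀ i, J i → κ[X]) → Prop

/-- a conic: map of class `2 β` in the class `CC` -/
structure Con (D : CData k I J) (CC : Cls k J) {κ : Type u} [Field κ] [Algebra k κ]
    (F : ∀ i, J i → κ[X]) : Prop where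
  map : IsMap D.E F
  cls : cls F = 2 • D.β
  cc : CC κ F

/-- `f` joins `x` (at infinity) to `y` (at `0`) up to the scalars `a`, `b`, contact constant `c` -/
structure Joins (D : CData k I J) {κ : Type u} [Field κ] [Algebra k κ] (f : ∀ i, J i → κ[X])
    (x y : ∀ i, J i → κ) (a b : I → κ) (c : κ) : Prop where
  a0 : ∀ i, a i ≠ 0
  b0 : ∀ i, b i ≠ 0
  lead : ∀ i j, (f i j).coeff (2 * D.β i) = a i * x i j
  bot : ∀ i j, (f i j).coeff 0 = b i * y i j
  val : D.th.Val f (dd f) (C c)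

/-- the number `Φ` -/
noncomputable def phi (D : CData k I J) {κ : Type u} [Field κ] (a b : I → κ) (c : κ) : κ :=
  c ^ 2 * (∏ i, a i ^ (-D.w i)) * ∏ i, b i ^ (-D.w i)

/-- the vector `x` over a bigger field -/
def up {A : Type u} (B : Type u) [Field A] [Field B] [Algebra A B] (x : ∀ i, J i → A) :
    ∀ i, J i → B := fun i j => algebraMap A B (x i j)

/-- the value of the tuple `H` at the point `t` of the ground field -/
noncomputable def pt {A : Type u} [Field A] (H : ∀ i, J i → A[X]) (t : A) : ∀ i, J i → A :=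
  fun i j => (H i j).eval t

/-- the point of the tuple `H` at `s` -/
noncomputable def at' {A B : Type u} [Field A] [Field B] [Algebra A B] (H : ∀ i, J i → A[X])
    (s : B) : ∀ i, J i → B := fun i j => aeval s (H i j)

/-- **QUAD** for the class `CC`: `x₀` generic over `k`, `H` a generic conic over `F₀ = cl(x₀)`,
`u` transcendental over `k' = cl(x₀, H)`, `f` a conic over `L = cl(k'(u))` from `x₀` to `H(u)`:
`Φ_f` is a quadratic polynomial in `u` over `k'`. -/
def QUAD (D : CData k I J) (CC : Cls k J) : Prop :=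
  ∀ (F₀ k' L : Type u) [Field F₀] [Field k'] [Field L] [IsAlgClosed F₀] [IsAlgClosed k']
    [IsAlgClosed L] [Algebra k F₀] [Algebra k k'] [Algebra k L] [Algebra F₀ k'] [Algebra F₀ L]
    [Algebra k' L] [IsScalarTower k F₀ k'] [IsScalarTower k F₀ L] [IsScalarTower k k' L]
    [IsScalarTower F₀ k' L]
    (x₀ : ∀ i, J i → F₀) (H : ∀ i, J i → k'[X]) (u : L) (f : ∀ i, J i → L[X]) (a b : I → L)
    (c : L),
    OnX D.E x₀ → (∀ i, x₀ i ≠ 0) → TrGe k (ent x₀) (nn D) →
    Algebra.IsAlgebraic (IntermediateField.adjoin k (ent x₀)) F₀ →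
    Con D CC H → TrGe F₀ (coeffs H) (hc D) →
    Algebra.IsAlgebraic (IntermediateField.adjoin F₀ (coeffs H)) k' →
    Transcendental k' u → Algebra.IsAlgebraic (IntermediateField.adjoin k' {u}) L →
    Con D CC f → Joins D f (up L x₀) (at' H u) a b c →
    ∃ p : k'[X], p.natDegree ≤ 2 ∧ phi D a b c = aeval u p

/-! ### the leaves -/

/-- **(LIN)** of 678/365: the test curve is a line. -/
def LinP (D : CData k I J) : Prop :=
  ∀ (F₀ kl M : Type u) [Field F₀] [Field kl] [Field M] [IsAlgClosed F₀] [IsAlgClosed kl]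
    [IsAlgClosed M] [Algebra k F₀] [Algebra k kl] [Algebra k M] [Algebra F₀ kl] [Algebra F₀ M]
    [Algebra kl M] [IsScalarTower k F₀ kl] [IsScalarTower k F₀ M] [IsScalarTower k kl M]
    [IsScalarTower F₀ kl M] (x₀ : ∀ i, J i → F₀) (l : ∀ i, J i → kl[X]) (s : M)
    (f : ∀ i, J i → M[X]) (a b : I → M) (c : M),
    OnX D.E x₀ → (∀ i, x₀ i ≠ 0) → IsMap D.E l → cls l = D.β → Transcendental kl s →
    IsMap D.E f → cls f = 2 • D.β → Joins D f (up M x₀) (at' l s) a b c →
    ∃ a0 a1 : kl, phi D a b c = algebraMap kl M a0 + algebraMap kl M a1 * s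

/-- `f` has one radius at the place `O` (negation: the conic breaks into two separated lines);
`x`, `y` are primitive vectors: leading vector `a • x`, `f(0)` arbitrary. -/
def OneRadius (D : CData k I J) {L : Type u} [Field L] (O : ValuationSubring L)
    (f : ∀ i, J i → L[X]) (a : I → L) : Prop :=
  ∃ r : O.ValueGroup, 0 < r ∧
    (∀ i, (∀ j, O.valuation ((f i j).coeff 0) ≤ O.valuation (a i) * r ^ (2 * D.β i)) ∧
      ∃ j, O.valuation ((f i j).coeff 0) = O.valuation (a i) * r ^ (2 * D.β i)) ∧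
    ∀ i j, O.valuation ((f i j).coeff 1) ≤ O.valuation (a i) * r ^ (2 * D.β i - 1)

/-- **(K')** of 997/365: no place separates. -/
def KprimeP (D : CData k I J) : Prop :=
  ∀ (F₁ k₁ L₁ : Type u) [Field F₁] [Field k₁] [Field L₁] [IsAlgClosed F₁] [IsAlgClosed k₁]
    [IsAlgClosed L₁] [Algebra k F₁] [Algebra k k₁] [Algebra k L₁] [Algebra F₁ k₁] [Algebra F₁ L₁]
    [Algebra k₁ L₁] [IsScalarTower k F₁ k₁] [IsScalarTower k F₁ L₁] [IsScalarTower k k₁ L₁]
    [IsScalarTower F₁ k₁ L₁] (x : ∀ i, J i → F₁) (H : ∀ i, J i → k₁[X]) (u : L₁)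
    (f : ∀ i, J i → L₁[X]) (a b : I → L₁) (c : L₁),
    OnX D.E x → (∀ i, x i ≠ 0) → IsMap D.E H → cls H = 2 • D.β → Transcendental k₁ u →
    IsMap D.E f → cls f = 2 • D.β → Joins D f (up L₁ x) (at' H u) a b c →
    (∀ O : ValuationSubring L₁, (∀ z : k₁, algebraMap k₁ L₁ z ∈ O) → OneRadius D O f a) →
    ∃ p : k₁[X], p.natDegree ≤ 2 ∧ phi D a b c = aeval u p

/-- **(DIV)** = COUNT (749) + PROPER (703): a separating place for the independent copy
`(x₁, H₁, u₁, f₁)` gives, for every point `q = H(t)` of the generic conic `H` which is not generic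
in `Z` over `F₀`, a generic line through a point with the same multihomogeneous relations over
`F₀` as `q` (and generic scalars). -/
def DivP (D : CData k I J) (CC : Cls k J) : Prop :=
  ∀ (F₀ F₁ k₁ L₁ : Type u) [Field F₀] [Field F₁] [Field k₁] [Field L₁] [IsAlgClosed F₀]
    [IsAlgClosed F₁] [IsAlgClosed k₁] [IsAlgClosed L₁] [Algebra k F₀] [Algebra k F₁]
    [Algebra k k₁] [Algebra k L₁] [Algebra F₀ F₁] [Algebra F₀ k₁] [Algebra F₀ L₁] [Algebra F₁ k₁]
    [Algebra F₁ L₁] [Algebra k₁ L₁] [IsScalarTower k F₀ F₁] [IsScalarTower k F₀ k₁]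
    [IsScalarTower k F₀ L₁] [IsScalarTower k F₁ k₁] [IsScalarTower k F₁ L₁]
    [IsScalarTower k k₁ L₁] [IsScalarTower F₀ F₁ k₁] [IsScalarTower F₀ F₁ L₁]
    [IsScalarTower F₀ k₁ L₁] [IsScalarTower F₁ k₁ L₁]
    (x₁ : ∀ i, J i → F₁) (H₁ : ∀ i, J i → k₁[X]) (u₁ : L₁) (f₁ : ∀ i, J i → L₁[X])
    (a b : I → L₁) (c : L₁),
    OnX D.E x₁ → (∀ i, x₁ i ≠ 0) → TrGe F₀ (ent x₁) (nn D) →
    Con D CC H₁ → TrGe F₁ (coeffs H₁) (hc D) →
    Transcendental k₁ u₁ → Algebra.IsAlgebraic (IntermediateField.adjoin k₁ {u₁}) L₁ →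
    Con D CC f₁ → Joins D f₁ (up L₁ x₁) (at' H₁ u₁) a b c →
    ∀ O : ValuationSubring L₁, (∀ z : k₁, algebraMap k₁ L₁ z ∈ O) → ¬ OneRadius D O f₁ a →
    ∀ (k' : Type u) [Field k'] [IsAlgClosed k'] [Algebra k k'] [Algebra F₀ k']
      [IsScalarTower k F₀ k'] (H : ∀ i, J i → k'[X]) (t : k'),
      Con D CC H → TrGe F₀ (coeffs H) (hc D) → ¬ TrGe F₀ (rat (pt H t)) (2 * D.m + 1) →
      ∃ (kl : Type u) (_ : Field kl) (_ : IsAlgClosed kl) (_ : Algebra k kl) (_ : Algebra F₀ kl)
        (_ : IsScalarTower k F₀ kl) (l : ∀ i, J i → kl[X]) (t₀ : kl),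
        IsMap D.E l ∧ cls l = D.β ∧ TrGe F₀ (coeffs l) (hl D) ∧
        TrGe F₀ (ent (pt l t₀)) (2 * D.m + Fintype.card I) ∧
        ∀ p : MvPolynomial (Σ i, J i) F₀, MHm p → (evv (pt l t₀) p = 0 ↔ evv (pt H t) p = 0)

/-- **(IRR)**: two generic points of the cone over `F₀` have the same ideal. -/
def IrrP (D : CData k I J) : Prop :=
  ∀ (F₀ A B : Type u) [Field F₀] [Field A] [Field B] [IsAlgClosed F₀] [Algebra k F₀]
    [Algebra k A] [Algebra k B] [Algebra F₀ A] [Algebra F₀ B] [IsScalarTower k F₀ A]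
    [IsScalarTower k F₀ B] (y : ∀ i, J i → A) (z : ∀ i, J i → B),
    OnX D.E y → OnX D.E z → (∀ i, y i ≠ 0) → (∀ i, z i ≠ 0) →
    TrGe F₀ (ent y) (nn D) → TrGe F₀ (ent z) (nn D) →
    ∀ p : MvPolynomial (Σ i, J i) F₀, evv y p = 0 → evv z p = 0

/-- **(ALG)** of 661: `Φ_f` is algebraic over `k(x, y)`. -/
def AlgP (D : CData k I J) : Prop :=
  ∀ (L : Type u) [Field L] [Algebra k L] (f : ∀ i, J i → L[X]) (x y : ∀ i, J i → L)
    (a b : I → L) (c : L), IsMap D.E f → cls f = 2 • D.β → Joins D f x y a b c →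
    IsAlgebraic (IntermediateField.adjoin k (ent x ∪ ent y)) (phi D a b c)

/-- **(G1)**: a generic conic at a generic point of the parameter line is generic. -/
def Gen1P (D : CData k I J) (CC : Cls k J) : Prop :=
  ∀ (F₀ k' L : Type u) [Field F₀] [Field k'] [Field L] [IsAlgClosed F₀] [IsAlgClosed k']
    [Algebra k F₀] [Algebra k k'] [Algebra k L] [Algebra F₀ k'] [Algebra F₀ L] [Algebra k' L]
    [IsScalarTower k F₀ k'] [IsScalarTower k F₀ L] [IsScalarTower k k' L] [IsScalarTower F₀ k' L]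
    (H : ∀ i, J i → k'[X]) (u : L), Con D CC H → TrGe F₀ (coeffs H) (hc D) →
    Transcendental k' u → TrGe F₀ (ent (at' H u)) (nn D)

/-- **(G2)**: every point of a generic conic has codimension at most one. -/
def Gen2P (D : CData k I J) (CC : Cls k J) : Prop :=
  ∀ (F₀ k' : Type u) [Field F₀] [Field k'] [IsAlgClosed F₀] [IsAlgClosed k'] [Algebra k F₀]
    [Algebra k k'] [Algebra F₀ k'] [IsScalarTower k F₀ k'] (H : ∀ i, J i → k'[X]) (t : k'),
    Con D CC H → TrGe F₀ (coeffs H) (hc D) → TrGe F₀ (rat (pt H t)) (2 * D.m)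

/-- **(LF)** the tangent frame of a generic line at every point. -/
def LineFrameP (D : CData k I J) : Prop :=
  ∀ (F₀ kl : Type u) [Field F₀] [Field kl] [IsAlgClosed F₀] [IsAlgClosed kl] [Algebra k F₀]
    [Algebra k kl] [Algebra F₀ kl] [IsScalarTower k F₀ kl] (l : ∀ i, J i → kl[X]) (t₀ : kl),
    IsMap D.E l → cls l = D.β → TrGe F₀ (coeffs l) (hl D) →
    (∀ V : Finset (∀ i, J i → kl[X]), (∀ G ∈ V, Tan D.E l G ∧ ∀ i j, (G i j).degree ≤ D.β i) →
      LinearIndependent kl (fun G : V => G.1) → V.card ≤ hl D) ∧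
    ∃ t : Fin (nn D) → ∀ i, J i → kl[X],
      (∀ j, Tan D.E l (t j) ∧ ∀ i b, (t j i b).degree ≤ D.β i) ∧
      LinearIndependent kl (fun j => fun x : Σ i, J i => (t j x.1 x.2).eval t₀)

/-- **(SCAL)** generic scalars. -/
def ScalP (I : Type) (J : I → Type) [Fintype I] [∀ i, Fintype (J i)] : Prop :=
  ∀ (F₀ k' : Type u) [Field F₀] [Field k'] [IsAlgClosed k'] [CharZero F₀] [Algebra F₀ k']
    (q : ∀ i, J i → k') (r : ℕ), (∀ i, q i ≠ 0) → TrGe F₀ (rat q) r →
    TrGe F₀ (Set.univ : Set k') (r + Fintype.card I) →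
    ∃ lam : I → k', (∀ i, lam i ≠ 0) ∧
      TrGe F₀ (ent (fun i j => lam i * q i j)) (r + Fintype.card I)

/-- **(EXM)** exact vectors with generic scalars and the same multihomogeneous relations have the
same relations. -/
def ExmP (I : Type) (J : I → Type) [Fintype I] [∀ i, Fintype (J i)] : Prop :=
  ∀ (F₀ A B : Type u) [Field F₀] [Field A] [Field B] [CharZero F₀] [Algebra F₀ A] [Algebra F₀ B]
    (q : ∀ i, J i → A) (q' : ∀ i, J i → B) (r : ℕ), (∀ i, q i ≠ 0) → (∀ i, q' i ≠ 0) →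
    ¬ TrGe F₀ (rat q) (r + 1) → TrGe F₀ (ent q) (r + Fintype.card I) →
    TrGe F₀ (ent q') (r + Fintype.card I) →
    (∀ p : MvPolynomial (Σ i, J i) F₀, MHm p → (evv q p = 0 ↔ evv q' p = 0)) →
    ∀ p : MvPolynomial (Σ i, J i) F₀, evv q p = 0 ↔ evv q' p = 0

end Crest.Agent.R260.QuadDefs_517
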