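import Mathlib
import Crest.Agent.R260.Alg3_661
import Crest.Agent.R260.QuadDefs_517

/-!
# Row 260, (ALG) (helper661): the literal leaf `AlgP` of `QuadDefs_517`

The number `Φ` of a conic with leading vector `a • x`, constant vector `b • y` and contact constant
`c` is algebraic over `k(x, y)`.
-/

set_option autoImplicit false

namespace Crest.Agent.R260.Alg0_661

open Polynomial
open Crest.Agent.R270.BM_360 Crest.Agent.R260.Lin_678

universe u

variable {I : Type} {J : I → Type} [Fintype I] [∀ i, Fintype (J i)]

/-- **(ALG)** of `QuadDefs_517`. -/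
theorem algP {k : Type u} [Field k] [CharZero k] (D : CData k I J) : QuadDefs_517.AlgP D := by
  intro L _ _ f x y a b c hf hcls hj
  have he : ∑ i, D.w i * (cls f i : ℤ) = (2 : ℕ) := sum_w_cls D.wβ hcls
  have hlead : ∀ i j, lead f i j = a i * x i j := fun i j => by
    have h := hj.lead i j
    have h2 : cls f i = 2 * D.β i := by rw [hcls]; rfl
    unfold lead
    rw [h2]
    exact h
  have h := phi_algebraic D.th hf he hj.val hj.b0 hj.a0 (x := y) (y := x) hj.bot hlead
  have e1 : phi D.w b a c = QuadDefs_517.phi D a b c := by
    unfold phi QuadDefs_517.phi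
    rw [mul_assoc, ← Finset.prod_mul_distrib]
    congr 1
    refine Finset.prod_congr rfl fun i _ => ?_
    rw [mul_zpow, mul_comm]
  have e2 : ents y x = QuadDefs_517.ent x ∪ QuadDefs_517.ent y := by
    unfold ents QuadDefs_517.ent
    rw [Set.union_comm]
  rw [e1, e2] at h
  exact h

end Crest.Agent.R260.Alg0_661
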