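import Mathlib
import Crest.Agent.R260.Irr1_33
import Crest.Agent.R260.LinDefs_678
import Crest.Agent.R270.Fr3_928

/-!
# Row 260, IRR, part 2 (helper33): the generic point of the cone is unique

* `le_finrank` : the transcendence degree of a point of the cone is at most the dimension of the
  tangent space (characteristic zero);
* `trge_iff_subset` : `TrGe` in terms of algebraically independent entries;
* `ker_eq_abs` : a point of transcendence degree at least the dimension is generic;
* `ker_eq`, `IRR` : over any extension of an algebraically closed field.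
-/

set_option autoImplicit false

namespace Crest.Agent.R260.Irr_33

open MvPolynomial Module
open Crest.Agent.R270.BM_360 Crest.Agent.R260.Lin_678 Crest.Agent.R270.Fr_928

universe u v w

/-! ### transcendence degree and tangent space -/

section tan

variable {k : Type u} [Field k] {I : Type} {J : I → Type}

/-- the entries of a point. -/
def ent {κ : Type v} (v : ∀ i, J i → κ) : Set κ := Set.range fun x : Σ i, J i => v x.1 x.2

theorem ent_eq {κ : Type v} (v : ∀ i, J i → κ) : ent v = {c | ∃ i a, v i a = c} := by
  ext c
  constructor
  · rintro ⟨x, rfl⟩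
    exact ⟨x.1, x.2, rfl⟩
  · rintro ⟨i, a, rfl⟩
    exact ⟨⟨i, a⟩, rfl⟩

variable [Fintype I] [∀ i, Fintype (J i)]

/-- the chain rule for a derivation and a polynomial over the constants. -/
theorem der_aeval {σ : Type} [Fintype σ] {κ : Type v} [Field κ] [Algebra k κ]
    (d : Derivation k κ κ) (v : σ → κ) (q : MvPolynomial σ k) :
    d (aeval v q) = ∑ x, aeval v (pderiv x q) * d (v x) := by
  classical
  induction q using MvPolynomial.induction_on with
  | C r =>
    simp only [MvPolynomial.aeval_C, MvPolynomial.pderiv_C, map_zero, zero_mul,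
      Finset.sum_const_zero]
    exact d.map_algebraMap r
  | add p q hp hq =>
    simp only [map_add, hp, hq, add_mul, Finset.sum_add_distrib]
  | mul_X p n hp =>
    rw [map_mul, MvPolynomial.aeval_X, Derivation.leibniz, hp]
    simp only [Derivation.leibniz, map_add, smul_eq_mul, map_mul, MvPolynomial.aeval_X,
      MvPolynomial.pderiv_X, add_mul, Finset.sum_add_distrib]
    congr 1
    · rw [Finset.sum_eq_single n]
      · simp
      · intro b _ hb
        simp [hb.symm]
      · simp
    · rw [Finset.mul_sum]
      refine Finset.sum_congr rfl fun l _ => by ring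

theorem der_mem_TanSp {E : Set (MvPolynomial (Σ i, J i) k)} {κ : Type v} [Field κ] [Algebra k κ]
    {v : ∀ i, J i → κ} (hv : OnX E v) (d : Derivation k κ κ) :
    (fun i a => d (v i a)) ∈ TanSp E v := by
  intro p hp
  have h1 := der_aeval d (fun x : Σ i, J i => v x.1 x.2) p
  rw [hv p hp, map_zero] at h1
  exact h1.symm

/-- a derivation which kills a set kills the field generated by it. -/
theorem der_adjoin {F : Type u} [Field F] {κ : Type v} [Field κ] [Algebra F κ]
    (d : Derivation F κ κ) {S : Set κ} (h : ∀ s ∈ S, d s = 0) {a : κ}
    (ha : a ∈ IntermediateField.adjoin F S) : d a = 0 := by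
  induction ha using IntermediateField.adjoin_induction with
  | mem x hx => exact h x hx
  | algebraMap x => exact d.map_algebraMap x
  | add x y _ _ hx hy => rw [map_add, hx, hy, add_zero]
  | inv x _ hx =>
    rw [d.leibniz_inv, hx]
    simp
  | mul x y _ _ hx hy =>
    rw [d.leibniz, hx, hy]
    simp

/-- **the transcendence degree over any field of constants is at most the dimension of the tangent
space.** -/
theorem le_finrank {F : Type u} [Field F] [CharZero F] [Algebra k F] {κ : Type u} [Field κ]
    [Algebra k κ] [Algebra F κ] [IsScalarTower k F κ] {E : Set (MvPolynomial (Σ i, J i) k)}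
    {v : ∀ i, J i → κ} (hv : OnX E v) {m : ℕ} (h : TrGe F {c | ∃ i a, v i a = c} m) :
    m ≤ finrank κ (TanSp E v) := by
  obtain ⟨w, hw, hwi⟩ := h
  obtain ⟨d, hd⟩ := exists_der_indep w hwi
  let t : Fin m → TanSp E v := fun j =>
    ⟨fun i a => d j (v i a), der_mem_TanSp hv ((d j).restrictScalars k)⟩
  have ht : LinearIndependent κ t := by
    rw [Fintype.linearIndependent_iff]
    intro g hg l
    have h1 : ∀ i a, ∑ j, g j * d j (v i a) = 0 := by
      intro i a
      have h2 := congrArg (fun s : TanSp E v => (s : ∀ i, J i → κ) i a) hg
      simp only [Submodule.coe_sum, Submodule.coe_smul, Finset.sum_apply, Pi.smul_apply,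
        smul_eq_mul, Submodule.coe_zero, Pi.zero_apply] at h2
      exact h2
    let D : Derivation F κ κ := ∑ j, g j • d j
    have hD : ∀ a, D a = ∑ j, g j * d j a := by
      intro a
      simp only [D]
      have : ∀ s : Finset (Fin m), (∑ j ∈ s, g j • d j) a = ∑ j ∈ s, g j * d j a := by
        intro s
        classical
        induction s using Finset.induction_on with
        | empty => simp
        | insert j s hj ih =>
          rw [Finset.sum_insert hj, Finset.sum_insert hj, Derivation.add_apply, ih]
          rfl
      exact this _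
    have h3 : D (w l) = 0 := by
      refine der_adjoin D ?_ (hw l)
      rintro _ ⟨i, a, rfl⟩
      rw [hD]
      exact h1 i a
    rw [hD, Finset.sum_eq_single l] at h3
    · rwa [hd, if_pos rfl, mul_one] at h3
    · intro b _ hb
      rw [hd, if_neg hb, mul_zero]
    · intro h; exact absurd (Finset.mem_univ _) h
  have h4 := ht.fintype_card_le_finrank
  rwa [Fintype.card_fin] at h4

end tan

/-! ### independent entries -/

section entries

/-- `m` independent elements of `F(S)`: there are `m` independent elements in `S` itself. -/
theorem exists_sub {F : Type u} [Field F] {κ : Type u} [Field κ] [Algebra F κ] {σ : Type}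
    [Finite σ] {v : σ → κ} {m : ℕ} (h : TrGe F (Set.range v) m) :
    ∃ x : Fin m → σ, AlgebraicIndependent F (fun j => v (x j)) := by
  obtain ⟨w, hw, hwi⟩ := h
  let L := IntermediateField.adjoin F (Set.range v)
  let w' : Fin m → L := fun j => ⟨w j, hw j⟩
  have hw' : AlgebraicIndependent F w' := AlgebraicIndependent.of_comp L.val hwi
  let v' : σ → L := fun x => ⟨v x, IntermediateField.subset_adjoin F _ ⟨x, rfl⟩⟩
  have himg : L.val '' (Set.range v') = Set.range v := by
    rw [← Set.range_comp]
    rfl
  have hmap : (Algebra.adjoin F (Set.range v')).map L.val = Algebra.adjoin F (Set.range v) := by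
    rw [AlgHom.map_adjoin, himg]
  have halg : Algebra.IsAlgebraic (Algebra.adjoin F (Set.range v')) L := by
    constructor
    intro x
    obtain ⟨r, hr, s, hs, hx⟩ := IntermediateField.mem_adjoin_iff_div.1 x.2
    rw [← hmap] at hr hs
    obtain ⟨r', hr', rfl⟩ := hr
    obtain ⟨s', hs', rfl⟩ := hs
    have hx' : x = r' * s'⁻¹ := by
      apply Subtype.ext
      rw [hx, div_eq_mul_inv]
      rfl
    rw [hx']
    exact (isAlgebraic_algebraMap (⟨r', hr'⟩ : Algebra.adjoin F (Set.range v'))).mul
      (isAlgebraic_algebraMap (⟨s', hs'⟩ : Algebra.adjoin F (Set.range v'))).inv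
  obtain ⟨U, hU, hUb⟩ := exists_isTranscendenceBasis_subset (R := F) (A := L) (Set.range v')
  have h1 := hw'.lift_cardinalMk_le_trdeg
  rw [← hUb.cardinalMk_eq_trdeg] at h1
  have hUf : U.Finite := (Set.finite_range v').subset hU
  have : Fintype U := hUf.fintype
  rw [Cardinal.mk_fintype, Cardinal.mk_fintype] at h1
  have h2 : m ≤ Fintype.card U := by
    rw [Fintype.card_fin] at h1
    simpa using h1
  let e : Fin m → U := fun j => (Fintype.equivFin U).symm (Fin.castLE h2 j)
  have he : Function.Injective e :=
    (Fintype.equivFin U).symm.injective.comp (Fin.castLE_injective h2)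
  have h3 : ∀ j, ∃ x : σ, v' x = (e j : L) := fun j => hU (e j).2
  choose x hx using h3
  refine ⟨x, ?_⟩
  have h4 : AlgebraicIndependent F (fun j => ((e j : L))) := hUb.1.comp e he
  have h5 : AlgebraicIndependent F (fun j => ((e j : L) : κ)) :=
    h4.map' (f := L.val) Subtype.val_injective
  have h6 : (fun j => v (x j)) = fun j => ((e j : L) : κ) := by
    funext j
    rw [← hx j]
  rw [h6]
  exact h5

theorem trge_of_sub {F : Type u} [Field F] {κ : Type u} [Field κ] [Algebra F κ] {S : Set κ}
    {m : ℕ} {w : Fin m → κ} (hw : ∀ j, w j ∈ S) (h : AlgebraicIndependent F w) : TrGe F S m :=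
  ⟨w, fun j => IntermediateField.subset_adjoin F S (hw j), h⟩

end entries

/-! ### drop of the transcendence degree -/

section drop

/-- Let `φ : A → B` be a homomorphism of domains with `h ≠ 0` in the kernel. Elements of `A` with
algebraically independent images are independent together with `h`. -/
theorem indep_option {F : Type u} [Field F] {A : Type v} [CommRing A] [IsDomain A] [Algebra F A]
    {B : Type w} [CommRing B] [Algebra F B] (φ : A →ₐ[F] B) {ι : Type*} {a : ι → A}
    (ha : AlgebraicIndependent F (fun j => φ (a j))) {h : A} (h0 : h ≠ 0) (hφ : φ h = 0) :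
    AlgebraicIndependent F (fun o : Option ι => o.elim h a) := by
  classical
  have ha' : AlgebraicIndependent F a := AlgebraicIndependent.of_comp φ ha
  rw [ha'.option_iff_transcendental]
  have hinj : ∀ q : Algebra.adjoin F (Set.range a), φ (q : A) = 0 → q = 0 := by
    intro q hq
    obtain ⟨G, hG⟩ : (q : A) ∈ (aeval a : MvPolynomial ι F →ₐ[F] A).range := by
      rw [← Algebra.adjoin_range_eq_range_aeval]
      exact q.2
    change aeval a G = (q : A) at hG
    rw [← hG] at hq
    have h1 : aeval (fun j => φ (a j)) G = 0 := by
      rw [← hq, ← comp_aeval_apply]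
    have h2 : G = 0 := (algebraicIndependent_iff.1 ha) G h1
    apply Subtype.ext
    rw [← hG, h2, map_zero]
    rfl
  rw [transcendental_iff]
  intro p
  -- strong induction on the degree
  induction hn : p.natDegree using Nat.strong_induction_on generalizing p with
  | _ n ih =>
    intro hp
    have h1 : φ (Polynomial.aeval h p) = φ (algebraMap _ A (p.coeff 0)) := by
      rw [Polynomial.aeval_eq_sum_range, map_sum, Finset.sum_eq_single 0]
      · rw [pow_zero, Algebra.smul_def, mul_one]
      · intro b _ hb
        rw [Algebra.smul_def, map_mul, map_pow, hφ, zero_pow hb, mul_zero]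
      · intro hb
        exact absurd (Finset.mem_range.2 (Nat.succ_pos _)) hb
    rw [hp, map_zero] at h1
    have h2 : p.coeff 0 = 0 := hinj _ h1.symm
    obtain ⟨q, rfl⟩ : Polynomial.X ∣ p := Polynomial.X_dvd_iff.2 h2
    by_cases hq : q = 0
    · rw [hq, mul_zero]
    · exfalso
      have h3 : (Polynomial.X * q).natDegree = q.natDegree + 1 := by
        rw [Polynomial.natDegree_X_mul hq]
      rw [map_mul, Polynomial.aeval_X] at hp
      have h4 := (mul_eq_zero.1 hp).resolve_left h0
      exact hq (ih q.natDegree (by omega) q rfl h4)

end drop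

end Crest.Agent.R260.Irr_33
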