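import Crest.Agent.R260.Gp1_169

/-!
# Row 260, (GL) (helper169): a generic line at a generic point of the parameter line is generic
-/

set_option autoImplicit false
set_option linter.all false

namespace Crest.Agent.R260.Gp_169

open Polynomial Module
open Crest.Agent.R270.BM_360 Crest.Agent.R260.Lin_678 Crest.Agent.R260.QuadDefs_517

universe u

variable {I : Type} {J : I → Type} [Fintype I] [∀ i, Fintype (J i)] {k : Type u} [Field k]

/-- **(GL)**: a generic line at a generic point of the parameter line is generic. -/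
def GenLP (D : CData k I J) : Prop :=
  ∀ (F₀ kl M : Type u) [Field F₀] [Field kl] [Field M] [IsAlgClosed F₀] [IsAlgClosed kl]
    [Algebra k F₀] [Algebra k kl] [Algebra k M] [Algebra F₀ kl] [Algebra F₀ M] [Algebra kl M]
    [IsScalarTower k F₀ kl] [IsScalarTower k F₀ M] [IsScalarTower k kl M] [IsScalarTower F₀ kl M]
    (l : ∀ i, J i → kl[X]) (s : M), IsMap D.E l → cls l = D.β → TrGe F₀ (coeffs l) (hl D) →
    Transcendental kl s → TrGe F₀ (ent (at' l s)) (nn D)

theorem genLP [CharZero k] {D : CData k I J} (h : LineFrameP D) : GenLP D := by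
  intro F₀ kl M _ _ _ _ _ _ _ _ _ _ _ _ _ _ _ l s h1 h2 h3 hs
  have hc0 : CharZero F₀ := charZero_of_injective_algebraMap (algebraMap k F₀).injective
  exact gen1_of_frm h1.on (lineFrm h F₀ kl l h1 h2 h3) h3 hs

/-- the exact point of a generic line has transcendence degree at least `nn - 1`. -/
theorem genL_exact [CharZero k] {D : CData k I J} (h : LineFrameP D) (F₀ kl : Type u) [Field F₀]
    [Field kl] [IsAlgClosed F₀] [IsAlgClosed kl] [Algebra k F₀] [Algebra k kl] [Algebra F₀ kl]
    [IsScalarTower k F₀ kl] (l : ∀ i, J i → kl[X]) (t : kl) (h1 : IsMap D.E l) (h2 : cls l = D.β)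
    (h3 : TrGe F₀ (coeffs l) (hl D)) : TrGe F₀ (ent (pt l t)) (2 * D.m + Fintype.card I) := by
  have hc0 : CharZero F₀ := charZero_of_injective_algebraMap (algebraMap k F₀).injective
  refine gen2_ent_of_frm h1 (lineFrm h F₀ kl l h1 h2 h3) h3 t ?_
  unfold nn
  omega

/-- the ratios of the points of a generic line have transcendence degree at least `2 m`. -/
theorem genL_rat [CharZero k] {D : CData k I J} (h : LineFrameP D) (F₀ kl : Type u) [Field F₀]
    [Field kl] [IsAlgClosed F₀] [IsAlgClosed kl] [Algebra k F₀] [Algebra k kl] [Algebra F₀ kl]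
    [IsScalarTower k F₀ kl] (l : ∀ i, J i → kl[X]) (t : kl) (h1 : IsMap D.E l) (h2 : cls l = D.β)
    (h3 : TrGe F₀ (coeffs l) (hl D)) : TrGe F₀ (rat (pt l t)) (2 * D.m) := by
  have hc0 : CharZero F₀ := charZero_of_injective_algebraMap (algebraMap k F₀).injective
  refine gen2_of_frm h1 (lineFrm h F₀ kl l h1 h2 h3) h3 t ?_
  unfold nn
  omega

end Crest.Agent.R260.Gp_169
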