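import Mathlib
import Crest.Agent.R260.Der2_169

/-!
# Row 260, A-REG (helper169), part 1: Cramer fields

`E` is a set of polynomials with coefficients in `k`, `v` a solution over a field `K`, `q` a
specialisation of `v` (every relation of `v` over `k` holds for `q`). If the tangent spaces at `v`
and at `q` have the same dimension `N` there are `N` polynomial vector fields which are tangent
at `v` and whose values at `q` are linearly independent (so they span the tangent space at `q`).
If `N` is at most the transcendence degree of `v`, they are derivations of `K`.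
-/

set_option autoImplicit false
set_option linter.unusedSectionVars false

namespace Crest.Agent.R260.Der_169

open Module
open Crest.Agent.R270.BM_360 Crest.Agent.R270.Fr_928

universe u v w

section cramer

variable {R : Type u} [CommRing R] {σ : Type v} [Fintype σ] {ρ : ℕ}

open Classical in
/-- the vector of minors attached to the rows `M i` and the columns `f i`, `y`. -/
noncomputable def cram (M : Fin ρ → σ → R) (f : Fin ρ → σ) (y : σ) : σ → R := fun x =>
  (Matrix.of fun i j => M i (f j)).det * (if x = y then 1 else 0) -
    ∑ j, ((Matrix.of fun i j => M i (f j)).adjugate.mulVec (fun i => M i y)) j *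
      (if x = f j then 1 else 0)

theorem cram_spec (M : Fin ρ → σ → R) (f : Fin ρ → σ) (y : σ) (i : Fin ρ) :
    ∑ x, M i x * cram M f y x = 0 := by
  classical
  unfold cram
  set A : Matrix (Fin ρ) (Fin ρ) R := Matrix.of fun i j => M i (f j) with hA
  simp only [mul_sub, Finset.sum_sub_distrib]
  have h1 : ∑ x, M i x * (A.det * (if x = y then 1 else 0)) = A.det * M i y := by
    rw [Finset.sum_eq_single y]
    · simp only [if_true, mul_one]
      ring
    · intro b _ hb
      simp [hb]
    · simp
  have h2 : ∑ x, M i x * ∑ j, (A.adjugate.mulVec (fun i => M i y)) j * (if x = f j then 1 else 0) =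
      ∑ j, M i (f j) * (A.adjugate.mulVec (fun i => M i y)) j := by
    simp only [Finset.mul_sum]
    rw [Finset.sum_comm]
    refine Finset.sum_congr rfl fun j _ => ?_
    rw [Finset.sum_eq_single (f j)]
    · simp
    · intro b _ hb
      simp [hb]
    · simp
  have h3 : ∑ j, M i (f j) * (A.adjugate.mulVec (fun i => M i y)) j = A.det * M i y := by
    have h4 : (A.mulVec (A.adjugate.mulVec (fun i => M i y))) i = A.det * M i y := by
      rw [Matrix.mulVec_mulVec, Matrix.mul_adjugate, Matrix.smul_mulVec, Matrix.one_mulVec]
      rfl
    exact h4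
  rw [h1, h2, h3, sub_self]

theorem cram_map {S : Type w} [CommRing S] (φ : R →+* S) (M : Fin ρ → σ → R) (f : Fin ρ → σ)
    (y x : σ) : φ (cram M f y x) = cram (fun i x => φ (M i x)) f y x := by
  classical
  unfold cram
  have hA : (Matrix.of fun i j => φ (M i (f j))) = (Matrix.of fun i j => M i (f j)).map φ := rfl
  rw [hA, map_sub, map_mul, map_sum]
  congr 1
  · congr 1
    · rw [RingHom.map_det]
      rfl
    · split_ifs <;> simp
  · refine Finset.sum_congr rfl fun j _ => ?_
    rw [map_mul]
    congr 1
    · have h1 : (Matrix.map (Matrix.of fun i j => M i (f j)) φ).adjugate =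
        (Matrix.of fun i j => M i (f j)).adjugate.map φ :=
          (RingHom.map_adjugate φ _).symm
      rw [h1]
      simp only [Matrix.mulVec, dotProduct, map_sum, map_mul, Matrix.map_apply]
    · split_ifs <;> simp

open Classical in
/-- outside the columns `f` the vector of minors is diagonal. -/
theorem cram_off (M : Fin ρ → σ → R) (f : Fin ρ → σ) (y x : σ) (hx : ∀ j, x ≠ f j) :
    cram M f y x = if x = y then (Matrix.of fun i j => M i (f j)).det else 0 := by
  classical
  unfold cram
  have h1 : ∑ j, ((Matrix.of fun i j => M i (f j)).adjugate.mulVec (fun i => M i y)) j *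
      (if x = f j then (1 : R) else 0) = 0 := Finset.sum_eq_zero fun j _ => by
    rw [if_neg (hx j), mul_zero]
  rw [h1, sub_zero]
  split_ifs <;> simp

end cramer

section tan

variable {k : Type u} [Field k] {σ : Type v} [Fintype σ]

/-- the tangent vectors at the point `v`. -/
def TanS (E : Set (MvPolynomial σ k)) {A : Type w} [CommRing A] [Algebra k A]
    (v : σ → A) : Submodule A (σ → A) where
  carrier := {s | ∀ p ∈ E, ∑ x : σ, MvPolynomial.aeval v (MvPolynomial.pderiv x p) * s x = 0}
  add_mem' {s t} hs ht := fun p hp => by
    simp only [Pi.add_apply, mul_add, Finset.sum_add_distrib, hs p hp, ht p hp, add_zero]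
  zero_mem' := fun p _ => by simp
  smul_mem' c t ht := fun p hp => by
    have h2 : ∑ x : σ, MvPolynomial.aeval v (MvPolynomial.pderiv x p) * (c • t) x =
        c * ∑ x : σ, MvPolynomial.aeval v (MvPolynomial.pderiv x p) * t x := by
      rw [Finset.mul_sum]
      refine Finset.sum_congr rfl fun x _ => ?_
      rw [Pi.smul_apply, smul_eq_mul]
      ring
    rw [h2, ht p hp, mul_zero]

theorem mem_TanS {E : Set (MvPolynomial σ k)} {A : Type w} [CommRing A] [Algebra k A]
    {v : σ → A} {s : σ → A} : s ∈ TanS E v ↔
    ∀ p ∈ E, ∑ x : σ, MvPolynomial.aeval v (MvPolynomial.pderiv x p) * s x = 0 := Iff.rfl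

/-- the row attached to an equation. -/
noncomputable def row {A : Type w} [CommRing A] [Algebra k A] (v : σ → A)
    (p : MvPolynomial σ k) : σ → A := fun x => MvPolynomial.aeval v (MvPolynomial.pderiv x p)

theorem finrank_perp {κ : Type w} [Field κ] {ρ : ℕ} (r : Fin ρ → σ → κ)
    (hr : LinearIndependent κ r) (T : Submodule κ (σ → κ))
    (hT : ∀ s, s ∈ T ↔ ∀ i, ∑ x, r i x * s x = 0) : finrank κ T + ρ = Fintype.card σ := by
  let A : Matrix (Fin ρ) σ κ := Matrix.of r
  have hrank : A.rank = ρ := by
    have := LinearIndependent.rank_matrix (M := A) (by exact hr)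
    simpa using this
  have hker : T = LinearMap.ker A.mulVecLin := by
    ext s
    rw [hT, LinearMap.mem_ker, Matrix.mulVecLin_apply]
    exact ⟨fun h => funext h, fun h i => congrFun h i⟩
  have h1 := LinearMap.finrank_range_add_finrank_ker A.mulVecLin
  have h2 : finrank κ (LinearMap.range A.mulVecLin) = ρ := hrank
  rw [h2, ← hker] at h1
  rw [add_comm, h1]
  simp

/-- **Cramer fields** (R1). -/
theorem cramer_fields {K κ : Type w} [Field K] [Field κ] [Algebra k K] [Algebra k κ]
    (E : Set (MvPolynomial σ k)) (v : σ → K) (q : σ → κ)
    (hspec : ∀ p : MvPolynomial σ k, MvPolynomial.aeval v p = 0 → MvPolynomial.aeval q p = 0)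
    {N : ℕ} (hNv : N ≤ finrank K (TanS E v)) (hNq : finrank κ (TanS E q) = N) :
    ∃ s : Fin N → σ → MvPolynomial σ k,
      (∀ j, (fun x => MvPolynomial.aeval v (s j x)) ∈ TanS E v) ∧
      (∀ j, (fun x => MvPolynomial.aeval q (s j x)) ∈ TanS E q) ∧
      LinearIndependent κ (fun j x => MvPolynomial.aeval q (s j x)) := by
  classical
  -- rows which span the row space at `q`
  obtain ⟨ρ, r, hr1, hr2, hr3⟩ : ∃ (ρ : ℕ) (r : Fin ρ → σ → κ), (∀ i, r i ∈ row q '' E) ∧
      Submodule.span κ (Set.range r) = Submodule.span κ (row q '' E) ∧ LinearIndependent κ r := by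
    obtain ⟨r, hr⟩ := Submodule.exists_fun_fin_finrank_span_eq κ (row q '' E)
    exact ⟨_, r, hr⟩
  choose p hpE hpr using hr1
  have hTq : ∀ s, s ∈ TanS E q ↔ ∀ i, ∑ x, r i x * s x = 0 := by
    intro s
    constructor
    · intro h i
      rw [← hpr]
      exact h _ (hpE i)
    · intro h e he
      have h1 : row q e ∈ Submodule.span κ (Set.range r) := by
        rw [hr2]
        exact Submodule.subset_span ⟨e, he, rfl⟩
      have h2 : ∀ w ∈ Submodule.span κ (Set.range r), ∑ x, w x * s x = 0 := by
        intro w hw
        induction hw using Submodule.span_induction with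
        | mem w hw =>
          obtain ⟨i, rfl⟩ := hw
          exact h i
        | zero => simp
        | add a b _ _ ha hb => simp only [Pi.add_apply, add_mul, Finset.sum_add_distrib, ha, hb,
            add_zero]
        | smul c a _ ha =>
          simp only [Pi.smul_apply, smul_eq_mul, mul_assoc]
          rw [← Finset.mul_sum, ha, mul_zero]
      exact h2 _ h1
  have hcard := finrank_perp r hr3 (TanS E q) hTq
  rw [hNq] at hcard
  -- columns
  obtain ⟨f, hf⟩ := exists_minor (N := ρ) r hr3
  have hfdet : (Matrix.of fun i j => row q (p i) (f j)).det ≠ 0 := by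
    have : (Matrix.of fun i j => row q (p i) (f j)) =
        (Matrix.of fun i j => r j (f i)).transpose := by
      ext i j
      simp only [Matrix.of_apply, Matrix.transpose_apply]
      rw [← hpr]
    rw [this, Matrix.det_transpose]
    exact hf
  have hfinj : Function.Injective f := by
    intro a b hab
    by_contra hne
    exact hfdet (Matrix.det_zero_of_column_eq hne fun i => by
      simp only [Matrix.of_apply, hab])
  -- the complement of the columns
  have hcompl : Fintype.card {x : σ // x ∉ Set.range f} = N := by
    have h1 : Fintype.card {x : σ // x ∉ Set.range f} =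
        Fintype.card σ - Fintype.card {x : σ // x ∈ Set.range f} :=
      Fintype.card_subtype_compl _
    have h2 : Fintype.card {x : σ // x ∈ Set.range f} = ρ :=
      (Fintype.card_congr (Equiv.ofInjective f hfinj)).symm.trans (Fintype.card_fin ρ)
    rw [h1, h2]
    omega
  let e : Fin N ≃ {x : σ // x ∉ Set.range f} := (Fintype.equivFinOfCardEq hcompl).symm
  -- the polynomial rows
  let M : Fin ρ → σ → MvPolynomial σ k := fun i x => MvPolynomial.pderiv x (p i)
  refine ⟨fun j => cram M f (e j).1, ?_, ?_, ?_⟩
  · -- tangent at `v`
    intro j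
    -- the rows at `v` are independent
    have hdetv : (Matrix.of fun i j => row v (p i) (f j)).det ≠ 0 := by
      intro h0
      let D : MvPolynomial σ k := (Matrix.of fun i j => M i (f j)).det
      have h1 : MvPolynomial.aeval v D = (Matrix.of fun i j => row v (p i) (f j)).det := by
        have := RingHom.map_det (MvPolynomial.aeval v : MvPolynomial σ k →ₐ[k] K).toRingHom
          (Matrix.of fun i j => M i (f j))
        exact this
      have h2 : MvPolynomial.aeval q D = (Matrix.of fun i j => row q (p i) (f j)).det := by
        have := RingHom.map_det (MvPolynomial.aeval q : MvPolynomial σ k →ₐ[k] κ).toRingHom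
          (Matrix.of fun i j => M i (f j))
        exact this
      rw [h0] at h1
      exact hfdet (h2.symm.trans (hspec D h1))
    have hliv : LinearIndependent K (fun i => row v (p i)) := by
      rw [Fintype.linearIndependent_iff]
      intro g hg
      have h1 : Matrix.vecMul g (Matrix.of fun i j => row v (p i) (f j)) = 0 := by
        funext j
        have := congrFun hg (f j)
        rw [Finset.sum_apply] at this
        simpa [Matrix.vecMul, dotProduct] using this
      have h2 := Matrix.eq_zero_of_vecMul_eq_zero hdetv h1
      intro i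
      exact congrFun h2 i
    -- the tangent space at `v` is cut out by these rows
    let T' : Submodule K (σ → K) :=
      { carrier := {s | ∀ i, ∑ x, row v (p i) x * s x = 0}
        add_mem' := fun {a b} ha hb i => by
          simp only [Pi.add_apply, mul_add, Finset.sum_add_distrib, ha i, hb i, add_zero]
        zero_mem' := fun i => by simp
        smul_mem' := fun c a ha i => by
          have : ∑ x, row v (p i) x * (c • a) x = c * ∑ x, row v (p i) x * a x := by
            rw [Finset.mul_sum]
            refine Finset.sum_congr rfl fun x _ => ?_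
            rw [Pi.smul_apply, smul_eq_mul]
            ring
          rw [this, ha i, mul_zero] }
    have hT' := finrank_perp _ hliv T' (fun s => Iff.rfl)
    have hle : TanS E v ≤ T' := fun s hs i => hs _ (hpE i)
    have heq : TanS E v = T' := by
      refine Submodule.eq_of_le_of_finrank_le hle ?_
      omega
    rw [heq]
    intro i
    have h1 := cram_spec M f (e j).1 i
    have h2 := congrArg (MvPolynomial.aeval v) h1
    rw [map_sum, map_zero] at h2
    rw [← h2]
    refine Finset.sum_congr rfl fun x _ => ?_
    rw [map_mul]
    rfl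
  · intro j
    rw [hTq]
    intro i
    have h1 := cram_spec M f (e j).1 i
    have h2 := congrArg (MvPolynomial.aeval q) h1
    rw [map_sum, map_zero] at h2
    rw [← h2]
    refine Finset.sum_congr rfl fun x _ => ?_
    rw [map_mul, ← hpr]
    rfl
  · rw [Fintype.linearIndependent_iff]
    intro g hg j
    have h1 := congrFun hg (e j).1
    rw [Finset.sum_apply] at h1
    have h2 : ∀ i, (g i • fun x => MvPolynomial.aeval q (cram M f (e i).1 x)) (e j).1 =
        if i = j then g i * (Matrix.of fun i j => row q (p i) (f j)).det else 0 := by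
      intro i
      rw [Pi.smul_apply, smul_eq_mul]
      have h3 := cram_map (MvPolynomial.aeval q : MvPolynomial σ k →ₐ[k] κ).toRingHom M f (e i).1
        (e j).1
      have h4 : (MvPolynomial.aeval q) (cram M f (e i).1 (e j).1) =
          cram (fun i x => row q (p i) x) f (e i).1 (e j).1 := h3
      rw [h4, cram_off _ _ _ _ (fun l h => (e j).2 ⟨l, h.symm⟩)]
      by_cases hij : i = j
      · subst hij
        simp
      · have : (e j).1 ≠ (e i).1 := fun h => hij (e.injective (Subtype.ext h.symm))
        simp [hij, this]
    simp only [h2] at h1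
    rw [Finset.sum_ite_eq' Finset.univ j] at h1
    simp only [Finset.mem_univ, if_true, Pi.zero_apply] at h1
    exact (mul_eq_zero.1 h1).resolve_right hfdet

end tan

section ders

variable {k : Type u} [Field k] {σ : Type v} [Fintype σ]

/-- chain rule. -/
theorem der_aeval {A : Type w} [CommRing A] [Algebra k A] (d : Derivation k A A) (v : σ → A)
    (q : MvPolynomial σ k) :
    d (MvPolynomial.aeval v q) = ∑ x, MvPolynomial.aeval v (MvPolynomial.pderiv x q) * d (v x) := by
  classical
  induction q using MvPolynomial.induction_on with
  | C r =>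
    simp only [MvPolynomial.aeval_C, MvPolynomial.pderiv_C, map_zero, zero_mul,
      Finset.sum_const_zero]
    exact d.map_algebraMap r
  | add p q hp hq =>
    simp only [map_add, hp, hq, add_mul, Finset.sum_add_distrib]
  | mul_X p n hp =>
    rw [map_mul, MvPolynomial.aeval_X, Derivation.leibniz, hp]
    simp only [Derivation.leibniz, map_add, smul_eq_mul, map_mul, MvPolynomial.aeval_X,
      MvPolynomial.pderiv_X, add_mul, Finset.sum_add_distrib]
    congr 1
    · rw [Finset.sum_eq_single n]
      · simp
      · intro b _ hb
        simp [hb.symm]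
      · simp
    · rw [Finset.mul_sum]
      refine Finset.sum_congr rfl fun l _ => by ring

theorem der_mem_TanS {E : Set (MvPolynomial σ k)} {A : Type w} [CommRing A] [Algebra k A]
    {v : σ → A} (hv : ∀ p ∈ E, MvPolynomial.aeval v p = 0) (d : Derivation k A A) :
    (fun x => d (v x)) ∈ TanS E v := by
  intro p hp
  rw [← der_aeval d v p, hv p hp, map_zero]

end ders

section ders2

variable {k : Type u} [Field k] [CharZero k] {σ : Type v} [Fintype σ] {K : Type u} [Field K]
  [Algebra k K]

/-- every tangent vector at a generic point comes from a derivation. -/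
theorem exists_der_point {E : Set (MvPolynomial σ k)} {v : σ → K}
    (hv : ∀ p ∈ E, MvPolynomial.aeval v p = 0) {N : ℕ} (hN : finrank K (TanS E v) ≤ N)
    (htr : TrGe k (Set.range v) N) :
    finrank K (TanS E v) = N ∧ ∀ t ∈ TanS E v, ∃ δ : Derivation k K K, ∀ x, δ (v x) = t x := by
  let φ : Derivation k K K →ₗ[K] (σ → K) :=
    { toFun := fun δ x => δ (v x)
      map_add' := fun δ δ' => by
        funext x
        simp [Derivation.add_apply]
      map_smul' := fun c δ => by
        funext x
        simp [Derivation.smul_apply] }
  obtain ⟨h1, h2⟩ := exists_der φ (Set.range v) (fun δ hδ s hs => by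
    obtain ⟨x, rfl⟩ := hs
    exact congrFun hδ x) (TanS E v) (fun δ => der_mem_TanS hv δ) hN htr
  refine ⟨h1, fun t ht => ?_⟩
  obtain ⟨δ, hδ⟩ := h2 t ht
  exact ⟨δ, fun x => congrFun hδ x⟩

/-- **(R1)** polynomial derivations of the field of the generic point whose values at `q` span
the tangent space at `q`. -/
theorem cramer_ders {κ : Type u} [Field κ] [Algebra k κ]
    {E : Set (MvPolynomial σ k)} {v : σ → K} (hv : ∀ p ∈ E, MvPolynomial.aeval v p = 0)
    (q : σ → κ)
    (hspec : ∀ p : MvPolynomial σ k, MvPolynomial.aeval v p = 0 → MvPolynomial.aeval q p = 0)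
    {N : ℕ} (hNv : finrank K (TanS E v) ≤ N) (htr : TrGe k (Set.range v) N)
    (hNq : finrank κ (TanS E q) = N) :
    ∃ (s : Fin N → σ → MvPolynomial σ k) (d : Fin N → Derivation k K K),
      (∀ j x, d j (v x) = MvPolynomial.aeval v (s j x)) ∧
      (∀ j, (fun x => MvPolynomial.aeval q (s j x)) ∈ TanS E q) ∧
      LinearIndependent κ (fun j x => MvPolynomial.aeval q (s j x)) := by
  obtain ⟨h1, h2⟩ := exists_der_point hv hNv htr
  obtain ⟨s, hs1, hs2, hs3⟩ := cramer_fields E v q hspec h1.ge hNq
  choose d hd using fun j => h2 _ (hs1 j)
  exact ⟨s, d, hd, hs2, hs3⟩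

end ders2

end Crest.Agent.R260.Der_169
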