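import Mathlib
import Crest.Agent.R260.Der3_169
import Crest.Agent.R260.Pur2_920

/-!
# Row 260, A-REG (helper169), part 2: the local theorem at a finite place

`K = k(v)`, `v` a generic point of the cone, `K'` a normal algebraic extension, `φ ∈ K'`,
`H` a polynomial curve on the cone, `q = H(a)` a point whose local ring is a valuation ring (or `q`
generic), `l` a moving line with `l(t0)` a generic point of the same prime as `q`, such that all
conjugates of `φ` are regular along `l` at `t0`. Then all derivatives of `φ` along `H` are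
integral at `a`.
-/

set_option autoImplicit false
set_option linter.unusedSectionVars false

namespace Crest.Agent.R260.Der_169

open Polynomial Module
open Crest.Agent.R270.BM_360 Crest.Agent.R270.Fr_928 Crest.Agent.R260.Pur920

universe u v w

section frameS

variable {k κ : Type u} [Field k] [Field κ] [Algebra k κ] {σ : Type v} [Fintype σ]

theorem aeval_ratFunc (l : σ → κ[X]) (p : MvPolynomial σ k) :
    MvPolynomial.aeval (fun x => algebraMap κ[X] (RatFunc κ) (l x)) p =
      algebraMap κ[X] (RatFunc κ) (MvPolynomial.aeval l p) := by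
  have h := MvPolynomial.map_aeval l (algebraMap κ[X] (RatFunc κ)) p
  rw [h, MvPolynomial.aeval_def]
  congr 1

theorem aeval_eval (l : σ → κ[X]) (a : κ) (p : MvPolynomial σ k) :
    MvPolynomial.aeval (fun x => (l x).eval a) p = (MvPolynomial.aeval l p).eval a := by
  have h := MvPolynomial.map_aeval l (evalRingHom a) p
  rw [coe_evalRingHom] at h
  rw [h, MvPolynomial.aeval_def]
  congr 1
  ext r
  rw [RingHom.comp_apply, IsScalarTower.algebraMap_apply k κ κ[X], algebraMap_eq,
    coe_evalRingHom, eval_C]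

/-- **(M1)** the frame at the point `a` of a curve, for any finite index type. -/
theorem frame_lineS {E : Set (MvPolynomial σ k)} {l : σ → κ[X]} (a : κ) {N : ℕ}
    (t : Fin N → σ → κ[X])
    (htan : ∀ j, ∀ p ∈ E, ∑ x, MvPolynomial.aeval l (MvPolynomial.pderiv x p) * t j x = 0)
    (hind : LinearIndependent κ (fun j => fun x => (t j x).eval a))
    (hrk : finrank (RatFunc κ) (TanS E (fun x => algebraMap κ[X] (RatFunc κ) (l x))) ≤ N)
    (s : σ → RatFunc κ) (hsT : s ∈ TanS E (fun x => algebraMap κ[X] (RatFunc κ) (l x)))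
    (hs : ∀ x, s x ∈ RegAt a) :
    ∃ c : Fin N → RatFunc κ, (∀ j, c j ∈ RegAt a) ∧
      ∀ x, s x = ∑ j, c j * algebraMap κ[X] (RatFunc κ) (t j x) := by
  classical
  obtain ⟨y, hy⟩ := exists_minor _ hind
  let P : Matrix (Fin N) (Fin N) κ[X] := Matrix.of fun i j => t j (y i)
  have hP : P.det.eval a ≠ 0 := by
    have h := RingHom.map_det (evalRingHom a) P
    rw [coe_evalRingHom] at h
    rw [h]
    exact hy
  let R : Fin N → σ → RatFunc κ := fun j x => algebraMap κ[X] (RatFunc κ) (t j x)
  have hdet : (Matrix.of fun i j => R j (y i)).det = algebraMap κ[X] (RatFunc κ) P.det := by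
    rw [RingHom.map_det]
    rfl
  have hdet0 : (Matrix.of fun i j => R j (y i)).det ≠ 0 := by
    rw [hdet, Ne, FaithfulSMul.algebraMap_eq_zero_iff]
    intro h
    rw [h] at hP
    simp at hP
  have hli : LinearIndependent (RatFunc κ) R := by
    rw [Fintype.linearIndependent_iff]
    intro g hg
    have h1 : (Matrix.of fun i j => R j (y i)).mulVec g = 0 := by
      funext i
      have := congrFun hg (y i)
      rw [Finset.sum_apply] at this
      simp only [Pi.smul_apply, smul_eq_mul, Pi.zero_apply] at this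
      simp only [Matrix.mulVec, dotProduct, Matrix.of_apply, Pi.zero_apply]
      rw [← this]
      exact Finset.sum_congr rfl fun j _ => mul_comm _ _
    have h2 := Matrix.eq_zero_of_mulVec_eq_zero hdet0 h1
    intro i
    exact congrFun h2 i
  have hRT : ∀ j, R j ∈ TanS E (fun x => algebraMap κ[X] (RatFunc κ) (l x)) := by
    intro j p hp
    have h := congrArg (algebraMap κ[X] (RatFunc κ)) (htan j p hp)
    rw [map_sum, map_zero] at h
    rw [← h]
    refine Finset.sum_congr rfl fun x _ => ?_
    rw [aeval_ratFunc, map_mul]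
  let b : Fin N → TanS E (fun x => algebraMap κ[X] (RatFunc κ) (l x)) := fun j => ⟨R j, hRT j⟩
  have hb : LinearIndependent (RatFunc κ) b := by
    apply LinearIndependent.of_comp (Submodule.subtype _)
    exact hli
  have hcard : finrank (RatFunc κ) (TanS E (fun x => algebraMap κ[X] (RatFunc κ) (l x))) = N := by
    refine le_antisymm hrk ?_
    simpa using hb.fintype_card_le_finrank
  have hspan : Submodule.span (RatFunc κ) (Set.range b) = ⊤ :=
    hb.span_eq_top_of_card_eq_finrank' (by simp [hcard])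
  have h6 : (⟨s, hsT⟩ : TanS E (fun x => algebraMap κ[X] (RatFunc κ) (l x))) ∈
      Submodule.span (RatFunc κ) (Set.range b) := by
    rw [hspan]; trivial
  rw [Submodule.mem_span_range_iff_exists_fun] at h6
  obtain ⟨c, hc⟩ := h6
  have hc' : s = ∑ j, c j • R j := by
    have := congrArg (Submodule.subtype (TanS E (fun x => algebraMap κ[X] (RatFunc κ) (l x)))) hc
    rw [map_sum] at this
    simpa [b] using this.symm
  refine ⟨c, ?_, fun x => ?_⟩
  · refine frame_coeff (RegAt a) R (fun j x => poly_mem_RegAt a _) y hdet0 ?_ s hs c hc'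
    rw [hdet]
    exact inv_mem_RegAt hP
  · rw [hc', Finset.sum_apply]
    rfl

end frameS

/-- a derivation, seen over `ℤ`. -/
def toZ {R : Type v} {A : Type w} [CommRing R] [CommRing A] [Algebra R A]
    (D : Derivation R A A) : Derivation ℤ A A :=
  D.restrictScalars ℤ

theorem toZ_apply {R : Type v} {A : Type w} [CommRing R] [CommRing A] [Algebra R A]
    (D : Derivation R A A) (x : A) : toZ D x = D x := rfl

section dreg

variable {κ : Type u} [Field κ]

/-- `d/dX` preserves the functions regular at `a`, in any extension. -/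
theorem deriv_mem_reg {L : Type w} [Field L] [Algebra (RatFunc κ) L] (dL : Derivation ℤ L L)
    (hdL : ∀ p : κ[X], dL (algebraMap (RatFunc κ) L (algebraMap κ[X] (RatFunc κ) p)) =
      algebraMap (RatFunc κ) L (algebraMap κ[X] (RatFunc κ) (derivative p))) (a : κ) {x : L}
    (hx : x ∈ (RegAt a).map (algebraMap (RatFunc κ) L)) :
    dL x ∈ (RegAt a).map (algebraMap (RatFunc κ) L) := by
  obtain ⟨_, ⟨p, q, hq, rfl⟩, rfl⟩ := hx
  refine ⟨algebraMap κ[X] (RatFunc κ) (q * derivative p - p * derivative q) /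
    algebraMap κ[X] (RatFunc κ) (q ^ 2), ⟨_, _, by rw [eval_pow]; exact pow_ne_zero 2 hq, rfl⟩, ?_⟩
  rw [map_div₀, map_div₀, Derivation.leibniz_div, hdL, hdL]
  simp only [map_sub, map_mul, map_pow, smul_eq_mul]
  rw [div_eq_inv_mul]
  rw [inv_pow]

end dreg

section core

variable {k : Type u} [Field k] [CharZero k] {σ : Type v} [Fintype σ]
  {K K' : Type u} [Field K] [Field K'] [Algebra k K] [Algebra K K'] [Algebra k K']
  [IsScalarTower k K K'] [Algebra.IsAlgebraic K K']

/-- the chain rule along a curve. -/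
theorem chain_core {E : Set (MvPolynomial σ k)} {v : σ → K}
    (hv : ∀ p ∈ E, MvPolynomial.aeval v p = 0)
    (hgen : IntermediateField.adjoin k (Set.range v) = ⊤) {N : ℕ}
    (hNv : finrank K (TanS E v) ≤ N) (htr : TrGe k (Set.range v) N)
    {κ : Type u} [Field κ] [Algebra k κ] (H : σ → κ[X]) (a : κ)
    {L : Type w} [Field L] [Algebra (RatFunc κ) L] [Algebra k L] [IsScalarTower k (RatFunc κ) L]
    (Ψ : K' →ₐ[k] L)
    (hΨ : ∀ x, Ψ (algebraMap K K' (v x)) =
      algebraMap (RatFunc κ) L (algebraMap κ[X] (RatFunc κ) (H x)))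
    (dL : Derivation ℤ L L)
    (hdL : ∀ p : κ[X], dL (algebraMap (RatFunc κ) L (algebraMap κ[X] (RatFunc κ) p)) =
      algebraMap (RatFunc κ) L (algebraMap κ[X] (RatFunc κ) (derivative p)))
    (hdk : ∀ c : κ, dL (algebraMap (RatFunc κ) L (algebraMap κ[X] (RatFunc κ) (C c))) = 0)
    (hNH : finrank (RatFunc κ) (TanS E (fun x => algebraMap κ[X] (RatFunc κ) (H x))) ≤ N)
    (hNq : finrank κ (TanS E (fun x => (H x).eval a)) = N)
    (S : Subring K')
    (hS : ∀ (d : Derivation k K K), (∀ x, ∃ s : MvPolynomial σ k, d (v x) = MvPolynomial.aeval v s) →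
      ∀ D : Derivation k K' K', (∀ b, D (algebraMap K K' b) = algebraMap K K' (d b)) →
      ∀ b ∈ S, D b ∈ S)
    (hSO : ∀ b ∈ S, IsIntegral (RegAt a) (Ψ b)) {φ : K'} (hφ : φ ∈ S) (r : ℕ) :
    IsIntegral (RegAt a) (dL^[r] (Ψ φ)) := by
  classical
  have hc0 : CharZero K := charZero_of_injective_algebraMap (algebraMap k K).injective
  -- values of polynomials
  have hpol : ∀ p : MvPolynomial σ k, Ψ (algebraMap K K' (MvPolynomial.aeval v p)) =
      algebraMap (RatFunc κ) L (algebraMap κ[X] (RatFunc κ) (MvPolynomial.aeval H p)) := by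
    intro p
    have h1 : Ψ (algebraMap K K' (MvPolynomial.aeval v p)) =
        MvPolynomial.aeval (fun x => Ψ (algebraMap K K' (v x))) p := by
      have := MvPolynomial.comp_aeval_apply (f := v) (Ψ.comp (IsScalarTower.toAlgHom k K K')) p
      exact this
    rw [h1, ← aeval_ratFunc]
    have h2 := MvPolynomial.comp_aeval_apply
      (f := fun x => algebraMap κ[X] (RatFunc κ) (H x)) (IsScalarTower.toAlgHom k (RatFunc κ) L) p
    rw [IsScalarTower.coe_toAlgHom'] at h2
    rw [h2]
    congr 2
    funext x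
    exact hΨ x
  have hinjL : Function.Injective (fun p : κ[X] =>
      algebraMap (RatFunc κ) L (algebraMap κ[X] (RatFunc κ) p)) :=
    (algebraMap (RatFunc κ) L).injective.comp (FaithfulSMul.algebraMap_injective _ _)
  have hspec : ∀ p : MvPolynomial σ k, MvPolynomial.aeval v p = 0 →
      MvPolynomial.aeval H p = 0 := by
    intro p hp
    apply hinjL
    change algebraMap (RatFunc κ) L (algebraMap κ[X] (RatFunc κ) (MvPolynomial.aeval H p)) = _
    rw [← hpol, hp]
    simp
  have hspecq : ∀ p : MvPolynomial σ k, MvPolynomial.aeval v p = 0 →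
      MvPolynomial.aeval (fun x => (H x).eval a) p = 0 := by
    intro p hp
    rw [aeval_eval, hspec p hp, eval_zero]
  obtain ⟨s, d, hd, -, hind⟩ := cramer_ders hv (fun x => (H x).eval a) hspecq hNv htr hNq
  -- the derivations of `K'`
  have : Algebra.FormallySmooth K K' := fs_charZero K K'
  have hext : ∀ j, ∃ D : Derivation k K' K', ∀ b, D (algebraMap K K' b) = algebraMap K K' (d j b) := by
    intro j
    obtain ⟨D, hD⟩ := ext_der (R := k) (A := K) (L := K')
      ((Algebra.linearMap K K').compDer (d j))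
    exact ⟨D, fun b => hD b⟩
  choose D hD using hext
  -- the tangent vector of the curve
  have hH' : (fun x => algebraMap κ[X] (RatFunc κ) (derivative (H x))) ∈
      TanS E (fun x => algebraMap κ[X] (RatFunc κ) (H x)) := by
    intro p hp
    let dk : Derivation k κ[X] κ[X] := (Polynomial.derivative' (R := κ)).restrictScalars k
    have h1 : (fun x => dk (H x)) ∈ TanS E H := der_mem_TanS (fun p hp => hspec p (hv p hp)) dk
    have h2 := congrArg (algebraMap κ[X] (RatFunc κ)) (h1 p hp)
    rw [map_sum, map_zero] at h2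
    rw [← h2]
    refine Finset.sum_congr rfl fun x _ => ?_
    rw [aeval_ratFunc, map_mul]
    rfl
  -- the frame
  have htan : ∀ j, ∀ p ∈ E, ∑ x, MvPolynomial.aeval H (MvPolynomial.pderiv x p) *
      MvPolynomial.aeval H (s j x) = 0 := by
    intro j p hp
    have h1 := der_mem_TanS hv (d j) p hp
    have h2 : MvPolynomial.aeval v (∑ x, MvPolynomial.pderiv x p * s j x) = 0 := by
      rw [map_sum, ← h1]
      refine Finset.sum_congr rfl fun x _ => ?_
      change _ = _ * d j (v x)
      rw [map_mul, hd]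
    have h3 := hspec _ h2
    rw [map_sum] at h3
    rw [← h3]
    exact Finset.sum_congr rfl fun x _ => (map_mul _ _ _).symm
  have hind' : LinearIndependent κ (fun j => fun x => (MvPolynomial.aeval H (s j x)).eval a) := by
    simpa only [← aeval_eval] using hind
  obtain ⟨c, hc, hcs⟩ := frame_lineS a (fun j x => MvPolynomial.aeval H (s j x)) htan hind' hNH
    _ hH' (fun x => poly_mem_RegAt a _)
  -- the identity on `K`
  have hK : ∀ b : K, dL (Ψ (algebraMap K K' b)) =
      ∑ j, algebraMap (RatFunc κ) L (c j) * Ψ (D j (algebraMap K K' b)) := by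
    let ψ0 : K →ₐ[k] L := Ψ.comp (IsScalarTower.toAlgHom k K K')
    let F : K →+ L :=
      { toFun := fun b => dL (Ψ (algebraMap K K' b)) -
          ∑ j, algebraMap (RatFunc κ) L (c j) * Ψ (D j (algebraMap K K' b))
        map_zero' := by simp
        map_add' := fun x y => by
          simp only [map_add, mul_add, Finset.sum_add_distrib]
          ring }
    have hFmul : ∀ x y, F (x * y) = ψ0 x * F y + ψ0 y * F x := by
      intro x y
      change dL (Ψ (algebraMap K K' (x * y))) -
          ∑ j, algebraMap (RatFunc κ) L (c j) * Ψ (D j (algebraMap K K' (x * y))) =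
        Ψ (algebraMap K K' x) * (dL (Ψ (algebraMap K K' y)) -
          ∑ j, algebraMap (RatFunc κ) L (c j) * Ψ (D j (algebraMap K K' y))) +
        Ψ (algebraMap K K' y) * (dL (Ψ (algebraMap K K' x)) -
          ∑ j, algebraMap (RatFunc κ) L (c j) * Ψ (D j (algebraMap K K' x)))
      have h1 : ∑ j, algebraMap (RatFunc κ) L (c j) * Ψ (D j (algebraMap K K' (x * y))) =
          Ψ (algebraMap K K' x) *
            ∑ j, algebraMap (RatFunc κ) L (c j) * Ψ (D j (algebraMap K K' y)) +
          Ψ (algebraMap K K' y) *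
            ∑ j, algebraMap (RatFunc κ) L (c j) * Ψ (D j (algebraMap K K' x)) := by
        rw [Finset.mul_sum, Finset.mul_sum, ← Finset.sum_add_distrib]
        refine Finset.sum_congr rfl fun j _ => ?_
        rw [map_mul, Derivation.leibniz]
        simp only [smul_eq_mul, map_add, map_mul]
        ring
      rw [h1, map_mul, map_mul, Derivation.leibniz]
      simp only [smul_eq_mul]
      ring
    have hFk : ∀ r : k, F (algebraMap k K r) = 0 := by
      intro r
      change dL (Ψ (algebraMap K K' (algebraMap k K r))) -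
          ∑ j, algebraMap (RatFunc κ) L (c j) * Ψ (D j (algebraMap K K' (algebraMap k K r))) = 0
      rw [← IsScalarTower.algebraMap_apply k K K', Ψ.commutes]
      have h1 : ∀ j, D j (algebraMap k K' r) = 0 := fun j => (D j).map_algebraMap r
      simp only [h1, map_zero, mul_zero, Finset.sum_const_zero, sub_zero]
      rw [IsScalarTower.algebraMap_apply k (RatFunc κ) L]
      have h2 : algebraMap k (RatFunc κ) r = algebraMap κ[X] (RatFunc κ) (C (algebraMap k κ r)) := by
        rw [IsScalarTower.algebraMap_apply k κ[X] (RatFunc κ),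
          IsScalarTower.algebraMap_apply k κ κ[X], algebraMap_eq]
      rw [h2, hdk]
    have h2 : IntermediateField.adjoin k (Set.range v) ≤ kerAlong ψ0 F hFmul hFk := by
      rw [IntermediateField.adjoin_le_iff]
      rintro _ ⟨x, rfl⟩
      change dL (Ψ (algebraMap K K' (v x))) -
          ∑ j, algebraMap (RatFunc κ) L (c j) * Ψ (D j (algebraMap K K' (v x))) = 0
      rw [hΨ, hdL, hcs x, map_sum, sub_eq_zero]
      refine Finset.sum_congr rfl fun j _ => ?_
      rw [map_mul, hD, hd, hpol]
    intro b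
    have h3 : b ∈ kerAlong ψ0 F hFmul hFk := by
      apply h2
      rw [hgen]
      trivial
    exact sub_eq_zero.1 h3
  -- apply `chain_mem`
  have key := chain_mem (K := K) (K' := K') (L := L) Ψ.toRingHom dL (Finset.univ : Finset (Fin N))
    (fun j => algebraMap (RatFunc κ) L (c j)) (fun j => (D j).restrictScalars ℤ)
    (fun b => hK b) S
    (fun j _ b hb => hS (d j) (fun x => ⟨s j x, hd j x⟩) (D j) (hD j) b hb)
    ((RegAt a).map (algebraMap (RatFunc κ) L)) (integralClosure (RegAt a) L).toSubring ?_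
    (fun b hb => hSO b hb) (fun x hx => deriv_mem_reg dL hdL a hx)
    (fun j _ => ⟨c j, hc j, rfl⟩) (Subring.one_mem _) hφ r
  · have h4 : (dL^[r]) (Ψ φ) ∈ (integralClosure (RegAt a) L).toSubring := by
      simpa using key
    exact h4
  · rintro _ ⟨y, hy, rfl⟩
    exact isIntegral_algebraMap (R := RegAt a) (x := ⟨y, hy⟩)

end core

section va

variable {κ : Type u} [Field κ]

theorem mem_RegAt_iff_Va (a : κ) (f : RatFunc κ) : f ∈ RegAt a ↔ f ∈ Va (RatFunc κ) a := by
  constructor
  · rintro ⟨p, q, hq, rfl⟩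
    refine ⟨p, q, hq, ?_⟩
    have hq0 : algebraMap κ[X] (RatFunc κ) q ≠ 0 := by
      rw [Ne, FaithfulSMul.algebraMap_eq_zero_iff]
      rintro rfl
      simp at hq
    rw [div_mul_cancel₀ _ hq0]
  · rintro ⟨p, q, hq, h⟩
    have hq0 : algebraMap κ[X] (RatFunc κ) q ≠ 0 := by
      rw [Ne, FaithfulSMul.algebraMap_eq_zero_iff]
      rintro rfl
      simp at hq
    exact ⟨p, q, hq, by rw [← h, mul_div_assoc, div_self hq0, mul_one]⟩

theorem RegAt_eq_Va (a : κ) : RegAt a = (Va (RatFunc κ) a).toSubring :=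
  Subring.ext fun f => mem_RegAt_iff_Va a f

theorem isIntegral_Va_iff {L : Type w} [Field L] [Algebra (RatFunc κ) L] (a : κ) (x : L) :
    IsIntegral (RegAt a) x ↔ IsIntegral (Va (RatFunc κ) a) x := by
  rw [RegAt_eq_Va]
  exact Iff.rfl

/-- `RegAt a` is integrally closed. -/
theorem RegAt_intClosed (a : κ) (x : RatFunc κ) (hx : IsIntegral (RegAt a) x) : x ∈ RegAt a := by
  rw [isIntegral_Va_iff] at hx
  rw [mem_RegAt_iff_Va]
  obtain ⟨y, hy⟩ := IsIntegrallyClosed.isIntegral_iff.1 hx
  rw [← hy]
  exact y.2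

end va

section localthm

variable {k : Type u} [Field k] [CharZero k] {σ : Type v} [Fintype σ]
  {K K' : Type u} [Field K] [Field K'] [Algebra k K] [Algebra K K'] [Algebra k K']
  [IsScalarTower k K K']

/-- elements integral over a subring of the local ring of `q` have values integral at `a`. -/
theorem int_map {v : σ → K} {κ : Type u} [Field κ] [Algebra k κ] (H : σ → κ[X]) (a : κ)
    {L : Type w} [Field L] [Algebra (RatFunc κ) L] [Algebra k L] [IsScalarTower k (RatFunc κ) L]
    (Ψ : K' →ₐ[k] L)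
    (hΨ : ∀ x, Ψ (algebraMap K K' (v x)) =
      algebraMap (RatFunc κ) L (algebraMap κ[X] (RatFunc κ) (H x)))
    (A : Subring K)
    (hA : ∀ c ∈ A, ∃ P Q : MvPolynomial σ k, MvPolynomial.aeval (fun x => (H x).eval a) Q ≠ 0 ∧
      c * MvPolynomial.aeval v Q = MvPolynomial.aeval v P) {b : K'} (hb : IsIntegral A b) :
    IsIntegral (RegAt a) (Ψ b) := by
  have hpol : ∀ p : MvPolynomial σ k, Ψ (algebraMap K K' (MvPolynomial.aeval v p)) =
      algebraMap (RatFunc κ) L (algebraMap κ[X] (RatFunc κ) (MvPolynomial.aeval H p)) := by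
    intro p
    have h1 : Ψ (algebraMap K K' (MvPolynomial.aeval v p)) =
        MvPolynomial.aeval (fun x => Ψ (algebraMap K K' (v x))) p := by
      have := MvPolynomial.comp_aeval_apply (f := v) (Ψ.comp (IsScalarTower.toAlgHom k K K')) p
      exact this
    rw [h1, ← aeval_ratFunc]
    have h2 := MvPolynomial.comp_aeval_apply
      (f := fun x => algebraMap κ[X] (RatFunc κ) (H x)) (IsScalarTower.toAlgHom k (RatFunc κ) L) p
    rw [IsScalarTower.coe_toAlgHom'] at h2
    rw [h2]
    congr 2
    funext x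
    exact hΨ x
  have hg0 : ∀ c : A, ∃ y : RegAt a, algebraMap (RatFunc κ) L y = Ψ (algebraMap K K' c) := by
    intro c
    obtain ⟨P, Q, hQ, hPQ⟩ := hA c c.2
    rw [aeval_eval] at hQ
    have hQ0 : algebraMap κ[X] (RatFunc κ) (MvPolynomial.aeval H Q) ≠ 0 := by
      rw [Ne, FaithfulSMul.algebraMap_eq_zero_iff]
      intro h
      rw [h, eval_zero] at hQ
      exact hQ rfl
    refine ⟨⟨algebraMap κ[X] (RatFunc κ) (MvPolynomial.aeval H P) /
      algebraMap κ[X] (RatFunc κ) (MvPolynomial.aeval H Q), ⟨_, _, hQ, rfl⟩⟩, ?_⟩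
    have h1 := congrArg (fun z => Ψ (algebraMap K K' z)) hPQ
    simp only [map_mul] at h1
    rw [hpol, hpol] at h1
    change algebraMap (RatFunc κ) L (_ / _) = _
    rw [map_div₀, ← h1, mul_div_assoc, div_self, mul_one]
    intro h2
    exact hQ0 ((map_eq_zero _).1 h2)
  choose g hg using hg0
  have hinj : ∀ y z : RegAt a, algebraMap (RatFunc κ) L y = algebraMap (RatFunc κ) L z → y = z :=
    fun y z h => Subtype.ext ((algebraMap (RatFunc κ) L).injective h)
  let G : A →+* RegAt a :=
    { toFun := g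
      map_one' := hinj _ _ (by rw [hg]; simp)
      map_mul' := fun x y => hinj _ _ (by
        rw [hg]
        change _ = algebraMap (RatFunc κ) L ((g x : RatFunc κ) * (g y : RatFunc κ))
        rw [map_mul, hg, hg]
        simp)
      map_zero' := hinj _ _ (by rw [hg]; simp)
      map_add' := fun x y => hinj _ _ (by
        rw [hg]
        change _ = algebraMap (RatFunc κ) L ((g x : RatFunc κ) + (g y : RatFunc κ))
        rw [map_add, hg, hg]
        simp) }
  obtain ⟨p, hp, hp0⟩ := hb
  refine ⟨p.map G, hp.map _, ?_⟩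
  rw [eval₂_map]
  have e1 : (algebraMap (RegAt a) L).comp G = (Ψ : K' →+* L).comp (algebraMap A K') := by
    ext c
    exact hg c
  rw [e1]
  have e2 := Polynomial.hom_eval₂ p (algebraMap A K') (Ψ : K' →+* L) b
  rw [hp0, map_zero] at e2
  exact e2.symm

/-- the moving frame property of a line at `t0`. -/
def MovAt (v : σ → K) {κl : Type u} [Field κl] [Algebra k κl] (ψ : K →ₐ[k] RatFunc κl)
    (t0 : κl) : Prop :=
  ∃ (M : ℕ) (δ : Fin M → Derivation k κl κl), ∀ d : Derivation k K K,
    (∀ x, ψ (d (v x)) ∈ RegAt t0) → ∃ c : Fin M → RatFunc κl, (∀ j, c j ∈ RegAt t0) ∧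
      ∀ b : K, ψ (d b) = ∑ j, c j * hat (δ j) (ψ b)

/-- **A-REG, the local theorem** at a point `q = H(a)` whose local ring is a valuation ring. -/
theorem local_thm [Normal K K'] {E : Set (MvPolynomial σ k)} {v : σ → K}
    (hv : ∀ p ∈ E, MvPolynomial.aeval v p = 0)
    (hgen : IntermediateField.adjoin k (Set.range v) = ⊤) {N : ℕ}
    (hNv : finrank K (TanS E v) ≤ N) (htr : TrGe k (Set.range v) N)
    {κ : Type u} [Field κ] [Algebra k κ] (H : σ → κ[X]) (a : κ)
    {L : Type w} [Field L] [Algebra (RatFunc κ) L] [Algebra k L] [IsScalarTower k (RatFunc κ) L]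
    (Ψ : K' →ₐ[k] L)
    (hΨ : ∀ x, Ψ (algebraMap K K' (v x)) =
      algebraMap (RatFunc κ) L (algebraMap κ[X] (RatFunc κ) (H x)))
    (dL : Derivation ℤ L L)
    (hdL : ∀ p : κ[X], dL (algebraMap (RatFunc κ) L (algebraMap κ[X] (RatFunc κ) p)) =
      algebraMap (RatFunc κ) L (algebraMap κ[X] (RatFunc κ) (derivative p)))
    (hNH : finrank (RatFunc κ) (TanS E (fun x => algebraMap κ[X] (RatFunc κ) (H x))) ≤ N)
    (hNq : finrank κ (TanS E (fun x => (H x).eval a)) = N)
    (hval : ∀ b : K, ∃ P Q : MvPolynomial σ k, MvPolynomial.aeval v Q ≠ 0 ∧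
      b * MvPolynomial.aeval v Q = MvPolynomial.aeval v P ∧
      (MvPolynomial.aeval (fun x => (H x).eval a) Q ≠ 0 ∨
        MvPolynomial.aeval (fun x => (H x).eval a) P ≠ 0))
    {κl : Type u} [Field κl] [Algebra k κl] (l : σ → κl[X]) (t0 : κl) (ψ : K' →ₐ[k] RatFunc κl)
    (hψ : ∀ x, ψ (algebraMap K K' (v x)) = algebraMap κl[X] (RatFunc κl) (l x))
    (hlq : ∀ p : MvPolynomial σ k, MvPolynomial.aeval (fun x => (l x).eval t0) p = 0 ↔
      MvPolynomial.aeval (fun x => (H x).eval a) p = 0)
    (hmov : MovAt v (ψ.comp (IsScalarTower.toAlgHom k K K')) t0)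
    {φ : K'} (hφ : ∀ τ : K' ≃ₐ[K] K', ψ (τ φ) ∈ RegAt t0) (r : ℕ) :
    IsIntegral (RegAt a) (dL^[r] (Ψ φ)) := by
  have hc0 : CharZero K := charZero_of_injective_algebraMap (algebraMap k K).injective
  have halg : Algebra.IsAlgebraic K K' := Normal.toIsAlgebraic
  have hdk : ∀ c : κ, dL (algebraMap (RatFunc κ) L (algebraMap κ[X] (RatFunc κ) (C c))) = 0 := by
    intro c
    rw [hdL]
    simp
  -- values of polynomials along the line
  have hpoll : ∀ p : MvPolynomial σ k, ψ (algebraMap K K' (MvPolynomial.aeval v p)) =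
      algebraMap κl[X] (RatFunc κl) (MvPolynomial.aeval l p) := by
    intro p
    have h1 : ψ (algebraMap K K' (MvPolynomial.aeval v p)) =
        MvPolynomial.aeval (fun x => ψ (algebraMap K K' (v x))) p := by
      have := MvPolynomial.comp_aeval_apply (f := v) (ψ.comp (IsScalarTower.toAlgHom k K K')) p
      exact this
    rw [h1, ← aeval_ratFunc]
    congr 2
    funext x
    exact hψ x
  set ψr : K' →+* RatFunc κl := ψ.toRingHom with hψr
  -- `A_R` is contained in the local ring of `q`
  have hAR : ∀ c ∈ AR K ψr (RegAt t0), ∃ P Q : MvPolynomial σ k,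
      MvPolynomial.aeval (fun x => (H x).eval a) Q ≠ 0 ∧
      c * MvPolynomial.aeval v Q = MvPolynomial.aeval v P := by
    intro c hc
    obtain ⟨P, Q, -, hPQ, hor⟩ := hval c
    by_cases hQ : MvPolynomial.aeval (fun x => (H x).eval a) Q = 0
    · exfalso
      have hP : MvPolynomial.aeval (fun x => (H x).eval a) P ≠ 0 := by
        rcases hor with h | h
        · exact absurd hQ h
        · exact h
      obtain ⟨A, B, hB, hAB⟩ : ψ (algebraMap K K' c) ∈ RegAt t0 := hc
      have hB0 : algebraMap κl[X] (RatFunc κl) B ≠ 0 := by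
        rw [Ne, FaithfulSMul.algebraMap_eq_zero_iff]
        rintro rfl
        simp at hB
      have h1 := congrArg (fun z => ψ (algebraMap K K' z)) hPQ
      simp only [map_mul] at h1
      rw [hpoll, hpoll, hAB, div_mul_eq_mul_div, div_eq_iff hB0, ← map_mul, ← map_mul] at h1
      have h2 := FaithfulSMul.algebraMap_injective _ _ h1
      have h3 := congrArg (Polynomial.eval t0) h2
      rw [eval_mul, eval_mul, ← aeval_eval, ← aeval_eval, (hlq Q).2 hQ, mul_zero] at h3
      rcases mul_eq_zero.1 h3.symm with h4 | h4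
      · exact hP ((hlq P).1 h4)
      · exact hB h4
    · exact ⟨P, Q, hQ, hPQ⟩
  refine chain_core hv hgen hNv htr H a Ψ hΨ dL hdL hdk hNH hNq
    (integralClosure (AR K ψr (RegAt t0)) K').toSubring ?_ ?_ ?_ r
  · intro d hd D hD b hb
    obtain ⟨M, δ, hδ⟩ := hmov
    obtain ⟨c, hc, hcd⟩ := hδ d (fun x => by
      obtain ⟨s, hs⟩ := hd x
      rw [hs]
      change ψ (algebraMap K K' (MvPolynomial.aeval v s)) ∈ RegAt t0
      rw [hpoll]
      exact poly_mem_RegAt _ _)
    exact int_deriv (K := K) ψr (RegAt t0) (RegAt_intClosed t0) (D.restrictScalars ℤ) d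
      (fun a => hD a) (Finset.univ : Finset (Fin M)) c (fun j => toZ (hat (δ j)))
      (fun j _ => hc j) (fun j _ x hx => hat_mem_RegAt (δ j) hx)
      (fun a => hcd a) hb
  · intro b hb
    exact int_map H a Ψ hΨ _ hAR hb
  · exact (int_iff (K := K) ψr (RegAt t0) (RegAt_intClosed t0) φ).2 hφ

/-- **A-REG, the local theorem** at a point `q = H(a)` which is generic. -/
theorem local_gen [Algebra.IsAlgebraic K K'] {E : Set (MvPolynomial σ k)} {v : σ → K}
    (hv : ∀ p ∈ E, MvPolynomial.aeval v p = 0)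
    (hgen : IntermediateField.adjoin k (Set.range v) = ⊤) {N : ℕ}
    (hNv : finrank K (TanS E v) ≤ N) (htr : TrGe k (Set.range v) N)
    {κ : Type u} [Field κ] [Algebra k κ] (H : σ → κ[X]) (a : κ)
    {L : Type w} [Field L] [Algebra (RatFunc κ) L] [Algebra k L] [IsScalarTower k (RatFunc κ) L]
    (Ψ : K' →ₐ[k] L)
    (hΨ : ∀ x, Ψ (algebraMap K K' (v x)) =
      algebraMap (RatFunc κ) L (algebraMap κ[X] (RatFunc κ) (H x)))
    (dL : Derivation ℤ L L)
    (hdL : ∀ p : κ[X], dL (algebraMap (RatFunc κ) L (algebraMap κ[X] (RatFunc κ) p)) =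
      algebraMap (RatFunc κ) L (algebraMap κ[X] (RatFunc κ) (derivative p)))
    (hNH : finrank (RatFunc κ) (TanS E (fun x => algebraMap κ[X] (RatFunc κ) (H x))) ≤ N)
    (hNq : finrank κ (TanS E (fun x => (H x).eval a)) = N)
    (hq : ∀ Q : MvPolynomial σ k, MvPolynomial.aeval (fun x => (H x).eval a) Q = 0 →
      MvPolynomial.aeval v Q = 0)
    (φ : K') (r : ℕ) :
    IsIntegral (RegAt a) (dL^[r] (Ψ φ)) := by
  have hdk : ∀ c : κ, dL (algebraMap (RatFunc κ) L (algebraMap κ[X] (RatFunc κ) (C c))) = 0 := by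
    intro c
    rw [hdL]
    simp
  refine chain_core hv hgen hNv htr H a Ψ hΨ dL hdL hdk hNH hNq ⊤ (fun _ _ _ _ _ _ => trivial)
    (fun b _ => ?_) trivial r
  refine int_map H a Ψ hΨ (⊤ : Subring K) (fun c _ => ?_) (b := b) ?_
  · have hc : c ∈ IntermediateField.adjoin k (Set.range v) := by
      rw [hgen]; trivial
    rw [IntermediateField.mem_adjoin_range_iff] at hc
    obtain ⟨P, Q, rfl⟩ := hc
    by_cases hQ : MvPolynomial.aeval v Q = 0
    · refine ⟨0, 1, by simp, ?_⟩
      rw [hQ, div_zero]
      simp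
    · exact ⟨P, Q, fun h => hQ (hq Q h), div_mul_cancel₀ _ hQ⟩
  · have hb : IsIntegral K b := Algebra.IsIntegral.isIntegral b
    obtain ⟨p, hp, hp0⟩ := hb
    refine ⟨p.map (Subring.topEquiv (R := K)).symm.toRingHom, hp.map _, ?_⟩
    rw [eval₂_map]
    have e1 : (algebraMap (⊤ : Subring K) K').comp (Subring.topEquiv (R := K)).symm.toRingHom =
        algebraMap K K' := by
      ext c
      rfl
    rw [e1, hp0]

end localthm

end Crest.Agent.R260.Der_169
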