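import Mathlib
import Crest.Agent.R260.Der4_169

/-!
# Row 260, A-REG (helper169), part 3: the local theorem in the language of tuples
-/

set_option autoImplicit false
set_option linter.unusedSectionVars false

namespace Crest.Agent.R260.Der_169

open Polynomial Module
open Crest.Agent.R270.BM_360 Crest.Agent.R270.Fr_928 Crest.Agent.R260.Pur920

universe u v w

section tuple

variable {I : Type} {J : I → Type} {k : Type u} [Field k] [CharZero k]
  [Fintype I] [∀ i, Fintype (J i)]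


/-- `moving_frame` gives the moving frame property. -/
theorem movAt_of_frame {κl : Type u} [Field κl] [Algebra k κl]
    {E : Set (MvPolynomial (Σ i, J i) k)} {l : ∀ i, J i → κl[X]}
    (hF : OnX E l) {m : ℕ} (hm : finrank κl (TanL E l) ≤ m) (htr : TrGe k (coeffs l) m) (t0 : κl)
    {N : ℕ} (t : Fin N → ∀ i, J i → κl[X]) (ht : ∀ j, t j ∈ TanL E l)
    (hind : LinearIndependent κl (fun j => fun x : Σ i, J i => (t j x.1 x.2).eval t0))
    (hrk : finrank (RatFunc κl)
      (TanS E (fun x : Σ i, J i => algebraMap κl[X] (RatFunc κl) (l x.1 x.2))) ≤ N)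
    {K : Type u} [Field K] [Algebra k K] {v : (Σ i, J i) → K}
    (hv : ∀ p ∈ E, MvPolynomial.aeval v p = 0)
    (hgen : IntermediateField.adjoin k (Set.range v) = ⊤) (ψ : K →ₐ[k] RatFunc κl)
    (hψ : ∀ x, ψ (v x) = algebraMap κl[X] (RatFunc κl) (l x.1 x.2)) : MovAt v ψ t0 := by
  have hrk' : finrank (RatFunc κl) (TanV E (toR l)) ≤ N := hrk
  obtain ⟨δ, -, hδ⟩ := moving_frame.{u, u} hF hm htr t0 t ht hind hrk'
  have hgen' : IntermediateField.adjoin k {c | ∃ i b, v ⟨i, b⟩ = c} = ⊤ := by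
    rw [← hgen]
    congr 1
    ext c
    constructor
    · rintro ⟨i, b, rfl⟩
      exact ⟨⟨i, b⟩, rfl⟩
    · rintro ⟨⟨i, b⟩, rfl⟩
      exact ⟨i, b, rfl⟩
  refine ⟨N, δ, fun d hd => ?_⟩
  exact hδ (fun i b => v ⟨i, b⟩) (fun p hp => hv p hp) hgen' ψ (fun i b => hψ ⟨i, b⟩) d
    (fun i b => hd ⟨i, b⟩)

/-- **A-REG, tuples.** The point `H(a)` has a local ring which is a valuation ring and a line
`l`, of maximal transcendence degree, passes at `t0` through a generic point of the same prime. -/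
theorem local_tuple {K K' : Type u} [Field K] [Field K'] [Algebra k K] [Algebra K K']
    [Algebra k K'] [IsScalarTower k K K'] [Normal K K'] {E : Set (MvPolynomial (Σ i, J i) k)}
    {N : ℕ} (hN : ∀ (κ : Type u) [Field κ] [Algebra k κ] (q : ∀ i, J i → κ), OnX E q →
      (∀ i, q i ≠ 0) → finrank κ (TanS E (fun x : Σ i, J i => q x.1 x.2)) = N)
    {v : ∀ i, J i → K} (hv : OnX E v) (hv0 : ∀ i, v i ≠ 0)
    (hgen : IntermediateField.adjoin k (Set.range fun x : Σ i, J i => v x.1 x.2) = ⊤)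
    (htr : TrGe k (Set.range fun x : Σ i, J i => v x.1 x.2) N)
    {κ : Type u} [Field κ] [Algebra k κ] (H : ∀ i, J i → κ[X]) (a : κ)
    (hHa : ∀ i, (fun b => (H i b).eval a) ≠ 0)
    {L : Type w} [Field L] [Algebra (RatFunc κ) L] [Algebra k L] [IsScalarTower k (RatFunc κ) L]
    (Ψ : K' →ₐ[k] L)
    (hΨ : ∀ i b, Ψ (algebraMap K K' (v i b)) =
      algebraMap (RatFunc κ) L (algebraMap κ[X] (RatFunc κ) (H i b)))
    (dL : Derivation ℤ L L)
    (hdL : ∀ p : κ[X], dL (algebraMap (RatFunc κ) L (algebraMap κ[X] (RatFunc κ) p)) =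
      algebraMap (RatFunc κ) L (algebraMap κ[X] (RatFunc κ) (derivative p)))
    (hval : ∀ b : K, ∃ P Q : MvPolynomial (Σ i, J i) k,
      MvPolynomial.aeval (fun x : Σ i, J i => v x.1 x.2) Q ≠ 0 ∧
      b * MvPolynomial.aeval (fun x : Σ i, J i => v x.1 x.2) Q =
        MvPolynomial.aeval (fun x : Σ i, J i => v x.1 x.2) P ∧
      (MvPolynomial.aeval (fun x : Σ i, J i => (H x.1 x.2).eval a) Q ≠ 0 ∨
        MvPolynomial.aeval (fun x : Σ i, J i => (H x.1 x.2).eval a) P ≠ 0))
    {κl : Type u} [Field κl] [Algebra k κl] {l : ∀ i, J i → κl[X]}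
    {m : ℕ} (hm : finrank κl (TanL E l) ≤ m) (htrl : TrGe k (coeffs l) m) (t0 : κl)
    (t : Fin N → ∀ i, J i → κl[X]) (ht : ∀ j, t j ∈ TanL E l)
    (hind : LinearIndependent κl (fun j => fun x : Σ i, J i => (t j x.1 x.2).eval t0))
    (ψ : K' →ₐ[k] RatFunc κl)
    (hψ : ∀ i b, ψ (algebraMap K K' (v i b)) = algebraMap κl[X] (RatFunc κl) (l i b))
    (hlq : ∀ p : MvPolynomial (Σ i, J i) k,
      MvPolynomial.aeval (fun x : Σ i, J i => (l x.1 x.2).eval t0) p = 0 ↔
      MvPolynomial.aeval (fun x : Σ i, J i => (H x.1 x.2).eval a) p = 0)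
    {φ : K'} (hφ : ∀ τ : K' ≃ₐ[K] K', ψ (τ φ) ∈ RegAt t0) (r : ℕ) :
    IsIntegral (RegAt a) (dL^[r] (Ψ φ)) := by
  -- points
  have hspecH : ∀ p : MvPolynomial (Σ i, J i) k,
      MvPolynomial.aeval (fun x : Σ i, J i => v x.1 x.2) p = 0 →
      MvPolynomial.aeval (fun x : Σ i, J i => H x.1 x.2) p = 0 := by
    intro p hp
    have h1 : Ψ (algebraMap K K' (MvPolynomial.aeval (fun x : Σ i, J i => v x.1 x.2) p)) =
        MvPolynomial.aeval (fun x : Σ i, J i => Ψ (algebraMap K K' (v x.1 x.2))) p := by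
      have := MvPolynomial.comp_aeval_apply (f := fun x : Σ i, J i => v x.1 x.2)
        (Ψ.comp (IsScalarTower.toAlgHom k K K')) p
      exact this
    have h2 := MvPolynomial.comp_aeval_apply
      (f := fun x : Σ i, J i => algebraMap κ[X] (RatFunc κ) (H x.1 x.2))
      (IsScalarTower.toAlgHom k (RatFunc κ) L) p
    rw [IsScalarTower.coe_toAlgHom'] at h2
    have h3 : algebraMap (RatFunc κ) L (algebraMap κ[X] (RatFunc κ)
        (MvPolynomial.aeval (fun x : Σ i, J i => H x.1 x.2) p)) = 0 := by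
      rw [← aeval_ratFunc, h2]
      rw [hp, map_zero, map_zero] at h1
      rw [h1]
      congr 2
      funext x
      exact (hΨ x.1 x.2).symm
    have h4 := (map_eq_zero _).1 h3
    rwa [FaithfulSMul.algebraMap_eq_zero_iff] at h4
  have hspecl : ∀ p : MvPolynomial (Σ i, J i) k,
      MvPolynomial.aeval (fun x : Σ i, J i => v x.1 x.2) p = 0 →
      MvPolynomial.aeval (fun x : Σ i, J i => l x.1 x.2) p = 0 := by
    intro p hp
    have h1 : ψ (algebraMap K K' (MvPolynomial.aeval (fun x : Σ i, J i => v x.1 x.2) p)) =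
        MvPolynomial.aeval (fun x : Σ i, J i => ψ (algebraMap K K' (v x.1 x.2))) p := by
      have := MvPolynomial.comp_aeval_apply (f := fun x : Σ i, J i => v x.1 x.2)
        (ψ.comp (IsScalarTower.toAlgHom k K K')) p
      exact this
    have h3 : algebraMap κl[X] (RatFunc κl)
        (MvPolynomial.aeval (fun x : Σ i, J i => l x.1 x.2) p) = 0 := by
      rw [← aeval_ratFunc]
      rw [hp, map_zero, map_zero] at h1
      rw [h1]
      congr 2
      funext x
      exact (hψ x.1 x.2).symm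
    rwa [FaithfulSMul.algebraMap_eq_zero_iff] at h3
  have hne : ∀ {κ₁ : Type u} [Field κ₁] (F : ∀ i, J i → κ₁[X]) (b : κ₁),
      (∀ i, (fun c => (F i c).eval b) ≠ 0) →
      ∀ i, (fun c => algebraMap κ₁[X] (RatFunc κ₁) (F i c)) ≠ 0 := by
    intro κ₁ _ F b hF i h0
    apply hF i
    funext c
    have := congrFun h0 c
    simp only [Pi.zero_apply] at this
    rw [FaithfulSMul.algebraMap_eq_zero_iff] at this
    rw [this]
    simp
  have hla : ∀ i, (fun b => (l i b).eval t0) ≠ 0 := by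
    intro i h0
    apply hHa i
    funext b
    have h1 := congrFun h0 b
    have h2 := (hlq (MvPolynomial.X ⟨i, b⟩)).1 (by
      rw [MvPolynomial.aeval_X]
      exact h1)
    rwa [MvPolynomial.aeval_X] at h2
  have hNv : finrank K (TanS E (fun x : Σ i, J i => v x.1 x.2)) = N := hN K v hv hv0
  have hNH : finrank (RatFunc κ)
      (TanS E (fun x : Σ i, J i => algebraMap κ[X] (RatFunc κ) (H x.1 x.2))) = N :=
    hN (RatFunc κ) (fun i b => algebraMap κ[X] (RatFunc κ) (H i b))
      (fun p hp => by rw [aeval_ratFunc, hspecH p (hv p hp), map_zero]) (hne H a hHa)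
  have hNq : finrank κ (TanS E (fun x : Σ i, J i => (H x.1 x.2).eval a)) = N :=
    hN κ (fun i b => (H i b).eval a)
      (fun p hp => by rw [aeval_eval, hspecH p (hv p hp), eval_zero]) hHa
  have hNl : finrank (RatFunc κl)
      (TanS E (fun x : Σ i, J i => algebraMap κl[X] (RatFunc κl) (l x.1 x.2))) = N :=
    hN (RatFunc κl) (fun i b => algebraMap κl[X] (RatFunc κl) (l i b))
      (fun p hp => by rw [aeval_ratFunc, hspecl p (hv p hp), map_zero]) (hne l t0 hla)
  have hlE : OnX E l := fun p hp => hspecl p (hv p hp)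
  exact local_thm (E := E) (v := fun x : Σ i, J i => v x.1 x.2) (fun p hp => hv p hp) hgen hNv.le
    htr (fun x : Σ i, J i => H x.1 x.2) a Ψ (fun x => hΨ x.1 x.2) dL hdL hNH.le hNq hval
    (fun x : Σ i, J i => l x.1 x.2) t0 ψ (fun x => hψ x.1 x.2) hlq
    (movAt_of_frame hlE hm htrl t0 t ht hind hNl.le (fun p hp => hv p hp) hgen _
      (fun x => hψ x.1 x.2)) hφ r

end tuple

end Crest.Agent.R260.Der_169
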