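import Mathlib
import Crest.Agent.R270.BmDefs_360
import Crest.Agent.R270.Fr3_928
import Crest.Agent.R260.Der2_169
import Crest.Agent.R260.Pur3_920

/-!
# Row 260, A-QUAD (helper517), part 1: generic fields, amalgamation, frames of derivations
-/

set_option autoImplicit false
set_option linter.all false

noncomputable section

namespace Crest.Agent.R260.Quad_517

open Polynomial Module
open Crest.Agent.R270.BM_360 Crest.Agent.R270.Fr_928 Crest.Agent.R260.Der_169

/-! ### amalgamation of fields -/

theorem amalg {K A B : Type} [Field K] [Field A] [Field B] (f : K →+* A) (g : K →+* B) :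
    ∃ (M : Type) (_ : Field M) (α : A →+* M) (β : B →+* M), ∀ x, α (f x) = β (g x) := by
  letI := f.toAlgebra
  letI := g.toAlgebra
  haveI : Nontrivial (TensorProduct K A B) := inferInstance
  obtain ⟨m, hm⟩ := Ideal.exists_maximal (TensorProduct K A B)
  letI := Ideal.Quotient.field m
  refine ⟨TensorProduct K A B ⧸ m, inferInstance,
    (Ideal.Quotient.mk m).comp (Algebra.TensorProduct.includeLeft (R := K) (S := K) (A := A)
      (B := B)).toRingHom,
    (Ideal.Quotient.mk m).comp (Algebra.TensorProduct.includeRight (R := K) (A := A)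
      (B := B)).toRingHom, fun x => ?_⟩
  have h : (Algebra.TensorProduct.includeLeft (R := K) (S := K) (A := A) (B := B)) (f x) =
      (Algebra.TensorProduct.includeRight (R := K) (A := A) (B := B)) (g x) := by
    have h1 := (Algebra.TensorProduct.includeLeft (R := K) (S := K) (A := A) (B := B)).commutes x
    have h2 := (Algebra.TensorProduct.includeRight (R := K) (A := A) (B := B)).commutes x
    have h3 : algebraMap K A x = f x := rfl
    have h4 : algebraMap K B x = g x := rfl
    rw [h3] at h1
    rw [h4] at h2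
    rw [h1, h2]
  change Ideal.Quotient.mk m _ = Ideal.Quotient.mk m _
  exact congrArg _ h

/-! ### the field generated by a generic point -/

section gen

variable {F : Type} [Field F] {σ : Type}

theorem exists_gen {L : Type} [Field L] [Algebra F L] (y : σ → L) :
    ∃ (K : Type) (_ : Field K) (_ : Algebra F K) (v : σ → K),
      (∀ p : MvPolynomial σ F, MvPolynomial.aeval v p = 0 ↔ MvPolynomial.aeval y p = 0) ∧
      (∀ a : K, ∃ P Q : MvPolynomial σ F, MvPolynomial.aeval v Q ≠ 0 ∧
        a = MvPolynomial.aeval v P / MvPolynomial.aeval v Q) ∧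
      ∀ (M : Type) [Field M] [Algebra F M] (z : σ → M),
        (∀ p : MvPolynomial σ F, MvPolynomial.aeval y p = 0 ↔ MvPolynomial.aeval z p = 0) →
        ∃ ψ : K →ₐ[F] M, ∀ x, ψ (v x) = z x := by
  let I : Ideal (MvPolynomial σ F) := RingHom.ker (MvPolynomial.aeval (R := F) y)
  haveI : I.IsPrime := RingHom.ker_isPrime _
  let A := MvPolynomial σ F ⧸ I
  let v : σ → FractionRing A := fun x => algebraMap A _ (Ideal.Quotient.mk I (MvPolynomial.X x))
  have hv : ∀ p : MvPolynomial σ F, MvPolynomial.aeval v p =
      algebraMap A (FractionRing A) (Ideal.Quotient.mk I p) := by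
    intro p
    have h1 : MvPolynomial.aeval v = (Algebra.algHom F A (FractionRing A)).comp
        (Ideal.Quotient.mkₐ F I) := by
      apply MvPolynomial.algHom_ext
      intro x
      simp only [MvPolynomial.aeval_X, AlgHom.comp_apply]
      rfl
    rw [h1]
    rfl
  have hv0 : ∀ p : MvPolynomial σ F, MvPolynomial.aeval v p = 0 ↔
      MvPolynomial.aeval y p = 0 := by
    intro p
    rw [hv, FaithfulSMul.algebraMap_eq_zero_iff, Ideal.Quotient.eq_zero_iff_mem]
    exact RingHom.mem_ker
  refine ⟨FractionRing A, inferInstance, inferInstance, v, hv0, fun a => ?_, ?_⟩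
  · obtain ⟨P', Q', hQ', rfl⟩ := IsFractionRing.div_surjective (A := A) a
    obtain ⟨P, rfl⟩ := Ideal.Quotient.mk_surjective P'
    obtain ⟨Q, rfl⟩ := Ideal.Quotient.mk_surjective Q'
    refine ⟨P, Q, ?_, by rw [hv, hv]⟩
    rw [hv]
    intro h
    rw [FaithfulSMul.algebraMap_eq_zero_iff] at h
    exact nonZeroDivisors.ne_zero hQ' h
  · intro M _ _ z hz
    let g0 : A →ₐ[F] M := Ideal.Quotient.liftₐ I (MvPolynomial.aeval z) (fun p hp =>
      (hz p).1 (RingHom.mem_ker.1 hp))
    have hg0 : Function.Injective g0 := by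
      rw [injective_iff_map_eq_zero]
      intro a ha
      obtain ⟨p, rfl⟩ := Ideal.Quotient.mk_surjective a
      have h1 : g0 (Ideal.Quotient.mk I p) = MvPolynomial.aeval z p := rfl
      rw [h1] at ha
      rw [Ideal.Quotient.eq_zero_iff_mem]
      exact RingHom.mem_ker.2 ((hz p).2 ha)
    let g : FractionRing A →ₐ[F] M := IsFractionRing.liftAlgHom hg0
    refine ⟨g, fun x => ?_⟩
    have h2 : g (algebraMap A _ (Ideal.Quotient.mk I (MvPolynomial.X x))) =
        g0 (Ideal.Quotient.mk I (MvPolynomial.X x)) := IsFractionRing.lift_algebraMap hg0 _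
    change g (algebraMap A _ (Ideal.Quotient.mk I (MvPolynomial.X x))) = z x
    rw [h2]
    change MvPolynomial.aeval z (MvPolynomial.X x) = z x
    rw [MvPolynomial.aeval_X]

end gen

/-! ### frames of derivations of the generic field -/

section frames

variable {I : Type} {J : I → Type} [Fintype I] [∀ i, Fintype (J i)] {F K : Type} [Field F]
  [Field K] [Algebra F K] {E : Set (MvPolynomial (Σ i, J i) F)} {N : ℕ}

/-- the set of entries of a vector -/
def ent {A : Type} (v : ∀ i, J i → A) : Set A := {c | ∃ i b, v i b = c}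

/-- evaluation of derivations at the vector `v` -/
def evD (v : ∀ i, J i → K) : Derivation F K K →ₗ[K] ((Σ i, J i) → K) where
  toFun d := fun x => d (v x.1 x.2)
  map_add' d d' := by funext x; simp
  map_smul' c d := by funext x; simp

theorem evD_apply (v : ∀ i, J i → K) (d : Derivation F K K) (x : Σ i, J i) :
    evD v d x = d (v x.1 x.2) := rfl

theorem der_surj [CharZero F] (v : ∀ i, J i → K) (hv : OnX E v) (htr : TrGe F (ent v) N)
    (hT : finrank K (TanV E v) ≤ N) :
    finrank K (TanV E v) = N ∧ ∀ t ∈ TanV E v, ∃ d : Derivation F K K,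
      ∀ x : Σ i, J i, d (v x.1 x.2) = t x := by
  obtain ⟨h1, h2⟩ := exists_der (evD (F := F) v) (ent v) (by
    rintro δ hδ _ ⟨i, b, rfl⟩
    exact congrFun hδ ⟨i, b⟩) (TanV E v) (fun δ => der_mem_TanV hv δ) hT htr
  refine ⟨h1, fun t ht => ?_⟩
  obtain ⟨d, hd⟩ := h2 t ht
  exact ⟨d, fun x => congrFun hd x⟩

/-- coordinates which are injective on the tangent space -/
def InjC (E : Set (MvPolynomial (Σ i, J i) F)) (v : ∀ i, J i → K) (c : Fin N → Σ i, J i) : Prop :=
  ∀ t ∈ TanV E v, (∀ j, t (c j) = 0) → t = 0

theorem exists_frame [CharZero F] (v : ∀ i, J i → K) (hv : OnX E v) (htr : TrGe F (ent v) N)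
    (hT : finrank K (TanV E v) ≤ N) (c : Fin N → Σ i, J i) (hc : InjC E v c) :
    ∃ d : Fin N → Derivation F K K,
      ∀ i j, d j (v (c i).1 (c i).2) = if i = j then 1 else 0 := by
  obtain ⟨hfr, hder⟩ := der_surj v hv htr hT
  let pr : TanV E v →ₗ[K] (Fin N → K) :=
    { toFun := fun t j => (t : (Σ i, J i) → K) (c j)
      map_add' := fun s t => by funext j; simp
      map_smul' := fun a t => by funext j; simp }
  have hinj : Function.Injective pr := by
    rw [injective_iff_map_eq_zero]
    intro t ht
    ext x
    have := hc t t.2 (fun j => congrFun ht j)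
    rw [this]
    rfl
  have hsurj : Function.Surjective pr := by
    have hdim : finrank K (TanV E v) = finrank K (Fin N → K) := by simp [hfr]
    exact (LinearMap.injective_iff_surjective_of_finrank_eq_finrank hdim).1 hinj
  choose t ht using fun j : Fin N => hsurj (fun i => if i = j then 1 else 0)
  choose d hd using fun j => hder (t j) (t j).2
  refine ⟨d, fun i j => ?_⟩
  have := congrFun (ht j) i
  rw [hd j (c i)]
  exact this

theorem exists_injC [CharZero F] (v : ∀ i, J i → K) (hv : OnX E v) (htr : TrGe F (ent v) N)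
    (hT : finrank K (TanV E v) ≤ N) : ∃ c : Fin N → Σ i, J i, InjC E v c := by
  obtain ⟨hfr, -⟩ := der_surj v hv htr hT
  let b : Basis (Fin N) K (TanV E v) := (finBasisOfFinrankEq K (TanV E v) hfr)
  have hli : LinearIndependent K (fun j => ((b j : TanV E v) : (Σ i, J i) → K)) := by
    have := b.linearIndependent.map' (TanV E v).subtype (Submodule.ker_subtype _)
    exact this
  obtain ⟨c, hc⟩ := exists_minor _ hli
  refine ⟨c, fun t ht h0 => ?_⟩
  have h1 : t = ∑ j, b.repr ⟨t, ht⟩ j • ((b j : TanV E v) : (Σ i, J i) → K) := by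
    have := congrArg (TanV E v).subtype (b.sum_repr ⟨t, ht⟩)
    rw [map_sum] at this
    simpa using this.symm
  have h2 : (Matrix.of fun i j => ((b j : TanV E v) : (Σ i, J i) → K) (c i)).mulVec
      (fun j => b.repr ⟨t, ht⟩ j) = 0 := by
    funext i
    have h3 := congrFun h1 (c i)
    rw [h0 i, Finset.sum_apply] at h3
    simp only [Pi.smul_apply, smul_eq_mul] at h3
    simp only [Matrix.mulVec, dotProduct, Matrix.of_apply, Pi.zero_apply]
    rw [h3]
    exact Finset.sum_congr rfl fun j _ => mul_comm _ _
  have h4 := Matrix.eq_zero_of_mulVec_eq_zero hc h2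
  rw [h1]
  exact Finset.sum_eq_zero fun j _ => by
    have := congrFun h4 j
    simp only [Pi.zero_apply] at this
    rw [this, zero_smul]

variable {L : Type} [Field L] [Algebra F L]

/-- injectivity of the coordinates survives an extension of fields -/
theorem injC_ext (v : ∀ i, J i → K) (c : Fin N → Σ i, J i) (hc : InjC E v c) (ι : K →ₐ[F] L) :
    InjC E (fun i b => ι (v i b)) c := by
  intro t ht h0
  letI : Algebra K L := ι.toRingHom.toAlgebra
  funext x
  rw [Pi.zero_apply, ← Module.forall_dual_apply_eq_zero_iff K (t x)]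
  intro lam
  have h1 : (fun x => lam (t x)) ∈ TanV E v := by
    intro p hp
    have h2 := ht p hp
    have h3 : ∀ x : Σ i, J i, MvPolynomial.aeval (fun x : Σ i, J i => ι (v x.1 x.2))
        (MvPolynomial.pderiv x p) * t x =
        (MvPolynomial.aeval (fun x : Σ i, J i => v x.1 x.2) (MvPolynomial.pderiv x p)) • t x := by
      intro x
      have h4 : MvPolynomial.aeval (fun x : Σ i, J i => ι (v x.1 x.2))
          (MvPolynomial.pderiv x p) = ι (MvPolynomial.aeval (fun x : Σ i, J i => v x.1 x.2)
            (MvPolynomial.pderiv x p)) := (MvPolynomial.comp_aeval_apply _ _ _).symm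
      rw [h4]
      rfl
    have h5 := congrArg lam h2
    rw [map_zero, map_sum] at h5
    rw [← h5]
    refine Finset.sum_congr rfl fun x _ => ?_
    rw [h3, LinearMap.map_smul, smul_eq_mul]
  exact congrFun (hc _ h1 (fun j => by rw [h0 j, map_zero])) x

/-- a derivation of `L` in terms of the frame -/
theorem frame_expand (v : ∀ i, J i → K) (hv : OnX E v)
    (hgen : IntermediateField.adjoin F (ent v) = ⊤) (c : Fin N → Σ i, J i) (hc : InjC E v c)
    (d : Fin N → Derivation F K K)
    (hd : ∀ i j, d j (v (c i).1 (c i).2) = if i = j then 1 else 0) (ι : K →ₐ[F] L)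
    (D : Derivation F L L) (a : K) :
    D (ι a) = ∑ j, D (ι (v (c j).1 (c j).2)) * ι (d j a) := by
  let G : K →+ L :=
    { toFun := fun a => D (ι a) - ∑ j, D (ι (v (c j).1 (c j).2)) * ι (d j a)
      map_zero' := by simp
      map_add' := fun a b => by
        simp only [map_add, mul_add, Finset.sum_add_distrib]
        ring }
  have hG : ∀ a b, G (a * b) = ι a * G b + ι b * G a := by
    intro a b
    change D (ι (a * b)) - ∑ j, D (ι (v (c j).1 (c j).2)) * ι (d j (a * b)) =
      ι a * (D (ι b) - ∑ j, D (ι (v (c j).1 (c j).2)) * ι (d j b)) +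
      ι b * (D (ι a) - ∑ j, D (ι (v (c j).1 (c j).2)) * ι (d j a))
    have h1 : ∑ j, D (ι (v (c j).1 (c j).2)) * ι (d j (a * b)) =
        ι a * (∑ j, D (ι (v (c j).1 (c j).2)) * ι (d j b)) +
        ι b * (∑ j, D (ι (v (c j).1 (c j).2)) * ι (d j a)) := by
      rw [Finset.mul_sum, Finset.mul_sum, ← Finset.sum_add_distrib]
      refine Finset.sum_congr rfl fun j _ => ?_
      rw [Derivation.leibniz]
      simp only [smul_eq_mul, map_add, map_mul]
      ring
    rw [h1, map_mul, Derivation.leibniz]
    simp only [smul_eq_mul]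
    ring
  have hk : ∀ r : F, G (algebraMap F K r) = 0 := by
    intro r
    change D (ι (algebraMap F K r)) - ∑ j, D (ι (v (c j).1 (c j).2)) *
      ι (d j (algebraMap F K r)) = 0
    rw [ι.commutes, D.map_algebraMap]
    simp
  have hgv : ∀ x : Σ i, J i, G (v x.1 x.2) = 0 := by
    have h1 : (fun x : Σ i, J i => G (v x.1 x.2)) ∈ TanV E (fun i b => ι (v i b)) := by
      have hι : OnX E (fun i b => ι (v i b)) := by
        intro p hp
        have := congrArg ι (hv p hp)
        rw [map_zero] at this
        rw [← this]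
        exact (MvPolynomial.comp_aeval_apply _ _ _).symm
      have h2 := der_mem_TanV hι D
      have h3 : ∀ j : Fin N, (fun x : Σ i, J i => ι (d j (v x.1 x.2))) ∈
          TanV E (fun i b => ι (v i b)) := by
        intro j p hp
        have h4 := congrArg ι (der_mem_TanV hv (d j) p hp)
        rw [map_zero, map_sum] at h4
        rw [← h4]
        refine Finset.sum_congr rfl fun x _ => ?_
        rw [map_mul]
        congr 1
        exact (MvPolynomial.comp_aeval_apply _ _ _).symm
      have h5 : (fun x : Σ i, J i => G (v x.1 x.2)) =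
          (fun x : Σ i, J i => D (ι (v x.1 x.2))) -
          ∑ j, D (ι (v (c j).1 (c j).2)) • (fun x : Σ i, J i => ι (d j (v x.1 x.2))) := by
        funext x
        rw [Pi.sub_apply, Finset.sum_apply]
        rfl
      rw [h5]
      exact Submodule.sub_mem _ h2 (Submodule.sum_mem _ fun j _ =>
        Submodule.smul_mem _ _ (h3 j))
    have h2 := injC_ext v c hc ι _ h1 (fun i => by
      change D (ι (v (c i).1 (c i).2)) - ∑ j, D (ι (v (c j).1 (c j).2)) *
        ι (d j (v (c i).1 (c i).2)) = 0
      rw [Finset.sum_eq_single i]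
      · rw [hd, if_pos rfl, map_one, mul_one, sub_self]
      · intro j _ hj
        rw [hd, if_neg (fun h => hj h.symm), map_zero, mul_zero]
      · simp)
    intro x
    exact congrFun h2 x
  have h2 : IntermediateField.adjoin F (ent v) ≤ kerAlong ι G hG hk := by
    rw [IntermediateField.adjoin_le_iff]
    rintro _ ⟨i, b, rfl⟩
    exact hgv ⟨i, b⟩
  have h3 : a ∈ kerAlong ι G hG hk := by
    apply h2
    rw [hgen]
    trivial
  exact sub_eq_zero.1 h3

/-- extension of a derivation to an algebraic extension -/
theorem ext_alg [CharZero F] {K' : Type} [Field K'] [Algebra K K'] (d : Derivation F K K) :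
    ∃ D : Derivation ℤ K' K', ∀ a, D (algebraMap K K' a) = algebraMap K K' (d a) := by
  haveI : CharZero K := charZero_of_injective_algebraMap (algebraMap F K).injective
  letI : Algebra F K' := ((algebraMap K K').comp (algebraMap F K)).toAlgebra
  haveI : IsScalarTower F K K' := IsScalarTower.of_algebraMap_eq fun _ => rfl
  haveI := fs_charZero K K'
  obtain ⟨D, hD⟩ := ext_der (R := F) (A := K) (L := K') ((Algebra.linearMap K K').compDer d)
  exact ⟨D.restrictScalars ℤ, fun a => hD a⟩

end frames

end Crest.Agent.R260.Quad_517
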