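import Mathlib
import Crest.Agent.R260.QuadDefs_517
import Crest.Agent.R260.QuadB_517
import Crest.Agent.R260.Alg2_661
import Crest.Agent.R270.BmAlg_360

/-!
# Row 260, A-QUAD (helper517), part 3: transport along homomorphisms; the dichotomy
-/

set_option autoImplicit false
set_option linter.all false

noncomputable section

namespace Crest.Agent.R260.Quad_517

open Polynomial
open Crest.Agent.R270.BM_360 Crest.Agent.R260.Lin_678 Crest.Agent.R260.QuadDefs_517

variable {I : Type} {J : I → Type} [Fintype I] [∀ i, Fintype (J i)] {k : Type} [Field k]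

/-- image of a tuple under a homomorphism -/
def mp {κ κ' : Type} [Field κ] [Field κ'] (g : κ →+* κ') (F : ∀ i, J i → κ[X]) :
    ∀ i, J i → κ'[X] := fun i a => (F i a).map g

section transport

variable {κ κ' : Type} [Field κ] [Field κ'] [Algebra k κ] [Algebra k κ']

theorem isMap_mp {E : Set (MvPolynomial (Σ i, J i) k)} (g : κ →ₐ[k] κ') {F : ∀ i, J i → κ[X]}
    (hF : IsMap E F) : IsMap E (mp (g : κ →+* κ') F) := by
  refine ⟨?_, fun i => ?_⟩
  · have h := hF.on.map (Polynomial.mapAlgHom g)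
    exact h
  · exact (hF.cop i).map (Polynomial.mapRingHom (g : κ →+* κ'))

theorem cls_mp (g : κ →+* κ') (F : ∀ i, J i → κ[X]) : cls (mp g F) = cls F := by
  funext i
  simp [cls, vdeg, mp, Polynomial.natDegree_map]

theorem val_mp {D : CData k I J} (g : κ →ₐ[k] κ') {F : ∀ i, J i → κ[X]} {c : κ}
    (h : D.th.Val F (dd F) (C c)) :
    D.th.Val (mp (g : κ →+* κ') F) (dd (mp (g : κ →+* κ') F)) (C (g c)) := by
  have h1 := Crest.Agent.R260.Alg0_661.Val_map D.th (Polynomial.mapAlgHom g) h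
  have h2 : (fun i a => (Polynomial.mapAlgHom g) (F i a)) = mp (g : κ →+* κ') F := rfl
  have h3 : (fun i a => (Polynomial.mapAlgHom g) (dd F i a)) = dd (mp (g : κ →+* κ') F) := by
    funext i a
    change (derivative (F i a)).map (g : κ →+* κ') = derivative ((F i a).map (g : κ →+* κ'))
    rw [derivative_map]
  have h4 : (Polynomial.mapAlgHom g) (C c) = C (g c) := by simp
  rw [h2, h3, h4] at h1
  exact h1

theorem phi_map {D : CData k I J} (g : κ →+* κ') (a b : I → κ) (c : κ) :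
    g (phi D a b c) = phi D (fun i => g (a i)) (fun i => g (b i)) (g c) := by
  simp only [phi, map_mul, map_pow, map_prod, map_zpow₀]

theorem joins_mp {D : CData k I J} (g : κ →ₐ[k] κ') {f : ∀ i, J i → κ[X]} {x y : ∀ i, J i → κ}
    {a b : I → κ} {c : κ} (h : Joins D f x y a b c) :
    Joins D (mp (g : κ →+* κ') f) (fun i j => g (x i j)) (fun i j => g (y i j))
      (fun i => g (a i)) (fun i => g (b i)) (g c) where
  a0 i := (map_ne_zero g).2 (h.a0 i)
  b0 i := (map_ne_zero g).2 (h.b0 i)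
  lead i j := by
    change ((f i j).map (g : κ →+* κ')).coeff _ = _
    rw [coeff_map, h.lead]
    simp
  bot i j := by
    change ((f i j).map (g : κ →+* κ')).coeff _ = _
    rw [coeff_map, h.bot]
    simp
  val := val_mp g h.val

end transport

/-- the class is stable under homomorphisms -/
def MapCC (CC : Cls k J) : Prop :=
  ∀ (κ κ' : Type) [Field κ] [Field κ'] [Algebra k κ] [Algebra k κ'] (g : κ →ₐ[k] κ')
    (F : ∀ i, J i → κ[X]), CC κ F → CC κ' (mp (g : κ →+* κ') F)

theorem con_mp {D : CData k I J} {CC : Cls k J} (hCC : MapCC CC) {κ κ' : Type} [Field κ] [Field κ']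
    [Algebra k κ] [Algebra k κ'] (g : κ →ₐ[k] κ') {F : ∀ i, J i → κ[X]} (hF : Con D CC F) :
    Con D CC (mp (g : κ →+* κ') F) where
  map := isMap_mp g hF.map
  cls := by rw [cls_mp, hF.cls]
  cc := hCC κ κ' g F hF.cc

/-- the output of (DIV) over `F₀` -/
def DivOut (D : CData k I J) (CC : Cls k J) (F₀ : Type) [Field F₀] [Algebra k F₀] : Prop :=
  ∀ (k' : Type) [Field k'] [IsAlgClosed k'] [Algebra k k'] [Algebra F₀ k']
      [IsScalarTower k F₀ k'] (H : ∀ i, J i → k'[X]) (t : k'),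
      Con D CC H → TrGe F₀ (coeffs H) (hc D) → ¬ TrGe F₀ (rat (pt H t)) (2 * D.m + 1) →
      ∃ (kl : Type) (_ : Field kl) (_ : IsAlgClosed kl) (_ : Algebra k kl) (_ : Algebra F₀ kl)
        (_ : IsScalarTower k F₀ kl) (l : ∀ i, J i → kl[X]) (t₀ : kl),
        IsMap D.E l ∧ cls l = D.β ∧ TrGe F₀ (coeffs l) (hl D) ∧
        TrGe F₀ (ent (pt l t₀)) (2 * D.m + Fintype.card I) ∧
        ∀ p : MvPolynomial (Σ i, J i) F₀, MHm p → (evv (pt l t₀) p = 0 ↔ evv (pt H t) p = 0)

/-! ### descent of the quadratic polynomial -/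

theorem mem_range_of_root {A B : Type} [Field A] [Field B] [IsAlgClosed A] (g : A →+* B)
    {p : A[X]} (hp : p ≠ 0) {z : B} (hz : (p.map g).eval z = 0) : ∃ a, g a = z := by
  letI := g.toAlgebra
  have h1 : IsAlgebraic A z := ⟨p, hp, by rw [← hz, eval_map]; rfl⟩
  have h2 : IsIntegral A z := h1.isIntegral
  have h3 := IsAlgClosed.degree_eq_one_of_irreducible A (minpoly.irreducible h2)
  obtain ⟨a, ha⟩ := minpoly.mem_range_of_degree_eq_one A z h3
  exact ⟨a, ha⟩

theorem hev {A B : Type} [CommRing A] [CommRing B] (h : A →+* B) (R : A[X]) (x : A) :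
    h (R.eval x) = (R.map h).eval (h x) := by
  rw [← Polynomial.eval₂_hom, ← eval_map]

theorem descent {k' k₁ L L₁ : Type} [Field k'] [Field k₁] [Field L] [Field L₁] [IsAlgClosed k']
    [Algebra k' L] [Algebra k₁ L₁] (g' : k' →+* k₁) (g : L →+* L₁)
    (hg : ∀ x, g (algebraMap k' L x) = algebraMap k₁ L₁ (g' x)) (u : L)
    (hu : Transcendental k₁ (g u)) (φ : L)
    (hφ : IsAlgebraic (IntermediateField.adjoin k' {u}) φ) (n : ℕ) (p : k₁[X])
    (hn : p.natDegree ≤ n) (hp : g φ = aeval (g u) p) :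
    ∃ q : k'[X], q.natDegree ≤ n ∧ φ = aeval u q := by
  classical
  haveI : Infinite k' := IsAlgClosed.instInfinite
  -- a polynomial relation
  obtain ⟨P, hP0, hP⟩ : ∃ P : k'[X][X], P ≠ 0 ∧
      (P.map (aeval u : k'[X] →ₐ[k'] L).toRingHom).eval φ = 0 := by
    obtain ⟨P₀, hP0, hP⟩ := IntermediateField.isAlgebraic_adjoin_iff.1 hφ
    let au : k'[X] →ₐ[k'] Algebra.adjoin k' {u} :=
      aeval (⟨u, Algebra.subset_adjoin rfl⟩ : Algebra.adjoin k' {u})
    have hau : ∀ r, ((au r : Algebra.adjoin k' {u}) : L) = aeval u r := by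
      intro r
      have := Polynomial.aeval_algHom_apply (Algebra.adjoin k' {u}).val
        (⟨u, Algebra.subset_adjoin rfl⟩ : Algebra.adjoin k' {u}) r
      exact this.symm
    have hsurj : Function.Surjective (au : k'[X] →+* Algebra.adjoin k' {u}) := by
      rintro ⟨z, hz⟩
      rw [Algebra.adjoin_singleton_eq_range_aeval] at hz
      obtain ⟨r, hr⟩ := hz
      exact ⟨r, Subtype.ext ((hau r).trans hr)⟩
    obtain ⟨P, rfl⟩ := Polynomial.map_surjective _ hsurj P₀
    refine ⟨P, fun h => hP0 (by rw [h, Polynomial.map_zero]), ?_⟩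
    rw [← hP, aeval_def, eval₂_map, eval_map]
    congr 1
    ext r
    · exact (hau (C r)).symm
    · exact (hau X).symm
  -- transport
  have hcomp : (aeval (g u) : k₁[X] →ₐ[k₁] L₁).toRingHom.comp (mapRingHom g') =
      g.comp (aeval u : k'[X] →ₐ[k'] L).toRingHom := by
    apply Polynomial.ringHom_ext
    · intro a
      simp [hg]
    · simp
  let R : k₁[X][X] := P.map (mapRingHom g')
  have hT : R.eval p = 0 := by
    by_contra hne
    apply hu
    refine ⟨R.eval p, hne, ?_⟩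
    have h1 : aeval (g u) (R.eval p) = (R.map (aeval (g u) : k₁[X] →ₐ[k₁] L₁).toRingHom).eval
        (aeval (g u) p) := hev (aeval (g u) : k₁[X] →ₐ[k₁] L₁).toRingHom R p
    rw [h1, Polynomial.map_map, hcomp, ← hp, ← Polynomial.map_map, ← hev, hP, map_zero]
  -- values
  obtain ⟨m, hm⟩ : ∃ m, P.coeff m ≠ 0 := by
    by_contra h
    push Not at h
    exact hP0 (Polynomial.ext (by simpa using h))
  have hval : ∀ t : k', (P.coeff m).eval t ≠ 0 → ∃ v, g' v = p.eval (g' t) := by
    intro t ht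
    have h1 : P.map (evalRingHom t) ≠ 0 := by
      intro h
      have := congrArg (fun q => Polynomial.coeff q m) h
      simp only [coeff_map, coe_evalRingHom, coeff_zero] at this
      exact ht this
    refine mem_range_of_root g' h1 ?_
    have h2 := congrArg (Polynomial.eval (g' t)) hT
    rw [eval_zero] at h2
    have h3 : (R.eval p).eval (g' t) = (R.map (evalRingHom (g' t))).eval (p.eval (g' t)) :=
      hev (evalRingHom (g' t)) R p
    rw [h3, Polynomial.map_map] at h2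
    rw [Polynomial.map_map]
    have h4 : g'.comp (evalRingHom t) = (evalRingHom (g' t)).comp (mapRingHom g') := by
      apply Polynomial.ringHom_ext
      · intro a
        simp
      · simp
    rw [h4]
    exact h2
  have hinf : {t : k' | (P.coeff m).eval t ≠ 0}.Infinite := by
    have h1 : {t : k' | (P.coeff m).eval t = 0}.Finite := by
      refine (P.coeff m).roots.toFinset.finite_toSet.subset fun t ht => ?_
      simp only [Multiset.mem_toFinset, Finset.mem_coe]
      exact (mem_roots hm).2 ht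
    have h2 := h1.infinite_compl
    exact h2
  obtain ⟨S, hS, hcard⟩ := hinf.exists_subset_card_eq (n + 1)
  choose! v hv using hval
  let q : k'[X] := Lagrange.interpolate S id v
  have hinj : Set.InjOn (id : k' → k') S := Function.injective_id.injOn
  have hqd : q.degree < (n + 1 : ℕ) := by
    have := Lagrange.degree_interpolate_lt v hinj
    rwa [hcard] at this
  have hqv : ∀ t ∈ S, q.eval t = v t := fun t ht => Lagrange.eval_interpolate_at_node v hinj ht
  have hpq : q.map g' = p := by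
    have hc : (S.image g').card = n + 1 := by
      rw [Finset.card_image_of_injective _ g'.injective, hcard]
    refine Polynomial.eq_of_degrees_lt_of_eval_finset_eq (S.image g') ?_ ?_ ?_
    · rw [hc, degree_map]
      exact hqd
    · rw [hc]
      refine lt_of_le_of_lt degree_le_natDegree ?_
      exact_mod_cast Nat.lt_succ_of_le hn
    · intro x hx
      obtain ⟨t, ht, rfl⟩ := Finset.mem_image.1 hx
      rw [eval_map, ← hv t (hS ht), ← hqv t ht, Polynomial.eval₂_hom]
  refine ⟨q, ?_, g.injective ?_⟩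
  · rw [← natDegree_map g', hpq]
    exact hn
  · rw [hp, ← hpq]
    have h1 := RingHom.congr_fun hcomp q
    exact h1

/-! ### the dichotomy -/

theorem ent_map {A B : Type} (g : A → B) (x : ∀ i, J i → A) :
    QuadDefs_517.ent (fun i j => g (x i j)) = g '' QuadDefs_517.ent x := by
  ext c
  constructor
  · rintro ⟨i, b, rfl⟩
    exact ⟨_, ⟨i, b, rfl⟩, rfl⟩
  · rintro ⟨_, ⟨i, b, rfl⟩, rfl⟩
    exact ⟨i, b, rfl⟩

theorem coeffs_mp {κ κ' : Type} [Field κ] [Field κ'] (g : κ →+* κ') (F : ∀ i, J i → κ[X]) :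
    coeffs (mp g F) = g '' coeffs F := by
  ext c
  constructor
  · rintro ⟨i, a, j, rfl⟩
    exact ⟨_, ⟨i, a, j, rfl⟩, (coeff_map _ _).symm⟩
  · rintro ⟨_, ⟨i, a, j, rfl⟩, rfl⟩
    exact ⟨i, a, j, coeff_map _ _⟩

theorem onX_comp {E : Set (MvPolynomial (Σ i, J i) k)} {A B : Type} [Field A] [Field B]
    [Algebra k A] [Algebra k B] (g : A →ₐ[k] B) {x : ∀ i, J i → A} (hx : OnX E x) :
    OnX E (fun i j => g (x i j)) := OnX.map hx g

theorem ne_comp {A B : Type} [Field A] [Field B] (g : A →+* B) {x : ∀ i, J i → A}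
    (hx : ∀ i, x i ≠ 0) : ∀ i, (fun j => g (x i j)) ≠ 0 := by
  intro i h
  apply hx i
  funext j
  exact (map_eq_zero g).1 (congrFun h j)

theorem dich_core {D : CData k I J} {CC : Cls k J} (hCC : MapCC CC) (hK : KprimeP D)
    (hDiv : DivP D CC) {F₀ k' L F₁ k₁ L₁ : Type} [Field F₀] [Field k'] [Field L] [Field F₁]
    [Field k₁] [Field L₁] [IsAlgClosed F₀] [IsAlgClosed k'] [IsAlgClosed L] [IsAlgClosed F₁]
    [IsAlgClosed k₁] [IsAlgClosed L₁] [Algebra k F₀] [Algebra k k'] [Algebra k L]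
    [Algebra F₀ k'] [Algebra F₀ L] [Algebra k' L] [IsScalarTower k F₀ k'] [IsScalarTower k F₀ L]
    [IsScalarTower k k' L] [IsScalarTower F₀ k' L]
    [Algebra k F₁] [Algebra k k₁] [Algebra k L₁] [Algebra F₀ F₁] [Algebra F₀ k₁] [Algebra F₀ L₁]
    [Algebra F₁ k₁] [Algebra F₁ L₁] [Algebra k₁ L₁] [IsScalarTower k F₀ F₁] [IsScalarTower k F₀ k₁]
    [IsScalarTower k F₀ L₁] [IsScalarTower k F₁ k₁] [IsScalarTower k F₁ L₁]
    [IsScalarTower k k₁ L₁] [IsScalarTower F₀ F₁ k₁] [IsScalarTower F₀ F₁ L₁]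
    [IsScalarTower F₀ k₁ L₁] [IsScalarTower F₁ k₁ L₁]
    (τ₀ : F₀ →ₐ[k] F₁) (τ' : k' →ₐ[k] k₁) (τ : L →ₐ[k] L₁)
    (c0 : ∀ e, algebraMap F₁ L₁ (τ₀ e) = τ (algebraMap F₀ L e))
    (c1 : ∀ e, algebraMap k₁ L₁ (τ' e) = τ (algebraMap k' L e))
    (x₀ : ∀ i, J i → F₀) (H : ∀ i, J i → k'[X]) (u : L) (f : ∀ i, J i → L[X]) (a b : I → L)
    (c : L)
    (T0 : ∀ n, TrGe k (QuadDefs_517.ent x₀) n → TrGe F₀ (τ₀ '' QuadDefs_517.ent x₀) n)
    (T1 : ∀ n, TrGe F₀ (coeffs H) n → TrGe F₁ (τ' '' coeffs H) n)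
    (T2 : Transcendental k₁ (τ u))
    (T3 : Algebra.IsAlgebraic (IntermediateField.adjoin k₁ {τ u}) L₁)
    (hx : OnX D.E x₀) (hx0 : ∀ i, x₀ i ≠ 0) (hxt : TrGe k (QuadDefs_517.ent x₀) (nn D))
    (hH : Con D CC H) (hHt : TrGe F₀ (coeffs H) (hc D))
    (hL : Algebra.IsAlgebraic (IntermediateField.adjoin k' {u}) L)
    (hf : Con D CC f) (hj : Joins D f (up L x₀) (at' H u) a b c) :
    (∃ p : k'[X], p.natDegree ≤ 2 ∧ phi D a b c = aeval u p) ∨ DivOut D CC F₀ := by
  have e1 : (fun i j => τ (up L x₀ i j)) = up L₁ (fun i j => τ₀ (x₀ i j)) := by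
    funext i j
    exact (c0 (x₀ i j)).symm
  have e2 : (fun i j => τ (at' H u i j)) = at' (mp (τ' : k' →+* k₁) H) (τ u) := by
    funext i j
    change τ (aeval u (H i j)) = aeval (τ u) ((H i j).map (τ' : k' →+* k₁))
    rw [aeval_def, aeval_def, eval₂_map]
    have h1 := Polynomial.hom_eval₂ (H i j) (algebraMap k' L) (τ : L →+* L₁) u
    have h2 : (τ : L →+* L₁).comp (algebraMap k' L) = (algebraMap k₁ L₁).comp (τ' : k' →+* k₁) := by
      ext e
      exact (c1 e).symm
    rw [h2] at h1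
    exact h1
  have hf₁ : Con D CC (mp (τ : L →+* L₁) f) := con_mp hCC τ hf
  have hH₁ : Con D CC (mp (τ' : k' →+* k₁) H) := con_mp hCC τ' hH
  have hj₁ := joins_mp τ hj
  rw [e1, e2] at hj₁
  have hx₁ : OnX D.E (fun i j => τ₀ (x₀ i j)) := onX_comp τ₀ hx
  have hx₁0 : ∀ i, (fun j => τ₀ (x₀ i j)) ≠ 0 := ne_comp (τ₀ : F₀ →+* F₁) hx0
  by_cases hall : ∀ O : ValuationSubring L₁, (∀ z : k₁, algebraMap k₁ L₁ z ∈ O) →
      OneRadius D O (mp (τ : L →+* L₁) f) (fun i => τ (a i))
  · left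
    obtain ⟨p, hp2, hp⟩ := hK F₁ k₁ L₁ (fun i j => τ₀ (x₀ i j)) (mp (τ' : k' →+* k₁) H) (τ u)
      (mp (τ : L →+* L₁) f) (fun i => τ (a i)) (fun i => τ (b i)) (τ c) hx₁ hx₁0 hH₁.map hH₁.cls
      T2 hf₁.map hf₁.cls hj₁ hall
    refine descent (τ' : k' →+* k₁) (τ : L →+* L₁) (fun x => (c1 x).symm) u T2 _
      (hL.isAlgebraic _) 2 p hp2 ?_
    rw [phi_map]
    exact hp
  · right
    push Not at hall
    obtain ⟨O, hO, hnot⟩ := hall
    refine hDiv F₀ F₁ k₁ L₁ (fun i j => τ₀ (x₀ i j)) (mp (τ' : k' →+* k₁) H) (τ u)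
      (mp (τ : L →+* L₁) f) (fun i => τ (a i)) (fun i => τ (b i)) (τ c) hx₁ hx₁0 ?_ hH₁ ?_ T2 T3
      hf₁ hj₁ O hO hnot
    · rw [ent_map]
      exact T0 _ hxt
    · rw [coeffs_mp]
      exact T1 _ hHt

/-! ### pushing forward adjunctions -/

theorem adj_push {A κ B κ' : Type} [Field A] [Field κ] [Field B] [Field κ'] [Algebra A κ]
    [Algebra B κ'] (g : κ →+* κ') (gA : A →+* B)
    (hc : ∀ a, g (algebraMap A κ a) = algebraMap B κ' (gA a)) (S : Set κ) {e : κ}
    (he : e ∈ IntermediateField.adjoin A S) : g e ∈ IntermediateField.adjoin B (g '' S) := by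
  let N := IntermediateField.adjoin B (g '' S)
  let P : IntermediateField A κ :=
    { carrier := {e | g e ∈ N}
      mul_mem' := fun {a b} ha hb => by
        change g (a * b) ∈ N
        rw [map_mul]
        exact N.mul_mem ha hb
      add_mem' := fun {a b} ha hb => by
        change g (a + b) ∈ N
        rw [map_add]
        exact N.add_mem ha hb
      algebraMap_mem' := fun r => by
        change g (algebraMap A κ r) ∈ N
        rw [hc]
        exact N.algebraMap_mem _
      inv_mem' := fun a ha => by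
        change g a⁻¹ ∈ N
        rw [map_inv₀]
        exact N.inv_mem ha }
  have hP : IntermediateField.adjoin A S ≤ P := by
    rw [IntermediateField.adjoin_le_iff]
    intro s hs
    exact IntermediateField.subset_adjoin B _ ⟨s, hs, rfl⟩
  exact hP he

theorem alg_push {A κ B κ' : Type} [Field A] [Field κ] [Field B] [Field κ'] [Algebra A κ]
    [Algebra B κ'] (g : κ →+* κ') (gA : A →+* B)
    (hc : ∀ a, g (algebraMap A κ a) = algebraMap B κ' (gA a)) (S : Set κ) {e : κ}
    (he : IsAlgebraic (IntermediateField.adjoin A S) e) :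
    IsAlgebraic (IntermediateField.adjoin B (g '' S)) (g e) := by
  obtain ⟨p, hp0, hp⟩ := he
  let h : IntermediateField.adjoin A S →+* IntermediateField.adjoin B (g '' S) :=
    (g.comp (algebraMap (IntermediateField.adjoin A S) κ)).codRestrict _
      (fun x => adj_push g gA hc S x.2)
  refine ⟨p.map h, (Polynomial.map_ne_zero_iff h.injective).2 hp0, ?_⟩
  rw [Polynomial.aeval_def, Polynomial.eval₂_map]
  have h1 : (algebraMap (IntermediateField.adjoin B (g '' S)) κ').comp h =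
      g.comp (algebraMap (IntermediateField.adjoin A S) κ) := rfl
  have h3 := Polynomial.hom_eval₂ p (algebraMap (IntermediateField.adjoin A S) κ) g e
  have h2 : Polynomial.eval₂ (algebraMap (IntermediateField.adjoin A S) κ) e p = 0 := hp
  rw [h2, map_zero] at h3
  rw [h1]
  exact h3.symm

theorem trge_push {A κ B κ' : Type} [Field A] [Field κ] [Field B] [Field κ'] [Algebra A κ]
    [Algebra B κ'] (g : κ →+* κ') (gA : A →+* B)
    (hc : ∀ a, g (algebraMap A κ a) = algebraMap B κ' (gA a)) (S : Set κ) (n : ℕ)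
    (hind : ∀ w : Fin n → κ, AlgebraicIndependent A w → AlgebraicIndependent B (fun i => g (w i)))
    (h : TrGe A S n) : TrGe B (g '' S) n := by
  obtain ⟨w, hw, hi⟩ := h
  exact ⟨fun i => g (w i), fun j => adj_push g gA hc S (hw j), hind w hi⟩

theorem alg_top {F₀ k' L Ω : Type} [Field F₀] [Field k'] [Field L] [Field Ω] [Algebra k' L]
    [Algebra F₀ Ω] (k₁ : IntermediateField F₀ Ω) (τ : L →+* Ω) (τ' : k' →+* k₁)
    (hc : ∀ e, τ (algebraMap k' L e) = τ' e) (u : L)
    (hL : Algebra.IsAlgebraic (IntermediateField.adjoin k' {u}) L)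
    (hΩ : ∀ K : IntermediateField F₀ Ω, (∀ e, τ e ∈ K) → ∀ z : Ω, IsAlgebraic K z) :
    Algebra.IsAlgebraic (IntermediateField.adjoin k₁ {τ u}) Ω := by
  refine ⟨fun z => ?_⟩
  generalize hN : IntermediateField.adjoin k₁ {τ u} = N
  let A := (algebraicClosure N Ω)
  have hA : ∀ e : L, τ e ∈ A := by
    intro e
    rw [mem_algebraicClosure_iff]
    have h1 := alg_push τ τ' hc {u} (hL.isAlgebraic e)
    rw [Set.image_singleton, hN] at h1
    exact h1
  have hF : ∀ r : F₀, algebraMap F₀ Ω r ∈ A := by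
    intro r
    have h1 : algebraMap F₀ Ω r ∈ N := N.algebraMap_mem (algebraMap F₀ k₁ r)
    exact A.algebraMap_mem ⟨_, h1⟩
  let K : IntermediateField F₀ Ω :=
    { carrier := {e | e ∈ A}
      mul_mem' := fun {a b} ha hb => A.mul_mem ha hb
      add_mem' := fun {a b} ha hb => A.add_mem ha hb
      algebraMap_mem' := hF
      inv_mem' := fun a ha => A.inv_mem ha }
  obtain ⟨p, hp0, hp⟩ := hΩ K hA z
  let g : K →+* A := (algebraMap K Ω).codRestrict A (fun x => x.2)
  have h1 : IsAlgebraic A z := by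
    refine ⟨p.map g, (Polynomial.map_ne_zero_iff g.injective).2 hp0, ?_⟩
    rw [Polynomial.aeval_def, Polynomial.eval₂_map]
    exact hp
  exact h1.restrictScalars _

theorem dich_mid {D : CData k I J} {CC : Cls k J} (hCC : MapCC CC)
    (hK : KprimeP D) (hDiv : DivP D CC)
    {F₀ k' L : Type} [Field F₀] [Field k'] [Field L] [IsAlgClosed F₀] [IsAlgClosed k']
    [IsAlgClosed L] [Algebra k F₀] [Algebra k k'] [Algebra k L] [Algebra F₀ k'] [Algebra F₀ L]
    [Algebra k' L] [IsScalarTower k F₀ k'] [IsScalarTower k F₀ L] [IsScalarTower k k' L]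
    [IsScalarTower F₀ k' L]
    (x₀ : ∀ i, J i → F₀) (H : ∀ i, J i → k'[X]) (u : L) (f : ∀ i, J i → L[X]) (a b : I → L)
    (c : L) (hx : OnX D.E x₀) (hx0 : ∀ i, x₀ i ≠ 0)
    (hxt : TrGe k (QuadDefs_517.ent x₀) (nn D))
    (hH : Con D CC H) (hHt : TrGe F₀ (coeffs H) (hc D)) (hu : Transcendental k' u)
    (hL : Algebra.IsAlgebraic (IntermediateField.adjoin k' {u}) L)
    (hf : Con D CC f) (hj : Joins D f (up L x₀) (at' H u) a b c)
    (Ω : Type) [Field Ω] [IsAlgClosed Ω] [Algebra k Ω] [Algebra F₀ Ω] [IsScalarTower k F₀ Ω]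
    (τ : L →ₐ[k] Ω) (hτ : ∀ (ι : Type) (w : ι → L), AlgebraicIndependent k w →
        AlgebraicIndependent F₀ (fun i => τ (w i)))
    (hΩ : ∀ K : IntermediateField F₀ Ω, (∀ e, τ e ∈ K) → ∀ z : Ω, IsAlgebraic K z)
    (F₁ k₁ : IntermediateField F₀ Ω) [IsAlgClosed F₁] [IsAlgClosed k₁]
    (m0 : ∀ e : F₀, τ (algebraMap F₀ L e) ∈ F₁) (m1 : ∀ e : k', τ (algebraMap k' L e) ∈ k₁)
    (h01 : F₁ ≤ k₁)
    (i0 : ∀ (n : ℕ) (w : Fin n → L), AlgebraicIndependent F₀ w →
      AlgebraicIndependent F₁ (fun i => τ (w i)))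
    (i1 : AlgebraicIndependent k' (fun _ : Unit => u) →
      AlgebraicIndependent k₁ (fun _ : Unit => τ u)) :
    (∃ p : k'[X], p.natDegree ≤ 2 ∧ phi D a b c = aeval u p) ∨ DivOut D CC F₀ := by
  letI A01 : Algebra F₁ k₁ := (IntermediateField.inclusion h01).toAlgebra
  haveI : IsScalarTower k F₁ k₁ := IsScalarTower.of_algebraMap_eq fun _ => rfl
  haveI : IsScalarTower F₀ F₁ k₁ := IsScalarTower.of_algebraMap_eq fun _ => rfl
  haveI : IsScalarTower F₁ k₁ Ω := IsScalarTower.of_algebraMap_eq fun _ => rfl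
  haveI : IsScalarTower k F₁ Ω := IsScalarTower.of_algebraMap_eq fun x => by
    rw [IsScalarTower.algebraMap_apply k F₀ Ω, IsScalarTower.algebraMap_apply k F₀ F₁]
    rfl
  haveI : IsScalarTower k k₁ Ω := IsScalarTower.of_algebraMap_eq fun x => by
    rw [IsScalarTower.algebraMap_apply k F₀ Ω, IsScalarTower.algebraMap_apply k F₀ k₁]
    rfl
  let τ₀ : F₀ →ₐ[k] F₁ :=
    { (τ.toRingHom.comp (algebraMap F₀ L)).codRestrict F₁ m0 with
      commutes' := fun r => Subtype.ext (by
        change τ (algebraMap F₀ L (algebraMap k F₀ r)) = algebraMap F₁ Ω (algebraMap k F₁ r)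
        rw [← IsScalarTower.algebraMap_apply k F₀ L, τ.commutes,
          ← IsScalarTower.algebraMap_apply k F₁ Ω]) }
  let τ' : k' →ₐ[k] k₁ :=
    { (τ.toRingHom.comp (algebraMap k' L)).codRestrict k₁ m1 with
      commutes' := fun r => Subtype.ext (by
        change τ (algebraMap k' L (algebraMap k k' r)) = algebraMap k₁ Ω (algebraMap k k₁ r)
        rw [← IsScalarTower.algebraMap_apply k k' L, τ.commutes,
          ← IsScalarTower.algebraMap_apply k k₁ Ω]) }
  have hτu : Transcendental k₁ (τ u) := by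
    have h1 := i1 (algebraicIndependent_unique_type_iff.2 hu)
    exact algebraicIndependent_unique_type_iff.1 h1
  refine dich_core hCC hK hDiv τ₀ τ' τ (fun e => rfl) (fun e => rfl) x₀ H u f a b c ?_ ?_ hτu ?_
    hx hx0 hxt hH hHt hL hf hj
  · intro n hn
    refine trge_push (τ₀ : F₀ →+* F₁) (algebraMap k F₀) (fun r => ?_) _ n (fun w hw => ?_) hn
    · change τ₀ (algebraMap k F₀ r) = _
      rw [τ₀.commutes, IsScalarTower.algebraMap_apply k F₀ F₁]
    · have h1 : AlgebraicIndependent k (fun i => algebraMap F₀ L (w i)) :=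
        hw.map' (f := IsScalarTower.toAlgHom k F₀ L) (algebraMap F₀ L).injective
      have h2 : AlgebraicIndependent F₀ (fun i => τ (algebraMap F₀ L (w i))) := hτ _ _ h1
      exact AlgebraicIndependent.of_comp (x := fun i => (τ₀ (w i) : F₁))
        (IsScalarTower.toAlgHom F₀ F₁ Ω) h2
  · intro n hn
    refine trge_push (τ' : k' →+* k₁) (τ₀ : F₀ →+* F₁) (fun r => ?_) _ n (fun w hw => ?_) hn
    · apply Subtype.ext
      change τ (algebraMap k' L (algebraMap F₀ k' r)) = τ (algebraMap F₀ L r)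
      rw [← IsScalarTower.algebraMap_apply F₀ k' L]
    · have h1 : AlgebraicIndependent F₀ (fun i => algebraMap k' L (w i)) :=
        hw.map' (f := IsScalarTower.toAlgHom F₀ k' L) (algebraMap k' L).injective
      have h2 := i0 n _ h1
      exact AlgebraicIndependent.of_comp (x := fun i => (τ' (w i) : k₁))
        (IsScalarTower.toAlgHom F₁ k₁ Ω) h2
  · exact alg_top k₁ (τ : L →+* Ω) (τ' : k' →+* k₁) (fun e => rfl) u hL hΩ

theorem dichotomy [IsAlgClosed k] {D : CData k I J} {CC : Cls k J} (hCC : MapCC CC)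
    (hK : KprimeP D) (hDiv : DivP D CC)
    {F₀ k' L : Type} [Field F₀] [Field k'] [Field L] [IsAlgClosed F₀] [IsAlgClosed k']
    [IsAlgClosed L] [Algebra k F₀] [Algebra k k'] [Algebra k L] [Algebra F₀ k'] [Algebra F₀ L]
    [Algebra k' L] [IsScalarTower k F₀ k'] [IsScalarTower k F₀ L] [IsScalarTower k k' L]
    [IsScalarTower F₀ k' L]
    (x₀ : ∀ i, J i → F₀) (H : ∀ i, J i → k'[X]) (u : L) (f : ∀ i, J i → L[X]) (a b : I → L)
    (c : L) (hx : OnX D.E x₀) (hx0 : ∀ i, x₀ i ≠ 0)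
    (hxt : TrGe k (QuadDefs_517.ent x₀) (nn D))
    (hH : Con D CC H) (hHt : TrGe F₀ (coeffs H) (hc D)) (hu : Transcendental k' u)
    (hL : Algebra.IsAlgebraic (IntermediateField.adjoin k' {u}) L)
    (hf : Con D CC f) (hj : Joins D f (up L x₀) (at' H u) a b c) :
    (∃ p : k'[X], p.natDegree ≤ 2 ∧ phi D a b c = aeval u p) ∨ DivOut D CC F₀ := by
  obtain ⟨Ω, _, _, _, _, _, τ, hτ, hΩ⟩ := exists_copy k F₀ L
  refine dich_mid hCC hK hDiv x₀ H u f a b c hx hx0 hxt hH hHt hu hL hf hj Ω τ hτ hΩ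
    (cl (Set.range fun e : F₀ => τ (algebraMap F₀ L e)))
    (cl (Set.range fun e : k' => τ (algebraMap k' L e)))
    (fun e => subset_cl _ ⟨e, rfl⟩) (fun e => subset_cl _ ⟨e, rfl⟩)
    (cl_le ?_)
    (fun n w hw => indep_rel (E := F₀) τ hτ _
      (fun S hS => cl_le (by rintro _ ⟨e, rfl⟩; exact hS e)) w hw)
    (fun hw => indep_rel (E := k') τ hτ _
      (fun S hS => cl_le (by rintro _ ⟨e, rfl⟩; exact hS e)) _ hw)
  rintro _ ⟨e, rfl⟩
  refine subset_cl _ ⟨algebraMap F₀ k' e, ?_⟩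
  change τ _ = τ _
  rw [← IsScalarTower.algebraMap_apply F₀ k' L]

end Crest.Agent.R260.Quad_517
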