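import Mathlib
import Crest.Agent.R260.QuadC_517
import Crest.Agent.R260.QuadA_517
import Crest.Agent.R260.Der5_169

/-!
# Row 260, A-QUAD (helper517), part 4: regularity of the conjugates, the place theorem
-/

set_option autoImplicit false
set_option linter.all false

noncomputable section

namespace Crest.Agent.R260.Quad_517

open Polynomial Module
open Crest.Agent.R270.BM_360 Crest.Agent.R260.Lin_678 Crest.Agent.R260.QuadDefs_517
open Crest.Agent.R260.Der_169

variable {I : Type} {J : I → Type} [Fintype I] [∀ i, Fintype (J i)] {k : Type} [Field k]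

/-- amalgamation inside an algebraically closed field -/
theorem amalgC {K A B : Type} [Field K] [Field A] [Field B] (f : K →+* A) (g : K →+* B) :
    ∃ (M : Type) (_ : Field M) (_ : IsAlgClosed M) (α : A →+* M) (β : B →+* M),
      ∀ x, α (f x) = β (g x) := by
  obtain ⟨M, iM, α, β, h⟩ := amalg f g
  exact ⟨AlgebraicClosure M, inferInstance, inferInstance, (algebraMap M _).comp α,
    (algebraMap M _).comp β, fun x => congrArg (algebraMap M (AlgebraicClosure M)) (h x)⟩

/-! ### regularity of the conjugates along a line -/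

theorem conj_lin {D : CData k I J} (hLin : LinP D) {F₀ L K kl M : Type} [Field F₀] [Field L]
    [Field K] [Field kl] [Field M] [IsAlgClosed F₀] [IsAlgClosed kl] [Algebra k F₀] [Algebra k L]
    [Algebra F₀ L] [IsScalarTower k F₀ L] [Algebra F₀ K] [Algebra K L] [IsScalarTower F₀ K L]
    [Algebra k kl] [Algebra F₀ kl] [IsScalarTower k F₀ kl]
    (v : ∀ i, J i → K) (x₀ : ∀ i, J i → F₀) (hx : OnX D.E x₀) (hx0 : ∀ i, x₀ i ≠ 0)
    (f : ∀ i, J i → L[X]) (a b : I → L) (c : L) (hf : IsMap D.E f) (hfc : cls f = 2 • D.β)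
    (hj : Joins D f (up L x₀) (fun i j => algebraMap K L (v i j)) a b c)
    (hφ : IsIntegral K (phi D a b c))
    (l : ∀ i, J i → kl[X]) (hl : IsMap D.E l) (hlc : cls l = D.β)
    (ψ₀ : K →ₐ[F₀] RatFunc kl)
    (hψ₀ : ∀ i j, ψ₀ (v i j) = algebraMap kl[X] (RatFunc kl) (l i j))
    (g : RatFunc kl →+* M) (ρ : M)
    (hρ : (minpoly K (phi D a b c)).eval₂ (g.comp (ψ₀ : K →+* RatFunc kl)) ρ = 0) :
    ∃ a0 a1 : kl, ρ = g (algebraMap kl[X] (RatFunc kl) (C a0 + C a1 * X)) := by
  set φ := phi D a b c with hφd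
  haveI : Fact (Irreducible (minpoly K φ)) := ⟨minpoly.irreducible hφ⟩
  let fL : AdjoinRoot (minpoly K φ) →+* L :=
    AdjoinRoot.lift (algebraMap K L) φ (minpoly.aeval K φ)
  let gM : AdjoinRoot (minpoly K φ) →+* M :=
    AdjoinRoot.lift (g.comp (ψ₀ : K →+* RatFunc kl)) ρ hρ
  obtain ⟨M₃, iM₃, aM₃, α, β, hαβ⟩ := amalgC fL gM
  have hK : ∀ x : K, α (algebraMap K L x) = β (g (ψ₀ x)) := by
    intro x
    have h1 := hαβ (AdjoinRoot.of _ x)
    have h2 : fL (AdjoinRoot.of _ x) = algebraMap K L x := AdjoinRoot.lift_of _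
    have h3 : gM (AdjoinRoot.of _ x) = g (ψ₀ x) := AdjoinRoot.lift_of _
    rw [h2, h3] at h1
    exact h1
  have hroot : α φ = β ρ := by
    have h1 := hαβ (AdjoinRoot.root _)
    have h2 : fL (AdjoinRoot.root _) = φ := AdjoinRoot.lift_root _
    have h3 : gM (AdjoinRoot.root _) = ρ := AdjoinRoot.lift_root _
    rw [h2, h3] at h1
    exact h1
  letI A1 : Algebra kl M₃ := ((β.comp g).comp (algebraMap kl (RatFunc kl))).toAlgebra
  letI A2 : Algebra F₀ M₃ := ((algebraMap kl M₃).comp (algebraMap F₀ kl)).toAlgebra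
  letI A3 : Algebra k M₃ := ((algebraMap F₀ M₃).comp (algebraMap k F₀)).toAlgebra
  haveI T1 : IsScalarTower k F₀ M₃ := IsScalarTower.of_algebraMap_eq fun _ => rfl
  haveI T2 : IsScalarTower F₀ kl M₃ := IsScalarTower.of_algebraMap_eq fun _ => rfl
  haveI T3 : IsScalarTower k kl M₃ := IsScalarTower.of_algebraMap_eq fun x => by
    change algebraMap kl M₃ (algebraMap F₀ kl (algebraMap k F₀ x)) = _
    rw [← IsScalarTower.algebraMap_apply k F₀ kl]
  have hF : ∀ r : F₀, α (algebraMap F₀ L r) = algebraMap F₀ M₃ r := by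
    intro r
    rw [IsScalarTower.algebraMap_apply F₀ K L, hK, ψ₀.commutes]
    change β (g (algebraMap F₀ (RatFunc kl) r)) =
      β (g (algebraMap kl (RatFunc kl) (algebraMap F₀ kl r)))
    rw [← IsScalarTower.algebraMap_apply F₀ kl (RatFunc kl)]
  let αk : L →ₐ[k] M₃ :=
    { α with
      commutes' := fun r => by
        change α (algebraMap k L r) = algebraMap F₀ M₃ (algebraMap k F₀ r)
        rw [IsScalarTower.algebraMap_apply k F₀ L, hF] }
  set s : M₃ := β (g (algebraMap kl[X] (RatFunc kl) X)) with hs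
  have hpol : ∀ p : kl[X], β (g (algebraMap kl[X] (RatFunc kl) p)) = aeval s p := by
    intro p
    induction p using Polynomial.induction_on' with
    | add p q hp hq => rw [map_add, map_add, map_add, map_add, hp, hq]
    | monomial n c =>
      rw [← C_mul_X_pow_eq_monomial, map_mul, map_mul, map_mul, map_pow, map_pow, map_pow,
        map_mul, map_pow, aeval_C, aeval_X, ← hs]
      rfl
  have hst : Transcendental kl s := by
    rw [transcendental_iff]
    intro p hp
    rw [← hpol] at hp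
    have h1 := (map_eq_zero β).1 hp
    have h2 := (map_eq_zero g).1 h1
    exact (FaithfulSMul.algebraMap_eq_zero_iff _ _).1 h2
  have hj' := joins_mp αk hj
  have e1 : (fun i j => αk (up L x₀ i j)) = up M₃ x₀ := by
    funext i j
    exact hF (x₀ i j)
  have e2 : (fun i j => αk (algebraMap K L (v i j))) = at' l s := by
    funext i j
    change α (algebraMap K L (v i j)) = aeval s (l i j)
    rw [hK, hψ₀, hpol]
  rw [e1, e2] at hj'
  obtain ⟨a0, a1, h⟩ := hLin F₀ kl M₃ x₀ l s _ _ _ _ hx hx0 hl hlc hst (isMap_mp αk hf)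
    (by rw [cls_mp, hfc]) hj'
  refine ⟨a0, a1, ?_⟩
  have h1 := phi_map (D := D) (αk : L →+* M₃) a b c
  have h2 : αk φ = algebraMap kl M₃ a0 + algebraMap kl M₃ a1 * s := h1.trans h
  have h3 : α φ = β (g (algebraMap kl[X] (RatFunc kl) (C a0 + C a1 * X))) := by
    rw [hpol, map_add, map_mul, aeval_C, aeval_C, aeval_X]
    exact h2
  rw [hroot] at h3
  exact β.injective h3

theorem conj_emb {D : CData k I J} (hLin : LinP D) {F₀ L K kl : Type} [Field F₀] [Field L]
    [Field K] [Field kl] [IsAlgClosed F₀] [IsAlgClosed L] [IsAlgClosed kl] [Algebra k F₀]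
    [Algebra k L] [Algebra F₀ L] [IsScalarTower k F₀ L] [Algebra F₀ K] [Algebra K L]
    [IsScalarTower F₀ K L] [Algebra k kl] [Algebra F₀ kl] [IsScalarTower k F₀ kl]
    (v : ∀ i, J i → K) (x₀ : ∀ i, J i → F₀) (hx : OnX D.E x₀) (hx0 : ∀ i, x₀ i ≠ 0)
    (f : ∀ i, J i → L[X]) (a b : I → L) (c : L) (hf : IsMap D.E f) (hfc : cls f = 2 • D.β)
    (hj : Joins D f (up L x₀) (fun i j => algebraMap K L (v i j)) a b c)
    (hφ : IsIntegral K (phi D a b c))
    (l : ∀ i, J i → kl[X]) (hl : IsMap D.E l) (hlc : cls l = D.β)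
    (ψ₀ : K →ₐ[F₀] RatFunc kl)
    (hψ₀ : ∀ i j, ψ₀ (v i j) = algebraMap kl[X] (RatFunc kl) (l i j))
    (K' : IntermediateField K L)
    [hspl : IsSplittingField K K' (minpoly K (phi D a b c))] (φ' : K')
    (hφ' : (φ' : L) = phi D a b c) :
    ∃ ψ : K' →ₐ[F₀] RatFunc kl,
      (∀ x, ψ (algebraMap K K' x) = ψ₀ x) ∧
      ∀ (t₀ : kl) (τ : K' ≃ₐ[K] K'), ψ (τ φ') ∈ RegAt t₀ := by
  letI A1 : Algebra K (RatFunc kl) := (ψ₀ : K →+* RatFunc kl).toAlgebra
  have hψ₀' : ∀ x, algebraMap K (RatFunc kl) x = ψ₀ x := fun _ => rfl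
  haveI T1 : IsScalarTower F₀ K (RatFunc kl) := IsScalarTower.of_algebraMap_eq fun r => by
    rw [hψ₀', ψ₀.commutes]
  have hsp : ((minpoly K (phi D a b c)).map (algebraMap K (RatFunc kl))).Splits := by
    refine Polynomial.Splits.of_splits_map_of_injective
      (i := algebraMap (RatFunc kl) (AlgebraicClosure (RatFunc kl)))
      (FaithfulSMul.algebraMap_injective _ _) (IsAlgClosed.splits _) (fun ρ hρ => ?_)
    have h1 : (minpoly K (phi D a b c)).eval₂
        ((algebraMap (RatFunc kl) (AlgebraicClosure (RatFunc kl))).comp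
          (ψ₀ : K →+* RatFunc kl)) ρ = 0 := by
      have h2 := (mem_roots'.1 hρ).2
      rw [IsRoot.def, eval_map, eval₂_map] at h2
      exact h2
    obtain ⟨a0, a1, h⟩ := conj_lin hLin v x₀ hx hx0 f a b c hf hfc hj hφ l hl hlc ψ₀ hψ₀ _ ρ h1
    exact ⟨_, h.symm⟩
  let ψK : K' →ₐ[K] RatFunc kl := IsSplittingField.lift K' (minpoly K (phi D a b c)) hsp
  refine ⟨ψK.restrictScalars F₀, fun x => ψK.commutes x, fun t₀ τ => ?_⟩
  have h1 : (minpoly K (phi D a b c)).eval₂ ((RingHom.id (RatFunc kl)).comp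
      (ψ₀ : K →+* RatFunc kl)) (ψK (τ φ')) = 0 := by
    have h2 : aeval φ' (minpoly K (phi D a b c)) = 0 := by
      apply Subtype.ext
      have h3 := Polynomial.aeval_algHom_apply K'.val φ' (minpoly K (phi D a b c))
      rw [← hφ'] at h3 ⊢
      have h4 : aeval (K'.val φ') (minpoly K (φ' : L)) = 0 := minpoly.aeval K (φ' : L)
      rw [h4] at h3
      exact h3.symm
    have h3 : aeval (ψK (τ φ')) (minpoly K (phi D a b c)) = 0 := by
      have h4 := Polynomial.aeval_algHom_apply (ψK.comp (τ : K' →ₐ[K] K')) φ'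
        (minpoly K (phi D a b c))
      rw [h2, map_zero] at h4
      exact h4
    exact h3
  obtain ⟨a0, a1, h⟩ := conj_lin hLin v x₀ hx hx0 f a b c hf hfc hj hφ l hl hlc ψ₀ hψ₀ _ _ h1
  change ψK (τ φ') ∈ RegAt t₀
  rw [h]
  exact poly_mem_RegAt _ _

end Crest.Agent.R260.Quad_517
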