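import Mathlib
import Crest.Agent.R260.QuadD_517
import Crest.Agent.R260.Gp3_169

/-!
# Row 260, A-QUAD (helper517), part 5: equations over `F₀`, the place theorem
-/

set_option autoImplicit false
set_option linter.all false

noncomputable section

namespace Crest.Agent.R260.Quad_517

open Polynomial Module
open Crest.Agent.R270.BM_360 Crest.Agent.R260.Lin_678 Crest.Agent.R260.QuadDefs_517
open Crest.Agent.R260.Der_169

variable {I : Type} {J : I → Type} [Fintype I] [∀ i, Fintype (J i)] {k : Type} [Field k]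

/-! ### the equations over a bigger field -/

/-- the equations over `F` -/
def EF (E : Set (MvPolynomial (Σ i, J i) k)) (F : Type) [Field F] [Algebra k F] :
    Set (MvPolynomial (Σ i, J i) F) := (MvPolynomial.map (algebraMap k F)) '' E

section EF

variable {E : Set (MvPolynomial (Σ i, J i) k)} {F : Type} [Field F] [Algebra k F] {A : Type}
  [CommRing A] [Algebra k A] [Algebra F A] [IsScalarTower k F A]

theorem onX_EF {v : ∀ i, J i → A} : OnX (EF E F) v ↔ OnX E v := by
  constructor
  · intro h p hp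
    have := h _ ⟨p, hp, rfl⟩
    rwa [MvPolynomial.aeval_map_algebraMap] at this
  · rintro h _ ⟨p, hp, rfl⟩
    rw [MvPolynomial.aeval_map_algebraMap]
    exact h p hp

theorem tan_EF {v : ∀ i, J i → A} {t : ∀ i, J i → A} :
    (∀ p ∈ EF E F, ∑ x : Σ i, J i, MvPolynomial.aeval (fun x : Σ i, J i => v x.1 x.2)
      (MvPolynomial.pderiv x p) * t x.1 x.2 = 0) ↔ Tan E v t := by
  have h : ∀ (p : MvPolynomial (Σ i, J i) k) (x : Σ i, J i),
      MvPolynomial.aeval (fun x : Σ i, J i => v x.1 x.2)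
        (MvPolynomial.pderiv x (MvPolynomial.map (algebraMap k F) p)) =
      MvPolynomial.aeval (fun x : Σ i, J i => v x.1 x.2) (MvPolynomial.pderiv x p) := by
    intro p x
    rw [MvPolynomial.pderiv_map, MvPolynomial.aeval_map_algebraMap]
  constructor
  · intro hh p hp
    have := hh _ ⟨p, hp, rfl⟩
    simp only [h] at this
    exact this
  · rintro hh _ ⟨p, hp, rfl⟩
    simp only [h]
    exact hh p hp

/-- tangent spaces in the two languages -/
def tanEquiv (v : ∀ i, J i → A) :
    TanS (EF E F) (fun x : Σ i, J i => v x.1 x.2) ≃ₗ[A] TanSp E v where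
  toFun s := ⟨fun i a => s.1 ⟨i, a⟩, (tan_EF (F := F) (t := fun i a => s.1 ⟨i, a⟩)).1 s.2⟩
  invFun t := ⟨fun x => t.1 x.1 x.2, (tan_EF (F := F) (t := t.1)).2 t.2⟩
  left_inv s := rfl
  right_inv t := rfl
  map_add' s t := rfl
  map_smul' c s := rfl

end EF

theorem finrank_EF {D : CData k I J} {F : Type} [Field F] [Algebra k F] {κ : Type} [Field κ]
    [Algebra F κ] (q : ∀ i, J i → κ) (hq : OnX (EF D.E F) q) (hq0 : ∀ i, q i ≠ 0) :
    finrank κ (TanS (EF D.E F) (fun x : Σ i, J i => q x.1 x.2)) = nn D := by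
  letI : Algebra k κ := ((algebraMap F κ).comp (algebraMap k F)).toAlgebra
  haveI : IsScalarTower k F κ := IsScalarTower.of_algebraMap_eq fun _ => rfl
  rw [(tanEquiv (E := D.E) (F := F) q).finrank_eq]
  exact D.tan_dim κ q (onX_EF.1 hq) hq0

theorem mem_TanL_EF {E : Set (MvPolynomial (Σ i, J i) k)} {F : Type} [Field F] [Algebra k F]
    {κ : Type} [Field κ] [Algebra k κ] [Algebra F κ] [IsScalarTower k F κ]
    (l : ∀ i, J i → κ[X]) (t : ∀ i, J i → κ[X]) :
    t ∈ TanL (EF E F) l ↔ t ∈ TanL E l := by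
  rw [mem_TanL, mem_TanL]
  exact and_congr_right fun _ => tan_EF

theorem finrank_TanL_EF {E : Set (MvPolynomial (Σ i, J i) k)} {F : Type} [Field F] [Algebra k F]
    {κ : Type} [Field κ] [Algebra k κ] [Algebra F κ] [IsScalarTower k F κ]
    (l : ∀ i, J i → κ[X]) : finrank κ (TanL (EF E F) l) = finrank κ (TanL E l) := by
  have h : TanL (EF E F) l = TanL E l := Submodule.ext fun t => mem_TanL_EF l t
  rw [h]

/-! ### integrality at a place of the `w`-line -/

/-- rational functions of `w` regular at `w = t` -/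
def SubAt {k' L : Type} [Field k'] [Field L] [Algebra k' L] (t : k') (w : L) : Set L :=
  {z | ∃ p q : k'[X], q.eval t ≠ 0 ∧ z = aeval w p / aeval w q}

/-- integral at `w = t` -/
def IntAt {k' L : Type} [Field k'] [Field L] [Algebra k' L] (t : k') (w x : L) : Prop :=
  ∃ P : L[X], P.Monic ∧ (∀ n, P.coeff n ∈ SubAt t w) ∧ P.eval x = 0

section RF

variable {k' L : Type} [Field k'] [Field L] [Algebra k' L]

/-- the field of rational functions of `w` -/
def rf (w : L) (hw : Transcendental k' w) : RatFunc k' →+* L :=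
  IsFractionRing.lift (A := k'[X]) (g := (aeval w : k'[X] →ₐ[k'] L).toRingHom)
    (transcendental_iff_injective.1 hw)

theorem rf_poly (w : L) (hw : Transcendental k' w) (p : k'[X]) :
    rf w hw (algebraMap k'[X] (RatFunc k') p) = aeval w p :=
  IsFractionRing.lift_algebraMap _ p

theorem rf_C (w : L) (hw : Transcendental k' w) (e : k') :
    rf w hw (algebraMap k' (RatFunc k') e) = algebraMap k' L e := by
  rw [IsScalarTower.algebraMap_apply k' k'[X] (RatFunc k'), rf_poly]
  simp

/-- integrality over `RegAt t` is `IntAt` -/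
theorem intAt_of_reg [Algebra (RatFunc k') L] (w : L)
    (h : ∀ p : k'[X], algebraMap (RatFunc k') L (algebraMap k'[X] (RatFunc k') p) = aeval w p)
    (t : k') (x : L) (hx : IsIntegral (RegAt t) x) : IntAt t w x := by
  obtain ⟨P, hP, hP0⟩ := hx
  refine ⟨P.map (algebraMap (RegAt t) L), hP.map _, fun n => ?_, by rw [eval_map]; exact hP0⟩
  rw [coeff_map]
  obtain ⟨p, q, hq, hh⟩ := (P.coeff n).2
  refine ⟨p, q, hq, ?_⟩
  change algebraMap (RatFunc k') L (P.coeff n : RatFunc k') = _
  rw [hh, map_div₀, h, h]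

end RF

/-- an element algebraic over `k(S)` is algebraic over `K` -/
theorem alg_of_adjoin {K L : Type} [Field K] [Field L] [Algebra k L] [Algebra K L] (S : Set L)
    (hk : ∀ r : k, ∃ z : K, algebraMap k L r = algebraMap K L z)
    (hS : ∀ s ∈ S, ∃ z : K, s = algebraMap K L z) (φ : L)
    (h : IsAlgebraic (IntermediateField.adjoin k S) φ) : IsAlgebraic K φ := by
  let R := (algebraMap K L).fieldRange
  have hP : (IntermediateField.adjoin k S).toSubfield ≤ R := by
    let P : IntermediateField k L :=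
      { R with
        algebraMap_mem' := fun r => by
          obtain ⟨z, hz⟩ := hk r
          exact ⟨z, hz.symm⟩ }
    have h1 : IntermediateField.adjoin k S ≤ P := by
      rw [IntermediateField.adjoin_le_iff]
      intro s hs
      obtain ⟨z, hz⟩ := hS s hs
      exact ⟨z, hz.symm⟩
    exact h1
  have hx : ∀ x : IntermediateField.adjoin k S, ∃ z : K, algebraMap K L z = x := fun x => hP x.2
  choose g hg using hx
  have hinj : Function.Injective (algebraMap K L) := (algebraMap K L).injective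
  let G : IntermediateField.adjoin k S →+* K :=
    { toFun := g
      map_one' := hinj (by rw [hg]; simp)
      map_mul' := fun x y => hinj (by rw [hg, map_mul, hg, hg]; simp)
      map_zero' := hinj (by rw [hg]; simp)
      map_add' := fun x y => hinj (by rw [hg, map_add, hg, hg]; simp) }
  obtain ⟨p, hp0, hp⟩ := h
  refine ⟨p.map G, (Polynomial.map_ne_zero_iff G.injective).2 hp0, ?_⟩
  rw [Polynomial.aeval_def, Polynomial.eval₂_map]
  have h1 : (algebraMap K L).comp G = algebraMap (IntermediateField.adjoin k S) L := by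
    ext x
    exact hg x
  rw [h1]
  exact hp

/-- **(LOC1)** of 920: the local ring of a smooth point of codimension one is a valuation ring -/
def LocP : Prop :=
  ∀ (F K κ : Type) [Field F] [Field K] [Field κ] [CharZero F] [Algebra F K] [Algebra F κ]
    (σ : Type) [Fintype σ] (E : Set (MvPolynomial σ F)) (v : σ → K) (q : σ → κ) (N : ℕ),
    (∀ p : MvPolynomial σ F, MvPolynomial.aeval v p = 0 → MvPolynomial.aeval q p = 0) →
    IntermediateField.adjoin F (Set.range v) = ⊤ → (∀ p ∈ E, MvPolynomial.aeval v p = 0) →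
    finrank K (TanS E v) = N → finrank κ (TanS E q) = N → TrGe F (Set.range v) N →
    TrGe F (Set.range q) (N - 1) →
    ∀ b : K, ∃ P Q : MvPolynomial σ F, MvPolynomial.aeval v Q ≠ 0 ∧
      b * MvPolynomial.aeval v Q = MvPolynomial.aeval v P ∧
      (MvPolynomial.aeval q Q ≠ 0 ∨ MvPolynomial.aeval q P ≠ 0)

theorem ne_at' {κ L : Type} [Field κ] [Field L] [Algebra κ L] {F : ∀ i, J i → κ[X]}
    (hF : ∀ i, Cop (F i)) (w : L) (i : I) : at' F w i ≠ 0 := by
  intro h
  have h1 : Ideal.span (Set.range (F i)) ≤ RingHom.ker (aeval w : κ[X] →ₐ[κ] L) := by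
    rw [Ideal.span_le]
    rintro _ ⟨j, rfl⟩
    exact congrFun h j
  have h2 : (1 : κ[X]) ∈ RingHom.ker (aeval w : κ[X] →ₐ[κ] L) := by
    apply h1
    have h3 : Ideal.span (Set.range (F i)) = ⊤ := hF i
    rw [h3]
    trivial
  rw [RingHom.mem_ker, map_one] at h2
  exact one_ne_zero h2

theorem ne_pt {κ : Type} [Field κ] {F : ∀ i, J i → κ[X]} (hF : ∀ i, Cop (F i)) (t : κ) (i : I) :
    pt F t i ≠ 0 := by
  have h := ne_at' hF t i
  have h1 : at' F t i = pt F t i := by
    funext j
    simp [at', pt, coe_aeval_eq_eval]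
  rwa [h1] at h

theorem aeval_RX {κ : Type} [Field κ] (p : κ[X]) :
    aeval (algebraMap κ[X] (RatFunc κ) X) p = algebraMap κ[X] (RatFunc κ) p := by
  rw [aeval_algebraMap_apply, aeval_X_left_apply]

theorem trans_RX {κ : Type} [Field κ] :
    Transcendental κ (algebraMap κ[X] (RatFunc κ) X) := by
  rw [transcendental_iff]
  intro p hp
  rw [aeval_RX] at hp
  exact (FaithfulSMul.algebraMap_eq_zero_iff _ _).1 hp

/-- the local data at the point `G(t)` -/
def Line (D : CData k I J) (F₀ : Type) [Field F₀] [Algebra k F₀] {k' : Type} [Field k']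
    [Algebra F₀ k'] (G : ∀ i, J i → k'[X]) (t : k') : Prop :=
  ∃ (kl : Type) (_ : Field kl) (_ : IsAlgClosed kl) (_ : Algebra k kl) (_ : Algebra F₀ kl)
    (_ : IsScalarTower k F₀ kl) (l : ∀ i, J i → kl[X]) (t₀ : kl),
    IsMap D.E l ∧ cls l = D.β ∧ TrGe F₀ (coeffs l) (hl D) ∧
    ∀ p : MvPolynomial (Σ i, J i) F₀, evv (pt l t₀) p = 0 ↔ evv (pt G t) p = 0

/-- **the place theorem** -/
theorem place [CharZero k] {D : CData k I J} (hLin : LinP D) (hIrr : IrrP D) (hAlg : AlgP D)
    (hLF : LineFrameP D) (hLoc : LocP)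
    {F₀ k' L : Type} [Field F₀] [Field k'] [Field L] [IsAlgClosed F₀] [IsAlgClosed k']
    [IsAlgClosed L] [Algebra k F₀] [Algebra k k'] [Algebra k L] [Algebra F₀ k'] [Algebra F₀ L]
    [Algebra k' L] [IsScalarTower k F₀ k'] [IsScalarTower k F₀ L] [IsScalarTower k k' L]
    [IsScalarTower F₀ k' L]
    (x₀ : ∀ i, J i → F₀) (hx : OnX D.E x₀) (hx0 : ∀ i, x₀ i ≠ 0)
    (G : ∀ i, J i → k'[X]) (hG : IsMap D.E G) (w : L) (hw : Transcendental k' w)
    (f : ∀ i, J i → L[X]) (a b : I → L) (c : L) (hf : IsMap D.E f) (hfc : cls f = 2 • D.β)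
    (hj : Joins D f (up L x₀) (at' G w) a b c)
    (hgen : TrGe F₀ (QuadDefs_517.ent (at' G w)) (nn D))
    (dL : Derivation k' L L) (hdw : dL w = 1) (t : k')
    (hloc : TrGe F₀ (QuadDefs_517.ent (pt G t)) (nn D) ∨
      (TrGe F₀ (QuadDefs_517.ent (pt G t)) (nn D - 1) ∧ Line D F₀ G t)) (r : ℕ) :
    IntAt t w (dL^[r] (phi D a b c)) := by
  haveI hc0 : CharZero F₀ := charZero_of_injective_algebraMap (algebraMap k F₀).injective
  obtain ⟨K, iK, aK, v, hv0, hvq, hvu⟩ := exists_gen (F := F₀)
    (fun x : Σ i, J i => at' G w x.1 x.2)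
  obtain ⟨ι, hι⟩ := hvu L (fun x : Σ i, J i => at' G w x.1 x.2) (fun p => Iff.rfl)
  letI AKL : Algebra K L := (ι : K →+* L).toAlgebra
  have hKL : ∀ x, algebraMap K L x = ι x := fun _ => rfl
  haveI T1 : IsScalarTower F₀ K L := IsScalarTower.of_algebraMap_eq fun r => (ι.commutes r).symm
  -- the generic vector
  let v' : ∀ i, J i → K := fun i j => v ⟨i, j⟩
  have hv' : (fun x : Σ i, J i => v' x.1 x.2) = v := rfl
  have hιv : ∀ i j, algebraMap K L (v' i j) = at' G w i j := fun i j => hι ⟨i, j⟩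
  have hyX : OnX D.E (at' G w) := by
    have := (hG.on).map ((aeval w : k'[X] →ₐ[k'] L).restrictScalars k)
    exact this
  have hvX : OnX (EF D.E F₀) v' := by
    intro p hp
    exact (hv0 p).2 (onX_EF.2 hyX p hp)
  have hvne : ∀ i, v' i ≠ 0 := by
    intro i h
    apply ne_at' hG.cop w i
    funext j
    rw [← hιv i j, h]
    simp
  have hadj : IntermediateField.adjoin F₀ (Set.range v) = ⊤ := by
    rw [eq_top_iff]
    intro z _
    obtain ⟨P, Q, hQ, rfl⟩ := hvq z
    rw [IntermediateField.mem_adjoin_range_iff]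
    exact ⟨P, Q, rfl⟩
  have htr : TrGe F₀ (Set.range v) (nn D) := by
    obtain ⟨wv, hw1, hw2⟩ := hgen
    have h1 : ∀ j, ∃ z : K, ι z = wv j := by
      intro j
      have h2 : IntermediateField.adjoin F₀ (QuadDefs_517.ent (at' G w)) ≤ ι.fieldRange := by
        rw [IntermediateField.adjoin_le_iff]
        rintro _ ⟨i, b, rfl⟩
        exact ⟨v' i b, hιv i b⟩
      obtain ⟨z, hz⟩ := h2 (hw1 j)
      exact ⟨z, hz⟩
    choose z hz using h1
    refine ⟨z, fun j => ?_, ?_⟩
    · rw [hadj]
      trivial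
    · have h3 : AlgebraicIndependent F₀ (ι ∘ z) := by
        have : ι ∘ z = wv := funext hz
        rw [this]
        exact hw2
      exact AlgebraicIndependent.of_comp ι h3
  -- algebraicity of `φ`
  have hφa : IsAlgebraic K (phi D a b c) := by
    refine alg_of_adjoin (k := k) (QuadDefs_517.ent (up L x₀) ∪ QuadDefs_517.ent (at' G w))
      (fun r => ⟨algebraMap F₀ K (algebraMap k F₀ r), ?_⟩) ?_ _
      (hAlg L f (up L x₀) (at' G w) a b c hf hfc hj)
    · rw [← IsScalarTower.algebraMap_apply F₀ K L, ← IsScalarTower.algebraMap_apply k F₀ L]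
    · rintro s (⟨i, j, rfl⟩ | ⟨i, j, rfl⟩)
      · refine ⟨algebraMap F₀ K (x₀ i j), ?_⟩
        rw [← IsScalarTower.algebraMap_apply F₀ K L]
        rfl
      · exact ⟨v' i j, (hιv i j).symm⟩
  have hφi : IsIntegral K (phi D a b c) := hφa.isIntegral
  -- the normal extension
  let K' : IntermediateField K L :=
    IntermediateField.adjoin K ((minpoly K (phi D a b c)).rootSet L)
  haveI hspl : IsSplittingField K K' (minpoly K (phi D a b c)) :=
    IntermediateField.adjoin_rootSet_isSplittingField (IsAlgClosed.splits _)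
  haveI hnorm : Normal K K' := Normal.of_isSplittingField (minpoly K (phi D a b c))
  have hφK : phi D a b c ∈ K' := by
    apply IntermediateField.subset_adjoin
    rw [mem_rootSet]
    exact ⟨minpoly.ne_zero hφi, minpoly.aeval K _⟩
  let φ' : K' := ⟨phi D a b c, hφK⟩
  let Ψ : K' →ₐ[F₀] L := K'.val.restrictScalars F₀
  have hΨφ : Ψ φ' = phi D a b c := rfl
  -- the structure over rational functions
  letI ARL : Algebra (RatFunc k') L := (rf w hw).toAlgebra
  have hRL : ∀ z, algebraMap (RatFunc k') L z = rf w hw z := fun _ => rfl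
  have hRp : ∀ p : k'[X], algebraMap (RatFunc k') L (algebraMap k'[X] (RatFunc k') p) =
      aeval w p := fun p => rf_poly w hw p
  haveI T2 : IsScalarTower F₀ (RatFunc k') L := IsScalarTower.of_algebraMap_eq fun r => by
    rw [hRL, IsScalarTower.algebraMap_apply F₀ k' (RatFunc k'), rf_C,
      ← IsScalarTower.algebraMap_apply F₀ k' L]
  let dZ : Derivation ℤ L L := dL.restrictScalars ℤ
  have hdZ : ∀ p : k'[X], dZ (algebraMap (RatFunc k') L (algebraMap k'[X] (RatFunc k') p)) =
      algebraMap (RatFunc k') L (algebraMap k'[X] (RatFunc k') (derivative p)) := by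
    intro p
    rw [hRp, hRp]
    change dL (aeval w p) = _
    rw [Derivation.map_aeval, hdw, smul_eq_mul, mul_one]
  have hit : ∀ z, (dZ^[r]) z = (dL^[r]) z := fun z => rfl
  have hΨv : ∀ i j, Ψ (algebraMap K K' (v' i j)) =
      algebraMap (RatFunc k') L (algebraMap k'[X] (RatFunc k') (G i j)) := by
    intro i j
    rw [hRp]
    exact hιv i j
  apply intAt_of_reg w hRp t
  rw [← hit, ← hΨφ]
  have hptX : OnX (EF D.E F₀) (pt G t) := by
    have h1 := (hG.on).map ((aeval t : k'[X] →ₐ[k'] k').restrictScalars k)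
    refine onX_EF.2 (fun p hp => ?_)
    have h2 := h1 p hp
    simpa [pt, coe_aeval_eq_eval] using h2
  have hpt0 : ∀ i, pt G t i ≠ 0 := ne_pt hG.cop t
  have hspec : ∀ p : MvPolynomial (Σ i, J i) F₀, MvPolynomial.aeval v p = 0 →
      MvPolynomial.aeval (fun x : Σ i, J i => (G x.1 x.2).eval t) p = 0 := by
    intro p hp
    have h1 := (hv0 p).1 hp
    have h2 : MvPolynomial.aeval (fun x : Σ i, J i => at' G w x.1 x.2) p =
        aeval w (MvPolynomial.aeval (fun x : Σ i, J i => G x.1 x.2) p) :=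
      (MvPolynomial.comp_aeval_apply (f := fun x : Σ i, J i => G x.1 x.2)
        ((aeval w : k'[X] →ₐ[k'] L).restrictScalars F₀) p).symm
    rw [h2] at h1
    have h3 := transcendental_iff.1 hw _ h1
    rw [aeval_eval, h3, eval_zero]
  have hNv : finrank K (TanS (EF D.E F₀) v) = nn D := finrank_EF v' hvX hvne
  have hNq : finrank k' (TanS (EF D.E F₀) (fun x : Σ i, J i => (G x.1 x.2).eval t)) = nn D :=
    finrank_EF (pt G t) hptX hpt0
  rcases hloc with hl1 | ⟨hl1, kl, ikl, akl, A1, A2, T3, l, t₀, hl, hlc, hlt, hlq⟩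
  · have hRX : OnX (EF D.E F₀) (fun i j => algebraMap k'[X] (RatFunc k') (G i j)) := by
      intro p hp
      have h1 : MvPolynomial.aeval v p = 0 := hvX p hp
      have h2 := (hv0 p).1 h1
      have h3 : MvPolynomial.aeval (fun x : Σ i, J i => at' G w x.1 x.2) p =
          aeval w (MvPolynomial.aeval (fun x : Σ i, J i => G x.1 x.2) p) :=
        (MvPolynomial.comp_aeval_apply (f := fun x : Σ i, J i => G x.1 x.2)
          ((aeval w : k'[X] →ₐ[k'] L).restrictScalars F₀) p).symm
      rw [h3] at h2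
      have h4 := transcendental_iff.1 hw _ h2
      rw [aeval_ratFunc, h4, map_zero]
    have hR0 : ∀ i, (fun j => algebraMap k'[X] (RatFunc k') (G i j)) ≠ 0 := by
      intro i h
      apply hpt0 i
      funext j
      have h1 := congrFun h j
      simp only [Pi.zero_apply] at h1
      rw [FaithfulSMul.algebraMap_eq_zero_iff] at h1
      change (G i j).eval t = 0
      rw [h1, eval_zero]
    exact local_gen (E := EF D.E F₀) (v := v) (fun p hp => hvX p hp) hadj (N := nn D) hNv.le htr
      (fun x : Σ i, J i => G x.1 x.2) t Ψ (fun x => hΨv x.1 x.2) dZ hdZ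
      (finrank_EF _ hRX hR0).le hNq (fun Q hQ => (hv0 Q).2
        (hIrr F₀ k' L (pt G t) (at' G w) (onX_EF.1 hptX) hyX hpt0 (ne_at' hG.cop w) hl1 hgen Q
          hQ)) φ' r
  · have hFrm := Crest.Agent.R260.Gp_169.lineFrm hLF F₀ kl l hl hlc hlt
    obtain ⟨fr, hfr1, hfr2⟩ := hFrm.pts t₀
    set s : RatFunc kl := algebraMap kl[X] (RatFunc kl) X with hs
    have hsl : at' l s = fun i j => algebraMap kl[X] (RatFunc kl) (l i j) := by
      funext i j
      exact aeval_RX (l i j)
    have hlgen : TrGe F₀ (QuadDefs_517.ent (at' l s)) (nn D) :=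
      Crest.Agent.R260.Gp_169.genLP hLF F₀ kl (RatFunc kl) l s hl hlc hlt trans_RX
    have hlX : OnX D.E (at' l s) := by
      have := (hl.on).map ((aeval s : kl[X] →ₐ[kl] RatFunc kl).restrictScalars k)
      exact this
    obtain ⟨ψ₀, hψ₀⟩ := hvu (RatFunc kl) (fun x : Σ i, J i => at' l s x.1 x.2) (fun p =>
      ⟨fun h => hIrr F₀ L (RatFunc kl) (at' G w) (at' l s) hyX hlX (ne_at' hG.cop w)
        (ne_at' hl.cop s) hgen hlgen p h,
       fun h => hIrr F₀ (RatFunc kl) L (at' l s) (at' G w) hlX hyX (ne_at' hl.cop s)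
        (ne_at' hG.cop w) hlgen hgen p h⟩)
    have hψv : ∀ i j, ψ₀ (v' i j) = algebraMap kl[X] (RatFunc kl) (l i j) := by
      intro i j
      have := hψ₀ ⟨i, j⟩
      rw [hsl] at this
      exact this
    have hjK : Joins D f (up L x₀) (fun i j => algebraMap K L (v' i j)) a b c := by
      have h1 : (fun i j => algebraMap K L (v' i j)) = at' G w := by
        funext i j
        exact hιv i j
      rw [h1]
      exact hj
    obtain ⟨ψ, hψ1, hψ2⟩ := conj_emb hLin v' x₀ hx hx0 f a b c hf hfc hjK hφi l hl hlc ψ₀ hψv K'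
      φ' rfl
    have hval := hLoc F₀ K k' (Σ i, J i) (EF D.E F₀) v
      (fun x : Σ i, J i => (G x.1 x.2).eval t) (nn D) hspec hadj (fun p hp => hvX p hp) hNv hNq
      htr (by
        convert hl1 using 2
        ext z
        constructor
        · rintro ⟨x, rfl⟩
          exact ⟨x.1, x.2, rfl⟩
        · rintro ⟨i, j, rfl⟩
          exact ⟨⟨i, j⟩, rfl⟩)
    exact local_tuple (E := EF D.E F₀) (N := nn D) (fun κ _ _ q hq hq0 => finrank_EF q hq hq0)
      hvX hvne hadj htr G t hpt0 Ψ hΨv dZ hdZ hval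
      (by rw [finrank_TanL_EF]; exact hFrm.le) hlt t₀ fr
      (fun j => (mem_TanL_EF l (fr j)).2 (hfr1 j)) hfr2 ψ
      (fun i b => by rw [hψ1, hψv]) (fun p => hlq p) (fun τ => hψ2 t₀ τ) r

end Crest.Agent.R260.Quad_517
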