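import Mathlib
import Crest.Agent.R260.QuadE_517
import Crest.Agent.R260.Irr2_33
import Crest.Agent.R270.Link1_131

/-!
# Row 260, A-QUAD (helper517), part 6: scalings, reversal, the place theorem for conics
-/

set_option autoImplicit false
set_option linter.all false

noncomputable section

namespace Crest.Agent.R260.Quad_517

open Polynomial Module
open Crest.Agent.R270.BM_360 Crest.Agent.R260.Lin_678 Crest.Agent.R260.QuadDefs_517
open Crest.Agent.R260.Der_169

variable {I : Type} {J : I → Type} [Fintype I] [∀ i, Fintype (J i)] {k : Type} [Field k]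

/-! ### scalings -/

theorem joins_scale {D : CData k I J} {L : Type} [Field L] [Algebra k L] {f : ∀ i, J i → L[X]}
    {x y y' : ∀ i, J i → L} {a b : I → L} {c : L} (μ : I → L) (hμ : ∀ i, μ i ≠ 0)
    (hy : ∀ i j, y' i j = μ i * y i j) (hj : Joins D f x y a b c) :
    Joins D f x y' a (fun i => b i * (μ i)⁻¹) c where
  a0 := hj.a0
  b0 i := mul_ne_zero (hj.b0 i) (inv_ne_zero (hμ i))
  lead := hj.lead
  bot i j := by
    rw [hj.bot, hy]
    field_simp [hμ i]
  val := hj.val

theorem phi_scale {D : CData k I J} {L : Type} [Field L] (a b : I → L) (c : L) (μ : I → L)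
    (hμ : ∀ i, μ i ≠ 0) :
    phi D a (fun i => b i * (μ i)⁻¹) c = (∏ i, μ i ^ D.w i) * phi D a b c := by
  unfold phi
  have h1 : ∏ i, (b i * (μ i)⁻¹) ^ (-D.w i) = (∏ i, b i ^ (-D.w i)) * ∏ i, μ i ^ D.w i := by
    rw [← Finset.prod_mul_distrib]
    refine Finset.prod_congr rfl fun i _ => ?_
    rw [mul_zpow, inv_zpow', neg_neg]
  rw [h1]
  ring

/-- multiplication of the blocks by constants -/
def scT {κ : Type} [Field κ] (lam : I → κ) (H : ∀ i, J i → κ[X]) : ∀ i, J i → κ[X] :=
  fun i j => C (lam i) * H i j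

theorem isMap_scT {D : CData k I J} {κ : Type} [Field κ] [Algebra k κ] {lam : I → κ}
    (hl : ∀ i, lam i ≠ 0) {H : ∀ i, J i → κ[X]} (hH : IsMap D.E H) : IsMap D.E (scT lam H) := by
  refine ⟨hH.on.scale D.hom (fun i => C (lam i)), fun i => ?_⟩
  have h : Ideal.span (Set.range (H i)) = ⊤ := hH.cop i
  change Ideal.span (Set.range fun j => C (lam i) * H i j) = ⊤
  rw [eq_top_iff, ← h, Ideal.span_le]
  rintro _ ⟨j, rfl⟩
  have h2 : H i j = C (lam i)⁻¹ * (C (lam i) * H i j) := by
    rw [← mul_assoc, ← C_mul, inv_mul_cancel₀ (hl i), C_1, one_mul]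
  rw [h2]
  exact Ideal.mul_mem_left _ _ (Ideal.subset_span ⟨j, rfl⟩)

theorem at'_scT {κ L : Type} [Field κ] [Field L] [Algebra κ L] (lam : I → κ)
    (H : ∀ i, J i → κ[X]) (w : L) (i : I) (j : J i) :
    at' (scT lam H) w i j = algebraMap κ L (lam i) * at' H w i j := by
  simp [at', scT]

theorem pt_scT {κ : Type} [Field κ] (lam : I → κ) (H : ∀ i, J i → κ[X]) (t : κ) (i : I)
    (j : J i) : pt (scT lam H) t i j = lam i * pt H t i j := by
  simp [pt, scT]

/-! ### genericity of the value at `w` from genericity of the value at `t` -/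

theorem range_ent {A : Type} (v : ∀ i, J i → A) :
    Set.range (fun x : Σ i, J i => v x.1 x.2) = QuadDefs_517.ent v := by
  ext z
  constructor
  · rintro ⟨x, rfl⟩
    exact ⟨x.1, x.2, rfl⟩
  · rintro ⟨i, j, rfl⟩
    exact ⟨⟨i, j⟩, rfl⟩

theorem trge_at'_of_pt {F₀ k' L : Type} [Field F₀] [Field k'] [Field L] [Algebra F₀ k']
    [Algebra F₀ L] [Algebra k' L] [IsScalarTower F₀ k' L] (G : ∀ i, J i → k'[X]) (w : L)
    (hw : Transcendental k' w) (t : k') (n : ℕ) (h : TrGe F₀ (QuadDefs_517.ent (pt G t)) n) :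
    TrGe F₀ (QuadDefs_517.ent (at' G w)) n := by
  rw [← range_ent] at h ⊢
  obtain ⟨x, hx⟩ := Crest.Agent.R260.Irr_33.exists_sub h
  refine ⟨fun j => at' G w (x j).1 (x j).2, fun j =>
    IntermediateField.subset_adjoin F₀ _ ⟨x j, rfl⟩, ?_⟩
  rw [algebraicIndependent_iff]
  intro p hp
  have h1 : MvPolynomial.aeval (fun j => at' G w (x j).1 (x j).2) p =
      aeval w (MvPolynomial.aeval (fun j => G (x j).1 (x j).2) p) :=
    (MvPolynomial.comp_aeval_apply (f := fun j => G (x j).1 (x j).2)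
      ((aeval w : k'[X] →ₐ[k'] L).restrictScalars F₀) p).symm
  rw [h1] at hp
  have h2 := transcendental_iff.1 hw _ hp
  refine algebraicIndependent_iff.1 hx p ?_
  have h3 := aeval_eval (k := F₀) (fun j => G (x j).1 (x j).2) t p
  rw [h2, eval_zero] at h3
  exact h3

/-! ### constants -/

theorem intAt_mul {k' L : Type} [Field k'] [Field L] [Algebra k' L] {t : k'} {w x : L}
    (e : k') (h : IntAt t w x) : IntAt t w (algebraMap k' L e * x) := by
  obtain ⟨P, hP, hP1, hP2⟩ := h
  refine ⟨P.scaleRoots (algebraMap k' L e), (monic_scaleRoots_iff _).2 hP, fun n => ?_, ?_⟩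
  · rw [coeff_scaleRoots]
    obtain ⟨p, q, hq, h⟩ := hP1 n
    refine ⟨p * C (e ^ (P.natDegree - n)), q, hq, ?_⟩
    rw [h, map_mul, aeval_C, map_pow, div_mul_eq_mul_div]
  · have h1 := scaleRoots_eval₂_mul (RingHom.id L) (p := P) (r := x) (s := algebraMap k' L e)
    rw [RingHom.id_apply] at h1
    rw [eval, h1]
    rw [eval] at hP2
    rw [hP2, mul_zero]

/-! ### the place theorem for generic conics -/

/-- exact points of generic conics -/
def Gen2X (D : CData k I J) (CC : Cls k J) : Prop :=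
  ∀ (F₀ k' : Type) [Field F₀] [Field k'] [IsAlgClosed F₀] [IsAlgClosed k'] [Algebra k F₀]
    [Algebra k k'] [Algebra F₀ k'] [IsScalarTower k F₀ k'] (H : ∀ i, J i → k'[X]) (t : k'),
    Con D CC H → TrGe F₀ (coeffs H) (hc D) →
    TrGe F₀ (QuadDefs_517.ent (pt H t)) (2 * D.m + Fintype.card I)

/-- all the leaves -/
structure Leaves (D : CData k I J) (CC : Cls k J) : Prop where
  lin : LinP D
  kpr : KprimeP D
  div : DivP D CC
  irr : IrrP D
  alg : AlgP D
  gen1 : Gen1P D CC
  gen2 : Gen2X D CC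
  lf : LineFrameP D
  scal : ScalP.{0} I J
  exm : ExmP.{0} I J
  loc : LocP
  map : MapCC CC
  rev : ∀ (A : Type) [Field A] [IsAlgClosed A] [Algebra k A] (F : ∀ i, J i → A[X]),
    Con D CC F → Con D CC (Crest.Agent.R270.Link_131.rev F)

theorem iter_mul {k' L : Type} [Field k'] [Field L] [Algebra k' L] (dL : Derivation k' L L)
    (e : k') (x : L) (r : ℕ) :
    dL^[r] (algebraMap k' L e * x) = algebraMap k' L e * dL^[r] x := by
  induction r generalizing x with
  | zero => rfl
  | succ r ih =>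
    rw [Function.iterate_succ_apply, Function.iterate_succ_apply, ← ih]
    congr 1
    rw [← Algebra.smul_def, ← Algebra.smul_def, dL.map_smul]

theorem trge_mono {A κ : Type} [Field A] [Field κ] [Algebra A κ] {S T : Set κ} {n m : ℕ}
    (hST : S ⊆ T) (hmn : m ≤ n) (h : TrGe A S n) : TrGe A T m := by
  obtain ⟨w, hw, hi⟩ := h
  refine ⟨fun j => w (Fin.castLE hmn j), fun j => ?_, hi.comp _ (Fin.castLE_injective hmn)⟩
  exact IntermediateField.adjoin.mono A S T hST (hw _)

theorem place_con [CharZero k] {D : CData k I J} {CC : Cls k J} (h : Leaves D CC)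
    {F₀ k' L : Type} [Field F₀] [Field k'] [Field L] [IsAlgClosed F₀] [IsAlgClosed k']
    [IsAlgClosed L] [Algebra k F₀] [Algebra k k'] [Algebra k L] [Algebra F₀ k'] [Algebra F₀ L]
    [Algebra k' L] [IsScalarTower k F₀ k'] [IsScalarTower k F₀ L] [IsScalarTower k k' L]
    [IsScalarTower F₀ k' L] (hout : DivOut D CC F₀)
    (x₀ : ∀ i, J i → F₀) (hx : OnX D.E x₀) (hx0 : ∀ i, x₀ i ≠ 0)
    (H : ∀ i, J i → k'[X]) (hH : Con D CC H) (hHt : TrGe F₀ (coeffs H) (hc D))
    (w : L) (hw : Transcendental k' w)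
    (f : ∀ i, J i → L[X]) (a b : I → L) (c : L) (hf : IsMap D.E f) (hfc : cls f = 2 • D.β)
    (hj : Joins D f (up L x₀) (at' H w) a b c)
    (dL : Derivation k' L L) (hdw : dL w = 1) (t : k') (r : ℕ) :
    IntAt t w (dL^[r] (phi D a b c)) := by
  haveI hc0 : CharZero F₀ := charZero_of_injective_algebraMap (algebraMap k F₀).injective
  by_cases hr : TrGe F₀ (rat (pt H t)) (2 * D.m + 1)
  · -- generic point: choose scalars
    obtain ⟨lam, hlam0, hlam⟩ := h.scal F₀ k' (pt H t) (2 * D.m + 1) (ne_pt hH.map.cop t) hr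
      (trge_mono (Set.subset_univ _) (by unfold hc; omega) hHt)
    have hG : IsMap D.E (scT lam H) := isMap_scT hlam0 hH.map
    have hlamL : ∀ i, algebraMap k' L (lam i) ≠ 0 := fun i => (_root_.map_ne_zero _).2 (hlam0 i)
    have hptG : (fun i j => lam i * pt H t i j) = pt (scT lam H) t := by
      funext i j
      exact (pt_scT lam H t i j).symm
    have hgt : TrGe F₀ (QuadDefs_517.ent (pt (scT lam H) t)) (nn D) := by
      rw [← hptG]
      exact hlam
    have hjG := joins_scale (fun i => algebraMap k' L (lam i)) hlamL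
      (fun i j => at'_scT lam H w i j) hj
    have hp := place h.lin h.irr h.alg h.lf h.loc x₀ hx hx0 (scT lam H) hG w hw f a _ c hf hfc hjG
      (trge_at'_of_pt _ w hw t _ hgt) dL hdw t (Or.inl hgt) r
    rw [phi_scale a b c _ hlamL] at hp
    have e1 : (∏ i, algebraMap k' L (lam i) ^ D.w i) = algebraMap k' L (∏ i, lam i ^ D.w i) := by
      rw [map_prod]
      exact Finset.prod_congr rfl fun i _ => (map_zpow₀ _ _ _).symm
    rw [e1, iter_mul] at hp
    have hne : (∏ i, lam i ^ D.w i) ≠ 0 :=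
      Finset.prod_ne_zero_iff.2 fun i _ => zpow_ne_zero _ (hlam0 i)
    have h2 := intAt_mul (∏ i, lam i ^ D.w i)⁻¹ hp
    rw [← mul_assoc, ← map_mul, inv_mul_cancel₀ hne, map_one, one_mul] at h2
    exact h2
  · -- special point: a line
    obtain ⟨kl, ikl, akl, A1, A2, T3, l, t₀, hl, hlc, hlt, hle, hlm⟩ := hout k' H t hH hHt hr
    have hex : TrGe F₀ (QuadDefs_517.ent (pt H t)) (2 * D.m + Fintype.card I) :=
      h.gen2 F₀ k' H t hH hHt
    have hrel := h.exm F₀ k' kl (pt H t) (pt l t₀) (2 * D.m) (ne_pt hH.map.cop t)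
      (ne_pt hl.cop t₀) hr hex hle (fun p hp => (hlm p hp).symm)
    have hgen : TrGe F₀ (QuadDefs_517.ent (at' H w)) (nn D) := h.gen1 F₀ k' L H w hH hHt hw
    refine place h.lin h.irr h.alg h.lf h.loc x₀ hx hx0 H hH.map w hw f a b c hf hfc hj hgen dL hdw
      t (Or.inr ⟨?_, kl, ikl, akl, A1, A2, T3, l, t₀, hl, hlc, hlt, fun p => (hrel p).symm⟩) r
    refine trge_mono le_rfl ?_ hex
    unfold nn
    omega

end Crest.Agent.R260.Quad_517
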