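import Mathlib
import Crest.Agent.R260.QuadF_517
import Crest.Agent.R260.Pur3_920

/-!
# Row 260, A-QUAD (helper517): **QUAD** from its leaves
-/

set_option autoImplicit false
set_option linter.all false

noncomputable section

namespace Crest.Agent.R260.Quad_517

open Polynomial Module
open Crest.Agent.R270.BM_360 Crest.Agent.R260.Lin_678 Crest.Agent.R260.QuadDefs_517
open Crest.Agent.R260.Der_169 Crest.Agent.R260.Pur920 Crest.Agent.R270.Fr_928

variable {I : Type} {J : I → Type} [Fintype I] [∀ i, Fintype (J i)] {k : Type} [Field k]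

/-! ### integrality -/

theorem isIntegral_of_coeffs {R L : Type} [CommRing R] [Field L] [Algebra R L] (x : L) (P : L[X])
    (hP : P.Monic) (hc : ∀ n, ∃ r : R, algebraMap R L r = P.coeff n) (h0 : P.eval x = 0) :
    IsIntegral R x := by
  have h1 : P ∈ Polynomial.lifts (algebraMap R L) := by
    rw [Polynomial.lifts_iff_coeff_lifts]
    exact hc
  obtain ⟨Q, hQ, -, hQm⟩ := Polynomial.lifts_and_degree_eq_and_monic h1 hP
  exact ⟨Q, hQm, by rw [← eval_map, hQ, h0]⟩

section refl

variable {k' L : Type} [Field k'] [Field L] [Algebra k' L]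

theorem aeval_inv_eq (u : L) (hu : u ≠ 0) (N : ℕ) (p : k'[X]) (hp : p.natDegree ≤ N) :
    aeval u⁻¹ p = aeval u (p.reflect N) * (u⁻¹) ^ N := by
  letI : Invertible (u⁻¹) := invertibleOfNonzero (inv_ne_zero hu)
  have h := eval₂_reflect_mul_pow (algebraMap k' L) (u⁻¹) N p hp
  have h1 : ⅟(u⁻¹) = u := by rw [invOf_eq_inv, inv_inv]
  rw [h1] at h
  exact h.symm

theorem aeval_reflect_eq (u : L) (hu : u ≠ 0) (N : ℕ) (p : k'[X]) (hp : p.natDegree ≤ N) :
    aeval u⁻¹ (p.reflect N) = (u⁻¹) ^ N * aeval u p := by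
  letI : Invertible u := invertibleOfNonzero hu
  have h := eval₂_reflect_mul_pow (algebraMap k' L) u N p hp
  have h1 : ⅟u = u⁻¹ := invOf_eq_inv u
  rw [h1] at h
  rw [aeval_def, aeval_def, ← h, mul_comm, mul_assoc, ← mul_pow, mul_inv_cancel₀ hu, one_pow,
    mul_one]

end refl

section places

variable {k' L : Type} [Field k'] [Field L] [Algebra k' L] [Algebra (RatFunc k') L]

theorem int_va (u : L)
    (h : ∀ p : k'[X], algebraMap (RatFunc k') L (algebraMap k'[X] (RatFunc k') p) = aeval u p)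
    (t : k') (x : L) (hx : IntAt t u x) : IsIntegral (Va (RatFunc k') t) x := by
  obtain ⟨P, hP, hc, h0⟩ := hx
  refine isIntegral_of_coeffs x P hP (fun n => ?_) h0
  obtain ⟨p, q, hq, hh⟩ := hc n
  have hq0 : algebraMap k'[X] (RatFunc k') q ≠ 0 := by
    rw [Ne, FaithfulSMul.algebraMap_eq_zero_iff]
    rintro rfl
    simp at hq
  refine ⟨⟨algebraMap k'[X] (RatFunc k') p / algebraMap k'[X] (RatFunc k') q, ?_⟩, ?_⟩
  · exact ⟨p, q, hq, div_mul_cancel₀ _ hq0⟩
  · change algebraMap (RatFunc k') L (algebraMap k'[X] (RatFunc k') p /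
      algebraMap k'[X] (RatFunc k') q) = _
    rw [map_div₀, h, h, hh]

theorem int_vinf (u : L) (hu : u ≠ 0)
    (h : ∀ p : k'[X], algebraMap (RatFunc k') L (algebraMap k'[X] (RatFunc k') p) = aeval u p)
    (x : L) (hx : IntAt (0 : k') u⁻¹ x) : IsIntegral (Vinf k' (RatFunc k')) x := by
  obtain ⟨P, hP, hc, h0⟩ := hx
  refine isIntegral_of_coeffs x P hP (fun n => ?_) h0
  obtain ⟨p, q, hq, hh⟩ := hc n
  set N := max p.natDegree q.natDegree with hN
  have hqN : (q.reflect N).coeff N ≠ 0 := by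
    rw [coeff_reflect, revAt_le le_rfl, Nat.sub_self, coeff_zero_eq_eval_zero]
    exact hq
  have hq0' : q.reflect N ≠ 0 := fun h => hqN (by rw [h, coeff_zero])
  have hq0 : algebraMap k'[X] (RatFunc k') (q.reflect N) ≠ 0 := by
    rw [Ne, FaithfulSMul.algebraMap_eq_zero_iff]
    exact hq0'
  refine ⟨⟨algebraMap k'[X] (RatFunc k') (p.reflect N) /
    algebraMap k'[X] (RatFunc k') (q.reflect N), ?_⟩, ?_⟩
  · refine ⟨p.reflect N, q.reflect N, hq0', ?_, div_mul_cancel₀ _ hq0⟩
    refine le_trans ?_ (le_degree_of_ne_zero hqN)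
    rw [degree_le_iff_coeff_zero]
    intro m hm
    have hm' : N < m := by exact_mod_cast hm
    rw [coeff_reflect, revAt_eq_self_of_lt hm']
    exact coeff_eq_zero_of_natDegree_lt (lt_of_le_of_lt (le_max_left _ _) hm')
  · change algebraMap (RatFunc k') L (algebraMap k'[X] (RatFunc k') (p.reflect N) /
      algebraMap k'[X] (RatFunc k') (q.reflect N)) = _
    rw [map_div₀, h, h, hh, aeval_inv_eq u hu N p (le_max_left _ _),
      aeval_inv_eq u hu N q (le_max_right _ _), mul_div_mul_right]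
    exact pow_ne_zero _ (inv_ne_zero hu)

end places

/-! ### the reversed conic -/

theorem coeffs_rev {κ : Type} [Field κ] (H : ∀ i, J i → κ[X]) :
    coeffs H ⊆ coeffs (Crest.Agent.R270.Link_131.rev H) := by
  rintro _ ⟨i, a, j, rfl⟩
  refine ⟨i, a, revAt (vdeg (H i)) j, ?_⟩
  change ((H i a).reflect (vdeg (H i))).coeff _ = _
  rw [coeff_reflect, revAt_invol]

theorem at'_rev {D : CData k I J} {κ L : Type} [Field κ] [Field L] [Algebra κ L]
    (H : ∀ i, J i → κ[X]) (hH : cls H = 2 • D.β) (u : L) (hu : u ≠ 0) (i : I) (j : J i) :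
    at' (Crest.Agent.R270.Link_131.rev H) u⁻¹ i j = (u⁻¹) ^ (2 * D.β i) * at' H u i j := by
  have h1 : vdeg (H i) = 2 * D.β i := by
    have := congrFun hH i
    simpa [cls] using this
  change aeval u⁻¹ ((H i j).reflect (vdeg (H i))) = _
  rw [h1, aeval_reflect_eq u hu]
  · rfl
  · rw [← h1]
    exact Finset.le_sup (f := fun a => (H i a).natDegree) (Finset.mem_univ j)

theorem prod_w {D : CData k I J} {L : Type} [Field L] (z : L) (hz : z ≠ 0) :
    ∏ i, (z ^ (2 * D.β i)) ^ D.w i = z ^ 2 := by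
  have h1 : ∀ i, (z ^ (2 * D.β i)) ^ D.w i = z ^ ((2 * D.β i : ℤ) * D.w i) := by
    intro i
    rw [zpow_mul]
    congr 1
    norm_cast
  simp only [h1]
  rw [← zpow_natCast z 2]
  have h2 : ∀ s : Finset I, ∏ i ∈ s, z ^ ((2 * D.β i : ℤ) * D.w i) =
      z ^ (∑ i ∈ s, (2 * D.β i : ℤ) * D.w i) := by
    classical
    intro s
    induction s using Finset.induction_on with
    | empty => simp
    | insert i s hi ih => rw [Finset.prod_insert hi, Finset.sum_insert hi, zpow_add₀ hz, ih]
  rw [h2]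
  congr 1
  have h3 : ∑ i, (2 * D.β i : ℤ) * D.w i = 2 * ∑ i, D.w i * (D.β i : ℤ) := by
    rw [Finset.mul_sum]
    exact Finset.sum_congr rfl fun i _ => by ring
  rw [h3, D.wβ]
  norm_num

theorem trans_inv {κ L : Type} [Field κ] [Field L] [Algebra κ L] {u : L}
    (hu : Transcendental κ u) : Transcendental κ u⁻¹ := fun h => hu (by
  have := h.inv
  rwa [inv_inv] at this)

/-! ### **QUAD** -/

theorem quad [IsAlgClosed k] [CharZero k] {D : CData k I J} {CC : Cls k J} (h : Leaves D CC) :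
    QUAD D CC := by
  intro F₀ k' L iF ik iL aF ak aL A1 A2 A3 A4 A5 A6 T1 T2 T3 T4 x₀ H u f a b c hx hx0 hxt hxalg hH
    hHt hHalg hu hLalg hf hj
  rcases dichotomy h.map h.kpr h.div x₀ H u f a b c hx hx0 hxt hH hHt hu hLalg hf hj with hq | hout
  · exact hq
  haveI hck : CharZero k' := charZero_of_injective_algebraMap (algebraMap k k').injective
  have hu0 : u ≠ 0 := by
    rintro rfl
    exact hu isAlgebraic_zero
  -- the derivation
  obtain ⟨dL, hdL⟩ := Crest.Agent.R260.Gp_169.exists_ext (F₀ := k') (κ := k') (L := L) hu 0 1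
  have hdu : dL u = 1 := by
    have h1 := hdL X
    rw [aeval_X, derivative_X, map_one, one_mul] at h1
    have h2 : dX (0 : Derivation k' k' k') X = 0 := by
      ext n
      rw [coeff_dX]
      simp
    rw [h2, map_zero, zero_add] at h1
    exact h1
  -- rational functions
  letI ARL : Algebra (RatFunc k') L := (rf u hu).toAlgebra
  have hRp : ∀ p : k'[X], algebraMap (RatFunc k') L (algebraMap k'[X] (RatFunc k') p) =
      aeval u p := fun p => rf_poly u hu p
  haveI halg : Algebra.IsAlgebraic (RatFunc k') L := by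
    refine ⟨fun z => alg_of_adjoin (k := k') (K := RatFunc k') {u} (fun r => ?_) ?_ z
      (hLalg.isAlgebraic z)⟩
    · refine ⟨algebraMap k'[X] (RatFunc k') (C r), ?_⟩
      rw [hRp, aeval_C]
    · rintro s rfl
      refine ⟨algebraMap k'[X] (RatFunc k') X, ?_⟩
      rw [hRp, aeval_X]
  have hU : U k' (RatFunc k') L = u := by
    change algebraMap (RatFunc k') L (algebraMap k'[X] (RatFunc k') X) = u
    rw [hRp, aeval_X]
  let dZ : Derivation ℤ L L := dL.restrictScalars ℤ
  have hdZ : ∀ p : k'[X], dZ (algebraMap (RatFunc k') L (algebraMap k'[X] (RatFunc k') p)) =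
      algebraMap (RatFunc k') L (algebraMap k'[X] (RatFunc k') (derivative p)) := by
    intro p
    rw [hRp, hRp]
    change dL (aeval u p) = _
    rw [Derivation.map_aeval, hdu, smul_eq_mul, mul_one]
  -- finite places
  have hfin : ∀ t : k', IsIntegral (Va (RatFunc k') t) (dZ^[3] (phi D a b c)) := by
    intro t
    exact int_va u hRp t _ (place_con h hout x₀ hx hx0 H hH hHt u hu f a b c hf.map hf.cls hj dL
      hdu t 3)
  -- the place at infinity
  have hinf : IsIntegral (Vinf k' (RatFunc k'))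
      ((dw (k := k') (Kr := RatFunc k') dZ)^[3] ((U k' (RatFunc k') L)⁻¹ ^ 2 * phi D a b c)) := by
    have hu' : u⁻¹ ≠ 0 := inv_ne_zero hu0
    have hμ : ∀ i, (u⁻¹) ^ (2 * D.β i) ≠ 0 := fun i => pow_ne_zero _ hu'
    have hjr := joins_scale (fun i => (u⁻¹) ^ (2 * D.β i)) hμ
      (fun i j => at'_rev (D := D) H hH.cls u hu0 i j) hj
    let dW : Derivation k' L L := (-(u ^ 2)) • dL
    have hdW : dW u⁻¹ = 1 := by
      change -(u ^ 2) * dL u⁻¹ = 1
      rw [Derivation.leibniz_inv, hdu]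
      simp only [smul_eq_mul]
      field_simp
    have hp := place_con h hout x₀ hx hx0 (Crest.Agent.R270.Link_131.rev H) (h.rev k' H hH)
      (trge_mono (coeffs_rev H) le_rfl hHt) u⁻¹ (trans_inv hu) f a _ c hf.map hf.cls hjr dW hdW 0 3
    rw [phi_scale a b c _ hμ, prod_w (D := D) (u⁻¹) hu'] at hp
    have h1 := int_vinf u hu0 hRp _ hp
    have h2 : ∀ z, dw (k := k') (Kr := RatFunc k') dZ z = dW z := by
      intro z
      rw [dw_apply, hU]
      rfl
    have h3 : (dw (k := k') (Kr := RatFunc k') dZ : L → L) = dW := funext h2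
    rw [h3, hU]
    exact h1
  obtain ⟨a0, a1, a2, hfin'⟩ := quad_of_int' dZ hdZ (phi D a b c) hfin hinf
  refine ⟨C a0 + C a1 * X + C a2 * X ^ 2, ?_, ?_⟩
  · compute_degree
  · rw [hfin', hRp]

end Crest.Agent.R260.Quad_517
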