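import Crest.Agent.R260.Asm_803
import Crest.Agent.R260.QuadAsm_517

/-!
# Row 260 (S0398), MAIN (helper803): QUAD for a family, `AGCore`, the statement
-/

set_option autoImplicit false
set_option linter.unusedSectionVars false

namespace Crest.Agent.R260.Asm_803

open Polynomial Crest.Agent.R270.BM_360 Crest.Agent.R260.Lin_678
open Crest.Agent.R260.QuadDefs_517 Crest.Agent.R260.Fam_919 Crest.Agent.R260.Gp_169

variable {I : Type} {J : I → Type} [Fintype I] [∀ i, Fintype (J i)]
  {k : Type} [Field k] [IsAlgClosed k] [CharZero k] (D : CData k I J)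
  {P : Ideal (MvPolynomial (Cx J (fun i => 2 * D.β i)) k)}

/-- all the leaves of QUAD for the family. -/
theorem leaves (hm : 0 < D.m) (hF : Fam D P) (hE : (Ideal.span D.E).IsPrime) :
    Quad_517.Leaves D (VC _ P) where
  lin := Lp_678.linP D
  kpr := Kp_997.kprimeP D
  div := div D hm hF hE
  irr := Irr_33.irrP D hE
  alg := Alg0_661.algP D
  gen1 := gen1 D hF hE
  gen2 := by
    intro F₀ k' _ _ _ _ _ _ _ _ H t h1 h2
    exact Gp_169.gen2_exact (conFrame D hF hE) F₀ k' H t h1 h2
  lf := lineFrame D hE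
  scal := Scal_661.scalP
  exm := Scal_661.exmP
  loc := locP
  map := fun _ _ _ _ _ _ g _ h => InC.mapT _ h g
  rev := fun _ _ _ _ _ h => Cc_564.con_rev hF h

/-- **QUAD** for the family. -/
theorem quad (hm : 0 < D.m) (hF : Fam D P) (hE : (Ideal.span D.E).IsPrime) :
    QUAD D (VC _ P) := Quad_517.quad (leaves D hm hF hE)

/-- **AGCore**. -/
theorem agCore : MainC_803.AGCore :=
  agCore_of_quad fun _ _ _ _ D _ hm hE _ hP => quad D (by omega) hP hE

end Crest.Agent.R260.Asm_803
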