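import Crest.Agent.R260.Mob2_919
import Crest.Agent.R260.GenFam1_919

/-!
# Row 260 (S0398), GENFAM (F0) (helper919): existence of the irreducible family

`act N e F = μ · (F ∘ g)` for `e = (g, μ) : Fin 4 ⊕ I → R`; `TT N F : A → ℂ[g, μ]` the generic
orbit map of one tuple; `ker` of these maps over an open set of parameters is an invariant prime
ideal (`exists_inv_prime`).
-/

set_option autoImplicit false
set_option linter.unusedSectionVars false

namespace Crest.Agent.R260.Fam_919

open Polynomial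
open Crest.Agent.R270.BM_360 Crest.Agent.R260.Lin_678 Crest.Agent.R260.Mob_919

universe u v w

variable {I : Type} {J : I → Type} [Fintype I] [∀ i, Fintype (J i)]

/-- `mobT` with all parameters in one vector. -/
noncomputable def act {R : Type v} [CommRing R] (N : I → ℕ) (e : Fin 4 ⊕ I → R)
    (F : ∀ i, J i → R[X]) : ∀ i, J i → R[X] :=
  mobT N (fun i => e (Sum.inr i)) (e (Sum.inl 0)) (e (Sum.inl 1)) (e (Sum.inl 2)) (e (Sum.inl 3)) F

/-- product of parameters. -/
def mulE {R : Type v} [CommRing R] (e e' : Fin 4 ⊕ I → R) : Fin 4 ⊕ I → R :=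
  Sum.elim ![e (Sum.inl 0) * e' (Sum.inl 0) + e (Sum.inl 1) * e' (Sum.inl 2),
      e (Sum.inl 0) * e' (Sum.inl 1) + e (Sum.inl 1) * e' (Sum.inl 3),
      e (Sum.inl 2) * e' (Sum.inl 0) + e (Sum.inl 3) * e' (Sum.inl 2),
      e (Sum.inl 2) * e' (Sum.inl 1) + e (Sum.inl 3) * e' (Sum.inl 3)]
    (fun i => e' (Sum.inr i) * e (Sum.inr i))

/-- the unit parameter. -/
def oneE {R : Type v} [CommRing R] : Fin 4 ⊕ I → R := Sum.elim ![1, 0, 0, 1] (fun _ => 1)

variable {R : Type v} [CommRing R] {S : Type w} [CommRing S] (N : I → ℕ)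

/-- base change of tuples. -/
noncomputable def mapT (φ : R →+* S) (F : ∀ i, J i → R[X]) : ∀ i, J i → S[X] :=
  fun i x => (F i x).map φ

theorem mapT_mapT {T : Type*} [CommRing T] (φ : R →+* S) (ψ : S →+* T) (F : ∀ i, J i → R[X]) :
    mapT ψ (mapT φ F) = mapT (ψ.comp φ) F := by
  funext i x
  simp [mapT, Polynomial.map_map]

theorem act_act (e e' : Fin 4 ⊕ I → R) (F : ∀ i, J i → R[X]) :
    act N e' (act N e F) = act N (mulE e e') F := by
  unfold act
  rw [mobT_mobT]
  rfl

theorem act_one {F : ∀ i, J i → R[X]} (hF : ∀ i x, (F i x).natDegree ≤ N i) :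
    act N oneE F = F := mobT_id N hF

theorem mapT_act (φ : R →+* S) (e : Fin 4 ⊕ I → R) (F : ∀ i, J i → R[X]) :
    mapT φ (act N e F) = act N (fun j => φ (e j)) (mapT φ F) := by
  funext i x
  exact mobT_map φ N _ _ _ _ _ F i x

theorem natDegree_act_le (e : Fin 4 ⊕ I → R) (F : ∀ i, J i → R[X]) (i : I) (x : J i) :
    (act N e F i x).natDegree ≤ N i := natDegree_mobT_le N _ _ _ _ _ F i x

theorem natDegree_mapT_le (φ : R →+* S) {F : ∀ i, J i → R[X]}
    (hF : ∀ i x, (F i x).natDegree ≤ N i) (i : I) (x : J i) : (mapT φ F i x).natDegree ≤ N i :=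
  natDegree_map_le.trans (hF i x)

theorem cfv_mapT (φ : R →+* S) (F : ∀ i, J i → R[X]) :
    cfv N (mapT φ F) = fun y => φ (cfv N F y) := cfv_map φ N F

section nat

variable {k : Type u} [Field k] [Algebra k R] [Algebra k S]

theorem aeval_mapT (φ : R →ₐ[k] S) (F : ∀ i, J i → R[X]) (p : MvPolynomial (Cx J N) k) :
    MvPolynomial.aeval (cfv N (mapT (φ : R →+* S) F)) p
      = φ (MvPolynomial.aeval (cfv N F) p) := by
  rw [cfv_mapT, ← AlgHom.comp_apply]
  congr 1
  refine MvPolynomial.algHom_ext fun y => ?_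
  simp

/-- the universal tuple over the coefficient ring. -/
noncomputable def uni (k : Type u) [Field k] (N : I → ℕ) :
    ∀ i, J i → (MvPolynomial (Cx J N) k)[X] := univT N (fun y => MvPolynomial.X y)

theorem natDegree_uni_le (i : I) (x : J i) :
    ((uni k N : ∀ i, J i → (MvPolynomial (Cx J N) k)[X]) i x).natDegree ≤ N i :=
  natDegree_univT_le N _ i x

theorem mapT_uni (φ : MvPolynomial (Cx J N) k →ₐ[k] R) :
    mapT (φ : MvPolynomial (Cx J N) k →+* R) (uni k N)
      = univT N (fun y => φ (MvPolynomial.X y)) := by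
  funext i x
  exact univT_map (φ : MvPolynomial (Cx J N) k →+* R) N _ i x

theorem mapT_uni_aeval {F : ∀ i, J i → R[X]} (hF : ∀ i x, (F i x).natDegree ≤ N i) :
    mapT ((MvPolynomial.aeval (cfv N F) : MvPolynomial (Cx J N) k →ₐ[k] R) :
      MvPolynomial (Cx J N) k →+* R) (uni k N) = F := by
  rw [mapT_uni]
  simp only [MvPolynomial.aeval_X]
  exact univT_cfv N hF

theorem InC.mapT {P : Ideal (MvPolynomial (Cx J N) k)} {F : ∀ i, J i → R[X]} (h : InC N P F)
    (φ : R →ₐ[k] S) : InC N P (mapT (φ : R →+* S) F) where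
  deg := natDegree_mapT_le N _ h.deg
  mem p hp := by rw [aeval_mapT, h.mem p hp, map_zero]

end nat

section orbit

variable {k : Type u} [Field k]

/-- the tuple `μ · (F ∘ g)` with generic `(g, μ)`. -/
noncomputable def orb (F : ∀ i, J i → k[X]) : ∀ i, J i → (MvPolynomial (Fin 4 ⊕ I) k)[X] :=
  act N MvPolynomial.X (mapT MvPolynomial.C F)

/-- the generic orbit map. -/
noncomputable def TT (F : ∀ i, J i → k[X]) :
    MvPolynomial (Cx J N) k →ₐ[k] MvPolynomial (Fin 4 ⊕ I) k :=
  MvPolynomial.aeval (cfv N (orb N F))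

/-- specialisation of the generic orbit. -/
theorem aeval_act_of_TT [Algebra k R] (F : ∀ i, J i → k[X]) (e : Fin 4 ⊕ I → R)
    (p : MvPolynomial (Cx J N) k) :
    MvPolynomial.aeval (cfv N (act N e (mapT (algebraMap k R) F))) p
      = MvPolynomial.aeval e (TT N F p) := by
  unfold TT
  rw [← aeval_mapT]
  congr 3
  unfold orb
  rw [mapT_act, mapT_mapT]
  congr 1
  · funext j
    simp
  · congr 1
    ext a
    simp

theorem aeval_of_TT_eq_zero [Algebra k R] {F : ∀ i, J i → k[X]} {p : MvPolynomial (Cx J N) k}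
    (h : TT N F p = 0) (e : Fin 4 ⊕ I → R) :
    MvPolynomial.aeval (cfv N (act N e (mapT (algebraMap k R) F))) p = 0 := by
  rw [aeval_act_of_TT, h, map_zero]

variable {X : Type*} [TopologicalSpace X]

/-- the ideal of the orbits over `W`. -/
noncomputable def PW (F : X → ∀ i, J i → k[X]) (W : Set X) : Ideal (MvPolynomial (Cx J N) k) :=
  GenFam_919.ker (fun x => (TT N (F x) :
    MvPolynomial (Cx J N) k →+* MvPolynomial (Fin 4 ⊕ I) k)) W

theorem mem_PW {F : X → ∀ i, J i → k[X]} {W : Set X} {p : MvPolynomial (Cx J N) k} :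
    p ∈ PW N F W ↔ ∀ x ∈ W, TT N (F x) p = 0 := Iff.rfl

/-- generic transform of a polynomial in the coefficients. -/
noncomputable def Psi (k : Type u) [Field k] (N : I → ℕ) :
    MvPolynomial (Cx J N) k →ₐ[k] MvPolynomial (Fin 4 ⊕ I) (MvPolynomial (Cx J N) k) :=
  MvPolynomial.aeval (cfv N (act N MvPolynomial.X (mapT MvPolynomial.C (uni k N))))

/-- the coefficients of the transform of an element of `PW` are in `PW`. -/
theorem coeff_Psi_mem {F : X → ∀ i, J i → k[X]} {W : Set X} {p : MvPolynomial (Cx J N) k}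
    (hp : p ∈ PW N F W) (m : Fin 4 ⊕ I →₀ ℕ) : (Psi k N p).coeff m ∈ PW N F W := by
  intro x hx
  let R₁ := MvPolynomial (Fin 4 ⊕ I) k
  let R₂ := MvPolynomial (Fin 4 ⊕ I) R₁
  let φ : MvPolynomial (Fin 4 ⊕ I) (MvPolynomial (Cx J N) k) →ₐ[k] R₂ :=
    MvPolynomial.mapAlgHom (TT N (F x))
  have h1 : φ (Psi k N p) = 0 := by
    unfold Psi
    rw [← aeval_mapT]
    have e1 : mapT (φ : MvPolynomial (Fin 4 ⊕ I) (MvPolynomial (Cx J N) k) →+* R₂)
        (act N MvPolynomial.X (mapT MvPolynomial.C (uni k N)))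
        = act N (mulE (fun j => (MvPolynomial.C (MvPolynomial.X j : R₁) : R₂)) MvPolynomial.X)
          (mapT (algebraMap k R₂) (F x)) := by
      rw [mapT_act, mapT_mapT, ← act_act]
      have e2 : (fun j => (φ : MvPolynomial (Fin 4 ⊕ I) (MvPolynomial (Cx J N) k) →+* R₂)
          (MvPolynomial.X j)) = (MvPolynomial.X : Fin 4 ⊕ I → R₂) := by
        funext j
        simp [φ, R₂]
      have e3 : mapT ((φ : MvPolynomial (Fin 4 ⊕ I) (MvPolynomial (Cx J N) k) →+* R₂).comp
          MvPolynomial.C) (uni k N)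
          = act N (fun j => (MvPolynomial.C (MvPolynomial.X j : R₁) : R₂))
            (mapT (algebraMap k R₂) (F x)) := by
        have e4 : (φ : MvPolynomial (Fin 4 ⊕ I) (MvPolynomial (Cx J N) k) →+* R₂).comp
            MvPolynomial.C = (MvPolynomial.C : R₁ →+* R₂).comp
              (TT N (F x) : MvPolynomial (Cx J N) k →+* R₁) := by
          refine RingHom.ext fun a => ?_
          simp only [RingHom.comp_apply, RingHom.coe_coe]
          exact MvPolynomial.map_C _ _
        rw [e4, ← mapT_mapT]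
        have e5 : mapT (TT N (F x) : MvPolynomial (Cx J N) k →+* R₁) (uni k N) = orb N (F x) :=
          mapT_uni_aeval N (fun i x => natDegree_act_le N _ _ i x)
        rw [e5]
        unfold orb
        rw [mapT_act, mapT_mapT]
        rfl
      rw [e2, e3]
    rw [e1]
    exact aeval_of_TT_eq_zero N (hp x hx) _
  have h2 : (MvPolynomial.map (TT N (F x) : MvPolynomial (Cx J N) k →+* R₁) (Psi k N p)).coeff m
      = 0 := by
    have h3 : MvPolynomial.map (TT N (F x) : MvPolynomial (Cx J N) k →+* R₁) (Psi k N p)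
      = φ (Psi k N p) := rfl
    rw [h3, h1, MvPolynomial.coeff_zero]
  rw [MvPolynomial.coeff_map] at h2
  exact h2

/-- specialisation of the generic transform. -/
theorem aeval_act_eq [Algebra k R] {G : ∀ i, J i → R[X]} (hG : ∀ i x, (G i x).natDegree ≤ N i)
    (e : Fin 4 ⊕ I → R) (p : MvPolynomial (Cx J N) k) :
    MvPolynomial.aeval (cfv N (act N e G)) p
      = MvPolynomial.eval₂ ((MvPolynomial.aeval (cfv N G) : MvPolynomial (Cx J N) k →ₐ[k] R) :
        MvPolynomial (Cx J N) k →+* R) e (Psi k N p) := by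
  let ρ : MvPolynomial (Cx J N) k →ₐ[k] R := MvPolynomial.aeval (cfv N G)
  let φ₀ : MvPolynomial (Fin 4 ⊕ I) (MvPolynomial (Cx J N) k) →+* R :=
    MvPolynomial.eval₂Hom (ρ : MvPolynomial (Cx J N) k →+* R) e
  let φ : MvPolynomial (Fin 4 ⊕ I) (MvPolynomial (Cx J N) k) →ₐ[k] R :=
    { φ₀ with
      commutes' := fun r => by
        have h1 : (algebraMap k (MvPolynomial (Fin 4 ⊕ I) (MvPolynomial (Cx J N) k))) r
          = MvPolynomial.C (MvPolynomial.C r) := rfl
        rw [h1]
        simp [φ₀, ρ] }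
  have h1 : φ (Psi k N p) = MvPolynomial.aeval (cfv N (act N e G)) p := by
    unfold Psi
    rw [← aeval_mapT, mapT_act, mapT_mapT]
    have e2 : (fun j => (φ : MvPolynomial (Fin 4 ⊕ I) (MvPolynomial (Cx J N) k) →+* R)
        (MvPolynomial.X j)) = e := by
      funext j
      simp [φ, φ₀]
    have e3 : (φ : MvPolynomial (Fin 4 ⊕ I) (MvPolynomial (Cx J N) k) →+* R).comp
        MvPolynomial.C = (ρ : MvPolynomial (Cx J N) k →+* R) := by
      refine RingHom.ext fun a => ?_
      simp [φ, φ₀]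
    rw [e2, e3]
    have e4 : mapT (ρ : MvPolynomial (Cx J N) k →+* R) (uni k N) = G := mapT_uni_aeval N hG
    rw [e4]
  rw [← h1]
  rfl

/-- **invariance.** -/
theorem PW_inv {F : X → ∀ i, J i → k[X]} {W : Set X} [Algebra k R] {G : ∀ i, J i → R[X]}
    (hG : InC N (PW N F W) G) (e : Fin 4 ⊕ I → R) : InC N (PW N F W) (act N e G) where
  deg := natDegree_act_le N e G
  mem p hp := by
    rw [aeval_act_eq N hG.deg, MvPolynomial.eval₂_eq']
    refine Finset.sum_eq_zero fun m _ => ?_
    have := hG.mem _ (coeff_Psi_mem N hp m)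
    rw [RingHom.coe_coe, this, zero_mul]

/-- the members of the family lie in `V(PW)`. -/
theorem inC_of_mem {F : X → ∀ i, J i → k[X]} {W : Set X} {x : X} (hx : x ∈ W)
    (hF : ∀ i y, (F x i y).natDegree ≤ N i) : InC N (PW N F W) (F x) where
  deg := hF
  mem p hp := by
    have h1 := aeval_of_TT_eq_zero (R := k) N (hp x hx) oneE
    have h2 : mapT (algebraMap k k) (F x) = F x := by
      funext i y
      simp [mapT]
    rw [h2, act_one N hF] at h1
    exact h1

end orbit

end Crest.Agent.R260.Fam_919
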