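import Crest.Agent.R260.Cnt2_749

/-!
Row 260 (S0398), leaf (L2) of COUNT (helper941 for helper749): the generic parametrised line
through the points of a map of class `β`.
-/

set_option autoImplicit false
set_option linter.unusedSectionVars false

namespace Crest.Agent.R260.Gln_941

open Polynomial Crest.Agent.R270.BM_360
open Crest.Agent.R270.Rees_581 (cl mem_cl coe_cl subset_cl cl_le adjoin_le_cl trGe_iff trGe_of_cl
  trGe_of_algebraic)
open Crest.Agent.R270.Span_925 (Same)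
open Crest.Agent.R270.Sat_422 (lo hi lo_ne_zero hi_ne_zero)
open Crest.Agent.R270.Link_131 (rev rev_isMap cls_rev low_rev top low eval_reflect
  natDegree_le_vdeg isMap_map vdeg_map)
open Crest.Agent.R270.Gr_789 (val natDegree_le_cls cop_exists_eval)
open Crest.Agent.R260.QuadDefs_517 (ent rat up pt)
open Crest.Agent.R260.Cnt_749

universe u

variable {I : Type} {J : I → Type}

section mob

variable {k : Type u} [Field k] [Fintype I] [∀ i, Fintype (J i)]
  {E : Set (MvPolynomial (Σ i, J i) k)} {κ : Type u} [Field κ] [Algebra k κ]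

/-- Möbius reparametrisation `F (c (z - t) / (z - s))`. -/
noncomputable def mob (s t c : κ) (F : ∀ i, J i → κ[X]) : ∀ i, J i → κ[X] :=
  rpt (fun _ => 1) 1 (-s) (rev (rpt (fun _ => 1) (c * (s - t)) c F))

theorem mob_isMap [IsAlgClosed κ] (hE : MHom E) (s t c : κ) {F : ∀ i, J i → κ[X]}
    (hF : IsMap E F) : IsMap E (mob s t c F) :=
  rpt_isMap hE (fun _ => one_ne_zero) _ _
    (rev_isMap hE (rpt_isMap hE (fun _ => one_ne_zero) _ _ hF))

theorem cls_mob (hE : MHom E) {s t c : κ} (hst : s ≠ t) (hc : c ≠ 0) {F : ∀ i, J i → κ[X]}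
    (hF : IsMap E F) : cls (mob s t c F) = cls F := by
  have hθ : c * (s - t) ≠ 0 := mul_ne_zero hc (sub_ne_zero.mpr hst)
  unfold mob
  rw [cls_rpt (fun _ => one_ne_zero) one_ne_zero,
    cls_rev (rpt_isMap hE (c := fun _ => (1 : κ)) (fun _ => one_ne_zero) _ _ hF),
    cls_rpt (fun _ => one_ne_zero) hθ]

theorem mob_eval_s (s t c : κ) (hst : s ≠ t) (hc : c ≠ 0) (F : ∀ i, J i → κ[X]) (i : I)
    (x : J i) : (mob s t c F i x).eval s = (c * (s - t)) ^ cls F i * hi F i x := by
  have hθ : c * (s - t) ≠ 0 := mul_ne_zero hc (sub_ne_zero.mpr hst)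
  unfold mob
  rw [rpt_eval, one_mul, one_mul, add_neg_cancel, ← coeff_zero_eq_eval_zero]
  have h1 := congrFun (congrFun (low_rev (rpt (fun _ => (1 : κ)) (c * (s - t)) c F)) i) x
  have h2 : (rev (rpt (fun _ => (1 : κ)) (c * (s - t)) c F) i x).coeff 0 =
      hi (rpt (fun _ => (1 : κ)) (c * (s - t)) c F) i x := h1
  rw [h2, hi_rpt (fun _ => one_ne_zero) hθ, one_mul, mul_comm]

theorem mob_eval (s t c : κ) (hst : s ≠ t) (hc : c ≠ 0) (F : ∀ i, J i → κ[X]) (i : I)
    (x : J i) {z : κ} (hz : z ≠ s) :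
    (mob s t c F i x).eval z = (z - s) ^ cls F i * (F i x).eval (c * (z - t) / (z - s)) := by
  have hθ : c * (s - t) ≠ 0 := mul_ne_zero hc (sub_ne_zero.mpr hst)
  have hzs : z - s ≠ 0 := sub_ne_zero.mpr hz
  have h0 : vdeg (rpt (fun _ => (1 : κ)) (c * (s - t)) c F i) = cls F i :=
    congrFun (cls_rpt (c := fun _ : I => (1 : κ)) (fun _ => one_ne_zero) hθ c F) i
  unfold mob
  rw [rpt_eval, one_mul, one_mul, ← sub_eq_add_neg]
  unfold rev
  rw [eval_reflect (natDegree_le_vdeg _ _) hzs, h0, rpt_eval, one_mul]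
  congr 2
  field_simp
  ring

end mob

section tr

variable {K Ω : Type u} [Field K] [Field Ω] [Algebra K Ω]

theorem not_trGe_pair (s t : Ω) : ¬ TrGe K ({s, t} : Set Ω) 3 := by
  rw [trGe_iff, not_le]
  have h1 : ({s, t} : Set Ω).encard ≤ 2 := by
    refine (Set.encard_insert_le _ _).trans ?_
    rw [Set.encard_singleton]
    norm_num
  refine lt_of_le_of_lt ((Matroid.eRk_le_encard _ _).trans h1) ?_
  norm_num

theorem eval_mem (S : IntermediateField K Ω) {p : Polynomial Ω} (hp : ∀ j, p.coeff j ∈ S) {z : Ω}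
    (hz : z ∈ S) : p.eval z ∈ S := by
  rw [eval_eq_sum_range]
  exact sum_mem fun j _ => mul_mem (hp j) (pow_mem hz j)

end tr

section main

variable {k : Type u} [Field k] [Fintype I] [∀ i, Fintype (J i)]
  {E : Set (MvPolynomial (Σ i, J i) k)} {F₀ κ κ₁ Ω : Type u} [Field F₀] [Algebra k F₀]
  [Field κ] [IsAlgClosed κ] [Algebra k κ] [Algebra F₀ κ] [IsScalarTower k F₀ κ]
  [Field κ₁] [IsAlgClosed κ₁] [Algebra k κ₁] [Algebra F₀ κ₁] [Algebra κ κ₁]
  [IsScalarTower k κ κ₁] [IsScalarTower F₀ κ κ₁]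
  [Field Ω] [IsAlgClosed Ω] [Algebra k Ω] [Algebra F₀ Ω] [Algebra κ Ω] [Algebra κ₁ Ω]
  [IsScalarTower k κ₁ Ω] [IsScalarTower F₀ κ Ω] [IsScalarTower κ κ₁ Ω]

/-- the values of a map over a bigger field -/
theorem val_up (G : ∀ i, J i → κ[X]) (t : Option κ) :
    up κ₁ (val G t) = val (fun i x => (G i x).map (algebraMap κ κ₁)) (t.map (algebraMap κ κ₁)) := by
  funext i x
  cases t with
  | none =>
    show algebraMap κ κ₁ ((G i x).coeff (cls G i)) =
      ((G i x).map (algebraMap κ κ₁)).coeff (cls (fun i x => (G i x).map (algebraMap κ κ₁)) i)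
    have h1 : cls (fun i x => (G i x).map (algebraMap κ κ₁)) i = cls G i := vdeg_map _ _
    rw [h1, coeff_map]
  | some z =>
    show algebraMap κ κ₁ ((G i x).eval z) =
      ((G i x).map (algebraMap κ κ₁)).eval (algebraMap κ κ₁ z)
    rw [eval_map, eval₂_at_apply]

theorem val_ne {G : ∀ i, J i → κ[X]} (hG : ∀ i, Cop (G i)) (t : Option κ) (i : I) :
    ∃ x, val G t i x ≠ 0 := by
  cases t with
  | none =>
    obtain ⟨x, hx⟩ := Function.ne_iff.mp (hi_ne_zero hG i)
    exact ⟨x, hx⟩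
  | some z => exact cop_exists_eval (hG i) z

/-- the values of the Möbius reparametrisation of `G` over a bigger field. -/
theorem mob_val {G : ∀ i, J i → κ[X]} {s t c : κ₁} (hst : s ≠ t) (hc : ∀ z : κ, c ≠ algebraMap κ κ₁ z)
    (t' : Option κ) : ∃ (t₀ : κ₁) (μ : I → κ₁), (∀ i, μ i ≠ 0) ∧ ∀ i x,
      (mob s t c (fun i x => (G i x).map (algebraMap κ κ₁)) i x).eval t₀ =
        μ i * algebraMap κ κ₁ (val G t' i x) := by
  have hc0 : c ≠ 0 := by
    have := hc 0
    rwa [map_zero] at this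
  set G1 : ∀ i, J i → κ₁[X] := fun i x => (G i x).map (algebraMap κ κ₁) with hG1
  cases t' with
  | none =>
    refine ⟨s, fun i => (c * (s - t)) ^ cls G1 i,
      fun i => pow_ne_zero _ (mul_ne_zero hc0 (sub_ne_zero.mpr hst)), fun i x => ?_⟩
    rw [mob_eval_s s t c hst hc0]
    have h := congrFun (congrFun (val_up (κ₁ := κ₁) G none) i) x
    have h2 : algebraMap κ κ₁ (val G none i x) = hi G1 i x := h
    rw [h2]
  | some z =>
    have hcz : c - algebraMap κ κ₁ z ≠ 0 := sub_ne_zero.mpr (hc z)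
    set z' := algebraMap κ κ₁ z with hz'
    have hts : t - s ≠ 0 := sub_ne_zero.mpr (Ne.symm hst)
    have h0 : (c * t - z' * s) / (c - z') - s = c * (t - s) / (c - z') := by
      field_simp
      ring
    have h1 : (c * t - z' * s) / (c - z') - s ≠ 0 := by
      rw [h0]
      exact div_ne_zero (mul_ne_zero hc0 hts) hcz
    refine ⟨(c * t - z' * s) / (c - z'), fun i => ((c * t - z' * s) / (c - z') - s) ^ cls G1 i,
      fun i => pow_ne_zero _ h1, fun i x => ?_⟩
    rw [mob_eval s t c hst hc0 G1 i x (sub_ne_zero.mp h1)]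
    have h2 : c * ((c * t - z' * s) / (c - z') - t) / ((c * t - z' * s) / (c - z') - s) = z' := by
      rw [h0]
      have h3 : (c * t - z' * s) / (c - z') - t = z' * (t - s) / (c - z') := by
        field_simp
        ring
      rw [h3]
      field_simp
    rw [h2]
    have h := congrFun (congrFun (val_up (κ₁ := κ₁) G (some z)) i) x
    have h4 : algebraMap κ κ₁ (val G (some z) i x) = (G1 i x).eval z' := h
    rw [h4]

/-- the line in a tower of three fields. -/
theorem main_tower {s t c : κ₁} (hind : AlgebraicIndependent κ ![s, t, c]) {lam : I → Ω}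
    (hlam : AlgebraicIndependent κ₁ lam) (hE : MHom E) {β : I → ℕ} (i₀ : I) (hβ : ∀ i, 0 < β i)
    {G : ∀ i, J i → κ[X]} (hG : IsMap E G) (hc : cls G = β) {n : ℕ}
    (ht : TrGe F₀ (rat (hi G) ∪ rat (lo G)) n) :
    ∃ l : ∀ i, J i → Polynomial Ω, IsMap E l ∧ cls l = β ∧ TrGe F₀ (coeffs l) (n + 1 + Fintype.card I) ∧
      ∀ (t : Option κ) (r : ℕ), TrGe F₀ (rat (val G t)) r →
        ∃ t₀ : Ω, Same (up Ω (val G t)) (pt l t₀) ∧
          TrGe F₀ (ent (pt l t₀)) (r + Fintype.card I) := by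
  have hst : s ≠ t := by
    intro h
    have := hind.injective (a₁ := 0) (a₂ := 1) h
    exact absurd this (by decide)
  have hct : Transcendental κ c := hind.transcendental 2
  have hcz : ∀ z : κ, c ≠ algebraMap κ κ₁ z := by
    rintro z rfl
    exact hct (isAlgebraic_algebraMap z)
  have hc0 : c ≠ 0 := by
    have := hcz 0
    rwa [map_zero] at this
  have hlam0 : ∀ i, lam i ≠ 0 := fun i => hlam.ne_zero i
  let φ₁ : κ →ₐ[k] κ₁ := IsScalarTower.toAlgHom k κ κ₁
  let φ₂ : κ₁ →ₐ[k] Ω := IsScalarTower.toAlgHom k κ₁ Ω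
  let G1 : ∀ i, J i → κ₁[X] := fun i x => (G i x).map (algebraMap κ κ₁)
  have hG1 : IsMap E G1 := isMap_map φ₁ hG
  have hG1c : cls G1 = β := by
    rw [← hc]
    funext i
    exact vdeg_map _ _
  let M := mob s t c G1
  have hM : IsMap E M := mob_isMap hE s t c hG1
  have hMc : cls M = β := (cls_mob hE hst hc0 hG1).trans hG1c
  let M2 : ∀ i, J i → Polynomial Ω := fun i x => (M i x).map (algebraMap κ₁ Ω)
  have hM2 : IsMap E M2 := isMap_map φ₂ hM
  have hM2c : cls M2 = β := by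
    rw [← hMc]
    funext i
    exact vdeg_map _ _
  let l := rpt lam 1 0 M2
  have hl : IsMap E l := rpt_isMap hE hlam0 _ _ hM2
  have hlc : cls l = β := (cls_rpt hlam0 one_ne_zero _ _).trans hM2c
  -- values
  have hev : ∀ (z : κ₁) i x, pt l (algebraMap κ₁ Ω z) i x =
      lam i * algebraMap κ₁ Ω ((M i x).eval z) := by
    intro z i x
    show (rpt lam 1 0 M2 i x).eval _ = _
    rw [rpt_eval, one_mul, add_zero]
    show lam i * ((M i x).map (algebraMap κ₁ Ω)).eval (algebraMap κ₁ Ω z) = _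
    rw [eval_map, eval₂_at_apply]
  have hco : ∀ (K : Type u) [Field K] [Algebra K Ω] (i : I) (x : J i) (j : ℕ),
      (l i x).coeff j ∈ IntermediateField.adjoin K (coeffs l) := fun K _ _ i x j =>
    IntermediateField.subset_adjoin _ _ ⟨i, x, j, rfl⟩
  have key : ∀ t' : Option κ, ∃ (t₀ : κ₁) (d : I → Ω), (∀ i, d i ≠ 0) ∧
      (∀ i x, pt l (algebraMap κ₁ Ω t₀) i x = d i * algebraMap κ Ω (val G t' i x)) ∧
      ∀ (S : IntermediateField κ₁ Ω), (∀ i x, pt l (algebraMap κ₁ Ω t₀) i x ∈ S) →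
        ∀ i, lam i ∈ S := by
    intro t'
    obtain ⟨t₀, μ, hμ, hv⟩ := mob_val (G := G) hst hcz t'
    have hμ' : ∀ i, algebraMap κ₁ Ω (μ i) ≠ 0 := fun i => by
      rw [Ne, map_eq_zero]
      exact hμ i
    have h1 : ∀ i x, pt l (algebraMap κ₁ Ω t₀) i x =
        lam i * algebraMap κ₁ Ω (μ i) * algebraMap κ Ω (val G t' i x) := by
      intro i x
      rw [hev, show (M i x).eval t₀ = _ from hv i x, map_mul, mul_assoc,
        ← IsScalarTower.algebraMap_apply κ κ₁ Ω]
    refine ⟨t₀, fun i => lam i * algebraMap κ₁ Ω (μ i), fun i => mul_ne_zero (hlam0 i) (hμ' i),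
      h1, fun S hS i => ?_⟩
    obtain ⟨x, hx⟩ := val_ne hG.cop t' i
    have hx' : algebraMap κ Ω (val G t' i x) ≠ 0 := by
      rw [Ne, map_eq_zero]
      exact hx
    have h2 : lam i = pt l (algebraMap κ₁ Ω t₀) i x *
        (algebraMap κ₁ Ω (μ i * algebraMap κ κ₁ (val G t' i x)))⁻¹ := by
      rw [h1, map_mul, ← IsScalarTower.algebraMap_apply κ κ₁ Ω]
      have := hμ' i
      field_simp
    rw [h2]
    exact mul_mem (hS i x) (inv_mem (S.algebraMap_mem _))
  have hI : ∀ T : Set Ω, (∀ i, lam i ∈ IntermediateField.adjoin κ₁ T) →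
      TrGe κ₁ T (Fintype.card I) := by
    intro T hT
    let e : Fin (Fintype.card I) ≃ I := (Fintype.equivFin I).symm
    exact ⟨fun j => lam (e j), fun j => hT _, hlam.comp e e.injective⟩
  refine ⟨l, hl, hlc, ?_, ?_⟩
  · -- the number of parameters of `l`
    set sΩ := algebraMap κ₁ Ω s with hsΩ
    set tΩ := algebraMap κ₁ Ω t with htΩ
    set cΩ := algebraMap κ₁ Ω c with hcΩ
    have hstΩ : sΩ - tΩ ≠ 0 := by
      rw [hsΩ, htΩ, ← map_sub, Ne, map_eq_zero]
      exact sub_ne_zero.mpr hst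
    set S : Set Ω := coeffs l ∪ {sΩ, tΩ} with hS
    have hsS : ∀ (K : Type u) [Field K] [Algebra K Ω], sΩ ∈ IntermediateField.adjoin K S :=
      fun K _ _ => IntermediateField.subset_adjoin _ _ (Or.inr (Or.inl rfl))
    have htS : ∀ (K : Type u) [Field K] [Algebra K Ω], tΩ ∈ IntermediateField.adjoin K S :=
      fun K _ _ => IntermediateField.subset_adjoin _ _ (Or.inr (Or.inr rfl))
    have hcS : ∀ (K : Type u) [Field K] [Algebra K Ω] (i : I) (x : J i) (j : ℕ),
        (l i x).coeff j ∈ IntermediateField.adjoin K S := fun K _ _ i x j =>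
      IntermediateField.subset_adjoin _ _ (Or.inl ⟨i, x, j, rfl⟩)
    have hps : ∀ (K : Type u) [Field K] [Algebra K Ω] (i : I) (x : J i),
        pt l sΩ i x ∈ IntermediateField.adjoin K S := fun K _ _ i x =>
      eval_mem _ (hcS K i x) (hsS K)
    have hpt : ∀ (K : Type u) [Field K] [Algebra K Ω] (i : I) (x : J i),
        pt l tΩ i x ∈ IntermediateField.adjoin K S := fun K _ _ i x =>
      eval_mem _ (hcS K i x) (htS K)
    -- values at `s` and `t`
    have hvs : ∀ i x, pt l sΩ i x =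
        lam i * (cΩ * (sΩ - tΩ)) ^ β i * algebraMap κ Ω (hi G i x) := by
      intro i x
      rw [hsΩ, hev, show M i x = mob s t c G1 i x from rfl, mob_eval_s s t c hst hc0, hG1c]
      have h := congrFun (congrFun (val_up (κ₁ := κ₁) G none) i) x
      have h2 : hi G1 i x = algebraMap κ κ₁ (hi G i x) := h.symm
      rw [h2, map_mul, map_pow, map_mul, map_sub, ← IsScalarTower.algebraMap_apply κ κ₁ Ω,
        mul_assoc]
    have hvt : ∀ i x, pt l tΩ i x =
        lam i * (tΩ - sΩ) ^ β i * algebraMap κ Ω (lo G i x) := by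
      intro i x
      rw [htΩ, hev, show M i x = mob s t c G1 i x from rfl,
        mob_eval s t c hst hc0 _ _ _ (Ne.symm hst), hG1c, sub_self, mul_zero, zero_div]
      have h2 : (G1 i x).eval 0 = algebraMap κ κ₁ (lo G i x) := by
        rw [← coeff_zero_eq_eval_zero]
        exact coeff_map _ _
      rw [h2, map_mul, map_pow, map_sub, ← IsScalarTower.algebraMap_apply κ κ₁ Ω, mul_assoc]
    -- `lam` and `s, t, c`
    have h1 : TrGe κ₁ (coeffs l) (Fintype.card I) := by
      obtain ⟨t₀, d, -, -, h⟩ := key none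
      exact hI _ (h _ fun i x => eval_mem _ (hco κ₁ i x)
        (IntermediateField.algebraMap_mem _ _))
    have h2 : TrGe κ (Set.range ![sΩ, tΩ, cΩ]) 3 := by
      refine ⟨![sΩ, tΩ, cΩ], fun j => IntermediateField.subset_adjoin _ _ ⟨j, rfl⟩, ?_⟩
      have h3 := hind.map' (f := IsScalarTower.toAlgHom κ κ₁ Ω) (algebraMap κ₁ Ω).injective
      convert h3 using 1
      funext j
      fin_cases j <;> rfl
    have h3 : TrGe κ (Set.range ![sΩ, tΩ, cΩ] ∪ coeffs l) (3 + Fintype.card I) := by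
      refine trGe_tower h2 ?_ h1
      rintro _ ⟨j, rfl⟩
      fin_cases j
      · exact ⟨s, rfl⟩
      · exact ⟨t, rfl⟩
      · exact ⟨c, rfl⟩
    have hcc : cΩ ∈ cl κ S := by
      refine pow_mem_cl (hβ i₀) ?_
      obtain ⟨x, hx⟩ := Function.ne_iff.mp (hi_ne_zero hG.cop i₀)
      obtain ⟨y, hy⟩ := Function.ne_iff.mp (lo_ne_zero hG.cop i₀)
      have hx' : algebraMap κ Ω (hi G i₀ x) ≠ 0 := by
        rw [Ne, map_eq_zero]
        exact hx
      have hy' : algebraMap κ Ω (lo G i₀ y) ≠ 0 := by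
        rw [Ne, map_eq_zero]
        exact hy
      have hts : tΩ - sΩ ≠ 0 := by
        rw [← neg_sub]
        exact neg_ne_zero.mpr hstΩ
      have h5 : cΩ ^ β i₀ = pt l sΩ i₀ x * (pt l tΩ i₀ y)⁻¹ * (tΩ - sΩ) ^ β i₀ *
          ((sΩ - tΩ) ^ β i₀)⁻¹ * algebraMap κ Ω (lo G i₀ y) * (algebraMap κ Ω (hi G i₀ x))⁻¹ := by
        rw [hvs, hvt]
        have := hlam0 i₀
        have h6 := pow_ne_zero (β i₀) hstΩ
        have h7 := pow_ne_zero (β i₀) hts
        rw [mul_pow]
        field_simp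
      rw [h5]
      refine adjoin_le_cl S ?_
      have e1 := hps κ i₀ x
      have e2 := hpt κ i₀ y
      have e3 := hsS κ
      have e4 := htS κ
      exact mul_mem (mul_mem (mul_mem (mul_mem (mul_mem e1 (inv_mem e2))
        (pow_mem (sub_mem e4 e3) _)) (inv_mem (pow_mem (sub_mem e3 e4) _)))
        (IntermediateField.algebraMap_mem _ _)) (inv_mem (IntermediateField.algebraMap_mem _ _))
    have h4 : TrGe κ S (3 + Fintype.card I) := by
      refine trGe_mono h3 (Set.union_subset ?_ (Set.subset_union_left.trans (subset_cl S)))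
      rintro _ ⟨j, rfl⟩
      fin_cases j
      · exact subset_cl S (Or.inr (Or.inl rfl))
      · exact subset_cl S (Or.inr (Or.inr rfl))
      · exact hcc
    -- down to `F₀`
    have h5 : TrGe F₀ (algebraMap κ Ω '' (rat (hi G) ∪ rat (lo G))) n :=
      trGe_image (IsScalarTower.toAlgHom F₀ κ Ω) ht
    have h6 : TrGe F₀ (algebraMap κ Ω '' (rat (hi G) ∪ rat (lo G)) ∪ S)
        (n + (3 + Fintype.card I)) :=
      trGe_tower h5 (by rintro _ ⟨x, -, rfl⟩; exact ⟨x, rfl⟩) h4
    have hAs : algebraMap κ Ω '' rat (hi G) ⊆ (IntermediateField.adjoin F₀ S : Set Ω) := by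
      rw [← rat_map]
      have h7 : rat (pt l sΩ) = rat (fun i a => algebraMap κ Ω (hi G i a)) :=
        rat_same_eq ⟨fun i => lam i * (cΩ * (sΩ - tΩ)) ^ β i, fun i => mul_ne_zero (hlam0 i)
          (pow_ne_zero _ (mul_ne_zero (by rw [hcΩ, Ne, map_eq_zero]; exact hc0) hstΩ)),
          fun i x => hvs i x⟩
      rw [← h7]
      exact rat_subset fun i x => hps F₀ i x
    have hAt : algebraMap κ Ω '' rat (lo G) ⊆ (IntermediateField.adjoin F₀ S : Set Ω) := by
      rw [← rat_map]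
      have h7 : rat (pt l tΩ) = rat (fun i a => algebraMap κ Ω (lo G i a)) :=
        rat_same_eq ⟨fun i => lam i * (tΩ - sΩ) ^ β i, fun i => mul_ne_zero (hlam0 i)
          (pow_ne_zero _ (by rw [← neg_sub]; exact neg_ne_zero.mpr hstΩ)),
          fun i x => hvt i x⟩
      rw [← h7]
      exact rat_subset fun i x => hpt F₀ i x
    have h7 : TrGe F₀ (coeffs l ∪ {sΩ, tΩ}) ((n + 1 + Fintype.card I) + 2) := by
      have h8 : n + (3 + Fintype.card I) = (n + 1 + Fintype.card I) + 2 := by omega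
      rw [← h8]
      refine trGe_adj h6 (Set.union_subset ?_ (IntermediateField.subset_adjoin _ _))
      rw [Set.image_union]
      exact Set.union_subset hAs hAt
    exact trGe_split h7 (not_trGe_pair _ _)
  · intro t' r hr
    obtain ⟨t₀, d, hd, hv, h⟩ := key t'
    refine ⟨algebraMap κ₁ Ω t₀, ⟨d, hd, fun i x => hv i x⟩, ?_⟩
    have h1 : TrGe F₀ (algebraMap κ Ω '' rat (val G t')) r :=
      trGe_image (IsScalarTower.toAlgHom F₀ κ Ω) hr
    have h2 : TrGe κ₁ (ent (pt l (algebraMap κ₁ Ω t₀))) (Fintype.card I) :=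
      hI _ (h _ fun i x => IntermediateField.subset_adjoin _ _ ⟨i, x, rfl⟩)
    have h3 : TrGe κ (ent (pt l (algebraMap κ₁ Ω t₀))) (Fintype.card I) := trGe_base h2
    have h4 := trGe_tower h1 (by rintro _ ⟨x, -, rfl⟩; exact ⟨x, rfl⟩) h3
    refine trGe_adj h4 (Set.union_subset ?_ (IntermediateField.subset_adjoin _ _))
    rw [← rat_map]
    have h7 : rat (pt l (algebraMap κ₁ Ω t₀)) = rat (fun i a => algebraMap κ Ω (val G t' i a)) :=
      rat_same_eq ⟨d, hd, fun i x => hv i x⟩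
    rw [← h7]
    exact rat_subset fun i x => IntermediateField.subset_adjoin _ _ ⟨i, x, rfl⟩

end main

/-- **(L2)** the generic parametrised line through the points of a map of class `β`. -/
theorem gen_line {k : Type u} [Field k] [Fintype I] [∀ i, Fintype (J i)]
    {E : Set (MvPolynomial (Σ i, J i) k)} (hE : MHom E) {β : I → ℕ} (i₀ : I)
    (hβ : ∀ i, 0 < β i) {F₀ κ : Type u} [Field F₀] [Algebra k F₀] [Field κ] [IsAlgClosed κ]
    [Algebra k κ] [Algebra F₀ κ] [IsScalarTower k F₀ κ] {G : ∀ i, J i → κ[X]} (hG : IsMap E G)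
    (hc : cls G = β) {n : ℕ} (ht : TrGe F₀ (rat (hi G) ∪ rat (lo G)) n) :
    ∃ (kl : Type u) (_ : Field kl) (_ : IsAlgClosed kl) (_ : Algebra k kl) (_ : Algebra F₀ kl)
      (_ : IsScalarTower k F₀ kl) (_ : Algebra κ kl) (_ : IsScalarTower F₀ κ kl)
      (l : ∀ i, J i → kl[X]), IsMap E l ∧ cls l = β ∧
      TrGe F₀ (coeffs l) (n + 1 + Fintype.card I) ∧
      ∀ (t : Option κ) (r : ℕ), TrGe F₀ (rat (val G t)) r →
        ∃ t₀ : kl, Same (up kl (val G t)) (pt l t₀) ∧
          TrGe F₀ (ent (pt l t₀)) (r + Fintype.card I) := by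
  obtain ⟨κ₁, _, _, _, a, ha⟩ := exists_trans κ (Fin 3)
  obtain ⟨Ω, _, _, _, lam, hlam⟩ := exists_trans κ₁ I
  let _ : Algebra k κ₁ := ((algebraMap κ κ₁).comp (algebraMap k κ)).toAlgebra
  let _ : Algebra F₀ κ₁ := ((algebraMap κ κ₁).comp (algebraMap F₀ κ)).toAlgebra
  let _ : Algebra κ Ω := ((algebraMap κ₁ Ω).comp (algebraMap κ κ₁)).toAlgebra
  let _ : Algebra k Ω := ((algebraMap κ Ω).comp (algebraMap k κ)).toAlgebra
  let _ : Algebra F₀ Ω := ((algebraMap κ Ω).comp (algebraMap F₀ κ)).toAlgebra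
  have : IsScalarTower k κ κ₁ := IsScalarTower.of_algebraMap_eq fun x => rfl
  have : IsScalarTower F₀ κ κ₁ := IsScalarTower.of_algebraMap_eq fun x => rfl
  have : IsScalarTower κ κ₁ Ω := IsScalarTower.of_algebraMap_eq fun x => rfl
  have : IsScalarTower F₀ κ Ω := IsScalarTower.of_algebraMap_eq fun x => rfl
  have : IsScalarTower k κ₁ Ω := IsScalarTower.of_algebraMap_eq fun x => rfl
  have : IsScalarTower k F₀ Ω := IsScalarTower.of_algebraMap_eq fun x => by
    show algebraMap κ Ω (algebraMap k κ x) = algebraMap κ Ω (algebraMap F₀ κ (algebraMap k F₀ x))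
    rw [← IsScalarTower.algebraMap_apply k F₀ κ]
  have ha' : AlgebraicIndependent κ ![a 0, a 1, a 2] := by
    convert ha using 1
    funext j
    fin_cases j <;> rfl
  exact ⟨Ω, inferInstance, inferInstance, inferInstance, inferInstance, inferInstance,
    inferInstance, inferInstance, main_tower ha' hlam hE i₀ hβ hG hc ht⟩

end Crest.Agent.R260.Gln_941
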