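import Crest.Agent.R260.Frm2_428
import Crest.Agent.R270.BmDefs_360

/-!
# Row 260 (S0398), FRAME part 3 (helper428): frames of the pulled back cone tangent bundle

* `TanJ Jac` : polynomial solutions of the linearised equations along a map of the line;
* `KerAt Jac s` : tangent vectors at the point with parameter `s`;
* all degrees of a reduced basis are `≥ 0` (`≥ c`) when the (twisted) global sections generate at
  one point;
* `span_values` : the values `e_j(s)` are a basis of the tangent space, coordinates of a tangent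
  vector, integral over valued fields.
* the same in the language of `BmDefs_360`.
-/

set_option autoImplicit false
set_option linter.all false

noncomputable section

namespace Crest.Agent.R260.Frm3_428

open Polynomial Crest.Agent.R260.Frm1_428 Crest.Agent.R260.Frm2_428

universe u v w

variable {k : Type u} [Field k] {J : Type v} [Fintype J] {P : Type*}
variable {β : J → ℤ} {M : Submodule k[X] (J → k[X])} {n : ℕ}

/-- polynomial solutions of the linearised equations -/
def TanJ (Jac : P → J → k[X]) : Submodule k[X] (J → k[X]) where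
  carrier := {t | ∀ p, ∑ x, Jac p x * t x = 0}
  add_mem' := fun {t t'} h h' p => by
    simp only [Pi.add_apply, mul_add, Finset.sum_add_distrib, h p, h' p, add_zero]
  zero_mem' := fun p => by simp
  smul_mem' := fun q t h p => by
    have : ∑ x, Jac p x * (q • t) x = q * ∑ x, Jac p x * t x := by
      rw [Finset.mul_sum]
      exact Finset.sum_congr rfl fun x _ => by rw [Pi.smul_apply, smul_eq_mul]; ring
    rw [this, h p, mul_zero]

theorem mem_TanJ {Jac : P → J → k[X]} {t : J → k[X]} :
    t ∈ TanJ Jac ↔ ∀ p, ∑ x, Jac p x * t x = 0 := Iff.rfl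

theorem sat_TanJ (Jac : P → J → k[X]) : Sat (TanJ Jac) := by
  intro q t hq h p
  have h1 := h p
  have : ∑ x, Jac p x * (q • t) x = q * ∑ x, Jac p x * t x := by
    rw [Finset.mul_sum]
    exact Finset.sum_congr rfl fun x _ => by rw [Pi.smul_apply, smul_eq_mul]; ring
  rw [this] at h1
  exact (mul_eq_zero.1 h1).resolve_left hq

/-- tangent vectors at the point with parameter `s` -/
def KerAt (Jac : P → J → k[X]) {K : Type w} [CommRing K] [Algebra k K] (s : K) :
    Submodule K (J → K) where
  carrier := {u | ∀ p, ∑ x, aeval s (Jac p x) * u x = 0}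
  add_mem' := fun {t t'} h h' p => by
    simp only [Pi.add_apply, mul_add, Finset.sum_add_distrib, h p, h' p, add_zero]
  zero_mem' := fun p => by simp
  smul_mem' := fun q t h p => by
    have : ∑ x, aeval s (Jac p x) * (q • t) x = q * ∑ x, aeval s (Jac p x) * t x := by
      rw [Finset.mul_sum]
      exact Finset.sum_congr rfl fun x _ => by rw [Pi.smul_apply, smul_eq_mul]; ring
    rw [this, h p, mul_zero]

theorem mem_KerAt {Jac : P → J → k[X]} {K : Type w} [CommRing K] [Algebra k K] {s : K}
    {u : J → K} : u ∈ KerAt Jac s ↔ ∀ p, ∑ x, aeval s (Jac p x) * u x = 0 := Iff.rfl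

/-- value of a polynomial vector -/
def ev {K : Type w} [CommRing K] [Algebra k K] (s : K) (t : J → k[X]) : J → K :=
  fun x => aeval s (t x)

theorem ev_mem {Jac : P → J → k[X]} {K : Type w} [CommRing K] [Algebra k K] (s : K)
    {t : J → k[X]} (h : t ∈ TanJ Jac) : ev s t ∈ KerAt Jac s := by
  intro p
  have := congrArg (aeval s) (h p)
  simpa [ev, map_sum, map_mul] using this

theorem ev_sum {K : Type w} [CommRing K] [Algebra k K] (s : K) (p : Fin n → k[X])
    (e : Fin n → J → k[X]) : ev s (∑ j, p j • e j) = ∑ j, aeval s (p j) • ev s (e j) := by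
  funext x
  simp [ev, Finset.sum_apply]

/-- the values of the twisted global sections generate at `c0` -/
def GenAt (β : J → ℤ) (M : Submodule k[X] (J → k[X])) (c : ℤ) (c0 : k) : Prop :=
  ∀ t ∈ M, ∃ t' ∈ M, VLe β c t' ∧ ∀ x, (t' x).eval c0 = (t x).eval c0

theorem le_a_of_gen (hM : Sat M) (b : RBasis β M n) {c : ℤ} {c0 : k} (h : GenAt β M c c0)
    (j : Fin n) : c ≤ b.a j := by
  classical
  by_contra hlt
  rw [not_le] at hlt
  obtain ⟨t', ht', hd, he⟩ := h (b.e j) (b.mem j)
  obtain ⟨p, rfl⟩ := b.exists_coord ht'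
  have hp := b.coord_deg hd
  have hpj : p j = 0 := (hp j).eq_zero (by omega)
  have li := values_li b hM (K := k) c0
  rw [Fintype.linearIndependent_iff] at li
  have h1 := li (fun l => (p l).eval c0 - if l = j then 1 else 0) (by
    funext x
    have h2 := he x
    simp only [Finset.sum_apply, Pi.smul_apply, smul_eq_mul, eval_finsetSum, eval_mul] at h2
    simp only [Finset.sum_apply, Pi.smul_apply, smul_eq_mul, sub_mul, Finset.sum_sub_distrib,
      coe_aeval_eq_eval, h2]
    simp)
  have h3 := h1 j
  simp [hpj] at h3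

/-- the sum of the degrees from the dimension of one space of sections. -/
theorem sum_a (b : RBasis β M n) {c : ℤ} (h : ∀ j, c ≤ b.a j + 1) :
    (Module.finrank k (Sec β M c) : ℤ) = ∑ j, b.a j + n * (1 - c) := by
  rw [finrank_sec b]
  push_cast
  have h1 : ∀ j ∈ Finset.univ, (((b.a j - c + 1).toNat : ℕ) : ℤ) = b.a j + (1 - c) := by
    intro j _
    rw [Int.toNat_of_nonneg (by have := h j; omega)]
    ring
  have h2 : ∀ j ∈ Finset.univ, max (b.a j - c + 1) 0 = b.a j + (1 - c) := by
    intro j _
    rw [max_eq_left (by have := h j; omega)]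
    ring
  first
  | rw [Finset.sum_congr rfl h1, Finset.sum_add_distrib]; simp; ring
  | rw [Finset.sum_congr rfl h2, Finset.sum_add_distrib]; simp; ring

section Values

variable {Jac : P → J → k[X]}

theorem ev_li (b : RBasis β (TanJ Jac) n) {K : Type w} [CommRing K] [Algebra k K] (s : K) :
    LinearIndependent K fun j => ev s (b.e j) :=
  values_li b (sat_TanJ Jac) s

/-- over `k(X)` the `e_j` span the kernel. -/
theorem span_generic (b : RBasis β (TanJ Jac) n) {u : J → RatFunc k} (hu : u ∈ KerAt Jac (RatFunc.X : RatFunc k)) :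
    ∃ w : Fin n → RatFunc k, u = ∑ j, w j • ev (RatFunc.X : RatFunc k) (b.e j) := by
  classical
  obtain ⟨⟨q, hq⟩, hqu⟩ := IsLocalization.exist_integer_multiples_of_finite (nonZeroDivisors k[X]) u
  have hq0 : q ≠ 0 := nonZeroDivisors.ne_zero hq
  have hX : ∀ p : k[X], aeval (RatFunc.X : RatFunc k) p = algebraMap k[X] (RatFunc k) p := by
    intro p
    rw [← RatFunc.algebraMap_X, aeval_algebraMap_apply, aeval_X_left_apply]
  choose t ht using hqu
  have htm : t ∈ TanJ Jac := by
    intro p
    apply RatFunc.algebraMap_injective k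
    rw [map_sum, map_zero]
    have h1 := hu p
    have h2 : ∑ x, algebraMap k[X] (RatFunc k) (Jac p x * t x) =
        algebraMap k[X] (RatFunc k) q * ∑ x, aeval (RatFunc.X : RatFunc k) (Jac p x) * u x := by
      rw [Finset.mul_sum]
      refine Finset.sum_congr rfl fun x _ => ?_
      rw [map_mul, ht x, hX, Algebra.smul_def]
      ring
    rw [h2, h1, mul_zero]
  obtain ⟨p, hp⟩ := b.exists_coord htm
  have hq1 : algebraMap k[X] (RatFunc k) q ≠ 0 := RatFunc.algebraMap_ne_zero hq0
  refine ⟨fun j => (algebraMap k[X] (RatFunc k) q)⁻¹ * algebraMap k[X] (RatFunc k) (p j), ?_⟩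
  funext x
  have h3 : algebraMap k[X] (RatFunc k) q * u x = ∑ j, algebraMap k[X] (RatFunc k) (p j) *
      algebraMap k[X] (RatFunc k) (b.e j x) := by
    have h4 := ht x
    rw [Algebra.smul_def] at h4
    rw [← h4, hp]
    simp [Finset.sum_apply]
  simp only [Finset.sum_apply, Pi.smul_apply, smul_eq_mul, ev, hX]
  rw [eq_comm]
  calc ∑ j, (algebraMap k[X] (RatFunc k) q)⁻¹ * algebraMap k[X] (RatFunc k) (p j) *
        algebraMap k[X] (RatFunc k) (b.e j x)
      = (algebraMap k[X] (RatFunc k) q)⁻¹ * ∑ j, algebraMap k[X] (RatFunc k) (p j) *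
        algebraMap k[X] (RatFunc k) (b.e j x) := by
        rw [Finset.mul_sum]; exact Finset.sum_congr rfl fun j _ => by ring
    _ = u x := by rw [← h3, inv_mul_cancel_left₀ hq1]

/-- the number of basis vectors is the dimension of the generic kernel. -/
theorem finrank_generic (b : RBasis β (TanJ Jac) n) : Module.finrank (RatFunc k) (KerAt Jac (RatFunc.X : RatFunc k)) = n := by
  classical
  let f : Fin n → KerAt Jac (RatFunc.X : RatFunc k) := fun j =>
    ⟨ev (RatFunc.X : RatFunc k) (b.e j), ev_mem _ (b.mem j)⟩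
  have hli : LinearIndependent (RatFunc k) f := by
    have := ev_li b (RatFunc.X : RatFunc k)
    exact LinearIndependent.of_comp (Submodule.subtype _) this
  have hsp : ⊤ ≤ Submodule.span (RatFunc k) (Set.range f) := by
    rintro ⟨u, hu⟩ -
    obtain ⟨w, hw⟩ := span_generic b hu
    have : (⟨u, hu⟩ : KerAt Jac (RatFunc.X : RatFunc k)) = ∑ j, w j • f j := by
      apply Subtype.ext
      simpa [f] using hw
    rw [this]
    exact Submodule.sum_mem _ fun j _ => Submodule.smul_mem _ _ (Submodule.subset_span ⟨j, rfl⟩)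
  have := Module.finrank_eq_card_basis (Module.Basis.mk hli hsp)
  simpa using this

/-- if the kernel at `s` has dimension at most `n` (constant rank) the values `e_j(s)` span it. -/
theorem span_values (b : RBasis β (TanJ Jac) n) {K : Type w} [Field K] [Algebra k K] (s : K)
    (h : Module.finrank K (KerAt Jac s) ≤ n) {u : J → K} (hu : u ∈ KerAt Jac s) :
    ∃ w : Fin n → K, u = ∑ j, w j • ev s (b.e j) := by
  classical
  let f : Fin n → KerAt Jac s := fun j => ⟨ev s (b.e j), ev_mem _ (b.mem j)⟩
  have hli : LinearIndependent K f := LinearIndependent.of_comp (Submodule.subtype _) (ev_li b s)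
  have hle : n ≤ Module.finrank K (KerAt Jac s) := by
    have := hli.fintype_card_le_finrank
    simpa using this
  have hsp := hli.span_eq_top_of_card_eq_finrank' (by simpa using le_antisymm hle h)
  have hu' : (⟨u, hu⟩ : KerAt Jac s) ∈ Submodule.span K (Set.range f) := by rw [hsp]; trivial
  obtain ⟨w, hw⟩ := (Submodule.mem_span_range_iff_exists_fun K).1 hu'
  refine ⟨w, ?_⟩
  have h5 := (congrArg Subtype.val hw).symm
  simpa [f] using h5

/-- **frame theorem at one place**: coordinates exist and are integral relative to the weights. -/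
theorem coord_place (b : RBasis β (TanJ Jac) n) {K : Type w} [Field K] [Algebra k K] {Γ : Type*}
    [LinearOrderedCommGroupWithZero Γ] (ν : Valuation K Γ)
    (hk : ∀ c : k, ν (algebraMap k K c) ≤ 1) (s : K) {u : J → K} {w : Fin n → K}
    (hu : u = ∑ j, w j • ev s (b.e j)) (g : Γ)
    (h : ∀ x, ν (u x) ≤ g * (max 1 (ν s)) ^ (β x)) (j : Fin n) :
    ν (w j) ≤ g * (max 1 (ν s)) ^ (b.a j) := by
  refine val_coord ν b (sat_TanJ Jac) hk s w g (fun x => ?_) j
  have := h x
  rw [hu] at this
  simpa [ev, Finset.sum_apply] using this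

end Values

/-! ### the language of `BmDefs_360` -/

open Crest.Agent.R270.BM_360

section BM

variable {I : Type} {J : I → Type} [Fintype I] [∀ i, Fintype (J i)] {k : Type u} [Field k]
  {κ : Type v} [Field κ] [Algebra k κ]

/-- the Jacobian along `F` -/
def JacF (E : Set (MvPolynomial (Σ i, J i) k)) (F : ∀ i, J i → κ[X]) (p : E) (x : Σ i, J i) :
    κ[X] :=
  MvPolynomial.aeval (fun x : Σ i, J i => F x.1 x.2) (MvPolynomial.pderiv x p.1)

/-- tangent polynomial tuples along `F` -/
def TanM (E : Set (MvPolynomial (Σ i, J i) k)) (F : ∀ i, J i → κ[X]) :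
    Submodule κ[X] ((Σ i, J i) → κ[X]) := TanJ (JacF E F)

theorem mem_TanM {E : Set (MvPolynomial (Σ i, J i) k)} {F : ∀ i, J i → κ[X]}
    {t : (Σ i, J i) → κ[X]} : t ∈ TanM E F ↔ ∀ p ∈ E, ∑ x,
      MvPolynomial.aeval (fun x : Σ i, J i => F x.1 x.2) (MvPolynomial.pderiv x p) * t x = 0 :=
  ⟨fun h p hp => h ⟨p, hp⟩, fun h p => h p.1 p.2⟩

theorem sat_TanM (E : Set (MvPolynomial (Σ i, J i) k)) (F : ∀ i, J i → κ[X]) :
    Sat (TanM E F) := sat_TanJ _

/-- the point with parameter `s` -/
def pt {K : Type w} [CommRing K] [Algebra κ K] (F : ∀ i, J i → κ[X]) (s : K) : ∀ i, J i → K :=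
  fun i a => aeval s (F i a)

theorem mem_KerAt_JacF {E : Set (MvPolynomial (Σ i, J i) k)} {F : ∀ i, J i → κ[X]} {K : Type w}
    [CommRing K] [Algebra κ K] [Algebra k K] [IsScalarTower k κ K] {s : K}
    {u : (Σ i, J i) → K} : u ∈ KerAt (JacF E F) s ↔ ∀ p ∈ E, ∑ x,
      MvPolynomial.aeval (fun x : Σ i, J i => pt F s x.1 x.2) (MvPolynomial.pderiv x p) * u x
        = 0 := by
  have h : ∀ q : MvPolynomial (Σ i, J i) k,
      aeval s (MvPolynomial.aeval (fun x : Σ i, J i => F x.1 x.2) q) =
        MvPolynomial.aeval (fun x : Σ i, J i => pt F s x.1 x.2) q := by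
    intro q
    have h1 : ((aeval s : κ[X] →ₐ[κ] K).restrictScalars k).comp
        (MvPolynomial.aeval (fun x : Σ i, J i => F x.1 x.2)) =
        MvPolynomial.aeval (fun x : Σ i, J i => pt F s x.1 x.2) := by
      apply MvPolynomial.algHom_ext
      intro x
      simp [pt]
    exact DFunLike.congr_fun h1 q
  constructor
  · intro hu p hp
    have := hu ⟨p, hp⟩
    simpa only [JacF, h] using this
  · rintro hu ⟨p, hp⟩
    simpa only [JacF, h] using hu p hp

end BM

end Crest.Agent.R260.Frm3_428
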