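import Mathlib
import Crest.Agent.R260.Cf1_703

/-!
# Row 260 (S0398), conic frame (helper703), part 2: a map through a generic point is free.
-/

set_option autoImplicit false
set_option linter.all false

noncomputable section

namespace Crest.Agent.R260.Cf_703

open Polynomial Module
open Crest.Agent.R270.BM_360 Crest.Agent.R260.Lin_678 Crest.Agent.R260.Frm1_428
  Crest.Agent.R260.Frm2_428 Crest.Agent.R260.Frm3_428 Crest.Agent.R260.Der_169
  Crest.Agent.R260.QuadDefs_517 Crest.Agent.R270.Fr_928

universe u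

variable {I : Type} {J : I → Type} [Fintype I] [∀ i, Fintype (J i)]
variable {k : Type u} [Field k]

/-- derivative of a value at a constant point. -/
theorem eval_dX {F₀ κ : Type u} [Field F₀] [Field κ] [Algebra F₀ κ] (δ : Derivation F₀ κ κ)
    (p : κ[X]) (s : F₀) :
    (dX δ p).eval (algebraMap F₀ κ s) = δ (p.eval (algebraMap F₀ κ s)) := by
  induction p using Polynomial.induction_on' with
  | add p q hp hq => rw [map_add, eval_add, hp, hq, eval_add, map_add]
  | monomial n c =>
    have h1 : dX δ (monomial n c) = monomial n (δ c) := by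
      ext i
      rw [coeff_dX, coeff_monomial, coeff_monomial]
      split_ifs
      · rfl
      · exact map_zero δ
    rw [h1, eval_monomial, eval_monomial, δ.leibniz, ← map_pow, δ.map_algebraMap]
    simp [mul_comm]

/-- **a map through a generic point is free**: its tangent sections generate there. -/
theorem genAt_of_trge (D : CData k I J) {F₀ κ : Type u} [Field F₀] [Field κ] [CharZero F₀]
    [Algebra k F₀] [Algebra k κ] [Algebra F₀ κ] [IsScalarTower k F₀ κ]
    {H : ∀ i, J i → κ[X]} (hH : IsMap D.E H) (s : F₀)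
    (htr : TrGe F₀ (ent (QuadDefs_517.pt H (algebraMap F₀ κ s))) (nn D)) :
    GenAt (bt H) (TanM D.E H) 0 (algebraMap F₀ κ s) := by
  classical
  set a : κ := algebraMap F₀ κ s with ha
  -- the point
  set v : ∀ i, J i → κ := QuadDefs_517.pt H a with hv
  have hpt : Frm3_428.pt H a = v := by
    funext i b
    simp [Frm3_428.pt, hv, QuadDefs_517.pt, coe_aeval_eq_eval]
  have hev : ∀ q : MvPolynomial (Σ i, J i) k,
      (MvPolynomial.aeval (fun x : Σ i, J i => H x.1 x.2) q).eval a =
        MvPolynomial.aeval (fun x : Σ i, J i => v x.1 x.2) q := by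
    intro q
    have h1 : ((aeval a : κ[X] →ₐ[κ] κ).restrictScalars k).comp
        (MvPolynomial.aeval (fun x : Σ i, J i => H x.1 x.2)) =
        MvPolynomial.aeval (fun x : Σ i, J i => v x.1 x.2) := by
      apply MvPolynomial.algHom_ext
      intro x
      simp [hv, QuadDefs_517.pt, coe_aeval_eq_eval]
    have := DFunLike.congr_fun h1 q
    simpa [coe_aeval_eq_eval] using this
  have hon : OnX D.E v := by
    intro p hp
    rw [← hev, hH.on p hp, eval_zero]
  have hne : ∀ i, v i ≠ 0 := by
    intro i h0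
    have h3 : Ideal.span (Set.range (H i)) = ⊤ := hH.cop i
    have h4 : ∀ p ∈ Ideal.span (Set.range (H i)), p.eval a = 0 := by
      intro p hp
      induction hp using Submodule.span_induction with
      | mem x hx =>
        obtain ⟨b, rfl⟩ := hx
        exact congrFun h0 b
      | zero => exact eval_zero
      | add x y _ _ hx hy => rw [eval_add, hx, hy, add_zero]
      | smul c x _ hx => rw [smul_eq_mul, eval_mul, hx, mul_zero]
    have h5 := h4 1 (by rw [h3]; trivial)
    rw [eval_one] at h5
    exact one_ne_zero h5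
  -- the map of derivations
  let φ : Derivation F₀ κ κ →ₗ[κ] ((Σ i, J i) → κ) :=
    { toFun := fun δ x => δ (v x.1 x.2)
      map_add' := fun δ δ' => rfl
      map_smul' := fun c δ => rfl }
  let T : Submodule κ ((Σ i, J i) → κ) := KerAt (JacF D.E H) a
  have hTfin : finrank κ T ≤ nn D := by
    have h7 : finrank κ T = finrank κ (TanSp D.E v) := by
      refine LinearEquiv.finrank_eq
        { toFun := fun t => ⟨fun i b => t.1 ⟨i, b⟩, ?_⟩
          invFun := fun t => ⟨fun x => t.1 x.1 x.2, ?_⟩
          left_inv := fun t => rfl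
          right_inv := fun t => rfl
          map_add' := fun s t => rfl
          map_smul' := fun c t => rfl }
      · have := t.2
        rw [mem_KerAt_JacF (k := k), hpt] at this
        exact this
      · rw [mem_KerAt_JacF (k := k), hpt]
        exact t.2
    rw [h7, D.tan_dim κ v hon hne, nn]
  have hmem : ∀ δ : Derivation F₀ κ κ, (fun x : Σ i, J i => dF H δ x.1 x.2) ∈ TanM D.E H ∧
      VLe (bt H) 0 (fun x : Σ i, J i => dF H δ x.1 x.2) := by
    intro δ
    have h1 : dF H (δ.restrictScalars k) ∈ TanL D.E H := dF_mem_TanL hH.on _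
    have h2 : (fun x : Σ i, J i => dF H δ x.1 x.2) ∈ Sec (bt H) (TanM D.E H) 0 := by
      rw [mem_Sec_iff]
      exact h1
    exact mem_Sec.1 h2
  have hval : ∀ (δ : Derivation F₀ κ κ) (x : Σ i, J i), (dF H δ x.1 x.2).eval a = φ δ x := by
    intro δ x
    exact eval_dX δ (H x.1 x.2) s
  have hT : ∀ δ, φ δ ∈ T := by
    intro δ
    have h1 := ev_mem a (hmem δ).1
    have h2 : ev a (fun x : Σ i, J i => dF H δ x.1 x.2) = φ δ := by
      funext x
      rw [ev, coe_aeval_eq_eval, hval]
    rw [← h2]
    exact h1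
  obtain ⟨-, hsurj⟩ := exists_der φ (ent v) (by
    rintro δ hδ c ⟨i, b, rfl⟩
    exact congrFun hδ ⟨i, b⟩) T hT hTfin htr
  intro t ht
  have h1 : (fun x => (t x).eval a) ∈ T := by
    have h2 := ev_mem a ht
    have h3 : ev a t = fun x => (t x).eval a := by
      funext x
      rw [ev, coe_aeval_eq_eval]
    rw [← h3]
    exact h2
  obtain ⟨δ, hδ⟩ := hsurj _ h1
  refine ⟨fun x => dF H δ x.1 x.2, (hmem δ).1, (hmem δ).2, fun x => ?_⟩
  rw [hval, hδ]

/-- the frame at `H`: bound of the sections and independent values at every point. -/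
structure FrameAt (D : CData k I J) {κ : Type u} [Field κ] [Algebra k κ]
    (H : ∀ i, J i → κ[X]) (h : ℕ) : Prop where
  rank : finrank κ (TanL D.E H) = h
  values : ∀ t : κ, ∃ s : Fin (nn D) → ∀ i, J i → κ[X], (∀ j, s j ∈ TanL D.E H) ∧
    LinearIndependent κ (fun j => fun x : Σ i, J i => (s j x.1 x.2).eval t)
  values_inf : ∃ s : Fin (nn D) → ∀ i, J i → κ[X], (∀ j, s j ∈ TanL D.E H) ∧
    LinearIndependent κ (fun j => fun x : Σ i, J i => (s j x.1 x.2).coeff (cls H x.1))

/-- **the frame along a map with `NUM` and one generic point.** -/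
theorem frameAt (D : CData k I J) {F₀ κ : Type u} [Field F₀] [Field κ] [CharZero F₀]
    [Algebra k F₀] [Algebra k κ] [Algebra F₀ κ] [IsScalarTower k F₀ κ]
    {H : ∀ i, J i → κ[X]} (hH : IsMap D.E H) {e : ℕ} (hnum : NumAt D H e) (s : F₀)
    (htr : TrGe F₀ (ent (QuadDefs_517.pt H (algebraMap F₀ κ s))) (nn D)) :
    FrameAt D H ((D.m + 1) * e + nn D) := by
  obtain ⟨n, ⟨b⟩⟩ := exists_rBasis (bt H) (TanM D.E H)
  have ha := le_a_of_gen (sat_TanM D.E H) b (genAt_of_trge D hH s htr)
  refine ⟨frame_of_nonneg D hH hnum b ha, fun t => ?_, sections_indep_inf D hH b ha⟩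
  obtain ⟨f, h1, h2⟩ := sections_indep D hH b ha
  exact ⟨f, h1, h2 t⟩

/-- **conics.** -/
theorem frameAt_conic (D : CData k I J) {F₀ κ : Type u} [Field F₀] [Field κ] [CharZero F₀]
    [Algebra k F₀] [Algebra k κ] [Algebra F₀ κ] [IsScalarTower k F₀ κ]
    {H : ∀ i, J i → κ[X]} (hH : IsMap D.E H) (hnum : NumAt D H 2) (s : F₀)
    (htr : TrGe F₀ (ent (QuadDefs_517.pt H (algebraMap F₀ κ s))) (nn D)) :
    FrameAt D H (hc D) := by
  have h1 := frameAt D hH hnum s htr
  have h2 : (D.m + 1) * 2 + nn D = hc D := by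
    rw [nn, hc]; ring
  rwa [h2] at h1

/-- **lines.** -/
theorem frameAt_line (D : CData k I J) {F₀ κ : Type u} [Field F₀] [Field κ] [CharZero F₀]
    [Algebra k F₀] [Algebra k κ] [Algebra F₀ κ] [IsScalarTower k F₀ κ]
    {H : ∀ i, J i → κ[X]} (hH : IsMap D.E H) (hnum : NumAt D H 1) (s : F₀)
    (htr : TrGe F₀ (ent (QuadDefs_517.pt H (algebraMap F₀ κ s))) (nn D)) :
    FrameAt D H (hl D) := by
  have h1 := frameAt D hH hnum s htr
  have h2 : (D.m + 1) * 1 + nn D = hl D := by
    rw [nn, hl]; ring
  rwa [h2] at h1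

end Crest.Agent.R260.Cf_703
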