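import Mathlib
import Crest.Agent.R270.Free0b_711
import Crest.Agent.R260.Prop2_703

/-!
Row 260 (S0398), leaf PROPER (helper703), part 3: the statement in the language of `BmDefs_360`.
-/

set_option autoImplicit false
set_option linter.unusedSectionVars false

namespace Crest.Agent.R260.Prop_703

open Polynomial
open Crest.Agent.R270.BM_360 Crest.Agent.R270.Free0b_711

universe u

variable {I : Type} {J : I → Type} [Fintype I] [∀ i, Fintype (J i)]

/-- **PROPER**, blocks, all vectors of degree `≤ b i`. -/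
theorem proper_multi {k k' K : Type u} [Field k] [Field k'] [Field K] [Algebra k k'] [Algebra k K]
    [IsAlgClosed K] {b : I → ℕ} {H : ∀ i, J i → k'[X]} {f : ∀ i, J i → K[X]}
    (hH : ∀ i a, (H i a).natDegree ≤ b i) (hf : ∀ i a, (f i a).natDegree ≤ b i)
    (hspec : ∀ Q : MvPolynomial ((Σ i, J i) × ℕ) k,
      MvPolynomial.aeval (fun y : (Σ i, J i) × ℕ => (H y.1.1 y.1.2).coeff y.2) Q = 0 →
        MvPolynomial.aeval (fun y : (Σ i, J i) × ℕ => (f y.1.1 y.1.2).coeff y.2) Q = 0)
    (u : Option k') :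
    ∃ z : Option K, ∀ (p : MvPolynomial (Σ i, J i) k) (d : I → ℕ),
      (open Classical in MvPolynomial.IsWeightedHomogeneous
        (fun x : Σ i, J i => (Pi.single x.1 1 : I → ℕ)) p d) →
      MvPolynomial.aeval (val (fun x : Σ i, J i => b x.1) (fun x => H x.1 x.2) u) p = 0 →
      MvPolynomial.aeval (val (fun x : Σ i, J i => b x.1) (fun x => f x.1 x.2) z) p = 0 := by
  obtain ⟨z, hz⟩ := proper (k := k) (b := fun x : Σ i, J i => b x.1)
    (H := fun x : Σ i, J i => H x.1 x.2) (f := fun x : Σ i, J i => f x.1 x.2)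
    (fun x => hH x.1 x.2) (fun x => hf x.1 x.2) hspec u
  exact ⟨z, fun p d hp => hz p _ (wh_of_multi hp b)⟩

/-- **PROPER**, for `cls H = cls f`: `val` at `none` is the leading vector. -/
theorem proper_cls {k k' K : Type u} [Field k] [Field k'] [Field K] [Algebra k k'] [Algebra k K]
    [IsAlgClosed K] {H : ∀ i, J i → k'[X]} {f : ∀ i, J i → K[X]} (hcls : cls H = cls f)
    (hspec : ∀ Q : MvPolynomial ((Σ i, J i) × ℕ) k,
      MvPolynomial.aeval (fun y : (Σ i, J i) × ℕ => (H y.1.1 y.1.2).coeff y.2) Q = 0 →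
        MvPolynomial.aeval (fun y : (Σ i, J i) × ℕ => (f y.1.1 y.1.2).coeff y.2) Q = 0)
    (u : Option k') :
    ∃ z : Option K, ∀ (p : MvPolynomial (Σ i, J i) k) (d : I → ℕ),
      (open Classical in MvPolynomial.IsWeightedHomogeneous
        (fun x : Σ i, J i => (Pi.single x.1 1 : I → ℕ)) p d) →
      MvPolynomial.aeval (val (fun x : Σ i, J i => vdeg (H x.1)) (fun x => H x.1 x.2) u) p = 0 →
      MvPolynomial.aeval (val (fun x : Σ i, J i => vdeg (f x.1)) (fun x => f x.1 x.2) z) p = 0 := by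
  have h1 : (fun x : Σ i, J i => vdeg (H x.1)) = fun x : Σ i, J i => cls f x.1 := by
    funext x; exact congrFun hcls x.1
  obtain ⟨z, hz⟩ := proper_multi (k := k) (b := cls f) (H := H) (f := f)
    (fun i a => by
      have := natDegree_le_cls H ⟨i, a⟩
      rwa [hcls] at this)
    (fun i a => natDegree_le_cls f ⟨i, a⟩) hspec u
  refine ⟨z, fun p d hp hp0 => hz p d hp ?_⟩
  rw [h1] at hp0
  exact hp0

end Crest.Agent.R260.Prop_703
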