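import Crest.Agent.R260.Gp4_169
import Crest.Agent.R260.Cf2_703
import Crest.Agent.R260.Prop3_703

/-!
# Row 260 (helper169): the frame of the generic member; specialisation of a generic conic

`genFrame` : `GenFrame D P` from the sum of the splitting numbers; `conFrameP_fam`, `gen1P_fam`,
`gen2P_fam`; `hspec_of_con` : the hypothesis of `Prop_703.proper_cls`.
-/

set_option autoImplicit false
set_option linter.all false

namespace Crest.Agent.R260.Gp_169

open Module
open Crest.Agent.R270.BM_360 Crest.Agent.R260.Lin_678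
open Crest.Agent.R260.QuadDefs_517 Crest.Agent.R270.TrM_807
open Crest.Agent.R260.Fam_919 Crest.Agent.R260.Cf_703

universe u v

variable {I : Type} {J : I → Type} [Fintype I] [∀ i, Fintype (J i)] {k : Type u} [Field k]

/-- the sum of the splitting numbers of conics (789). -/
def NumConP (D : CData k I J) : Prop :=
  ∀ (κ : Type u) [Field κ] [IsAlgClosed κ] [Algebra k κ] (F : ∀ i, J i → Polynomial κ),
    IsMap D.E F → cls F = 2 • D.β → NumAt D F 2

section spec

variable {F₀ K K' : Type u} [Field F₀] [Field K] [Field K'] [Algebra k F₀] [Algebra k K]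
  [Algebra F₀ K] [IsScalarTower k F₀ K] [Algebra k K'] [Algebra F₀ K'] [IsScalarTower k F₀ K']

/-- polynomials in all coefficients as polynomials in the coefficients of degree `≤ N`. -/
noncomputable def tauC (F₀ : Type u) [Field F₀] (N : I → ℕ) :
    MvPolynomial ((Σ i, J i) × ℕ) F₀ →ₐ[F₀] MvPolynomial (Cx J N) F₀ :=
  MvPolynomial.aeval (fun y : (Σ i, J i) × ℕ =>
    if h : y.2 < N y.1.1 + 1 then MvPolynomial.X ⟨y.1, ⟨y.2, h⟩⟩ else 0)

theorem aeval_tauC {N : I → ℕ} {F : ∀ i, J i → Polynomial K}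
    (hF : ∀ i x, (F i x).natDegree ≤ N i) (Q : MvPolynomial ((Σ i, J i) × ℕ) F₀) :
    MvPolynomial.aeval (cfv N F) (tauC F₀ N Q) =
      MvPolynomial.aeval (fun y : (Σ i, J i) × ℕ => (F y.1.1 y.1.2).coeff y.2) Q := by
  unfold tauC
  rw [MvPolynomial.comp_aeval_apply]
  congr 2
  funext y
  split_ifs with h
  · rw [MvPolynomial.aeval_X]
    rfl
  · rw [map_zero, Polynomial.coeff_eq_zero_of_natDegree_lt]
    have := hF y.1.1 y.1.2
    omega

/-- **specialisation** of a generic member to every member, in the form of `proper_cls`. -/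
theorem hspec_of_gen {N : I → ℕ} {P : Ideal (MvPolynomial (Cx J N) k)}
    {H : ∀ i, J i → Polynomial K} {f : ∀ i, J i → Polynomial K'} (hH : Gen N P F₀ H)
    (hf : InC N P f) (Q : MvPolynomial ((Σ i, J i) × ℕ) F₀)
    (hQ : MvPolynomial.aeval (fun y : (Σ i, J i) × ℕ => (H y.1.1 y.1.2).coeff y.2) Q = 0) :
    MvPolynomial.aeval (fun y : (Σ i, J i) × ℕ => (f y.1.1 y.1.2).coeff y.2) Q = 0 := by
  rw [← aeval_tauC hH.deg, hH.iff] at hQ
  rw [← aeval_tauC hf.deg]
  exact Crest.Agent.R260.Irr_33.eval_of_mem_map hQ hf.mem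

/-- the same on the coefficient vectors of degree `≤ N`. -/
theorem spec_of_gen {N : I → ℕ} {P : Ideal (MvPolynomial (Cx J N) k)}
    {H : ∀ i, J i → Polynomial K} {f : ∀ i, J i → Polynomial K'} (hH : Gen N P F₀ H)
    (hf : InC N P f) (q : MvPolynomial (Cx J N) F₀)
    (hq : MvPolynomial.aeval (cfv N H) q = 0) : MvPolynomial.aeval (cfv N f) q = 0 :=
  Crest.Agent.R260.Irr_33.eval_of_mem_map ((hH.iff q).1 hq) hf.mem

end spec

section fam

variable [IsAlgClosed k] [CharZero k] {D : CData k I J}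
  {P : Ideal (MvPolynomial (Cx J (fun i => 2 * D.β i)) k)}

/-- **the frame of the generic member**. -/
theorem genFrame (hF : Fam D P) (hE : (Ideal.span D.E).IsPrime) (hN : NumConP D)
    (hM : GenMapP D P) : GenFrame D P := by
  intro F₀ κ _ _ _ _ _ _ _ _ H t₀ hH
  have hc0 : CharZero F₀ := charZero_of_injective_algebraMap (algebraMap k F₀).injective
  obtain ⟨h1, h2, -⟩ := hM F₀ κ H hH
  have h3 := frameAt_conic D h1 (hN κ H h1 h2) (0 : F₀) (genTrPt hF hE F₀ κ H hH 0)
  exact ⟨h3.rank.le, h3.values t₀⟩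

/-- full information on the frame of the generic member (with the place at infinity). -/
theorem genFrameAt (hF : Fam D P) (hE : (Ideal.span D.E).IsPrime) (hN : NumConP D)
    (hM : GenMapP D P) {F₀ κ : Type u} [Field F₀] [Field κ] [IsAlgClosed κ] [Algebra k F₀]
    [Algebra k κ] [Algebra F₀ κ] [IsScalarTower k F₀ κ] {H : ∀ i, J i → Polynomial κ}
    (hH : Gen (fun i => 2 * D.β i) P F₀ H) : FrameAt D H (hc D) := by
  have hc0 : CharZero F₀ := charZero_of_injective_algebraMap (algebraMap k F₀).injective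
  obtain ⟨h1, h2, -⟩ := hM F₀ κ H hH
  exact frameAt_conic D h1 (hN κ H h1 h2) (0 : F₀) (genTrPt hF hE F₀ κ H hH 0)

theorem conFrameP_fam (hF : Fam D P) (hE : (Ideal.span D.E).IsPrime) (hN : NumConP D)
    (hM : GenMapP D P) : ConFrameP D (VC _ P) := conFrameP_of_gen hF (genFrame hF hE hN hM)

theorem gen1P_fam (hF : Fam D P) (hE : (Ideal.span D.E).IsPrime) (hN : NumConP D)
    (hM : GenMapP D P) : Gen1P D (VC _ P) := gen1P (conFrameP_fam hF hE hN hM)

theorem gen2P_fam (hF : Fam D P) (hE : (Ideal.span D.E).IsPrime) (hN : NumConP D)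
    (hM : GenMapP D P) : Gen2P D (VC _ P) := gen2P (conFrameP_fam hF hE hN hM)

/-- **(L5)(i)** the hypothesis of `Prop_703.proper_cls` for a generic conic and any conic. -/
theorem hspec_of_con (hF : Fam D P) (hG : GenFrame D P) {F₀ K K' : Type u} [Field F₀] [Field K]
    [Field K'] [IsAlgClosed F₀] [Algebra k F₀] [Algebra k K] [Algebra F₀ K] [IsScalarTower k F₀ K]
    [Algebra k K'] [Algebra F₀ K'] [IsScalarTower k F₀ K'] {H : ∀ i, J i → Polynomial K}
    {f : ∀ i, J i → Polynomial K'} (hH : Con D (VC _ P) H) (htr : TrGe F₀ (coeffs H) (hc D))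
    (hf : Con D (VC _ P) f) :
    ∀ Q : MvPolynomial ((Σ i, J i) × ℕ) F₀,
      MvPolynomial.aeval (fun y : (Σ i, J i) × ℕ => (H y.1.1 y.1.2).coeff y.2) Q = 0 →
        MvPolynomial.aeval (fun y : (Σ i, J i) × ℕ => (f y.1.1 y.1.2).coeff y.2) Q = 0 :=
  fun Q hQ => hspec_of_gen (gen_of_con hF hG hH htr) hf.cc Q hQ

/-- **PROPER for the family**: every point of a generic conic is a specialisation of a point of
any given conic of the family. -/
theorem proper_con (hF : Fam D P) (hG : GenFrame D P) {F₀ K K' : Type u} [Field F₀] [Field K]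
    [Field K'] [IsAlgClosed F₀] [IsAlgClosed K'] [Algebra k F₀] [Algebra k K] [Algebra F₀ K]
    [IsScalarTower k F₀ K] [Algebra k K'] [Algebra F₀ K'] [IsScalarTower k F₀ K']
    {H : ∀ i, J i → Polynomial K} {f : ∀ i, J i → Polynomial K'} (hH : Con D (VC _ P) H)
    (htr : TrGe F₀ (coeffs H) (hc D)) (hf : Con D (VC _ P) f) (u : Option K) :
    ∃ z : Option K', ∀ (p : MvPolynomial (Σ i, J i) F₀) (d : I → ℕ),
      (open Classical in MvPolynomial.IsWeightedHomogeneous
        (fun x : Σ i, J i => (Pi.single x.1 1 : I → ℕ)) p d) →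
      MvPolynomial.aeval (Prop_703.val (fun x : Σ i, J i => vdeg (H x.1)) (fun x => H x.1 x.2) u)
        p = 0 →
      MvPolynomial.aeval (Prop_703.val (fun x : Σ i, J i => vdeg (f x.1)) (fun x => f x.1 x.2) z)
        p = 0 :=
  Prop_703.proper_cls (by rw [hH.cls, hf.cls]) (hspec_of_con hF hG hH htr hf) u

end fam

end Crest.Agent.R260.Gp_169
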