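import Crest.Agent.R260.Glu2_749
import Crest.Agent.R260.Gln1_941
import Crest.Agent.R260.Gp5_169
import Crest.Agent.R260.Cc_564

/-!
Row 260 (S0398), DivP (helper749): the division theorem for the family `VC _ P`.
-/

set_option autoImplicit false
set_option linter.unusedSectionVars false

namespace Crest.Agent.R260.Cnt_749

open Polynomial Crest.Agent.R270.BM_360 Crest.Agent.R260.Lin_678
open Crest.Agent.R260.QuadDefs_517 Crest.Agent.R260.Fam_919
open Crest.Agent.R260.Gp_169 (VC GenFrame NumConP)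

universe u

variable {I : Type} {J : I → Type} [Fintype I] [∀ i, Fintype (J i)]
  {k : Type u} [Field k] [IsAlgClosed k] [CharZero k] {D : CData k I J}
  {P : Ideal (MvPolynomial (Cx J (fun i => 2 * D.β i)) k)}

theorem genLine (D : CData k I J) : GenLine D.E D.β := by
  obtain ⟨i₀⟩ := nonempty_I D
  intro F₀ κ _ _ _ _ _ _ _ G hG hc n ht
  exact Crest.Agent.R260.Gln_941.gen_line D.hom i₀ D.β_pos hG hc ht

theorem ccInv (hF : Fam D P) : CCInv D (VC _ P) where
  map := fun _ _ _ _ _ _ φ _ h => Crest.Agent.R260.Cc_564.con_map φ h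
  rev := fun _ _ _ _ _ h => Crest.Agent.R260.Cc_564.con_rev hF h

theorem specP (hF : Fam D P) (hG : GenFrame D P) : SpecP D (VC _ P) :=
  fun _ _ _ _ _ _ _ _ _ _ _ _ _ _ _ _ _ _ hH htr hf =>
    Crest.Agent.R260.Gp_169.hspec_of_con hF hG hH htr hf

/-- **DivP** from the frame of the generic conic. -/
theorem divP_of (hm : 0 < D.m) (hF : Fam D P) (hG : GenFrame D P) : DivP D (VC _ P) :=
  divP_aux D hm (ccInv hF)
    (Crest.Agent.R260.Gp_169.gen2P (Crest.Agent.R260.Gp_169.conFrameP_of_gen hF hG))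
    (specP hF hG) (genLine D)

/-- **DivP** for the family `V(P)`. -/
theorem divP (hm : 0 < D.m) (hF : Fam D P) (hE : (Ideal.span D.E).IsPrime) (hN : NumConP D)
    (hM : GenMapP D P) : DivP D (VC _ P) :=
  divP_of hm hF (Crest.Agent.R260.Gp_169.genFrame hF hE hN hM)

end Crest.Agent.R260.Cnt_749
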