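import Crest.Agent.R260.FamP_919
import Crest.Agent.R260.Fam1_919
import Crest.Agent.R260.Irr1_33
import Crest.Agent.R260.Alg1_661
import Crest.Agent.R260.Prop2_703

/-!
# Row 260 (S0398), GENFAM (F3) (helper323): the generic member of the family is a transversal map

`gen_map (hF : Fam D P) [IsAlgClosed k] : GenMapP D P`.
-/

set_option autoImplicit false
set_option linter.unusedSectionVars false

namespace Crest.Agent.R260.Fm3_323

open Polynomial
open Crest.Agent.R270.BM_360 Crest.Agent.R260.Lin_678 Crest.Agent.R260.QuadDefs_517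
open Crest.Agent.R260.Fam_919

universe u

variable {I : Type} {J : I → Type} [Fintype I] [∀ i, Fintype (J i)] {k : Type u} [Field k]

section Gen

variable {N : I → ℕ} {P : Ideal (MvPolynomial (Cx J N) k)} {F₀ κ : Type u} [Field F₀] [Field κ]
  [Algebra k F₀] [Algebra k κ] [Algebra F₀ κ] [IsScalarTower k F₀ κ] {H : ∀ i, J i → κ[X]}

theorem aeval_map_gen (v : Cx J N → κ) (p : MvPolynomial (Cx J N) k) :
    MvPolynomial.aeval v (MvPolynomial.map (algebraMap k F₀) p) = MvPolynomial.aeval v p := by
  rw [MvPolynomial.aeval_map_algebraMap]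

theorem inC_of_gen (h : Gen N P F₀ H) : InC N P H where
  deg := h.deg
  mem p hp := by
    rw [← aeval_map_gen (F₀ := F₀)]
    exact (h.iff _).2 (Ideal.mem_map_of_mem _ hp)

/-- relations over `k` of the generic member -/
theorem gen_spec [IsAlgClosed k] (hP : P.IsPrime) (h : Gen N P F₀ H)
    {p : MvPolynomial (Cx J N) k} (hp : MvPolynomial.aeval (cfv N H) p = 0) : p ∈ P := by
  rw [← aeval_map_gen (F₀ := F₀)] at hp
  exact Irr_33.mem_of_map_mem hP ((h.iff _).1 hp)

end Gen

/-! ### common roots -/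

theorem not_cop {κ : Type u} [Field κ] {T : Type} {f : T → κ[X]} (h : ¬ Cop f) :
    ∃ t : AlgebraicClosure κ, ∀ x, aeval t (f x) = 0 := by
  unfold Cop at h
  obtain ⟨d, hd⟩ : ∃ d, Ideal.span (Set.range f) = Ideal.span {d} :=
    ⟨_, (Ideal.span_singleton_generator _).symm⟩
  have hdx : ∀ x, d ∣ f x := fun x => by
    rw [← Ideal.mem_span_singleton, ← hd]
    exact Ideal.subset_span ⟨x, rfl⟩
  by_cases hd0 : d.degree = 0
  · exfalso
    refine h ?_
    rw [hd, Ideal.span_singleton_eq_top]
    exact isUnit_iff_degree_eq_zero.2 hd0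
  · obtain ⟨t, ht⟩ := IsAlgClosed.exists_aeval_eq_zero (AlgebraicClosure κ) d hd0
    refine ⟨t, fun x => ?_⟩
    obtain ⟨q, hq⟩ := hdx x
    rw [hq, map_mul, ht, zero_mul]

/-- the alternative root or point at infinity, specialised -/
theorem place_root {R κ K : Type u} [CommRing R] [Field κ] [Field K] [IsAlgClosed K]
    (ψ : R →+* κ) (θ : R →+* K) (h : ∀ r, ψ r = 0 → θ r = 0) {T : Type*} {N : ℕ}
    (U : T → R[X]) (hU : ∀ x, (U x).natDegree ≤ N) {t : κ}
    (ht : ∀ x, ((U x).map ψ).eval t = 0) :
    (∃ z : K, ∀ x, ((U x).map θ).eval z = 0) ∨ ∀ x, θ ((U x).coeff N) = 0 := by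
  obtain ⟨V, hV, hVm⟩ := Prop_703.exists_place ψ θ h
  let ψV : R →+* V := ψ.codRestrict V.toSubring hV
  have hψV : ∀ r, ((ψV r : V) : κ) = ψ r := fun _ => rfl
  by_cases htV : t ∈ V
  · left
    let ρ : R →+* IsLocalRing.ResidueField V := (IsLocalRing.residue V).comp ψV
    have hρ : ∀ r, ρ r = 0 ↔ θ r = 0 := by
      intro r
      rw [hVm r]
      exact Ideal.Quotient.eq_zero_iff_mem
    obtain ⟨z, hz⟩ := Prop_703.exists_common_root ρ θ hρ (Set.range U)
      (IsLocalRing.residue V ⟨t, htV⟩) (by
        rintro _ ⟨x, rfl⟩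
        have h1 : ((U x).map ψV).eval (⟨t, htV⟩ : V) = 0 := by
          refine Subtype.ext ?_
          have h2 : V.subtype (((U x).map ψV).eval (⟨t, htV⟩ : V)) = ((U x).map ψ).eval t := by
            rw [← eval₂_hom, eval₂_map, eval_map]
            rfl
          have h3 : V.subtype (((U x).map ψV).eval (⟨t, htV⟩ : V)) = 0 := by
            rw [h2, ht x]
          exact h3
        have h4 := congrArg (IsLocalRing.residue V) h1
        rw [map_zero, ← eval₂_hom, eval₂_map] at h4
        rw [eval_map]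
        exact h4)
    exact ⟨z, fun x => hz _ ⟨x, rfl⟩⟩
  · right
    intro x
    have ht0 : t ≠ 0 := fun h0 => htV (h0 ▸ V.zero_mem)
    have hs : t⁻¹ ∈ V := (V.mem_or_inv_mem t).resolve_left htV
    let s : V := ⟨t⁻¹, hs⟩
    have hsm : s ∈ IsLocalRing.maximalIdeal V := by
      rw [IsLocalRing.mem_maximalIdeal, mem_nonunits_iff]
      intro hu
      obtain ⟨b, hb⟩ := isUnit_iff_exists_inv.1 hu
      refine htV ?_
      have h1 : t⁻¹ * (b : κ) = 1 := congrArg Subtype.val hb
      have h2 : t = b := by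
        field_simp at h1
        exact h1.symm
      rw [h2]
      exact b.2
    -- the reversed relation
    have h1 : ∑ j ∈ Finset.range (N + 1), ψV ((U x).coeff j) * s ^ (N - j) = 0 := by
      refine Subtype.ext ?_
      have h2 : ((∑ j ∈ Finset.range (N + 1), ψV ((U x).coeff j) * s ^ (N - j) : V) : κ) =
          ∑ j ∈ Finset.range (N + 1), ψ ((U x).coeff j) * (t⁻¹) ^ (N - j) := by
        have h3 : ∀ v : V, (v : κ) = V.subtype v := fun _ => rfl
        rw [h3, map_sum]
        exact Finset.sum_congr rfl fun j _ => by rw [map_mul, map_pow]; rfl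
      rw [h2]
      have h4 := ht x
      rw [eval_eq_sum_range' (Nat.lt_succ_of_le (natDegree_map_le.trans (hU x)))] at h4
      have h5 : ∀ j ∈ Finset.range (N + 1), ψ ((U x).coeff j) * (t⁻¹) ^ (N - j) =
          (t⁻¹) ^ N * (((U x).map ψ).coeff j * t ^ j) := by
        intro j hj
        have hj' : j ≤ N := Nat.lt_succ_iff.1 (Finset.mem_range.1 hj)
        have h6 : (t⁻¹) ^ N = (t⁻¹) ^ (N - j) * (t⁻¹) ^ j := by
          rw [← pow_add, Nat.sub_add_cancel hj']
        have h7 : (t⁻¹) ^ j * t ^ j = 1 := by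
          rw [← mul_pow, inv_mul_cancel₀ ht0, one_pow]
        rw [coeff_map, h6]
        linear_combination (-(ψ ((U x).coeff j) * (t⁻¹) ^ (N - j))) * h7
      rw [Finset.sum_congr rfl h5, ← Finset.mul_sum, h4, mul_zero]
      rfl
    rw [Finset.sum_range_succ, Nat.sub_self, pow_zero, mul_one] at h1
    rw [hVm]
    have h8 : ψV ((U x).coeff N) =
        - ∑ j ∈ Finset.range N, ψV ((U x).coeff j) * s ^ (N - j) := by
      rw [eq_neg_iff_add_eq_zero, add_comm]
      exact h1
    have h9 : ψV ((U x).coeff N) ∈ IsLocalRing.maximalIdeal V := by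
      rw [h8]
      refine neg_mem (Ideal.sum_mem _ fun j hj => Ideal.mul_mem_left _ _ ?_)
      refine Ideal.pow_mem_of_mem _ hsm _ ?_
      have := Finset.mem_range.1 hj
      omega
    exact h9

/-! ### the generic member -/

section Main

variable {D : CData k I J} {P : Ideal (MvPolynomial (Cx J (fun i => 2 * D.β i)) k)}

theorem coeff_top {κ : Type u} [Field κ] [Algebra k κ] {F : ∀ i, J i → κ[X]}
    (hcls : cls F = 2 • D.β) (i : I) : ∃ x, (F i x).coeff (2 * D.β i) ≠ 0 := by
  have h1 : vdeg (F i) = 2 * D.β i := congrFun hcls i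
  have hpos : 0 < 2 * D.β i := by have := D.β_pos i; omega
  by_contra hcon
  push Not at hcon
  have h2 : ∀ x, (F i x).natDegree < 2 * D.β i := by
    intro x
    have h3 : (F i x).natDegree ≤ 2 * D.β i := by
      rw [← h1]
      exact Finset.le_sup (f := fun a => (F i a).natDegree) (Finset.mem_univ x)
    refine lt_of_le_of_ne h3 fun h4 => ?_
    have h5 := hcon x
    rw [← h4] at h5
    have h6 : F i x = 0 := leadingCoeff_eq_zero.1 h5
    rw [h6, natDegree_zero] at h4
    omega
  have h3 : vdeg (F i) < 2 * D.β i := (Finset.sup_lt_iff hpos).2 fun x _ => h2 x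
  omega

/-- **(F3)** -/
theorem gen_map [IsAlgClosed k] (hF : Fam D P) : GenMapP D P := by
  classical
  intro F₀ κ _ _ _ _ _ _ H hH
  obtain ⟨G, hGC, hGM, hGcls, c₀, hc₀, hGc⟩ := hF.good
  have hHC := inC_of_gen hH
  -- specialisation
  let R := MvPolynomial (Cx J (fun i => 2 * D.β i)) k
  let ψ : R →ₐ[k] κ := MvPolynomial.aeval (cfv (fun i => 2 * D.β i) H)
  let θ : R →ₐ[k] k := MvPolynomial.aeval (cfv (fun i => 2 * D.β i) G)
  have hsp : ∀ p : R, ψ p = 0 → θ p = 0 := fun p hp => hGC.mem p (gen_spec hF.prime hH hp)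
  let U : ∀ i, J i → R[X] := uni k fun i => 2 * D.β i
  have hUd : ∀ i x, (U i x).natDegree ≤ 2 * D.β i := natDegree_uni_le _
  have hUH : ∀ i x, (U i x).map (ψ : R →+* κ) = H i x := fun i x =>
    congrFun (congrFun (mapT_uni_aeval _ hH.deg) i) x
  have hUG : ∀ i x, (U i x).map (θ : R →+* k) = G i x := fun i x =>
    congrFun (congrFun (mapT_uni_aeval _ hGC.deg) i) x
  have hUGN : ∀ i, ∃ x, θ ((U i x).coeff (2 * D.β i)) ≠ 0 := by
    intro i
    obtain ⟨x, hx⟩ := coeff_top hGcls i
    refine ⟨x, ?_⟩
    rw [← hUG i x, coeff_map] at hx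
    exact hx
  -- coprimality
  have hcop : ∀ i, Cop (H i) := by
    intro i
    by_contra hcon
    obtain ⟨t, ht⟩ := not_cop hcon
    have h1 := place_root (R := R) (((algebraMap κ (AlgebraicClosure κ)) : κ →+*
      AlgebraicClosure κ).comp (ψ : R →+* κ)) (θ : R →+* k) (fun r hr => hsp r
        ((map_eq_zero_iff _ (algebraMap κ (AlgebraicClosure κ)).injective).1 hr))
      (U i) (hUd i) (t := t) (fun x => by
        rw [← Polynomial.map_map, hUH i x, eval_map]
        exact ht x)
    rcases h1 with ⟨z, hz⟩ | h1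
    · have h2 : (1 : k[X]) ∈ Ideal.span (Set.range (G i)) := by
        have h3 : Ideal.span (Set.range (G i)) = ⊤ := hGM.cop i
        rw [h3]
        trivial
      have h4 : Ideal.span (Set.range (G i)) ≤ RingHom.ker (evalRingHom z) := by
        rw [Ideal.span_le]
        rintro _ ⟨x, rfl⟩
        have h5 := hz x
        rw [hUG i x] at h5
        exact h5
      have h6 := h4 h2
      rw [RingHom.mem_ker, map_one] at h6
      exact one_ne_zero h6
    · obtain ⟨x, hx⟩ := hUGN i
      exact hx (h1 x)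
  have hM : IsMap D.E H := ⟨hF.onX κ H hHC, hcop⟩
  -- the class
  have hcls : cls H = 2 • D.β := by
    funext i
    refine le_antisymm ?_ ?_
    · exact Finset.sup_le fun x _ => hH.deg i x
    · obtain ⟨x, hx⟩ := hUGN i
      have h1 : (H i x).coeff (2 * D.β i) ≠ 0 := by
        intro h0
        refine hx (hsp _ ?_)
        rw [← hUH i x, coeff_map] at h0
        exact h0
      exact (le_natDegree_of_ne_zero h1).trans
        (Finset.le_sup (f := fun a => (H i a).natDegree) (Finset.mem_univ x))
  have he : ∑ i, D.w i * (cls H i : ℤ) = (2 : ℕ) := by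
    rw [hcls]
    have h1 : ∀ i, D.w i * (((2 • D.β) i : ℕ) : ℤ) = 2 * (D.w i * (D.β i : ℤ)) := by
      intro i
      rw [Pi.smul_apply, smul_eq_mul]
      push_cast
      ring
    rw [Finset.sum_congr rfl fun i _ => h1 i, ← Finset.mul_sum, D.wβ]
    norm_num
  obtain ⟨c, hc⟩ := Alg0_661.exists_const D.th hM he
  refine ⟨hM, hcls, c, fun hc0 => ?_, hc⟩
  subst hc0
  -- the form vanishes along `H`, hence along `G`
  have hG0 : ∀ ch : ∀ i, J i, form (D.th.p ch) G (fun i x => derivative (G i x)) = 0 := by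
    intro ch
    have h1 : form (D.th.p ch) H (fun i x => derivative (H i x)) = 0 := by
      have h2 := hc ch
      rw [C_0, mul_zero] at h2
      exact h2.symm
    let Ψ : R[X] →ₐ[k] κ[X] := Polynomial.mapAlgHom ψ
    let Θ : R[X] →ₐ[k] k[X] := Polynomial.mapAlgHom θ
    have hnat : ∀ {B : Type u} [CommRing B] [Algebra k B] (g : R[X] →ₐ[k] B),
        g (form (D.th.p ch) U (fun i x => derivative (U i x))) =
        form (D.th.p ch) (fun i x => g (U i x)) (fun i x => g (derivative (U i x))) := by
      intro B _ _ g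
      unfold form
      rw [map_sum]
      refine Finset.sum_congr rfl fun y _ => ?_
      rw [map_mul]
      congr 1
      exact MvPolynomial.comp_aeval_apply (fun y : Σ i, J i => U y.1 y.2) g (D.th.p ch y)
    have h3 : Ψ (form (D.th.p ch) U (fun i x => derivative (U i x))) = 0 := by
      rw [hnat Ψ, ← h1]
      congr 1
      · funext i x
        exact hUH i x
      · funext i x
        show (derivative (U i x)).map (ψ : R →+* κ) = _
        rw [← derivative_map, hUH i x]
    have h4 : Θ (form (D.th.p ch) U (fun i x => derivative (U i x))) = 0 := by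
      refine Polynomial.ext fun j => ?_
      have h5 := congrArg (fun q => Polynomial.coeff q j) h3
      have h6 : ψ ((form (D.th.p ch) U (fun i x => derivative (U i x))).coeff j) = 0 := by
        have h7 : (Ψ (form (D.th.p ch) U (fun i x => derivative (U i x)))).coeff j =
            ψ ((form (D.th.p ch) U (fun i x => derivative (U i x))).coeff j) :=
          coeff_map (ψ : R →+* κ) j
        rw [← h7]
        exact h5
      have h8 : (Θ (form (D.th.p ch) U (fun i x => derivative (U i x)))).coeff j =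
          θ ((form (D.th.p ch) U (fun i x => derivative (U i x))).coeff j) :=
        coeff_map (θ : R →+* k) j
      rw [h8, hsp _ h6, coeff_zero]
    rw [hnat Θ] at h4
    rw [← h4]
    congr 1
    · funext i x
      exact (hUG i x).symm
    · funext i x
      show _ = (derivative (U i x)).map (θ : R →+* k)
      rw [← derivative_map, hUG i x]
  -- a chart
  have hch : ∀ i, ∃ x, G i x ≠ 0 := by
    intro i
    obtain ⟨x, hx⟩ := coeff_top hGcls i
    exact ⟨x, fun h0 => hx (by rw [h0, coeff_zero])⟩
  choose ch hch using hch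
  have h1 := hGc ch
  rw [hG0 ch] at h1
  have h2 : den ch G ≠ 0 := Finset.prod_ne_zero_iff.2 fun i _ => hch i
  rcases mul_eq_zero.1 h1 with h3 | h3
  · exact pow_ne_zero _ h2 h3
  · exact hc₀ (C_eq_zero.1 h3)

end Main

end Crest.Agent.R260.Fm3_323
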