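import Crest.Agent.R260.Fam1_919

/-!
# Row 260 (S0398), GENFAM (F0) (helper919): the points of `V(PW)` lie on `X`
-/

set_option autoImplicit false
set_option linter.unusedSectionVars false

namespace Crest.Agent.R260.Fam_919

open Polynomial
open Crest.Agent.R270.BM_360 Crest.Agent.R260.Lin_678 Crest.Agent.R260.Mob_919

universe u v w

variable {I : Type} {J : I → Type} [Fintype I] [∀ i, Fintype (J i)]
variable {R : Type v} [CommRing R] {S : Type w} [CommRing S] (N : I → ℕ)
variable {k : Type u} [Field k]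

/-- evaluation of a polynomial at a tuple commutes with base change. -/
theorem aeval_pt_mapT [Algebra k R] [Algebra k S] (φ : R →ₐ[k] S) (F : ∀ i, J i → R[X])
    (q : MvPolynomial (Σ i, J i) k) :
    MvPolynomial.aeval (fun y : Σ i, J i => mapT (φ : R →+* S) F y.1 y.2) q
      = Polynomial.map (φ : R →+* S) (MvPolynomial.aeval (fun y : Σ i, J i => F y.1 y.2) q) := by
  have h1 : Polynomial.map (φ : R →+* S)
      (MvPolynomial.aeval (fun y : Σ i, J i => F y.1 y.2) q)
      = (Polynomial.mapAlgHom φ) (MvPolynomial.aeval (fun y : Σ i, J i => F y.1 y.2) q) := rfl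
  rw [h1, ← AlgHom.comp_apply]
  congr 1
  refine MvPolynomial.algHom_ext fun y => ?_
  simp only [MvPolynomial.aeval_X, AlgHom.comp_apply]
  rfl

theorem OnX.mapT [Algebra k R] [Algebra k S] {E : Set (MvPolynomial (Σ i, J i) k)}
    {F : ∀ i, J i → R[X]} (h : OnX E F) (φ : R →ₐ[k] S) :
    OnX E (Fam_919.mapT (φ : R →+* S) F) := by
  intro q hq
  have h1 := aeval_pt_mapT φ F q
  have h2 : MvPolynomial.aeval (fun y : Σ i, J i => F y.1 y.2) q = 0 := h q hq
  rw [h2, Polynomial.map_zero] at h1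
  exact h1

theorem onX_act [Algebra k R] {E : Set (MvPolynomial (Σ i, J i) k)} (hE : MHom E)
    {F : ∀ i, J i → R[X]} (hdeg : ∀ i x, (F i x).natDegree ≤ N i) (hF : OnX E F)
    (e : Fin 4 ⊕ I → R) : OnX E (act N e F) :=
  onX_mobT hE N hdeg hF _ _ _ _ _

theorem onX_orb {E : Set (MvPolynomial (Σ i, J i) k)} (hE : MHom E)
    {F : ∀ i, J i → k[X]} (hdeg : ∀ i x, (F i x).natDegree ≤ N i) (hF : OnX E F) :
    OnX E (orb N F) := by
  have h1 : OnX E (Fam_919.mapT ((Algebra.ofId k (MvPolynomial (Fin 4 ⊕ I) k) :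
      k →ₐ[k] MvPolynomial (Fin 4 ⊕ I) k) : k →+* MvPolynomial (Fin 4 ⊕ I) k) F) :=
    OnX.mapT hF _
  have h2 := onX_act (R := MvPolynomial (Fin 4 ⊕ I) k) N hE
    (natDegree_mapT_le N (F := F) _ hdeg) h1 MvPolynomial.X
  exact h2

/-- all points of `V(PW)` lie on `X`. -/
theorem PW_onX {X : Type*} [TopologicalSpace X]
    {E : Set (MvPolynomial (Σ i, J i) k)} (hE : MHom E)
    {F : X → ∀ i, J i → k[X]} {W : Set X} (hF : ∀ x ∈ W, ∀ i y, (F x i y).natDegree ≤ N i)
    (hX : ∀ x ∈ W, OnX E (F x)) [Algebra k R] {G : ∀ i, J i → R[X]}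
    (hG : InC N (PW N F W) G) : OnX E G := by
  intro q hq
  -- the coefficients of `q (uni)` are in `PW`
  have h1 : ∀ n : ℕ, (MvPolynomial.aeval
      (fun y : Σ i, J i => uni k N y.1 y.2) q).coeff n ∈ PW N F W := by
    intro n x hx
    have h2 : (MvPolynomial.aeval (fun y : Σ i, J i => orb N (F x) y.1 y.2) q) = 0 :=
      onX_orb N hE (hF x hx) (hX x hx) q hq
    have e5 : mapT (TT N (F x) : MvPolynomial (Cx J N) k →+* MvPolynomial (Fin 4 ⊕ I) k)
        (uni k N) = orb N (F x) :=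
      mapT_uni_aeval N (fun i x => natDegree_act_le N _ _ i x)
    have h6 := aeval_pt_mapT (TT N (F x)) (uni k N) q
    rw [e5, h2] at h6
    have h7 := congrArg (fun g => g.coeff n) h6
    simp only [coeff_zero, coeff_map] at h7
    exact h7.symm
  have e5 : mapT ((MvPolynomial.aeval (cfv N G) : MvPolynomial (Cx J N) k →ₐ[k] R) :
      MvPolynomial (Cx J N) k →+* R) (uni k N) = G := mapT_uni_aeval N hG.deg
  have h7 := aeval_pt_mapT (MvPolynomial.aeval (cfv N G) : MvPolynomial (Cx J N) k →ₐ[k] R)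
    (uni k N) q
  rw [e5] at h7
  change MvPolynomial.aeval (fun y : Σ i, J i => G y.1 y.2) q = 0
  rw [h7]
  ext n
  rw [Polynomial.coeff_map, coeff_zero]
  have := hG.mem _ (h1 n)
  rw [RingHom.coe_coe]
  exact this

end Crest.Agent.R260.Fam_919
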