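import Crest.Agent.R260.FamP_919
import Crest.Agent.R260.Fam2_919
import Crest.Agent.R260.Irr1_33

/-!
# Row 260 (S0398), GENFAM (F5) (helper919): the pair of points of the generic member is generic
-/

set_option autoImplicit false
set_option linter.unusedSectionVars false

namespace Crest.Agent.R260.Fam_919

open Polynomial
open Crest.Agent.R270.BM_360 Crest.Agent.R260.Lin_678 Crest.Agent.R260.Mob_919
open Crest.Agent.R260.QuadDefs_517

universe u v w

variable {I : Type} {J : I → Type} [Fintype I] [∀ i, Fintype (J i)]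

/-- value at `[s : s']` of a tuple. -/
noncomputable def pth {R : Type v} [CommRing R] (N : I → ℕ) (s s' : R) (F : ∀ i, J i → R[X]) :
    ∀ i, J i → R :=
  fun i x => hev (N i) s s' (F i x)

theorem map_hev' {R : Type v} [CommRing R] {S : Type w} [CommRing S] (φ : R →+* S) (N : ℕ)
    (s t : R) (f : R[X]) : φ (hev N s t f) = hev N (φ s) (φ t) (f.map φ) := by
  unfold hev
  rw [map_sum]
  refine Finset.sum_congr rfl fun n _ => ?_
  simp only [Algebra.algebraMap_self, RingHom.id_apply, map_mul, map_pow, coeff_map]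

theorem pval_map {k : Type u} [Field k] {A : Type v} [CommRing A] [Algebra k A] {B : Type w}
    [CommRing B] [Algebra k B] (φ : A →ₐ[k] B) (Δ : MvPolynomial ((Σ i, J i) ⊕ (Σ i, J i)) k)
    (v v' : ∀ i, J i → A) :
    pval Δ (fun i x => φ (v i x)) (fun i x => φ (v' i x)) = φ (pval Δ v v') := by
  unfold pval
  rw [← AlgHom.comp_apply]
  congr 1
  refine MvPolynomial.algHom_ext fun y => ?_
  rcases y with y | y <;> simp

section rel

variable {F₀ : Type u} [Field F₀]

/-- the relation `Δ (F(s), F(t)) = 0` as a polynomial in the coefficients. -/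
noncomputable def relq (N : I → ℕ) (Δ : MvPolynomial ((Σ i, J i) ⊕ (Σ i, J i)) F₀)
    (s s' t t' : F₀) : MvPolynomial (Cx J N) F₀ :=
  pval Δ (pth N (MvPolynomial.C s) (MvPolynomial.C s') (uni F₀ N))
    (pth N (MvPolynomial.C t) (MvPolynomial.C t') (uni F₀ N))

theorem aeval_relq {R : Type v} [CommRing R] [Algebra F₀ R] (N : I → ℕ)
    (Δ : MvPolynomial ((Σ i, J i) ⊕ (Σ i, J i)) F₀) (s s' t t' : F₀) {F : ∀ i, J i → R[X]}
    (hF : ∀ i x, (F i x).natDegree ≤ N i) :
    MvPolynomial.aeval (cfv N F) (relq N Δ s s' t t')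
      = pval Δ (pth N (algebraMap F₀ R s) (algebraMap F₀ R s') F)
        (pth N (algebraMap F₀ R t) (algebraMap F₀ R t') F) := by
  have key : ∀ s s' : F₀, (fun i x => (MvPolynomial.aeval (cfv N F) :
      MvPolynomial (Cx J N) F₀ →ₐ[F₀] R)
        (pth N (MvPolynomial.C s) (MvPolynomial.C s') (uni F₀ N) i x))
      = pth N (algebraMap F₀ R s) (algebraMap F₀ R s') F := by
    intro s s'
    funext i x
    have h1 := map_hev' ((MvPolynomial.aeval (cfv N F) : MvPolynomial (Cx J N) F₀ →ₐ[F₀] R) :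
      MvPolynomial (Cx J N) F₀ →+* R) (N i) (MvPolynomial.C s) (MvPolynomial.C s')
      ((uni F₀ N : ∀ i, J i → (MvPolynomial (Cx J N) F₀)[X]) i x)
    have h2 : (((uni F₀ N : ∀ i, J i → (MvPolynomial (Cx J N) F₀)[X]) i x).map
        ((MvPolynomial.aeval (cfv N F) : MvPolynomial (Cx J N) F₀ →ₐ[F₀] R) :
          MvPolynomial (Cx J N) F₀ →+* R)) = F i x :=
      congrFun (congrFun (mapT_uni_aeval N hF) i) x
    rw [h2] at h1
    simp only [RingHom.coe_coe, MvPolynomial.aeval_C] at h1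
    exact h1
  unfold relq
  rw [← pval_map, key, key]

end rel

section null

variable {k : Type u} [Field k]

theorem pval_mem_iff {A : Type v} [CommRing A] [Algebra k A] (v v' : ∀ i, J i → A)
    (Δ : MvPolynomial ((Σ i, J i) ⊕ (Σ i, J i)) k) :
    pval Δ v v' = 0 ↔ Δ ∈ RingHom.ker (MvPolynomial.aeval
      (Sum.elim (fun x : Σ i, J i => v x.1 x.2) (fun x : Σ i, J i => v' x.1 x.2)) :
      MvPolynomial ((Σ i, J i) ⊕ (Σ i, J i)) k →ₐ[k] A) := by
  rw [RingHom.mem_ker]; rfl

/-- Nullstellensatz on pairs of points of the cone. -/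
theorem null_pair [IsAlgClosed k] {E : Set (MvPolynomial (Σ i, J i) k)}
    {p : MvPolynomial ((Σ i, J i) ⊕ (Σ i, J i)) k}
    (h : ∀ v v' : ∀ i, J i → k, OnX E v → (∀ i, v i ≠ 0) → OnX E v' → (∀ i, v' i ≠ 0) →
      pval p v v' = 0)
    {A : Type v} [Field A] [Algebra k A] {v v' : ∀ i, J i → A} (hv : OnX E v)
    (hv0 : ∀ i, v i ≠ 0) (hv' : OnX E v') (hv0' : ∀ i, v' i ≠ 0) : pval p v v' = 0 := by
  classical
  choose c hc using fun i => Function.ne_iff.1 (hv0 i)
  choose c' hc' using fun i => Function.ne_iff.1 (hv0' i)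
  let M : MvPolynomial ((Σ i, J i) ⊕ (Σ i, J i)) k :=
    (∏ i, MvPolynomial.X (Sum.inl ⟨i, c i⟩)) * ∏ i, MvPolynomial.X (Sum.inr ⟨i, c' i⟩)
  let E2 : Set (MvPolynomial ((Σ i, J i) ⊕ (Σ i, J i)) k) :=
    (MvPolynomial.rename Sum.inl '' E) ∪ (MvPolynomial.rename Sum.inr '' E)
  have h1 : M * p ∈ (Ideal.span E2).radical := by
    rw [← MvPolynomial.vanishingIdeal_zeroLocus_eq_radical (K := k)]
    rw [MvPolynomial.mem_vanishingIdeal_iff]
    intro x hx
    rw [MvPolynomial.mem_zeroLocus_iff] at hx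
    let w : ∀ i, J i → k := fun i a => x (Sum.inl ⟨i, a⟩)
    let w' : ∀ i, J i → k := fun i a => x (Sum.inr ⟨i, a⟩)
    have hxe : x = Sum.elim (fun y : Σ i, J i => w y.1 y.2) (fun y : Σ i, J i => w' y.1 y.2) := by
      funext y
      rcases y with y | y <;> rfl
    have hw : OnX E w := by
      intro q hq
      have h2 := hx _ (Ideal.subset_span (Or.inl ⟨q, hq, rfl⟩))
      rw [MvPolynomial.aeval_rename] at h2
      exact h2
    have hw' : OnX E w' := by
      intro q hq
      have h2 := hx _ (Ideal.subset_span (Or.inr ⟨q, hq, rfl⟩))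
      rw [MvPolynomial.aeval_rename] at h2
      exact h2
    rw [map_mul]
    by_cases h0 : (∀ i, w i ≠ 0) ∧ ∀ i, w' i ≠ 0
    · have h3 := h w w' hw h0.1 hw' h0.2
      unfold pval at h3
      rw [← hxe] at h3
      rw [h3, mul_zero]
    · rw [not_and_or] at h0
      push Not at h0
      rcases h0 with ⟨i, hi⟩ | ⟨i, hi⟩
      · have : MvPolynomial.aeval x M = 0 := by
          simp only [M, map_mul, map_prod, MvPolynomial.aeval_X]
          rw [Finset.prod_eq_zero (Finset.mem_univ i) (congrFun hi (c i)), zero_mul]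
        rw [this, zero_mul]
      · have : MvPolynomial.aeval x M = 0 := by
          simp only [M, map_mul, map_prod, MvPolynomial.aeval_X]
          rw [Finset.prod_eq_zero (f := fun i => x (Sum.inr ⟨i, c' i⟩)) (Finset.mem_univ i)
            (congrFun hi (c' i)), mul_zero]
        rw [this, zero_mul]
  obtain ⟨n, hn⟩ := h1
  let z : (Σ i, J i) ⊕ (Σ i, J i) → A :=
    Sum.elim (fun x : Σ i, J i => v x.1 x.2) (fun x : Σ i, J i => v' x.1 x.2)
  have h4 : Ideal.span E2 ≤ RingHom.ker (MvPolynomial.aeval z :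
      MvPolynomial ((Σ i, J i) ⊕ (Σ i, J i)) k →ₐ[k] A) := by
    rw [Ideal.span_le]
    rintro q (⟨q, hq, rfl⟩ | ⟨q, hq, rfl⟩)
    · rw [SetLike.mem_coe, RingHom.mem_ker, MvPolynomial.aeval_rename]
      exact hv q hq
    · rw [SetLike.mem_coe, RingHom.mem_ker, MvPolynomial.aeval_rename]
      exact hv' q hq
  have h5 := h4 hn
  rw [RingHom.mem_ker, map_pow, map_mul] at h5
  have h6 := eq_zero_of_pow_eq_zero h5
  rcases mul_eq_zero.1 h6 with h7 | h7
  · exfalso
    simp only [M, map_mul, map_prod, MvPolynomial.aeval_X] at h7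
    rcases mul_eq_zero.1 h7 with h8 | h8
    · obtain ⟨i, -, hi⟩ := Finset.prod_eq_zero_iff.1 h8
      exact hc i hi
    · obtain ⟨i, -, hi⟩ := Finset.prod_eq_zero_iff.1 h8
      exact hc' i hi
  · exact h7

variable {F₀ : Type v} [Field F₀] [Algebra k F₀]

theorem bh_cf (φ : F₀ →ₗ[k] k) {Δ : MvPolynomial ((Σ i, J i) ⊕ (Σ i, J i)) F₀} (h : BH Δ) :
    BH (Irr_33.cf φ Δ) := by
  obtain ⟨d, hd⟩ := h
  refine ⟨d, fun {m} hm => hd ?_⟩
  rw [Irr_33.coeff_cf] at hm
  intro h0
  rw [h0, map_zero] at hm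
  exact hm rfl

end null

section main

variable {k : Type u} [Field k] [IsAlgClosed k] {D : CData k I J}
  {P : Ideal (MvPolynomial (Cx J (fun i => 2 * D.β i)) k)}

/-- **(F5)**, homogeneous form: points `[s : s'] ≠ [t : t']` of the line. -/
theorem gen_pair_hev (hF : Fam D P) (F₀ κ : Type u) [Field F₀] [Field κ] [Algebra k F₀]
    [Algebra k κ] [Algebra F₀ κ] [IsScalarTower k F₀ κ] (H : ∀ i, J i → κ[X])
    (hG : Gen (fun i => 2 * D.β i) P F₀ H) (s s' t t' : F₀) (hst : s * t' - s' * t ≠ 0)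
    (Δ : MvPolynomial ((Σ i, J i) ⊕ (Σ i, J i)) F₀) (hΔ : BH Δ)
    (h0 : pval Δ (pth (fun i => 2 * D.β i) (algebraMap F₀ κ s) (algebraMap F₀ κ s') H)
      (pth (fun i => 2 * D.β i) (algebraMap F₀ κ t) (algebraMap F₀ κ t') H) = 0)
    (A : Type u) [Field A] [Algebra k A] [Algebra F₀ A] [IsScalarTower k F₀ A]
    (v v' : ∀ i, J i → A) (hv : OnX D.E v) (hv0 : ∀ i, v i ≠ 0) (hv' : OnX D.E v')
    (hv0' : ∀ i, v' i ≠ 0) : pval Δ v v' = 0 := by
  -- the relation in the coefficients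
  have h1 : relq (fun i => 2 * D.β i) Δ s s' t t' ∈ P.map (MvPolynomial.map (algebraMap k F₀)) := by
    rw [← hG.iff, aeval_relq (fun i => 2 * D.β i) Δ s s' t t' hG.deg]
    exact h0
  -- for the members over `k`
  have h2 : ∀ G : ∀ i, J i → k[X], InC (fun i => 2 * D.β i) P G → ∀ σ τ : k,
      pval Δ (fun i x => algebraMap k F₀ ((G i x).eval σ))
        (fun i x => algebraMap k F₀ ((G i x).eval τ)) = 0 := by
    intro G hGC σ τ
    let G₀ : ∀ i, J i → F₀[X] := mapT ((Algebra.ofId k F₀ : k →ₐ[k] F₀) : k →+* F₀) G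
    have hG₀ : InC (fun i => 2 * D.β i) P G₀ := InC.mapT (fun i => 2 * D.β i) hGC _
    let a : F₀ := (algebraMap k F₀ σ * t' - algebraMap k F₀ τ * s') / (s * t' - s' * t)
    let b : F₀ := (-(algebraMap k F₀ σ) * t + algebraMap k F₀ τ * s) / (s * t' - s' * t)
    let c : F₀ := (t' - s') / (s * t' - s' * t)
    let d : F₀ := (s - t) / (s * t' - s' * t)
    have ha : a * s + b * s' = algebraMap k F₀ σ := by
      simp only [a, b]
      rw [div_mul_eq_mul_div, div_mul_eq_mul_div, ← add_div, div_eq_iff hst]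
      ring
    have hb : a * t + b * t' = algebraMap k F₀ τ := by
      simp only [a, b]
      rw [div_mul_eq_mul_div, div_mul_eq_mul_div, ← add_div, div_eq_iff hst]
      ring
    have hc : c * s + d * s' = 1 := by
      simp only [c, d]
      rw [div_mul_eq_mul_div, div_mul_eq_mul_div, ← add_div, div_eq_iff hst]
      ring
    have hd : c * t + d * t' = 1 := by
      simp only [c, d]
      rw [div_mul_eq_mul_div, div_mul_eq_mul_div, ← add_div, div_eq_iff hst]
      ring
    have h3 := hF.inv F₀ G₀ hG₀ (fun _ => 1) a b c d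
    have h4 := Irr_33.eval_of_mem_map (A := F₀) h1 h3.mem
    rw [aeval_relq (fun i => 2 * D.β i) Δ s s' t t' h3.deg] at h4
    have key : ∀ (s s' : F₀) (σ : k), a * s + b * s' = algebraMap k F₀ σ → c * s + d * s' = 1 →
        pth (fun i => 2 * D.β i) (algebraMap F₀ F₀ s) (algebraMap F₀ F₀ s') (mobT (fun i => 2 * D.β i) (fun _ => 1) a b c d G₀)
          = fun i x => algebraMap k F₀ ((G i x).eval σ) := by
      intro s s' σ h5 h6
      funext i x
      unfold pth mobT
      rw [hev_C_mul, hev_mob]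
      simp only [Algebra.algebraMap_self, RingHom.id_apply, one_mul]
      rw [h5, h6, hev_t_one _ (hG₀.deg i x)]
      change aeval (algebraMap k F₀ σ) ((G i x).map (algebraMap k F₀)) = _
      rw [aeval_map_algebraMap, aeval_algebraMap_apply]
      rfl
    rw [key s s' σ ha hc, key t t' τ hb hd] at h4
    exact h4
  -- apply a linear form
  have h3 : ∀ φ : F₀ →ₗ[k] k, pval (Irr_33.cf φ Δ) v v' = 0 := by
    intro φ
    refine null_pair (E := D.E) ?_ hv hv0 hv' hv0'
    refine hF.pairs _ (bh_cf φ hΔ) ?_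
    intro G hGC σ τ
    have h4 := Irr_33.eval_cf φ Δ (Sum.elim (fun x : Σ i, J i => (G x.1 x.2).eval σ)
      (fun x : Σ i, J i => (G x.1 x.2).eval τ))
    have h5 := h2 G hGC σ τ
    have h6 : MvPolynomial.eval (fun z => algebraMap k F₀
        ((Sum.elim (fun x : Σ i, J i => (G x.1 x.2).eval σ)
          (fun x : Σ i, J i => (G x.1 x.2).eval τ)) z)) Δ = 0 := by
      rw [← h5]
      unfold pval
      rw [MvPolynomial.aeval_def, Algebra.algebraMap_self, MvPolynomial.eval₂_id]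
      congr 2
      funext z
      rcases z with z | z <;> rfl
    rw [h6, map_zero] at h4
    rw [← h4]
    unfold pval
    rw [MvPolynomial.aeval_def, Algebra.algebraMap_self, MvPolynomial.eval₂_id]
  have h4 : Δ ∈ (RingHom.ker (MvPolynomial.aeval
      (Sum.elim (fun x : Σ i, J i => v x.1 x.2) (fun x : Σ i, J i => v' x.1 x.2)) :
      MvPolynomial ((Σ i, J i) ⊕ (Σ i, J i)) k →ₐ[k] A)).map
        (MvPolynomial.map (algebraMap k F₀)) :=
    Irr_33.mem_map_of_cf fun φ => (pval_mem_iff v v' _).1 (h3 φ)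
  exact Irr_33.eval_of_mem_map (A := A) h4 fun p hp => (RingHom.mem_ker.1 hp)

/-- **(F5)** -/
theorem gen_pair (hF : Fam D P) : GenPairP D P := by
  intro F₀ κ _ _ _ _ _ _ H hG s t hst Δ hΔ h0 A _ _ _ _ v v' hv hv0 hv' hv0'
  refine gen_pair_hev hF F₀ κ H hG s 1 t 1 (by
    rw [mul_one, one_mul]; exact sub_ne_zero.2 hst) Δ hΔ ?_ A v v' hv hv0 hv' hv0'
  have key : ∀ s : F₀, pth (fun i => 2 * D.β i) (algebraMap F₀ κ s) (algebraMap F₀ κ 1) H
      = pt H (algebraMap F₀ κ s) := by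
    intro s
    funext i x
    unfold pth pt
    rw [map_one, hev_t_one _ (hG.deg i x)]
    rfl
  rw [key, key]
  exact h0

/-- **(F5∞)** -/
theorem gen_pair_inf (hF : Fam D P) : GenPairInfP D P := by
  intro F₀ κ _ _ _ _ _ _ H hG Δ hΔ h0 A _ _ _ _ v v' hv hv0 hv' hv0'
  refine gen_pair_hev hF F₀ κ H hG 0 1 1 0 (by simp) Δ hΔ ?_ A v v' hv hv0 hv' hv0'
  have h1 : pth (fun i => 2 * D.β i) (algebraMap F₀ κ 0) (algebraMap F₀ κ 1) H = pt H 0 := by
    funext i x
    unfold pth pt
    rw [map_one, map_zero, hev_t_one _ (hG.deg i x)]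
    rfl
  have h2 : pth (fun i => 2 * D.β i) (algebraMap F₀ κ 1) (algebraMap F₀ κ 0) H = ld D H := by
    funext i x
    unfold pth ld
    rw [map_one, map_zero, hev_t_zero]
    simp
  rw [h1, h2]
  exact h0

end main

end Crest.Agent.R260.Fam_919
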