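import Crest.Agent.R260.Gtr2_516
import Crest.Agent.R260.Fp1_919

/-!
# Row 260 (S0398), GENFAM (F6) (helper516): `GenTrP` for the family
-/

set_option autoImplicit false
set_option linter.unusedSectionVars false

namespace Crest.Agent.R260.Gtr_516

open Crest.Agent.R260.Lin_678 Crest.Agent.R260.Fam_919

universe u

variable {I : Type} {J : I → Type} [Fintype I] [∀ i, Fintype (J i)] {k : Type u} [Field k]
  {D : CData k I J} {P : Ideal (MvPolynomial (Cx J (fun i => 2 * D.β i)) k)}

/-- **(F6a)** for the family. -/
theorem genRatP [IsAlgClosed k] [CharZero k] (hF : Fam D P) (hP : (Ideal.span D.E).IsPrime) :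
    GenRatP D P :=
  gen_rat hF hP (gen_pair_inf hF)

/-- **(F6)** for the family. -/
theorem genTrP [IsAlgClosed k] [CharZero k] (hF : Fam D P) (hP : (Ideal.span D.E).IsPrime) :
    GenTrP D P :=
  gen_tr hF (genRatP hF hP)

end Crest.Agent.R260.Gtr_516
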