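import Crest.Agent.R260.Irr3_33
import Crest.Agent.R260.QuadDefs_517

/-!
# Row 260, IRR, part 4 (helper33): the leaf `IrrP` of `QuadDefs_517`
-/

set_option autoImplicit false

namespace Crest.Agent.R260.Irr_33

open Crest.Agent.R270.BM_360 Crest.Agent.R260.Lin_678 Crest.Agent.R260.QuadDefs_517

universe u

/-- **(IRR)** of `QuadDefs_517`. -/
theorem irrP {k : Type u} [Field k] [IsAlgClosed k] [CharZero k] {I : Type} {J : I → Type}
    [Fintype I] [∀ i, Fintype (J i)] (D : CData k I J) (hP : (Ideal.span D.E).IsPrime) :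
    IrrP D := by
  intro F₀ A B _ _ _ _ _ _ _ _ _ _ _ y z hy hz hy0 hz0 hty htz p
  exact (cd_irr D hP hy hy0 hty hz hz0 htz p).1

end Crest.Agent.R260.Irr_33
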