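import Mathlib
import Crest.Agent.R260.QuadDefs_517
import Crest.Agent.R260.Nl1_997

/-!
Row 260 (S0398), helper997: Theorem K' in the literal form `KprimeP` of `QuadDefs_517`, from the
general pairing theorem (G) of helper365 (`GP`).
-/

set_option autoImplicit false

namespace Crest.Agent.R260.Kp_997

open Polynomial Crest.Agent.R270.BM_360 Crest.Agent.R260.Lin_678 Crest.Agent.R260.QuadDefs_517
open Crest.Agent.R270.Fin_305

universe u

variable {I : Type} {J : I → Type} [Fintype I] [∀ i, Fintype (J i)] {k : Type u} [Field k]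

/-- (G) of helper365: the pairing of the variation of the end point with the tangent vector. -/
def GP (D : CData k I J) : Prop :=
  ∀ (kl M : Type u) [Field kl] [Field M] [IsAlgClosed kl] [IsAlgClosed M] [Algebra k kl]
    [Algebra k M] [Algebra kl M] [IsScalarTower k kl M] (l : ∀ i, J i → kl[X]) (s : M)
    (f : ∀ i, J i → M[X]) (c : M) (r : I → M) (e : ℕ) (g : M),
    1 ≤ e → IsMap D.E l → cls l = e • D.β → Transcendental kl s →
    IsMap D.E f → cls f = 2 • D.β → D.th.Val f (dd f) (C c) → (∀ i, r i ≠ 0) →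
    (∀ i j, (f i j).coeff 0 = r i * aeval s (l i j)) →
    (∀ O : ValuationSubring M, (∀ z : kl, algebraMap kl M z ∈ O) →
      (s ∈ O → ∀ i j, g * (f i j).coeff 1 / r i ∈ O) ∧
      (s ∉ O → ∀ i j, g * s ^ (e - 1) * (f i j).coeff 1 / (r i * s ^ (e * D.β i)) ∈ O)) →
    ∃ a0 a1 : kl, (e : M) * g * c =
      (∏ i, r i ^ D.w i) * (algebraMap kl M a0 + algebraMap kl M a1 * s)

/-- the size of the square root of the scalar -/
theorem val_sigma (D : CData k I J) {K : Type u} [Field K] (O : ValuationSubring K)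
    {t : I → K} {q : O.ValueGroup} (hq : 0 < q) (ht : ∀ i, O.valuation (t i) = q ^ (2 * D.β i))
    {σ : K} (hσ : σ ^ 2 = ∏ i, t i ^ D.w i) : O.valuation σ = q := by
  classical
  have h2 : O.valuation σ ^ 2 = q ^ 2 := by
    rw [← map_pow, hσ, map_prod]
    simp_rw [map_zpow₀, ht]
    have h3 : ∀ i, (q ^ (2 * D.β i)) ^ D.w i = q ^ (D.w i * ((2 * D.β i : ℕ) : ℤ)) := by
      intro i
      rw [← zpow_natCast, ← zpow_mul, mul_comm]
    simp_rw [h3]
    have h4 : ∀ S : Finset I, ∏ i ∈ S, q ^ (D.w i * ((2 * D.β i : ℕ) : ℤ)) =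
        q ^ (∑ i ∈ S, D.w i * ((2 * D.β i : ℕ) : ℤ)) := by
      intro S
      induction S using Finset.induction_on with
      | empty => simp
      | insert a S ha ih =>
        rw [Finset.prod_insert ha, Finset.sum_insert ha, ih, zpow_add₀ hq.ne']
    have h5 : ∑ i, D.w i * ((2 * D.β i : ℕ) : ℤ) = 2 := by
      have h6 : ∑ i, D.w i * ((2 * D.β i : ℕ) : ℤ) = 2 * ∑ i, D.w i * (D.β i : ℤ) := by
        rw [Finset.mul_sum]
        refine Finset.sum_congr rfl fun i _ => ?_
        push_cast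
        ring
      rw [h6, D.wβ, mul_one]
    rw [h4, h5]
    rfl
  exact (pow_left_inj₀ zero_le hq.le two_ne_zero).mp h2

/-- **Theorem K'** in the form of `QuadDefs_517`. -/
theorem kprime_of (D : CData k I J) [CharZero k] (hG : GP D) : KprimeP D := by
  intro F₁ k₁ L₁ _ _ _ _ _ _ _ _ _ _ _ _ _ _ _ _ x H u f a b c _ _ hH hclsH hu hf hclsf hj hO1
  classical
  obtain ⟨σ, hσ⟩ := IsAlgClosed.exists_pow_nat_eq (∏ i, (b i / a i) ^ D.w i) (n := 2) two_pos
  have hclsHi : ∀ i, vdeg (H i) = 2 * D.β i := fun i => by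
    have := congrFun hclsH i
    rw [Pi.smul_apply, smul_eq_mul] at this
    exact this
  -- the sizes at `O`
  have key : ∀ O : ValuationSubring L₁, (∀ z : k₁, algebraMap k₁ L₁ z ∈ O) →
      ∃ r : O.ValueGroup, 0 < r ∧ O.valuation σ = r / max 1 (O.valuation u) ∧
        (∀ i, O.valuation (b i / a i) = (r / max 1 (O.valuation u)) ^ (2 * D.β i)) ∧
        ∀ i j, O.valuation ((f i j).coeff 1) ≤ O.valuation (a i) * r ^ (2 * D.β i - 1) := by
    intro O hO
    obtain ⟨r, hr, h0, h1⟩ := hO1 O hO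
    have hM0 : 0 < max 1 (O.valuation u) := lt_of_lt_of_le zero_lt_one (le_max_left _ _)
    have hq : 0 < r / max 1 (O.valuation u) := div_pos hr hM0
    have hba : ∀ i, O.valuation (b i / a i) = (r / max 1 (O.valuation u)) ^ (2 * D.β i) := by
      intro i
      have h2 := Nl1_997.vmax_const O hO (hH.cop i) u
      rw [hclsHi i] at h2
      have h3 : VMax O (fun j => (f i j).coeff 0)
          (O.valuation (b i) * max 1 (O.valuation u) ^ (2 * D.β i)) := by
        refine ⟨?_, fun j => ?_⟩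
        · obtain ⟨j, hj'⟩ := h2.1
          refine ⟨j, ?_⟩
          show O.valuation ((f i j).coeff 0) = _
          rw [hj.bot, map_mul]
          congr 1
        · show O.valuation ((f i j).coeff 0) ≤ _
          rw [hj.bot, map_mul]
          gcongr
          exact h2.2 j
      have h4 : VMax O (fun j => (f i j).coeff 0) (O.valuation (a i) * r ^ (2 * D.β i)) :=
        ⟨(h0 i).2, (h0 i).1⟩
      have h5 := h3.unique h4
      have ha : O.valuation (a i) ≠ 0 := by rw [Ne, Valuation.zero_iff]; exact hj.a0 i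
      rw [map_div₀, div_pow, div_eq_div_iff ha (pow_ne_zero _ hM0.ne'), h5, mul_comm]
    exact ⟨r, hr, val_sigma D O hq hba hσ, hba, h1⟩
  have hbnd : ∀ O : ValuationSubring L₁, (∀ z : k₁, algebraMap k₁ L₁ z ∈ O) →
      (u ∈ O → ∀ i j, σ * (f i j).coeff 1 / b i ∈ O) ∧
      (u ∉ O → ∀ i j, σ * u ^ (2 - 1) * (f i j).coeff 1 / (b i * u ^ (2 * D.β i)) ∈ O) := by
    intro O hO
    obtain ⟨r, hr, h1, h2, h3⟩ := key O hO
    have hmain : ∀ i j, O.valuation (σ * (f i j).coeff 1 / b i) ≤
        max 1 (O.valuation u) ^ (2 * D.β i - 1) := by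
      intro i j
      set M := max 1 (O.valuation u) with hM
      have hM0 : 0 < M := lt_of_lt_of_le zero_lt_one (le_max_left _ _)
      have ha : 0 < O.valuation (a i) := by
        rw [zero_lt_iff, Ne, Valuation.zero_iff]; exact hj.a0 i
      have hb : 0 < O.valuation (b i) := by
        rw [zero_lt_iff, Ne, Valuation.zero_iff]; exact hj.b0 i
      have hβ : 1 ≤ 2 * D.β i := by have := D.β_pos i; omega
      have h4 : O.valuation (b i) = O.valuation (a i) * (r / M) ^ (2 * D.β i) := by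
        have h5 := h2 i
        rw [map_div₀, div_eq_iff ha.ne'] at h5
        rw [h5, mul_comm]
      rw [map_div₀, map_mul, h1, div_le_iff₀ hb]
      calc r / M * O.valuation ((f i j).coeff 1)
          ≤ r / M * (O.valuation (a i) * r ^ (2 * D.β i - 1)) := by gcongr; exact h3 i j
        _ = M ^ (2 * D.β i - 1) * O.valuation (b i) := by
          rw [h4]
          have h6 : (r / M) ^ (2 * D.β i) = (r / M) ^ (2 * D.β i - 1) * (r / M) := by
            rw [← pow_succ, Nat.sub_add_cancel hβ]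
          have h7 : M ^ (2 * D.β i - 1) * (r / M) ^ (2 * D.β i - 1) = r ^ (2 * D.β i - 1) := by
            rw [← mul_pow, mul_div_cancel₀ _ hM0.ne']
          rw [h6, ← h7]
          ac_rfl
    refine ⟨fun hu' i j => ?_, fun hu' i j => ?_⟩
    · rw [← O.valuation_le_one_iff]
      have h4 := hmain i j
      rwa [max_eq_left ((O.valuation_le_one_iff _).mpr hu'), one_pow] at h4
    · rw [← O.valuation_le_one_iff]
      have hu1 : 1 < O.valuation u := by
        rw [← not_le, O.valuation_le_one_iff]; exact hu'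
      have hu0 : 0 < O.valuation u := lt_trans zero_lt_one hu1
      have h4 := hmain i j
      rw [max_eq_right hu1.le] at h4
      have hβ : 1 ≤ 2 * D.β i := by have := D.β_pos i; omega
      have h5 : σ * u ^ (2 - 1) * (f i j).coeff 1 / (b i * u ^ (2 * D.β i)) =
          (σ * (f i j).coeff 1 / b i) * (u * (u ^ (2 * D.β i))⁻¹) := by
        rw [div_eq_mul_inv, div_eq_mul_inv, mul_inv]
        ring
      rw [h5, map_mul]
      calc O.valuation (σ * (f i j).coeff 1 / b i) * O.valuation (u * (u ^ (2 * D.β i))⁻¹)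
          ≤ O.valuation u ^ (2 * D.β i - 1) * O.valuation (u * (u ^ (2 * D.β i))⁻¹) := by gcongr
        _ = 1 := by
          rw [map_mul, map_inv₀, map_pow, ← mul_assoc, ← pow_succ, Nat.sub_add_cancel hβ,
            mul_inv_cancel₀ (pow_ne_zero _ hu0.ne')]
  obtain ⟨a0, a1, h⟩ := hG k₁ L₁ H u f c b 2 σ one_le_two hH hclsH hu hf hclsf hj.val hj.b0 hj.bot
    hbnd
  refine ⟨C (4 : k₁)⁻¹ * (C a0 + C a1 * X) ^ 2, ?_, ?_⟩
  · refine (natDegree_C_mul_le _ _).trans ?_
    refine natDegree_pow_le.trans ?_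
    have h1 : (C a0 + C a1 * X).natDegree ≤ 1 := by
      rw [add_comm]
      exact natDegree_linear_le
    omega
  · have hk4 : (4 : k₁) ≠ 0 := by
      have _ : CharZero k₁ := charZero_of_injective_algebraMap (algebraMap k k₁).injective
      norm_num
    have hL4 : (4 : L₁) ≠ 0 := by
      have _ : CharZero L₁ := charZero_of_injective_algebraMap (algebraMap k L₁).injective
      norm_num
    have hprod : ∏ i, (b i / a i) ^ D.w i = (∏ i, b i ^ D.w i) * ∏ i, a i ^ (-D.w i) := by
      rw [← Finset.prod_mul_distrib]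
      refine Finset.prod_congr rfl fun i _ => ?_
      rw [div_zpow, zpow_neg, div_eq_mul_inv]
    have hB : (∏ i, b i ^ D.w i) ≠ 0 := Finset.prod_ne_zero_iff.mpr fun i _ =>
      zpow_ne_zero _ (hj.b0 i)
    have hA : (∏ i, a i ^ (-D.w i)) ≠ 0 := Finset.prod_ne_zero_iff.mpr fun i _ =>
      zpow_ne_zero _ (hj.a0 i)
    have hBinv : (∏ i, b i ^ (-D.w i)) = (∏ i, b i ^ D.w i)⁻¹ := by
      rw [← Finset.prod_inv_distrib]
      refine Finset.prod_congr rfl fun i _ => ?_
      rw [zpow_neg]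
    unfold phi
    rw [hBinv]
    rw [hprod] at hσ
    simp only [map_mul, map_pow, map_add, aeval_C, aeval_X, map_inv₀, map_ofNat]
    push_cast at h
    have h2 : 4 * σ ^ 2 * c ^ 2 =
        (∏ i, b i ^ D.w i) ^ 2 * (algebraMap k₁ L₁ a0 + algebraMap k₁ L₁ a1 * u) ^ 2 := by
      calc 4 * σ ^ 2 * c ^ 2 = (2 * σ * c) ^ 2 := by ring
        _ = _ := by rw [h]; ring
    rw [hσ] at h2
    field_simp
    have h3 : (∏ i, b i ^ D.w i) * (4 * (∏ i, a i ^ (-D.w i)) * c ^ 2) =
        (∏ i, b i ^ D.w i) * ((∏ i, b i ^ D.w i) *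
          (algebraMap k₁ L₁ a0 + algebraMap k₁ L₁ a1 * u) ^ 2) := by
      calc _ = 4 * ((∏ i, b i ^ D.w i) * ∏ i, a i ^ (-D.w i)) * c ^ 2 := by ring
        _ = _ := by rw [h2]; ring
    have h4 := mul_left_cancel₀ hB h3
    calc _ = 4 * (∏ i, a i ^ (-D.w i)) * c ^ 2 := by ring
      _ = _ := by rw [h4]

end Crest.Agent.R260.Kp_997
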