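import Mathlib
import Crest.Agent.R260.LinDefs_678
import Crest.Agent.R260.Alg1_661
import Crest.Agent.R260.Nl1_997
import Crest.Agent.R270.Fr3_928

/-!
# Row 260 (S0398), helper365: frame-free LIN / K' (post 6024)

Pair the normalised tangent vector of the moving conic with the two partial derivatives of the test
curve: both values lie in every valuation ring of `K/k`, hence in `k`.

Part 1: the numerator `om` of `dθ` in a chart: scaling, Euler fields, integrality.
-/

set_option autoImplicit false
set_option linter.unusedSectionVars false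

namespace Crest.Agent.R260.Pd_365

open Polynomial Crest.Agent.R270.BM_360 Crest.Agent.R260.Lin_678
open Crest.Agent.R270.Fin_305 (VMax)
open Crest.Agent.R260.Alg0_661

universe u

/-! ### a derivation with `δ s = 1` -/

theorem exists_der_one {k K : Type u} [Field k] [Field K] [Algebra k K] [CharZero k] {s : K}
    (hs : Transcendental k s) : ∃ δ : Derivation k K K, δ s = 1 := by
  have h : AlgebraicIndependent k (fun _ : Fin 1 => s) :=
    algebraicIndependent_unique_type_iff.mpr hs
  obtain ⟨δ, hδ⟩ := Crest.Agent.R270.Fr_928.exists_der_indep _ h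
  exact ⟨δ 0, by simpa using hδ 0 0⟩

theorem transcendental_of {k K : Type u} [Field k] [Field K] [Algebra k K] [IsAlgClosed k] {s : K}
    (hs : ∀ a : k, algebraMap k K a ≠ s) : Transcendental k s := by
  intro h
  have h5 : (minpoly k s).degree = 1 :=
    IsAlgClosed.degree_eq_one_of_irreducible k (minpoly.irreducible h.isIntegral)
  obtain ⟨a, ha⟩ := minpoly.mem_range_of_degree_eq_one k s h5
  exact hs a ha

variable {I : Type} {J : I → Type} [Fintype I] [∀ i, Fintype (J i)]

/-! ### block degrees -/

/-- all the monomials of `q` have degree `d i` in the block `i`. -/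
def BD {k : Type u} [Field k] (q : MvPolynomial (Σ i, J i) k) (d : I → ℤ) : Prop :=
  ∀ m ∈ q.support, ∀ i, ((∑ a, m ⟨i, a⟩ : ℕ) : ℤ) = d i

section euler

variable {k : Type u} [Field k] {A : Type*} [CommRing A] [Algebra k A]

theorem dfun_sum {ι : Type*} (S : Finset ι) (f : ι → MvPolynomial (Σ i, J i) k)
    (v t : (Σ i, J i) → A) : dfun (∑ m ∈ S, f m) v t = ∑ m ∈ S, dfun (f m) v t := by
  unfold dfun
  simp only [map_sum, Finset.sum_mul]
  rw [Finset.sum_comm]

/-- Euler's theorem, blockwise. -/
theorem dfun_euler {q : MvPolynomial (Σ i, J i) k} {d : I → ℤ} (hq : BD q d)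
    (v : (Σ i, J i) → A) (a : I → A) :
    dfun q v (fun x => a x.1 * v x) = (∑ i, a i * (d i : A)) * MvPolynomial.aeval v q := by
  have key : ∀ m ∈ q.support, dfun (MvPolynomial.monomial m (q.coeff m)) v
      (fun x => a x.1 * v x) =
      (∑ i, a i * (d i : A)) * MvPolynomial.aeval v (MvPolynomial.monomial m (q.coeff m)) := by
    intro m hm
    unfold dfun
    have h1 : ∀ x : Σ i, J i, MvPolynomial.aeval v (MvPolynomial.pderiv x
        (MvPolynomial.monomial m (q.coeff m))) * (a x.1 * v x) =
        a x.1 * (m x : A) * MvPolynomial.aeval v (MvPolynomial.monomial m (q.coeff m)) := by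
      intro x
      have h2 := congrArg (MvPolynomial.aeval v)
        (MvPolynomial.X_mul_pderiv_monomial (i := x) (m := m) (r := q.coeff m))
      rw [map_mul, MvPolynomial.aeval_X, map_nsmul, nsmul_eq_mul] at h2
      calc _ = a x.1 * (v x * MvPolynomial.aeval v (MvPolynomial.pderiv x
        (MvPolynomial.monomial m (q.coeff m)))) := by ring
        _ = _ := by rw [h2]; ring
    rw [Finset.sum_congr rfl fun x _ => h1 x, ← Finset.sum_mul]
    congr 1
    rw [Fintype.sum_sigma]
    refine Finset.sum_congr rfl fun i _ => ?_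
    simp only
    rw [← Finset.mul_sum]
    congr 1
    have h3 := congrArg (fun z : ℤ => (z : A)) (hq m hm i)
    simpa using h3
  conv_lhs => rw [MvPolynomial.as_sum q, dfun_sum]
  conv_rhs => rw [MvPolynomial.as_sum q, map_sum, Finset.mul_sum]
  exact Finset.sum_congr rfl key

theorem dpol_BD (c : ∀ i, J i) (N : ℕ) : BD (dpol k c N) (fun _ => (N : ℤ)) := by
  classical
  have h1 : dpol k c N = MvPolynomial.monomial (N • ∑ i, Finsupp.single (⟨i, c i⟩ : Σ i, J i) 1)
      1 := by
    unfold dpol
    simp only [MvPolynomial.X]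
    rw [← MvPolynomial.monomial_sum_one, MvPolynomial.monomial_pow, one_pow]
  intro m hm i
  rw [h1] at hm
  have h2 := MvPolynomial.support_monomial_subset hm
  rw [Finset.mem_singleton] at h2
  rw [h2]
  have h3 : ∀ a : J i, (N • ∑ j, Finsupp.single (⟨j, c j⟩ : Σ i, J i) 1) ⟨i, a⟩ =
      N * (if c i = a then 1 else 0) := by
    intro a
    rw [Finsupp.smul_apply, Finsupp.finsetSum_apply, smul_eq_mul]
    congr 1
    rw [Finset.sum_eq_single i]
    · rw [Finsupp.single_apply]
      simp
    · intro j _ hj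
      rw [Finsupp.single_apply, if_neg]
      intro h
      exact hj (congrArg Sigma.fst h)
    · simp
  simp [h3]

/-- the coefficients of the form. -/
theorem p_BD {E : Set (MvPolynomial (Σ i, J i) k)} {w : I → ℤ} (th : CForm E w) (c : ∀ i, J i)
    (x : Σ i, J i) : BD (th.p c x) (fun i => th.N + w i - (open Classical in
      if x.1 = i then 1 else 0)) := by
  intro m hm i
  have h := th.hom c x m hm i
  change ((∑ a, m ⟨i, a⟩ : ℕ) : ℤ) = th.N + w i - _
  rw [← h]
  ring

end euler

section scale

variable {k : Type u} [Field k] {K : Type u} [Field K] [Algebra k K]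

theorem prod_scale (m : (Σ i, J i) →₀ ℕ) (lam : I → K) :
    ∏ x : Σ i, J i, lam x.1 ^ m x = ∏ i, lam i ^ (∑ a, m ⟨i, a⟩) := by
  rw [Fintype.prod_sigma]
  refine Finset.prod_congr rfl fun i _ => ?_
  change ∏ y, lam i ^ m ⟨i, y⟩ = _
  rw [Finset.prod_pow_eq_pow_sum]

theorem mono_scale (m : (Σ i, J i) →₀ ℕ) (r : k) (lam : I → K) (v : (Σ i, J i) → K) :
    MvPolynomial.aeval (fun x : Σ i, J i => lam x.1 * v x) (MvPolynomial.monomial m r) =
      (∏ x : Σ i, J i, lam x.1 ^ m x) * MvPolynomial.aeval v (MvPolynomial.monomial m r) := by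
  rw [MvPolynomial.aeval_monomial, MvPolynomial.aeval_monomial, Finsupp.prod_fintype _ _ (by simp),
    Finsupp.prod_fintype _ _ (by simp)]
  simp only [mul_pow, Finset.prod_mul_distrib]
  ring

theorem aeval_scale {q : MvPolynomial (Σ i, J i) k} {d : I → ℤ} (hq : BD q d) (lam : I → K)
    (v : (Σ i, J i) → K) :
    MvPolynomial.aeval (fun x : Σ i, J i => lam x.1 * v x) q =
      (∏ i, lam i ^ d i) * MvPolynomial.aeval v q := by
  conv_lhs => rw [MvPolynomial.as_sum q, map_sum]
  conv_rhs => rw [MvPolynomial.as_sum q, map_sum, Finset.mul_sum]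
  refine Finset.sum_congr rfl fun m hm => ?_
  rw [mono_scale, prod_scale]
  congr 1
  refine Finset.prod_congr rfl fun i _ => ?_
  rw [← hq m hm i, zpow_natCast]

theorem pderiv_scale {q : MvPolynomial (Σ i, J i) k} {d : I → ℤ} (hq : BD q d) (lam : I → K)
    (v : (Σ i, J i) → K) (x : Σ i, J i) :
    MvPolynomial.aeval (fun x : Σ i, J i => lam x.1 * v x) (MvPolynomial.pderiv x q) * lam x.1 =
      (∏ i, lam i ^ d i) * MvPolynomial.aeval v (MvPolynomial.pderiv x q) := by
  classical
  conv_lhs => rw [MvPolynomial.as_sum q, map_sum, map_sum, Finset.sum_mul]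
  conv_rhs => rw [MvPolynomial.as_sum q, map_sum, map_sum, Finset.mul_sum]
  refine Finset.sum_congr rfl fun m hm => ?_
  rw [MvPolynomial.pderiv_monomial, mono_scale]
  rcases Nat.eq_zero_or_pos (m x) with h0 | h0
  · rw [h0]
    simp
  · have h1 : (m - Finsupp.single x 1) + Finsupp.single x 1 = m := by
      ext y
      rw [Finsupp.add_apply, Finsupp.tsub_apply]
      by_cases hy : x = y
      · subst hy
        rw [Finsupp.single_eq_same]
        omega
      · rw [Finsupp.single_eq_of_ne' hy]
        omega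
    have h2 : (∏ y : Σ i, J i, lam y.1 ^ ((m - Finsupp.single x 1 : (Σ i, J i) →₀ ℕ) y)) * lam x.1 =
        ∏ i, lam i ^ d i := by
      have h3 : ∏ y : Σ i, J i, lam y.1 ^ m y =
          (∏ y : Σ i, J i, lam y.1 ^ ((m - Finsupp.single x 1 : (Σ i, J i) →₀ ℕ) y)) * lam x.1 := by
        conv_lhs => rw [← h1]
        simp only [Finsupp.add_apply, pow_add, Finset.prod_mul_distrib]
        congr 1
        rw [Finset.prod_eq_single x]
        · rw [Finsupp.single_eq_same, pow_one]
        · intro y _ hy
          rw [Finsupp.single_eq_of_ne hy, pow_zero]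
        · simp
      rw [← h3, prod_scale]
      refine Finset.prod_congr rfl fun i _ => ?_
      rw [← hq m hm i, zpow_natCast]
    rw [← h2]
    ring

theorem dfun_scale {q : MvPolynomial (Σ i, J i) k} {d : I → ℤ} (hq : BD q d) (lam : I → K)
    (v t : (Σ i, J i) → K) :
    dfun q (fun x : Σ i, J i => lam x.1 * v x) (fun x => lam x.1 * t x) =
      (∏ i, lam i ^ d i) * dfun q v t := by
  unfold dfun
  rw [Finset.mul_sum]
  refine Finset.sum_congr rfl fun x _ => ?_
  rw [← mul_assoc, pderiv_scale hq, mul_assoc]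

variable {E : Set (MvPolynomial (Σ i, J i) k)} {w : I → ℤ}

theorem den_scale (c : ∀ i, J i) (lam : I → K) (v : ∀ i, J i → K) :
    den c (fun i x => lam i * v i x) = (∏ i, lam i) * den c v := by
  unfold den
  rw [Finset.prod_mul_distrib]

theorem prod_zpow_aux (lam : I → K) (hlam : ∀ i, lam i ≠ 0) (N : ℕ) (x : I) :
    (∏ i, lam i ^ ((N : ℤ) + w i - (open Classical in if x = i then 1 else 0))) * lam x =
      (∏ i, lam i ^ w i) * (∏ i, lam i) ^ N := by
  classical
  have h1 : lam x = ∏ i, lam i ^ ((if x = i then 1 else 0 : ℤ)) := by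
    rw [Finset.prod_eq_single x]
    · simp
    · intro i _ hi
      rw [if_neg (Ne.symm hi), zpow_zero]
    · simp
  conv_lhs => rw [h1]
  rw [← Finset.prod_mul_distrib, ← Finset.prod_pow, ← Finset.prod_mul_distrib]
  refine Finset.prod_congr rfl fun i _ => ?_
  rw [← zpow_natCast, ← zpow_add₀ (hlam i), ← zpow_add₀ (hlam i)]
  congr 1
  split_ifs <;> ring

theorem form_scale (th : CForm E w) (c : ∀ i, J i) (lam : I → K) (hlam : ∀ i, lam i ≠ 0)
    (v t : ∀ i, J i → K) :
    form (th.p c) (fun i x => lam i * v i x) (fun i x => lam i * t i x) =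
      (∏ i, lam i ^ w i) * (∏ i, lam i) ^ th.N * form (th.p c) v t := by
  rw [form_eq, form_eq]
  unfold al
  rw [Finset.mul_sum]
  refine Finset.sum_congr rfl fun x _ => ?_
  have h := aeval_scale (p_BD th c x) lam (unc v)
  have h2 := prod_zpow_aux (w := w) lam hlam th.N x.1
  change MvPolynomial.aeval (fun x : Σ i, J i => lam x.1 * unc v x) (th.p c x) *
    (lam x.1 * unc t x) = _
  rw [h, ← h2]
  ring

/-- the numerator of `dθ` in the chart `c`. -/
noncomputable def om (th : CForm E w) {A : Type*} [CommRing A] [Algebra k A] (c : ∀ i, J i)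
    (v s t : ∀ i, J i → A) (a b : A) : A :=
  dthN (th.p c) (dpol k c th.N) (unc v) (unc s) (unc t) a b

theorem dal_scale (th : CForm E w) (c : ∀ i, J i) (lam : I → K) (hlam : ∀ i, lam i ≠ 0)
    (v s t : ∀ i, J i → K) :
    dal (th.p c) (fun x : Σ i, J i => lam x.1 * unc v x) (fun x => lam x.1 * unc s x)
        (fun x => lam x.1 * unc t x) =
      (∏ i, lam i ^ w i) * (∏ i, lam i) ^ th.N * dal (th.p c) (unc v) (unc s) (unc t) := by
  unfold dal
  rw [Finset.mul_sum]
  refine Finset.sum_congr rfl fun x _ => ?_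
  rw [dfun_scale (p_BD th c x), dfun_scale (p_BD th c x),
    ← prod_zpow_aux (w := w) lam hlam th.N x.1]
  ring

theorem om_scale (th : CForm E w) (c : ∀ i, J i) (lam : I → K) (hlam : ∀ i, lam i ≠ 0)
    (v s t : ∀ i, J i → K) (a b : K) :
    om th c (fun i x => lam i * v i x) (fun i x => lam i * s i x) (fun i x => lam i * t i x)
        ((∏ i, lam i ^ w i) * a) ((∏ i, lam i ^ w i) * b) =
      (∏ i, lam i ^ w i) * (∏ i, lam i) ^ th.N * om th c v s t a b := by
  have h1 := dal_scale th c lam hlam v s t
  have h2 := dfun_scale (dpol_BD (k := k) c th.N) lam (unc v) (unc s)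
  have h3 := dfun_scale (dpol_BD (k := k) c th.N) lam (unc v) (unc t)
  have h4 : ∏ i, lam i ^ ((th.N : ℕ) : ℤ) = (∏ i, lam i) ^ th.N := by
    simp only [zpow_natCast, Finset.prod_pow]
  rw [h4] at h2 h3
  unfold om dthN
  change dal (th.p c) (fun x : Σ i, J i => lam x.1 * unc v x) (fun x => lam x.1 * unc s x)
        (fun x => lam x.1 * unc t x) -
      dfun (dpol k c th.N) (fun x : Σ i, J i => lam x.1 * unc v x)
        (fun x => lam x.1 * unc s x) * _ +
      dfun (dpol k c th.N) (fun x : Σ i, J i => lam x.1 * unc v x)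
        (fun x => lam x.1 * unc t x) * _ = _
  rw [h1, h2, h3]
  ring

end scale

end Crest.Agent.R260.Pd_365
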