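import Mathlib
import Crest.Agent.R260.Pd1_365

/-!
# Row 260 (S0398), helper365: frame-free LIN / K', part 2

The pairing of the velocity of the moving conic with the Euler fields and with the variations of
its value at `0`; the local estimate; the general theorem (G).
-/

set_option autoImplicit false
set_option linter.unusedSectionVars false

namespace Crest.Agent.R260.Pd_365

open Polynomial Crest.Agent.R270.BM_360 Crest.Agent.R260.Lin_678
open Crest.Agent.R270.Fin_305 (VMax)
open Crest.Agent.R270.Fr_928 (dX coeff_dX)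
open Crest.Agent.R260.Alg0_661

universe u

variable {I : Type} {J : I → Type} [Fintype I] [∀ i, Fintype (J i)]

section euler

variable {k : Type u} [Field k] {K : Type u} [Field K] [Algebra k K]
  {E : Set (MvPolynomial (Σ i, J i) k)} {w : I → ℤ}

/-- the velocity at `0`. -/
noncomputable def vel (F : ∀ i, J i → K[X]) : ∀ i, J i → K := fun i x => (F i x).coeff 1

theorem form_bot (th : CForm E w) {F : ∀ i, J i → K[X]} {c : K}
    (hc : th.Val F (fun i a => derivative (F i a)) (C c)) (ch : ∀ i, J i) :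
    den ch (bot F) ^ th.N * c = form (th.p ch) (bot F) (vel F) := by
  have h := congrArg (ev0 k K) (hc ch)
  rw [map_mul, form_eq, al_map] at h
  simp only [ev0_apply, coeff_den_zero, coeff_C_zero] at h
  rw [h, form_eq]
  congr 1
  funext x
  simp [unc, vel, coeff_derivative]

/-- the derivative of the Euler relation of the block `i` at `z = 0`. -/
theorem euler_bot (th : CForm E w) {F : ∀ i, J i → K[X]} (hF : OnX E F) (ch : ∀ i, J i) (i : I) :
    ∑ a : J i, (dfun (th.p ch ⟨i, a⟩) (unc (bot F)) (unc (vel F)) * bot F i a +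
      MvPolynomial.aeval (unc (bot F)) (th.p ch ⟨i, a⟩) * vel F i a) = 0 := by
  have h := congrArg (fun f : K[X] => ev0 k K (dz k K f)) (th.euler K[X] F hF ch i)
  simp only [map_zero, map_sum] at h
  rw [← h]
  refine Finset.sum_congr rfl fun a _ => ?_
  rw [Derivation.leibniz, map_add, smul_eq_mul, smul_eq_mul, map_mul, map_mul]
  have h1 : dz k K (MvPolynomial.aeval (fun y : Σ i, J i => F y.1 y.2) (th.p ch ⟨i, a⟩)) =
      dfun (th.p ch ⟨i, a⟩) (unc F) (fun x => dz k K (unc F x)) :=
    der_aeval (dz k K) (unc F) (th.p ch ⟨i, a⟩)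
  have h2 : (fun x : Σ i, J i => ev0 k K (unc F x)) = unc (bot F) := by
    funext x
    simp [ev0_apply, unc, bot]
  have h3 : (fun x : Σ i, J i => ev0 k K (dz k K (unc F x))) = unc (vel F) := by
    funext x
    simp [ev0_apply, unc, vel, dz_apply, coeff_derivative]
  have h4 : ev0 k K (MvPolynomial.aeval (fun y : Σ i, J i => F y.1 y.2) (th.p ch ⟨i, a⟩)) =
      MvPolynomial.aeval (unc (bot F)) (th.p ch ⟨i, a⟩) := by
    rw [← AlgHom.comp_apply, ← h2]
    congr 1
    ext x
    simp [ev0_apply, unc]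
  rw [h1, dfun_map, h2, h3, h4]
  have h5 : ev0 k K (F i a) = bot F i a := by simp [ev0_apply, bot]
  have h6 : ev0 k K (dz k K (F i a)) = vel F i a := by
    simp [ev0_apply, vel, dz_apply, coeff_derivative]
  rw [h5, h6]
  ring

/-- **`dθ` on an Euler field and the velocity.** -/
theorem om_euler (th : CForm E w) {F : ∀ i, J i → K[X]} (hF : OnX E F) {c : K}
    (hc : th.Val F (fun i a => derivative (F i a)) (C c)) (ch : ∀ i, J i) (a : I → K) :
    om th ch (bot F) (fun i x => a i * bot F i x) (vel F) 0 c =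
      (∑ i, a i * (w i : K)) * (den ch (bot F) ^ th.N * c) := by
  classical
  have h0 := form_bot th hc ch
  have h1 : dal (th.p ch) (unc (bot F)) (fun x => a x.1 * unc (bot F) x) (unc (vel F)) =
      (∑ i, a i * ((th.N : K) + (w i : K))) * form (th.p ch) (bot F) (vel F) := by
    have h2 : ∀ x : Σ i, J i,
        dfun (th.p ch x) (unc (bot F)) (fun x => a x.1 * unc (bot F) x) * unc (vel F) x -
          dfun (th.p ch x) (unc (bot F)) (unc (vel F)) * (a x.1 * unc (bot F) x) =
        (∑ i, a i * ((th.N : K) + (w i : K))) *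
            (MvPolynomial.aeval (unc (bot F)) (th.p ch x) * unc (vel F) x) -
          a x.1 * (dfun (th.p ch x) (unc (bot F)) (unc (vel F)) * unc (bot F) x +
            MvPolynomial.aeval (unc (bot F)) (th.p ch x) * unc (vel F) x) := by
      intro x
      rw [dfun_euler (p_BD th ch x)]
      have h3 : (∑ i, a i * (((th.N + w i - (if x.1 = i then 1 else 0) : ℤ)) : K)) =
          (∑ i, a i * ((th.N : K) + (w i : K))) - a x.1 := by
        have h4 : ∀ i, a i * (((th.N + w i - (if x.1 = i then 1 else 0) : ℤ)) : K) =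
            a i * ((th.N : K) + (w i : K)) - (if x.1 = i then a i else 0) := by
          intro i
          push_cast
          split_ifs <;> ring
        rw [Finset.sum_congr rfl fun i _ => h4 i, Finset.sum_sub_distrib]
        simp
      have h5 : (∑ i, a i * (((th.N + w i - (open Classical in if x.1 = i then 1 else 0) : ℤ)) : K)) =
          (∑ i, a i * ((th.N : K) + (w i : K))) - a x.1 := by
        rw [← h3]
      rw [h5]
      ring
    unfold dal
    rw [Finset.sum_congr rfl fun x _ => h2 x, Finset.sum_sub_distrib, ← Finset.mul_sum]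
    have h6 : ∑ x : Σ i, J i, a x.1 * (dfun (th.p ch x) (unc (bot F)) (unc (vel F)) *
        unc (bot F) x + MvPolynomial.aeval (unc (bot F)) (th.p ch x) * unc (vel F) x) = 0 := by
      rw [Fintype.sum_sigma]
      refine Finset.sum_eq_zero fun i _ => ?_
      change ∑ y : J i, a i * (dfun (th.p ch ⟨i, y⟩) (unc (bot F)) (unc (vel F)) *
        bot F i y + MvPolynomial.aeval (unc (bot F)) (th.p ch ⟨i, y⟩) * vel F i y) = 0
      rw [← Finset.mul_sum, euler_bot th hF ch i, mul_zero]
    rw [h6, sub_zero, form_eq]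
    rfl
  have h7 := dfun_euler (dpol_BD (k := k) ch th.N) (unc (bot F)) a
  rw [aeval_dpol] at h7
  unfold om dthN
  change dal (th.p ch) (unc (bot F)) (fun x => a x.1 * unc (bot F) x) (unc (vel F)) -
    dfun (dpol k ch th.N) (unc (bot F)) (fun x => a x.1 * unc (bot F) x) * c +
    dfun (dpol k ch th.N) (unc (bot F)) (unc (vel F)) * 0 = _
  rw [h1, h7, ← h0]
  have h8 : (∑ i, a i * ((th.N : K) + (w i : K))) =
      (∑ i, a i * (((th.N : ℕ) : ℤ) : K)) + ∑ i, a i * (w i : K) := by
    rw [← Finset.sum_add_distrib]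
    refine Finset.sum_congr rfl fun i _ => ?_
    push_cast
    ring
  rw [h8]
  ring

/-- **(P)**: the value of `dθ` on the variation of the value at `0` and the velocity is the same in
all charts. -/
theorem om_var (th : CForm E w) {F : ∀ i, J i → K[X]} (hF : IsMap E F) {c : K}
    (hc : th.Val F (fun i a => derivative (F i a)) (C c)) (δ : Derivation k K K) :
    ∃ Q0 Q1 : K, (∀ ch : ∀ i, J i,
      den ch (bot F) ^ th.N * Q0 = form (th.p ch) (bot F) (fun i x => δ (bot F i x))) ∧
      ∀ ch : ∀ i, J i, den ch (bot F) ^ th.N * Q1 =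
        om th ch (bot F) (fun i x => δ (bot F i x)) (vel F) Q0 c := by
  obtain ⟨Q, hQ⟩ := exists_val th hF.cop hF.on (tan_der hF.on (dX δ))
  refine ⟨Q.coeff 0, δ c - Q.coeff 1, fun ch => ?_, fun ch => ?_⟩
  · have h := congrArg (ev0 k K) (hQ ch)
    rw [map_mul, form_eq, al_map] at h
    simp only [ev0_apply, coeff_den_zero] at h
    rw [h, form_eq]
    congr 1
  · have h := at_zero δ (unc F) (th.p ch) (dpol k ch th.N) (c := c) (Q := Q)
      (by rw [aeval_dpol]; exact hc ch) (by rw [aeval_dpol]; exact hQ ch)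
    have h2 : MvPolynomial.aeval (fun x => (unc F x).coeff 0) (dpol k ch th.N) =
        den ch (bot F) ^ th.N := aeval_dpol ch th.N (bot F)
    rw [h2] at h
    exact h

end euler

/-! ### the local estimate -/

section loc

variable {k : Type u} [Field k] {K : Type u} [Field K] [Algebra k K]
  {E : Set (MvPolynomial (Σ i, J i) k)} {w : I → ℤ}

theorem aeval_mem (O : ValuationSubring K) (hO : ∀ c : k, algebraMap k K c ∈ O)
    {v : (Σ i, J i) → K} (hv : ∀ x, v x ∈ O) (q : MvPolynomial (Σ i, J i) k) :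
    MvPolynomial.aeval v q ∈ O := by
  induction q using MvPolynomial.induction_on with
  | C a => rw [MvPolynomial.aeval_C]; exact hO a
  | add p q hp hq => rw [map_add]; exact O.add_mem _ _ hp hq
  | mul_X p n hp => rw [map_mul, MvPolynomial.aeval_X]; exact O.mul_mem _ _ hp (hv n)

theorem sum_mem' (O : ValuationSubring K) {ι : Type*} (S : Finset ι) (f : ι → K)
    (h : ∀ x ∈ S, f x ∈ O) : ∑ x ∈ S, f x ∈ O := O.toSubring.sum_mem h

theorem al_mem (O : ValuationSubring K) (hO : ∀ c : k, algebraMap k K c ∈ O)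
    {v t : (Σ i, J i) → K} (hv : ∀ x, v x ∈ O) (ht : ∀ x, t x ∈ O)
    (p : (Σ i, J i) → MvPolynomial (Σ i, J i) k) : al p v t ∈ O :=
  sum_mem' O _ _ fun x _ => O.mul_mem _ _ (aeval_mem O hO hv _) (ht x)

theorem dfun_mem (O : ValuationSubring K) (hO : ∀ c : k, algebraMap k K c ∈ O)
    {v t : (Σ i, J i) → K} (hv : ∀ x, v x ∈ O) (ht : ∀ x, t x ∈ O)
    (q : MvPolynomial (Σ i, J i) k) : dfun q v t ∈ O :=
  sum_mem' O _ _ fun x _ => O.mul_mem _ _ (aeval_mem O hO hv _) (ht x)

theorem om_mem (O : ValuationSubring K) (hO : ∀ c : k, algebraMap k K c ∈ O) (th : CForm E w)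
    (ch : ∀ i, J i) {v s t : ∀ i, J i → K} (hv : ∀ i x, v i x ∈ O) (hs : ∀ i x, s i x ∈ O)
    (ht : ∀ i x, t i x ∈ O) {a b : K} (ha : a ∈ O) (hb : b ∈ O) : om th ch v s t a b ∈ O := by
  have hv' : ∀ x, unc v x ∈ O := fun x => hv x.1 x.2
  have hs' : ∀ x, unc s x ∈ O := fun x => hs x.1 x.2
  have ht' : ∀ x, unc t x ∈ O := fun x => ht x.1 x.2
  refine add_mem (sub_mem ?_ (mul_mem (dfun_mem O hO hv' hs' _) hb))
    (mul_mem (dfun_mem O hO hv' ht' _) ha)
  exact sum_mem' O _ _ fun x _ => sub_mem (mul_mem (dfun_mem O hO hv' hs' _) (ht' x))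
    (mul_mem (dfun_mem O hO hv' ht' _) (hs' x))

theorem mem_of_unit_mul (O : ValuationSubring K) {u x : K} (hu : O.valuation u = 1)
    (h : u * x ∈ O) : x ∈ O := by
  rw [← O.valuation_le_one_iff] at h ⊢
  rwa [map_mul, hu, one_mul] at h

/-- bilinearity in the scalars. -/
theorem om_smul (th : CForm E w) (ch : ∀ i, J i) (v s t : ∀ i, J i → K) (a b m₁ m₂ : K) :
    om th ch v (fun i x => m₁ * s i x) (fun i x => m₂ * t i x) (m₁ * a) (m₂ * b) =
      m₁ * m₂ * om th ch v s t a b := by
  have h : ∀ (q : MvPolynomial (Σ i, J i) k) (m : K) (r : ∀ i, J i → K),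
      dfun q (unc v) (unc fun i x => m * r i x) = m * dfun q (unc v) (unc r) := by
    intro q m r
    unfold dfun
    rw [Finset.mul_sum]
    exact Finset.sum_congr rfl fun x _ => by simp only [unc]; ring
  unfold om dthN dal
  simp only [h]
  have h2 : ∀ x : Σ i, J i, m₁ * dfun (th.p ch x) (unc v) (unc s) * unc (fun i x => m₂ * t i x) x -
      m₂ * dfun (th.p ch x) (unc v) (unc t) * unc (fun i x => m₁ * s i x) x =
      m₁ * m₂ * (dfun (th.p ch x) (unc v) (unc s) * unc t x -
        dfun (th.p ch x) (unc v) (unc t) * unc s x) := by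
    intro x
    simp only [unc]
    ring
  rw [Finset.sum_congr rfl fun x _ => h2 x, ← Finset.mul_sum]
  ring

theorem om_sub (th : CForm E w) (ch : ∀ i, J i) (v s s' t : ∀ i, J i → K) (a a' b : K) :
    om th ch v (fun i x => s i x - s' i x) t (a - a') b =
      om th ch v s t a b - om th ch v s' t a' b := by
  have h : ∀ (q : MvPolynomial (Σ i, J i) k),
      dfun q (unc v) (unc fun i x => s i x - s' i x) =
        dfun q (unc v) (unc s) - dfun q (unc v) (unc s') := by
    intro q
    unfold dfun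
    rw [← Finset.sum_sub_distrib]
    exact Finset.sum_congr rfl fun x _ => by simp only [unc]; ring
  unfold om dthN dal
  simp only [h]
  have h2 : ∀ x : Σ i, J i, (dfun (th.p ch x) (unc v) (unc s) -
      dfun (th.p ch x) (unc v) (unc s')) * unc t x -
      dfun (th.p ch x) (unc v) (unc t) * unc (fun i x => s i x - s' i x) x =
      (dfun (th.p ch x) (unc v) (unc s) * unc t x - dfun (th.p ch x) (unc v) (unc t) * unc s x) -
        (dfun (th.p ch x) (unc v) (unc s') * unc t x -
          dfun (th.p ch x) (unc v) (unc t) * unc s' x) := by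
    intro x
    simp only [unc]
    ring
  rw [Finset.sum_congr rfl fun x _ => h2 x, Finset.sum_sub_distrib]
  ring

/-- **local estimate** at one valuation ring. -/
theorem loc (O : ValuationSubring K) (hO : ∀ c : k, algebraMap k K c ∈ O) (th : CForm E w)
    {v S T : ∀ i, J i → K} {a b Q : K}
    (ha : ∀ ch : ∀ i, J i, den ch v ^ th.N * a = form (th.p ch) v S)
    (hb : ∀ ch : ∀ i, J i, den ch v ^ th.N * b = form (th.p ch) v T)
    (hQ : ∀ ch : ∀ i, J i, den ch v ^ th.N * Q = om th ch v S T a b)
    (lam : I → K) (hlam : ∀ i, lam i ≠ 0) (m₁ m₂ : K)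
    (h1 : ∀ i x, lam i * v i x ∈ O) (hu : ∀ i, ∃ x, O.valuation (lam i * v i x) = 1)
    (h2 : ∀ i x, m₁ * (lam i * S i x) ∈ O) (h3 : ∀ i x, m₂ * (lam i * T i x) ∈ O) :
    (∏ i, lam i ^ w i) * m₁ * m₂ * Q ∈ O := by
  choose ch hch using hu
  set R : K := ∏ i, lam i ^ w i with hR
  have hden : O.valuation (den ch (fun i x => lam i * v i x) ^ th.N) = 1 := by
    rw [map_pow]
    unfold den
    rw [map_prod, Finset.prod_congr rfl fun i _ => hch i, Finset.prod_const_one, one_pow]
  have e1 : den ch (fun i x => lam i * v i x) ^ th.N = (∏ i, lam i) ^ th.N * den ch v ^ th.N := by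
    rw [den_scale, mul_pow]
  have fsm : ∀ (m : K) (r : ∀ i, J i → K) (v' : ∀ i, J i → K),
      form (th.p ch) v' (fun i x => m * r i x) = m * form (th.p ch) v' r := by
    intro m r v'
    unfold form
    rw [Finset.mul_sum]
    exact Finset.sum_congr rfl fun x _ => by ring
  have mem1 : m₁ * (R * a) ∈ O := by
    refine mem_of_unit_mul O hden ?_
    have h4 : den ch (fun i x => lam i * v i x) ^ th.N * (m₁ * (R * a)) =
        form (th.p ch) (fun i x => lam i * v i x) (fun i x => m₁ * (lam i * S i x)) := by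
      rw [fsm, form_scale th ch lam hlam, e1, ← ha ch]
      ring
    rw [h4]
    exact al_mem O hO (fun x => h1 x.1 x.2) (fun x => h2 x.1 x.2) _
  have mem2 : m₂ * (R * b) ∈ O := by
    refine mem_of_unit_mul O hden ?_
    have h4 : den ch (fun i x => lam i * v i x) ^ th.N * (m₂ * (R * b)) =
        form (th.p ch) (fun i x => lam i * v i x) (fun i x => m₂ * (lam i * T i x)) := by
      rw [fsm, form_scale th ch lam hlam, e1, ← hb ch]
      ring
    rw [h4]
    exact al_mem O hO (fun x => h1 x.1 x.2) (fun x => h3 x.1 x.2) _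
  refine mem_of_unit_mul O hden ?_
  have h5 := om_mem O hO th ch h1 h2 h3 mem1 mem2
  rw [om_smul th ch (fun i x => lam i * v i x) (fun i x => lam i * S i x)
    (fun i x => lam i * T i x) (R * a) (R * b) m₁ m₂, hR, om_scale th ch lam hlam, ← hR,
    ← hQ ch] at h5
  rw [e1]
  have h6 : (∏ i, lam i) ^ th.N * den ch v ^ th.N * (R * m₁ * m₂ * Q) =
      m₁ * m₂ * (R * (∏ i, lam i) ^ th.N * (den ch v ^ th.N * Q)) := by ring
  rw [h6]
  exact h5

end loc

end Crest.Agent.R260.Pd_365
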