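import Mathlib
import Crest.Agent.R260.Lin1_678
import Crest.Agent.R260.Pd2_365

/-!
# Row 260 (S0398), helper365: frame-free LIN / K', part 3

The general theorem (G): `(e + 1) g c = (∏ r_i ^ w_i) (a₀ + a₁ s)`.
-/

set_option autoImplicit false
set_option linter.unusedSectionVars false

namespace Crest.Agent.R260.Pd_365

open Polynomial Crest.Agent.R270.BM_360 Crest.Agent.R260.Lin_678
open Crest.Agent.R270.Fin_305 (VMax)
open Crest.Agent.R270.Fr_928 (dX coeff_dX)
open Crest.Agent.R260.Alg0_661
open Crest.Agent.R260.Nl1_997 (vmax_const val_aeval_le)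

universe u

/- `k₀` is the field of the equations and of the contact form, `k` the field of the test curve. -/
variable {I : Type} {J : I → Type} [Fintype I] [∀ i, Fintype (J i)]
  {k₀ : Type u} [Field k₀] {k : Type u} [Field k] {K : Type u} [Field K] [Algebra k₀ k]
  [Algebra k₀ K] [Algebra k K] [IsScalarTower k₀ k K]
  {E : Set (MvPolynomial (Σ i, J i) k₀)} {w : I → ℤ}

theorem prod_zpow_pow {s : K} (hs : s ≠ 0) (n : I → ℕ) (e : ℕ)
    (he : ∑ i, w i * (n i : ℤ) = e + 1) :
    ∏ i, ((s ^ n i)⁻¹) ^ w i = (s ^ (e + 1))⁻¹ := by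
  have h1 : ∀ i, ((s ^ n i)⁻¹) ^ w i = s ^ (-(w i * (n i : ℤ))) := by
    intro i
    rw [← zpow_natCast, ← zpow_neg, ← zpow_mul]
    congr 1
    ring
  rw [Finset.prod_congr rfl fun i _ => h1 i]
  have h2 : ∀ S : Finset I, ∏ i ∈ S, s ^ (-(w i * (n i : ℤ))) =
      s ^ (-(∑ i ∈ S, w i * (n i : ℤ))) := by
    classical
    intro S
    induction S using Finset.induction_on with
    | empty => simp
    | insert a S ha ih =>
      rw [Finset.prod_insert ha, Finset.sum_insert ha, ih, neg_add, zpow_add₀ hs]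
  rw [h2, he, zpow_neg]
  norm_cast

/-- from local to global. -/
theorem glob [IsAlgClosed k] (th : CForm E w) {l : ∀ i, J i → k[X]} (hl : ∀ i, Cop (l i))
    {n : I → ℕ} (hn : ∀ i, vdeg (l i) = n i) {e : ℕ} (he : ∑ i, w i * (n i : ℤ) = e + 1)
    {s : K} {T : ∀ i, J i → k[X]} (hT : ∀ i x, (T i x).natDegree + 1 ≤ n i)
    {Y : ∀ i, J i → K} {g : K}
    (hfin : ∀ O : ValuationSubring K, (∀ c : k, algebraMap k K c ∈ O) → s ∈ O →
      ∀ i x, g * Y i x ∈ O)
    (hinf : ∀ O : ValuationSubring K, (∀ c : k, algebraMap k K c ∈ O) → s ∉ O →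
      ∀ i x, g * s ^ e * ((s ^ n i)⁻¹ * Y i x) ∈ O)
    {a b Q : K}
    (ha : ∀ ch : ∀ i, J i, den ch (fun i x => aeval s (l i x)) ^ th.N * a =
      form (th.p ch) (fun i x => aeval s (l i x)) (fun i x => aeval s (T i x)))
    (hb : ∀ ch : ∀ i, J i, den ch (fun i x => aeval s (l i x)) ^ th.N * b =
      form (th.p ch) (fun i x => aeval s (l i x)) Y)
    (hQ : ∀ ch : ∀ i, J i, den ch (fun i x => aeval s (l i x)) ^ th.N * Q =
      om th ch (fun i x => aeval s (l i x)) (fun i x => aeval s (T i x)) Y a b) :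
    ∃ z : k, algebraMap k K z = g * Q := by
  refine mem_range_of_forall_val _ fun O hO => ?_
  have hO₀ : ∀ c : k₀, algebraMap k₀ K c ∈ O := fun c => by
    rw [IsScalarTower.algebraMap_apply k₀ k K]
    exact hO _
  by_cases hs : s ∈ O
  · have hs1 : max 1 (O.valuation s) = 1 := max_eq_left ((O.valuation_le_one_iff s).mpr hs)
    have hmem : ∀ p : k[X], aeval s p ∈ O := by
      intro p
      rw [← O.valuation_le_one_iff]
      have := val_aeval_le O hO s (le_refl p.natDegree)
      rwa [hs1, one_pow] at this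
    have h := loc O hO₀ th ha hb hQ (fun _ => 1) (fun _ => one_ne_zero) 1 g
      (fun i x => by rw [one_mul]; exact hmem _)
      (fun i => by
        obtain ⟨x, hx⟩ := (vmax_const O hO (hl i) s).1
        refine ⟨x, ?_⟩
        rw [one_mul]
        rwa [hs1, one_pow] at hx)
      (fun i x => by rw [one_mul, one_mul]; exact hmem _)
      (fun i x => by rw [one_mul]; exact hfin O hO hs i x)
    simpa using h
  · have hs1 : 1 < O.valuation s := by
      rw [← not_le, O.valuation_le_one_iff]
      exact hs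
    have hs2 : max 1 (O.valuation s) = O.valuation s := max_eq_right hs1.le
    have hs0 : s ≠ 0 := by
      rintro rfl
      exact hs O.zero_mem
    have hv0 : 0 < O.valuation s := lt_trans zero_lt_one hs1
    have h := loc O hO₀ th ha hb hQ (fun i => (s ^ n i)⁻¹)
      (fun i => inv_ne_zero (pow_ne_zero _ hs0)) s (g * s ^ e)
      (fun i x => by
        rw [← O.valuation_le_one_iff, map_mul, map_inv₀, map_pow,
          inv_mul_le_one₀ (pow_pos hv0 _), ← hs2]
        refine val_aeval_le O hO s ?_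
        rw [← hn i]
        exact Finset.le_sup (f := fun a => (l i a).natDegree) (Finset.mem_univ x))
      (fun i => by
        obtain ⟨x, hx⟩ := (vmax_const O hO (hl i) s).1
        refine ⟨x, ?_⟩
        rw [map_mul, map_inv₀, map_pow]
        rw [hs2, hn i] at hx
        rw [hx, inv_mul_cancel₀ (pow_ne_zero _ hv0.ne')])
      (fun i x => by
        rw [← O.valuation_le_one_iff, map_mul, map_mul, map_inv₀, map_pow]
        have h1 : O.valuation (aeval s (T i x)) ≤ O.valuation s ^ (n i - 1) := by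
          have := val_aeval_le O hO s (p := T i x) (n := n i - 1) (by
            have := hT i x
            omega)
          rwa [hs2] at this
        have h2 : O.valuation s ^ n i = O.valuation s ^ (n i - 1) * O.valuation s := by
          rw [← pow_succ]
          congr 1
          have := hT i x
          omega
        calc O.valuation s * ((O.valuation s ^ n i)⁻¹ * O.valuation (aeval s (T i x)))
            ≤ O.valuation s * ((O.valuation s ^ n i)⁻¹ * O.valuation s ^ (n i - 1)) := by gcongr
          _ = 1 := by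
            rw [h2, mul_inv, mul_comm (O.valuation s ^ (n i - 1))⁻¹, mul_assoc,
              inv_mul_cancel₀ (pow_ne_zero _ hv0.ne'), mul_one, mul_inv_cancel₀ hv0.ne'])
      (fun i x => hinf O hO hs i x)
    rw [prod_zpow_pow hs0 n e he] at h
    have h3 : (s ^ (e + 1))⁻¹ * s * (g * s ^ e) * Q = g * Q := by
      have h4 : (s ^ (e + 1))⁻¹ * (s ^ (e + 1)) = 1 := inv_mul_cancel₀ (pow_ne_zero _ hs0)
      calc _ = ((s ^ (e + 1))⁻¹ * (s ^ (e + 1))) * (g * Q) := by rw [pow_succ]; ring
        _ = _ := by rw [h4, one_mul]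
    rwa [h3] at h

theorem onX_bot {F : ∀ i, J i → K[X]} (hF : OnX E F) : OnX E (bot F) := by
  intro p hp
  have h := congrArg (ev0 k₀ K) (hF p hp)
  rw [map_zero] at h
  rw [← h, ← AlgHom.comp_apply]
  congr 1
  ext x
  simp [ev0_apply, bot]

theorem form_euler (th : CForm E w) {y : ∀ i, J i → K} (hy : OnX E y) (ch : ∀ i, J i)
    (a : I → K) : form (th.p ch) y (fun i x => a i * y i x) = 0 := by
  unfold form
  rw [Fintype.sum_sigma]
  refine Finset.sum_eq_zero fun i _ => ?_
  have h := th.euler K y hy ch i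
  have h2 : ∀ x : J i, MvPolynomial.aeval (fun z : Σ i, J i => y z.1 z.2) (th.p ch ⟨i, x⟩) *
      (a i * y i x) =
      a i * (MvPolynomial.aeval (fun z : Σ i, J i => y z.1 z.2) (th.p ch ⟨i, x⟩) * y i x) :=
    fun x => by ring
  change ∑ x : J i, MvPolynomial.aeval (fun z : Σ i, J i => y z.1 z.2) (th.p ch ⟨i, x⟩) *
      (a i * y i x) = 0
  rw [Finset.sum_congr rfl fun x _ => h2 x, ← Finset.mul_sum, h, mul_zero]

theorem form_sub' (p : (Σ i, J i) → MvPolynomial (Σ i, J i) k₀) (v s t : ∀ i, J i → K) :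
    form p v (fun i x => s i x - t i x) = form p v s - form p v t := by
  unfold form
  rw [← Finset.sum_sub_distrib]
  exact Finset.sum_congr rfl fun x _ => by ring

theorem form_smul' (p : (Σ i, J i) → MvPolynomial (Σ i, J i) k₀) (v t : ∀ i, J i → K) (m : K) :
    form p v (fun i x => m * t i x) = m * form p v t := by
  unfold form
  rw [Finset.mul_sum]
  exact Finset.sum_congr rfl fun x _ => by ring

theorem om_smul_left (th : CForm E w) (ch : ∀ i, J i) (v s t : ∀ i, J i → K) (a b m : K) :
    om th ch v (fun i x => m * s i x) t (m * a) b = m * om th ch v s t a b := by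
  have h := om_smul th ch v s t a b m 1
  simpa using h

/-- the complementary partial derivative `n l - X l'`. -/
noncomputable def comp0 (n : ℕ) (p : k[X]) : k[X] := (n : k[X]) * p - X * derivative p

theorem comp0_degree {n : ℕ} (hn : 0 < n) {p : k[X]} (hp : p.natDegree ≤ n) :
    (comp0 n p).natDegree + 1 ≤ n := by
  have h : (comp0 n p).natDegree ≤ n - 1 := by
    rw [natDegree_le_iff_coeff_eq_zero]
    intro N hN
    unfold comp0
    have hX : (X * derivative p).coeff N = (N : k) * p.coeff N := by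
      cases N with
      | zero => simp
      | succ N => rw [coeff_X_mul, coeff_derivative]; push_cast; ring
    rw [coeff_sub, hX, ← C_eq_natCast, coeff_C_mul]
    rcases eq_or_lt_of_le (show n ≤ N by omega) with h | h
    · rw [h]; ring
    · rw [coeff_eq_zero_of_natDegree_lt (lt_of_le_of_lt hp h)]; simp
  omega

/-- **Theorem (G).** `F` a moving conic (any map) with contact constant `c` whose value at `0` is
`r_i` times the point `s` of the test curve `l` over `k` of `L`-degree `e + 1`; `g` a scalar such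
that `g F'(0)` is integral at every place in the coordinates normalised at `l(s)`. Then
`(e + 1) g c / ∏ r_i ^ w_i` is a polynomial of degree at most one in `s`. -/
theorem general [IsAlgClosed k] [CharZero k] (th : CForm E w) {F : ∀ i, J i → K[X]}
    (hF : IsMap E F) {c : K} (hc : th.Val F (fun i a => derivative (F i a)) (C c))
    {l : ∀ i, J i → k[X]} (hl : ∀ i, Cop (l i)) {n : I → ℕ} (hn : ∀ i, vdeg (l i) = n i)
    (hn0 : ∀ i, 0 < n i) {e : ℕ} (he : ∑ i, w i * (n i : ℤ) = e + 1)
    {s : K} (hs : ∀ a : k, algebraMap k K a ≠ s) {r : I → K} (hr : ∀ i, r i ≠ 0)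
    (h0 : ∀ i x, (F i x).coeff 0 = r i * aeval s (l i x)) {g : K}
    (hfin : ∀ O : ValuationSubring K, (∀ c : k, algebraMap k K c ∈ O) → s ∈ O →
      ∀ i x, g * ((r i)⁻¹ * (F i x).coeff 1) ∈ O)
    (hinf : ∀ O : ValuationSubring K, (∀ c : k, algebraMap k K c ∈ O) → s ∉ O →
      ∀ i x, g * s ^ e * ((s ^ n i)⁻¹ * ((r i)⁻¹ * (F i x).coeff 1)) ∈ O) :
    ∃ a₀ a₁ : k, ((e : K) + 1) * (g * c) =
      (∏ i, r i ^ w i) * (algebraMap k K a₀ + algebraMap k K a₁ * s) := by
  obtain ⟨δ, hδ⟩ := exists_der_one (transcendental_of hs)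
  obtain ⟨Q0, Q1, hQ0, hQ1⟩ := om_var th hF hc (δ.restrictScalars k₀)
  change ∀ ch : ∀ i, J i, den ch (bot F) ^ th.N * Q0 =
    form (th.p ch) (bot F) (fun i x => δ (bot F i x)) at hQ0
  change ∀ ch : ∀ i, J i, den ch (bot F) ^ th.N * Q1 =
    om th ch (bot F) (fun i x => δ (bot F i x)) (vel F) Q0 c at hQ1
  have hX := onX_bot hF.on
  set v : ∀ i, J i → K := fun i x => aeval s (l i x) with hv
  have hbot : bot F = fun i x => r i * v i x := by
    funext i x
    exact h0 i x
  have hri : ∀ i, (r i)⁻¹ ≠ 0 := fun i => inv_ne_zero (hr i)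
  have hvb : v = fun i x => (r i)⁻¹ * bot F i x := by
    funext i x
    rw [hbot, ← mul_assoc, inv_mul_cancel₀ (hr i), one_mul]
  set T1 : ∀ i, J i → K := fun i x => aeval s (derivative (l i x)) with hT1
  -- the variation of the value at `0`
  have hvar : (fun i x => r i * T1 i x) =
      fun i x => δ (bot F i x) - δ (r i) * (r i)⁻¹ * bot F i x := by
    funext i x
    rw [hbot]
    simp only
    rw [Derivation.leibniz, hv]
    simp only [smul_eq_mul]
    rw [Derivation.map_aeval, hδ, smul_eq_mul, mul_one]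
    have := hr i
    field_simp
    ring
  set σ : K := ∑ i, δ (r i) * (r i)⁻¹ * (w i : K) with hσ
  set P1 : K := Q1 - σ * c with hP1
  -- values at the vector `r • v`
  have f1 : ∀ ch : ∀ i, J i, form (th.p ch) (bot F) (fun i x => r i * T1 i x) =
      den ch (bot F) ^ th.N * Q0 := by
    intro ch
    rw [hvar, form_sub', ← hQ0 ch, form_euler th hX ch (fun i => δ (r i) * (r i)⁻¹), sub_zero]
  have o1 : ∀ ch : ∀ i, J i, om th ch (bot F) (fun i x => r i * T1 i x) (vel F) Q0 c =
      den ch (bot F) ^ th.N * P1 := by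
    intro ch
    rw [hvar]
    have h1 := om_sub th ch (bot F) (fun i x => δ (bot F i x))
      (fun i x => δ (r i) * (r i)⁻¹ * bot F i x) (vel F) Q0 0 c
    rw [sub_zero] at h1
    rw [h1, ← hQ1 ch, om_euler th hF.on hc ch (fun i => δ (r i) * (r i)⁻¹), hP1]
    ring
  -- values at `v`
  set R : K := ∏ i, ((r i)⁻¹) ^ w i with hR
  set Y : ∀ i, J i → K := fun i x => (r i)⁻¹ * (F i x).coeff 1 with hY
  have hdv : ∀ ch : ∀ i, J i, den ch v ^ th.N =
      (∏ i, (r i)⁻¹) ^ th.N * den ch (bot F) ^ th.N := by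
    intro ch
    rw [hvb, den_scale, mul_pow]
  have hT1' : T1 = fun i x => (r i)⁻¹ * (r i * T1 i x) := by
    funext i x
    rw [← mul_assoc, inv_mul_cancel₀ (hr i), one_mul]
  have A1 : ∀ ch : ∀ i, J i, den ch v ^ th.N * (R * Q0) = form (th.p ch) v T1 := by
    intro ch
    have h1 := form_scale th ch (fun i => (r i)⁻¹) hri (bot F) (fun i x => r i * T1 i x)
    rw [← hvb, ← hT1', f1 ch] at h1
    rw [h1, hdv ch]
    ring
  have B1 : ∀ ch : ∀ i, J i, den ch v ^ th.N * (R * c) = form (th.p ch) v Y := by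
    intro ch
    have h1 := form_scale th ch (fun i => (r i)⁻¹) hri (bot F) (vel F)
    rw [← hvb, ← form_bot th hc ch] at h1
    have h2 : Y = fun i x => (r i)⁻¹ * vel F i x := rfl
    rw [h2, h1, hdv ch]
    ring
  have C1 : ∀ ch : ∀ i, J i, den ch v ^ th.N * (R * P1) = om th ch v T1 Y (R * Q0) (R * c) := by
    intro ch
    have h1 := om_scale th ch (fun i => (r i)⁻¹) hri (bot F) (fun i x => r i * T1 i x) (vel F) Q0 c
    rw [← hvb, ← hT1', o1 ch] at h1
    have h2 : Y = fun i x => (r i)⁻¹ * vel F i x := rfl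
    rw [h2, h1, hdv ch]
    ring
  -- the Euler field of the test curve
  have hEu : (fun i x => (n i : K) * v i x) = fun i x => (r i)⁻¹ * ((n i : K) * bot F i x) := by
    funext i x
    rw [hvb]
    simp only
    ring
  have A2 : ∀ ch : ∀ i, J i, form (th.p ch) v (fun i x => (n i : K) * v i x) = 0 := by
    intro ch
    have h1 := form_scale th ch (fun i => (r i)⁻¹) hri (bot F) (fun i x => (n i : K) * bot F i x)
    rw [← hvb, ← hEu, form_euler th hX ch (fun i => (n i : K)), mul_zero] at h1
    exact h1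
  have hsum : (∑ i, (n i : K) * (w i : K)) = (e : K) + 1 := by
    have h1 := congrArg (fun z : ℤ => (z : K)) he
    push_cast at h1
    rw [← h1]
    exact Finset.sum_congr rfl fun i _ => mul_comm _ _
  have C2 : ∀ ch : ∀ i, J i, den ch v ^ th.N * (((e : K) + 1) * (R * c)) =
      om th ch v (fun i x => (n i : K) * v i x) Y 0 (R * c) := by
    intro ch
    have h1 := om_scale th ch (fun i => (r i)⁻¹) hri (bot F) (fun i x => (n i : K) * bot F i x)
      (vel F) 0 c
    rw [← hvb, ← hEu, om_euler th hF.on hc ch (fun i => (n i : K)), hsum, mul_zero] at h1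
    have h2 : Y = fun i x => (r i)⁻¹ * vel F i x := rfl
    rw [h2, h1, hdv ch]
    ring
  -- the second partial derivative
  have hT0 : (fun i x => aeval s (comp0 (n i) (l i x))) =
      fun i x => (n i : K) * v i x - s * T1 i x := by
    funext i x
    unfold comp0
    rw [map_sub, map_mul, map_mul, aeval_X, map_natCast]
  have A3 : ∀ ch : ∀ i, J i, den ch v ^ th.N * (0 - s * (R * Q0)) =
      form (th.p ch) v (fun i x => aeval s (comp0 (n i) (l i x))) := by
    intro ch
    rw [hT0, form_sub', A2 ch, form_smul', ← A1 ch]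
    ring
  have C3 : ∀ ch : ∀ i, J i, den ch v ^ th.N * (((e : K) + 1) * (R * c) - s * (R * P1)) =
      om th ch v (fun i x => aeval s (comp0 (n i) (l i x))) Y (0 - s * (R * Q0)) (R * c) := by
    intro ch
    rw [hT0, om_sub, om_smul_left, ← C1 ch, ← C2 ch]
    ring
  have hdl : ∀ i x, (l i x).natDegree ≤ n i := by
    intro i x
    rw [← hn i]
    exact Finset.le_sup (f := fun a => (l i a).natDegree) (Finset.mem_univ x)
  obtain ⟨a₁, ha₁⟩ := glob th hl hn he (T := fun i x => derivative (l i x))
    (fun i x => by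
      have h1 := natDegree_derivative_le (l i x)
      have h2 := hdl i x
      have h3 := hn0 i
      change (derivative (l i x)).natDegree + 1 ≤ n i
      omega)
    hfin hinf A1 B1 C1
  obtain ⟨a₀, ha₀⟩ := glob th hl hn he (T := fun i x => comp0 (n i) (l i x))
    (fun i x => comp0_degree (hn0 i) (hdl i x)) hfin hinf A3 B1 C3
  refine ⟨a₀, a₁, ?_⟩
  rw [ha₀, ha₁]
  have hRR : (∏ i, r i ^ w i) * R = 1 := by
    rw [hR, ← Finset.prod_mul_distrib]
    refine Finset.prod_eq_one fun i _ => ?_
    rw [inv_zpow, mul_inv_cancel₀ (zpow_ne_zero _ (hr i))]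
  calc ((e : K) + 1) * (g * c) = ((∏ i, r i ^ w i) * R) * (((e : K) + 1) * (g * c)) := by
        rw [hRR, one_mul]
    _ = _ := by ring

end Crest.Agent.R260.Pd_365
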