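import Mathlib
import Crest.Agent.R260.Pd3_365

/-!
# Row 260 (S0398), helper365: LIN and K' from the local bounds
-/

set_option autoImplicit false
set_option linter.unusedSectionVars false

namespace Crest.Agent.R260.Pd_365

open Polynomial Crest.Agent.R270.BM_360 Crest.Agent.R260.Lin_678
open Crest.Agent.R270.Fin_305 (VMax VMax.unique)
open Crest.Agent.R260.Nl1_997 (vmax_const)

universe u

/- `k₀` is the field of the equations and of the contact form, `k` the field of the test curve. -/
variable {I : Type} {J : I → Type} [Fintype I] [∀ i, Fintype (J i)]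
  {k₀ : Type u} [Field k₀] {k : Type u} [Field k] {K : Type u} [Field K] [Algebra k₀ k]
  [Algebra k₀ K] [Algebra k K] [IsScalarTower k₀ k K]

/-- **LIN.** The contact constant of the moving conic along a line over `k`. -/
theorem lin [IsAlgClosed k] [CharZero k] (D : CData k₀ I J) {F : ∀ i, J i → K[X]}
    (hF : IsMap D.E F) {c : K} (hc : D.th.Val F (fun i a => derivative (F i a)) (C c))
    (hREG : ∀ O : ValuationSubring K, (∀ a : k, algebraMap k K a ∈ O) →
      ∀ (r : I → K) (y : ∀ i, J i → K), (∀ i, r i ≠ 0) →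
        (∀ i x, (F i x).coeff 0 = r i * y i x) → (∀ i x, y i x ∈ O) →
        (∀ i, ∃ x, O.valuation (y i x) = 1) → ∀ i x, c * (F i x).coeff 1 / r i ∈ O)
    {l : ∀ i, J i → k[X]} (hl : ∀ i, Cop (l i)) (hcl : cls l = D.β) {s : K}
    (hs : ∀ a : k, algebraMap k K a ≠ s) {r : I → K} (hr : ∀ i, r i ≠ 0)
    (h0 : ∀ i x, (F i x).coeff 0 = r i * aeval s (l i x)) :
    ∃ a₀ a₁ : k, c ^ 2 = (∏ i, r i ^ D.w i) * (algebraMap k K a₀ + algebraMap k K a₁ * s) := by
  have hn : ∀ i, vdeg (l i) = D.β i := fun i => congrFun hcl i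
  have hfin : ∀ O : ValuationSubring K, (∀ a : k, algebraMap k K a ∈ O) → s ∈ O →
      ∀ i x, c * ((r i)⁻¹ * (F i x).coeff 1) ∈ O := by
    intro O hO hsO i x
    have hs1 : max 1 (O.valuation s) = 1 := max_eq_left ((O.valuation_le_one_iff s).mpr hsO)
    have h1 := hREG O hO r (fun i x => aeval s (l i x)) hr h0
      (fun i x => by
        have := (vmax_const O hO (hl i) s).2 x
        rw [hs1, one_pow] at this
        exact (O.valuation_le_one_iff _).mp this)
      (fun i => by
        obtain ⟨x, hx⟩ := (vmax_const O hO (hl i) s).1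
        rw [hs1, one_pow] at hx
        exact ⟨x, hx⟩) i x
    have h2 : c * ((r i)⁻¹ * (F i x).coeff 1) = c * (F i x).coeff 1 / r i := by
      rw [div_eq_mul_inv]; ring
    rw [h2]
    exact h1
  have hinf : ∀ O : ValuationSubring K, (∀ a : k, algebraMap k K a ∈ O) → s ∉ O →
      ∀ i x, c * s ^ 0 * ((s ^ D.β i)⁻¹ * ((r i)⁻¹ * (F i x).coeff 1)) ∈ O := by
    intro O hO hsO i x
    have hs1 : 1 < O.valuation s := by
      rw [← not_le, O.valuation_le_one_iff]
      exact hsO
    have hs2 : max 1 (O.valuation s) = O.valuation s := max_eq_right hs1.le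
    have hs0 : s ≠ 0 := by
      rintro rfl
      exact hsO O.zero_mem
    have hv0 : 0 < O.valuation s := lt_trans zero_lt_one hs1
    have h1 := hREG O hO (fun i => r i * s ^ D.β i)
      (fun i x => (s ^ D.β i)⁻¹ * aeval s (l i x))
      (fun i => mul_ne_zero (hr i) (pow_ne_zero _ hs0))
      (fun i x => by
        rw [h0, mul_assoc, ← mul_assoc (s ^ D.β i), mul_inv_cancel₀ (pow_ne_zero _ hs0), one_mul])
      (fun i x => by
        have h3 := (vmax_const O hO (hl i) s).2 x
        rw [hs2, hn i] at h3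
        rw [← O.valuation_le_one_iff, map_mul, map_inv₀, map_pow,
          inv_mul_le_one₀ (pow_pos hv0 _)]
        exact h3)
      (fun i => by
        obtain ⟨x, hx⟩ := (vmax_const O hO (hl i) s).1
        rw [hs2, hn i] at hx
        refine ⟨x, ?_⟩
        rw [map_mul, map_inv₀, map_pow, hx, inv_mul_cancel₀ (pow_ne_zero _ hv0.ne')]) i x
    have h2 : c * s ^ 0 * ((s ^ D.β i)⁻¹ * ((r i)⁻¹ * (F i x).coeff 1)) =
        c * (F i x).coeff 1 / (r i * s ^ D.β i) := by
      rw [div_eq_mul_inv, mul_inv]; ring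
    rw [h2]
    exact h1
  obtain ⟨a₀, a₁, h⟩ := general D.th hF hc hl hn D.β_pos (e := 0)
    (by rw [D.wβ]; simp) hs hr h0 (g := c) hfin hinf
  refine ⟨a₀, a₁, ?_⟩
  rw [← h]
  push_cast
  ring

/-- **K'.** The contact constant of the moving conic along a conic over `k`, without separating
places. -/
theorem kprime_of_bound [IsAlgClosed k] [CharZero k] [IsAlgClosed K] (D : CData k₀ I J)
    {F : ∀ i, J i → K[X]} (hF : IsMap D.E F) {c : K}
    (hc : D.th.Val F (fun i a => derivative (F i a)) (C c))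
    (hbound : ∀ O : ValuationSubring K, (∀ a : k, algebraMap k K a ∈ O) →
      ∃ ρ : O.ValueGroup, 0 < ρ ∧ ∀ i, VMax O (fun x => (F i x).coeff 0) (ρ ^ (2 * D.β i)) ∧
        ∀ x, O.valuation ((F i x).coeff 1) ≤ ρ ^ (2 * D.β i - 1))
    {H : ∀ i, J i → k[X]} (hH : ∀ i, Cop (H i)) (hcl : cls H = 2 • D.β) {s : K}
    (hs : ∀ a : k, algebraMap k K a ≠ s) {r : I → K} (hr : ∀ i, r i ≠ 0)
    (h0 : ∀ i x, (F i x).coeff 0 = r i * aeval s (H i x)) :
    ∃ a₀ a₁ : k, c ^ 2 =
      (∏ i, r i ^ D.w i) * (algebraMap k K a₀ + algebraMap k K a₁ * s) ^ 2 := by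
  have : CharZero K := charZero_of_injective_algebraMap (algebraMap k K).injective
  have hn : ∀ i, vdeg (H i) = 2 * D.β i := fun i => by
    have := congrFun hcl i
    simpa [cls] using this
  obtain ⟨g, hg⟩ := IsAlgClosed.exists_pow_nat_eq (∏ i, r i ^ D.w i) (n := 2) (by norm_num)
  have hμ0 : ∏ i, r i ^ D.w i ≠ 0 :=
    Finset.prod_ne_zero_iff.mpr fun i _ => zpow_ne_zero _ (hr i)
  -- the local estimate
  have key : ∀ O : ValuationSubring K, (∀ a : k, algebraMap k K a ∈ O) → ∀ i x,
      O.valuation g * max 1 (O.valuation s) * (((max 1 (O.valuation s)) ^ (2 * D.β i))⁻¹ *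
        ((O.valuation (r i))⁻¹ * O.valuation ((F i x).coeff 1))) ≤ 1 := by
    intro O hO
    obtain ⟨ρ, hρ, hb⟩ := hbound O hO
    set M : O.ValueGroup := max 1 (O.valuation s) with hM
    have hM0 : 0 < M := lt_of_lt_of_le zero_lt_one (le_max_left _ _)
    have hrv : ∀ i, O.valuation (r i) = (ρ / M) ^ (2 * D.β i) := by
      intro i
      have h2 := vmax_const O hO (hH i) s
      have h3 : VMax O (fun x => (F i x).coeff 0) (O.valuation (r i) * M ^ (2 * D.β i)) := by
        rw [← hn i]
        refine ⟨?_, fun x => ?_⟩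
        · obtain ⟨x, hx⟩ := h2.1
          refine ⟨x, ?_⟩
          show O.valuation ((F i x).coeff 0) = _
          rw [h0, map_mul, hx]
        · show O.valuation ((F i x).coeff 0) ≤ _
          rw [h0, map_mul]
          gcongr
          exact h2.2 x
      have h5 := h3.unique (hb i).1
      rw [div_pow, eq_div_iff (pow_ne_zero _ hM0.ne')]
      exact h5
    have hq0 : 0 < ρ / M := div_pos hρ hM0
    have hgv : O.valuation g = ρ / M := by
      have h2 : O.valuation g ^ 2 = (ρ / M) ^ 2 := by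
        rw [← map_pow, hg, map_prod]
        simp_rw [map_zpow₀, hrv]
        have h3 : ∀ i, ((ρ / M) ^ (2 * D.β i)) ^ D.w i =
            (ρ / M) ^ (2 * (D.w i * (D.β i : ℤ))) := by
          intro i
          rw [← zpow_natCast, ← zpow_mul]
          congr 1
          push_cast
          ring
        simp_rw [h3]
        have h4 : ∀ S : Finset I, ∏ i ∈ S, (ρ / M) ^ (2 * (D.w i * (D.β i : ℤ))) =
            (ρ / M) ^ (2 * ∑ i ∈ S, D.w i * (D.β i : ℤ)) := by
          classical
          intro S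
          induction S using Finset.induction_on with
          | empty => simp
          | insert a S ha ih =>
            rw [Finset.prod_insert ha, Finset.sum_insert ha, ih, mul_add, zpow_add₀ hq0.ne']
        rw [h4, D.wβ]
        rfl
      exact (pow_left_inj₀ zero_le hq0.le two_ne_zero).mp h2
    intro i x
    have hβ := D.β_pos i
    have h3 := (hb i).2 x
    rw [hgv, hrv i]
    have h4 : M ^ (2 * D.β i) * (ρ / M) ^ (2 * D.β i) = ρ ^ (2 * D.β i) := by
      rw [← mul_pow, mul_div_cancel₀ _ hM0.ne']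
    have h5 : ρ ^ (2 * D.β i) = ρ ^ (2 * D.β i - 1) * ρ := by
      rw [← pow_succ]
      congr 1
      omega
    calc ρ / M * M * ((M ^ (2 * D.β i))⁻¹ * (((ρ / M) ^ (2 * D.β i))⁻¹ *
          O.valuation ((F i x).coeff 1)))
        = ρ * ((ρ ^ (2 * D.β i))⁻¹ * O.valuation ((F i x).coeff 1)) := by
          rw [div_mul_cancel₀ _ hM0.ne', ← h4, mul_inv]
          simp only [mul_assoc]
      _ ≤ ρ * ((ρ ^ (2 * D.β i))⁻¹ * ρ ^ (2 * D.β i - 1)) := by gcongr
      _ = 1 := by
          rw [h5, mul_inv, mul_comm (ρ ^ (2 * D.β i - 1))⁻¹, mul_assoc,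
            inv_mul_cancel₀ (pow_ne_zero _ hρ.ne'), mul_one, mul_inv_cancel₀ hρ.ne']
  have hfin : ∀ O : ValuationSubring K, (∀ a : k, algebraMap k K a ∈ O) → s ∈ O →
      ∀ i x, g * ((r i)⁻¹ * (F i x).coeff 1) ∈ O := by
    intro O hO hsO i x
    have hs1 : max 1 (O.valuation s) = 1 := max_eq_left ((O.valuation_le_one_iff s).mpr hsO)
    have h1 := key O hO i x
    rw [hs1, one_pow, inv_one, one_mul, mul_one] at h1
    rw [← O.valuation_le_one_iff, map_mul, map_mul, map_inv₀]
    exact h1
  have hinf : ∀ O : ValuationSubring K, (∀ a : k, algebraMap k K a ∈ O) → s ∉ O →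
      ∀ i x, g * s ^ 1 * ((s ^ (2 * D.β i))⁻¹ * ((r i)⁻¹ * (F i x).coeff 1)) ∈ O := by
    intro O hO hsO i x
    have hs1 : 1 < O.valuation s := by
      rw [← not_le, O.valuation_le_one_iff]
      exact hsO
    have hs2 : max 1 (O.valuation s) = O.valuation s := max_eq_right hs1.le
    have h1 := key O hO i x
    rw [hs2] at h1
    rw [← O.valuation_le_one_iff, pow_one, map_mul, map_mul, map_mul, map_mul, map_inv₀, map_inv₀,
      map_pow]
    exact h1
  obtain ⟨a₀, a₁, h⟩ := general D.th hF hc hH hn (fun i => by have := D.β_pos i; omega) (e := 1)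
    (by
      have h1 : ∀ i, D.w i * ((2 * D.β i : ℕ) : ℤ) = 2 * (D.w i * (D.β i : ℤ)) := by
        intro i
        push_cast
        ring
      rw [Finset.sum_congr rfl fun i _ => h1 i, ← Finset.mul_sum, D.wβ]
      norm_num) hs hr h0 (g := g) hfin hinf
  refine ⟨a₀ / 2, a₁ / 2, ?_⟩
  rw [← hg] at h ⊢
  have hg0 : g ≠ 0 := by
    rintro rfl
    apply hμ0
    rw [← hg]
    simp
  push_cast at h
  have h6 : 2 * c = g * (algebraMap k K a₀ + algebraMap k K a₁ * s) := by
    have h7 : g * (2 * c) = g * (g * (algebraMap k K a₀ + algebraMap k K a₁ * s)) := by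
      have : g * (2 * c) = (1 + 1) * (g * c) := by ring
      rw [this, h]
      ring
    exact mul_left_cancel₀ hg0 h7
  have h8 : c = g * ((algebraMap k K a₀ + algebraMap k K a₁ * s) / 2) := by
    have h2 : (2 : K) ≠ 0 := two_ne_zero
    field_simp
    rw [← h6]
    ring
  rw [h8, map_div₀, map_div₀, map_ofNat]
  ring

end Crest.Agent.R260.Pd_365
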