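import Mathlib
import Crest.Agent.R260.Kp1_997
import Crest.Agent.R260.Pd4_365

/-!
Row 260 (S0398), helper997: **Theorem K'** (`KprimeP` of `QuadDefs_517`) for every `CData` over a
field of characteristic zero.
-/

set_option autoImplicit false

namespace Crest.Agent.R260.Kp_997

open Polynomial Crest.Agent.R270.BM_360 Crest.Agent.R260.Lin_678 Crest.Agent.R260.QuadDefs_517
open Crest.Agent.R270.Fin_305

universe u

variable {I : Type} {J : I → Type} [Fintype I] [∀ i, Fintype (J i)] {k : Type u} [Field k]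

/-- (G) in the form `GP`, from helper365's `general`. -/
theorem gp (D : CData k I J) [CharZero k] : GP D := by
  intro kl M _ _ _ _ _ _ _ _ l s f c r e g he hl hcl hs hf hclf hval hr h0 hb
  obtain ⟨e, rfl⟩ : ∃ e', e = e' + 1 := ⟨e - 1, by omega⟩
  have _ : CharZero kl := charZero_of_injective_algebraMap (algebraMap k kl).injective
  have hn : ∀ i, vdeg (l i) = (e + 1) * D.β i := fun i => by
    have := congrFun hcl i
    rw [Pi.smul_apply, smul_eq_mul] at this
    exact this
  have hsum : ∑ i, D.w i * (((e + 1) * D.β i : ℕ) : ℤ) = e + 1 := by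
    have h6 : ∑ i, D.w i * (((e + 1) * D.β i : ℕ) : ℤ) =
        ((e : ℤ) + 1) * ∑ i, D.w i * (D.β i : ℤ) := by
      rw [Finset.mul_sum]
      refine Finset.sum_congr rfl fun i _ => ?_
      push_cast
      ring
    rw [h6, D.wβ, mul_one]
  have hs' : ∀ a : kl, algebraMap kl M a ≠ s := by
    rintro a rfl
    exact hs (isAlgebraic_algebraMap a)
  obtain ⟨a0, a1, h⟩ := Pd_365.general (k := kl) D.th hf hval (fun i => hl.cop i) hn
    (fun i => Nat.mul_pos (Nat.succ_pos e) (D.β_pos i)) hsum hs' hr h0 (g := g)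
    (fun O hO hsO i x => by
      have h1 := (hb O hO).1 hsO i x
      have h2 : g * ((r i)⁻¹ * (f i x).coeff 1) = g * (f i x).coeff 1 / r i := by
        rw [div_eq_mul_inv]; ring
      rwa [h2])
    (fun O hO hsO i x => by
      have h1 := (hb O hO).2 hsO i x
      have h2 : g * s ^ e * ((s ^ ((e + 1) * D.β i))⁻¹ * ((r i)⁻¹ * (f i x).coeff 1)) =
          g * s ^ (e + 1 - 1) * (f i x).coeff 1 / (r i * s ^ ((e + 1) * D.β i)) := by
        rw [div_eq_mul_inv, mul_inv, Nat.add_sub_cancel]; ring
      rwa [h2])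
  refine ⟨a0, a1, ?_⟩
  rw [← h]
  push_cast
  ring

/-- **Theorem K'**, literally `KprimeP`. -/
theorem kprimeP (D : CData k I J) [CharZero k] : KprimeP D := kprime_of D (gp D)

end Crest.Agent.R260.Kp_997
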