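import Crest.Agent.R260.Iso5_568
import Crest.Agent.R260.Cf2_703
import Crest.Agent.R270.LTr_360
import Crest.Agent.R270.Link3_131
import Crest.Agent.R270.TrM_807

/-!
# Row 260 (S0398), lines (helper475)

A generic line `l` over `F₀` (`hl D = 3 m + 2 + |I|` parameters) evaluated at a constant `s ∈ F₀` is
a generic point (`nn D = 2 m + 1 + |I|` parameters): otherwise the Moebius image of `l` with leading
vector `l(s)` has at least `m + 2` parameters over `F₀(l(s))`, against AG-ISO (`iso_cdata`).
Then `LineFrameP` follows from the number of sections (`NumAt`) by `frameAt_line`.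
-/

set_option autoImplicit false
set_option linter.all false

namespace Crest.Agent.R260.Lf_475

open Polynomial Module
open Crest.Agent.R270.BM_360 Crest.Agent.R260.Lin_678 Crest.Agent.R260.QuadDefs_517
  Crest.Agent.R260.Cf_703 Crest.Agent.R260.Der_169
open Crest.Agent.R270.Link_131 (rev sh rev_isMap cls_rev top_rev cls_sh low_sh low top)
open Crest.Agent.R270

universe u

variable {I : Type} {J : I → Type}

/-! ### coefficients -/

section coeff

variable {F₀ L : Type u} [Field F₀] [Field L] [Algebra F₀ L]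

theorem coeff_comp_mem (K : IntermediateField F₀ L) {p : L[X]} (hp : ∀ n, p.coeff n ∈ K) (c : F₀)
    (n : ℕ) : (p.comp (X + C (algebraMap F₀ L c))).coeff n ∈ K := by
  rw [comp, eval₂_eq_sum_range, finset_sum_coeff]
  refine K.sum_mem fun i _ => ?_
  rw [coeff_C_mul, coeff_X_add_C_pow]
  refine K.mul_mem (hp i) (K.mul_mem (pow_mem (K.algebraMap_mem c) _) ?_)
  exact natCast_mem K _

theorem comp_comp_neg (p : L[X]) (c : L) : (p.comp (X + C c)).comp (X + C (-c)) = p := by
  rw [comp_assoc]
  simp

variable [∀ i, Fintype (J i)]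

/-- the coefficients of `l` are in the field of the coefficients of its Moebius image. -/
theorem coeffs_sub (l : ∀ i, J i → L[X]) (s : F₀) :
    coeffs l ⊆ (IntermediateField.adjoin F₀ (coeffs (rev (sh l (algebraMap F₀ L s)))) : Set L) := by
  set K := IntermediateField.adjoin F₀ (coeffs (rev (sh l (algebraMap F₀ L s)))) with hK
  rintro _ ⟨i, a, j, rfl⟩
  have h1 : ∀ n, (sh l (algebraMap F₀ L s) i a).coeff n ∈ K := by
    intro n
    have h2 : (sh l (algebraMap F₀ L s) i a).coeff n =
        (rev (sh l (algebraMap F₀ L s)) i a).coeff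
          (revAt (vdeg (sh l (algebraMap F₀ L s) i)) n) := by
      rw [rev, coeff_reflect, revAt_invol]
    rw [h2]
    exact IntermediateField.subset_adjoin _ _ ⟨i, a, _, rfl⟩
  have h3 := coeff_comp_mem K h1 (-s) j
  have h4 : (sh l (algebraMap F₀ L s) i a).comp (X + C (algebraMap F₀ L (-s))) = l i a := by
    rw [sh, map_neg]
    exact comp_comp_neg _ _
  rw [h4] at h3
  exact h3

end coeff

/-! ### the point of a generic line -/

variable [Fintype I] [∀ i, Fintype (J i)] {k : Type u} [Field k]

/-- **a generic line at a constant point is generic.** -/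
theorem trGe_pt_line [CharZero k] (D : CData k I J) {F₀ kl : Type u} [Field F₀] [Field kl]
    [IsAlgClosed kl] [Algebra k F₀] [Algebra k kl] [Algebra F₀ kl] [IsScalarTower k F₀ kl]
    {l : ∀ i, J i → kl[X]} (hl1 : IsMap D.E l) (hl2 : cls l = D.β)
    (hl3 : TrGe F₀ (coeffs l) (hl D)) (s : F₀) :
    TrGe F₀ (ent (QuadDefs_517.pt l (algebraMap F₀ kl s))) (nn D) := by
  by_contra hcon
  set s' : kl := algebraMap F₀ kl s with hs'
  set F' : ∀ i, J i → kl[X] := rev (sh l s') with hF'
  have hsh : IsMap D.E (sh l s') := hl1.comp (X + C s')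
  have hmap : IsMap D.E F' := rev_isMap D.hom hsh
  have hcls : cls F' = D.β := by rw [hF', cls_rev hsh, cls_sh, hl2]
  have htr : TrGe F₀ (coeffs F') (hl D) := TrM_807.TrGe.mono hl3 (coeffs_sub l s)
  have htop : ∀ i a, (F' i a).coeff (vdeg (F' i)) = QuadDefs_517.pt l s' i a := by
    intro i a
    have h1 := congrFun (congrFun (top_rev hsh) i) a
    rw [low_sh] at h1
    exact h1
  have hb := lTrBase F₀ kl (ent (QuadDefs_517.pt l s')) (coeffs F') (nn D - 1) (hl D)
    (fun m' hm' => by
      by_contra h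
      push Not at h
      exact hcon (TrM_807.TrGe.le hm' (by omega))) htr
  let κ₀ := IntermediateField.adjoin F₀ (ent (QuadDefs_517.pt l s'))
  let y : ∀ i, J i → κ₀ := fun i a =>
    ⟨QuadDefs_517.pt l s' i a, IntermediateField.subset_adjoin _ _ ⟨i, a, rfl⟩⟩
  haveI : IsScalarTower k κ₀ kl := IsScalarTower.of_algebraMap_eq fun x => rfl
  have h1 := Iso_568.iso_cdata D κ₀ kl y F' hmap hcls (fun i a => htop i a) _ hb
  have h2 : nn D = 2 * D.m + 1 + Fintype.card I := rfl
  have h3 : hl D = 3 * D.m + 2 + Fintype.card I := rfl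
  omega

/-- the number of sections along a line. -/
def NumLineP (D : CData k I J) : Prop :=
  ∀ (κ : Type u) [Field κ] [IsAlgClosed κ] [Algebra k κ] (F : ∀ i, J i → κ[X]),
    IsMap D.E F → cls F = D.β → NumAt D F 1

/-- the frame of a generic line. -/
theorem frameAt_gen_line [CharZero k] {D : CData k I J} (hN : NumLineP D) {F₀ kl : Type u}
    [Field F₀] [Field kl] [IsAlgClosed kl] [Algebra k F₀] [Algebra k kl] [Algebra F₀ kl]
    [IsScalarTower k F₀ kl] {l : ∀ i, J i → kl[X]} (hl1 : IsMap D.E l) (hl2 : cls l = D.β)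
    (hl3 : TrGe F₀ (coeffs l) (hl D)) : FrameAt D l (hl D) := by
  have hc : CharZero F₀ := charZero_of_injective_algebraMap (algebraMap k F₀).injective
  exact frameAt_line D hl1 (hN kl l hl1 hl2) (0 : F₀) (trGe_pt_line D hl1 hl2 hl3 0)

/-- **LineFrameP of `QuadDefs_517`.** -/
theorem lineFrameP [CharZero k] {D : CData k I J} (hN : NumLineP D) : LineFrameP D := by
  intro F₀ kl _ _ _ _ _ _ _ _ l t₀ hl1 hl2 hl3
  have hfr := frameAt_gen_line (F₀ := F₀) hN hl1 hl2 hl3
  refine ⟨fun V hV hVi => ?_, ?_⟩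
  · have hmem : ∀ G ∈ V, G ∈ TanL D.E l := by
      intro G hG
      rw [mem_TanL, hl2]
      exact ⟨(hV G hG).2, (hV G hG).1⟩
    let f : V → TanL D.E l := fun G => ⟨G.1, hmem G.1 G.2⟩
    have hf : LinearIndependent kl f := by
      refine LinearIndependent.of_comp (TanL D.E l).subtype ?_
      exact hVi
    have h1 := hf.fintype_card_le_finrank
    rw [Fintype.card_coe, hfr.rank] at h1
    exact h1
  · obtain ⟨t, ht1, ht2⟩ := hfr.values t₀
    refine ⟨t, fun j => ?_, ht2⟩
    have h1 := ht1 j
    rw [mem_TanL, hl2] at h1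
    exact ⟨h1.2, h1.1⟩

end Crest.Agent.R260.Lf_475
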