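import Mathlib
import Crest.Agent.R260.Der3_169

/-!
# Row 260 (helper33): `LocP` (517 #6944): the local ring of a point of codimension at most one

`v` a point over the field `K = F(v)`, `q` a specialisation of `v` with the same dimension `N` of
the tangent spaces and `N = trdeg v`, `trdeg q ≥ N - 1`: the local ring of `q` in `K` is a
valuation ring.
-/

set_option autoImplicit false
set_option linter.all false

namespace Crest.Agent.R260.Loc_33

open Module IsLocalRing
open Crest.Agent.R270.BM_360 Crest.Agent.R270.Fr_928 Crest.Agent.R260.Der_169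

universe u v

/-- the derivation `R → 𝔪/𝔪²` attached to a section of the residue field. -/
theorem exists_cot {F R : Type u} [Field F] [CharZero F] [CommRing R] [IsLocalRing R]
    [Algebra F R] : ∃ e : R → CotangentSpace R, (∀ a b, e (a + b) = e a + e b) ∧
      (∀ c : F, e (algebraMap F R c) = 0) ∧ (∀ a b, e (a * b) = a • e b + b • e a) ∧
      ∀ a : maximalIdeal R, e a = (maximalIdeal R).toCotangent a := by
  let g : (R ⧸ (maximalIdeal R) ^ 2) →ₐ[F] ResidueField R :=
    Ideal.Quotient.liftₐ _ (IsScalarTower.toAlgHom F R (ResidueField R)) (fun a ha => by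
      have h1 : a ∈ maximalIdeal R := Ideal.pow_le_self two_ne_zero ha
      exact (residue_eq_zero_iff a).2 h1)
  have hgm : ∀ a, g (Ideal.Quotient.mk _ a) = residue R a := fun a => rfl
  have hg : Function.Surjective g := by
    intro x
    obtain ⟨a, rfl⟩ := residue_surjective x
    exact ⟨_, hgm a⟩
  have hker : RingHom.ker (g : (R ⧸ (maximalIdeal R) ^ 2) →+* ResidueField R) ≤
      (maximalIdeal R).map (Ideal.Quotient.mk ((maximalIdeal R) ^ 2)) := by
    intro x hx
    obtain ⟨a, rfl⟩ := Ideal.Quotient.mk_surjective x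
    refine Ideal.mem_map_of_mem _ ?_
    rw [RingHom.mem_ker] at hx
    exact (residue_eq_zero_iff a).1 hx
  have hnil : IsNilpotent (RingHom.ker (g : (R ⧸ (maximalIdeal R) ^ 2) →+* ResidueField R)) := by
    refine ⟨2, ?_⟩
    rw [Ideal.zero_eq_bot, eq_bot_iff]
    refine (Ideal.pow_right_mono hker 2).trans ?_
    rw [← Ideal.map_pow, Ideal.map_quotient_self]
  have : CharZero F := inferInstance
  have hfs : Algebra.FormallySmooth F (ResidueField R) := fs_charZero F (ResidueField R)
  let s : ResidueField R →ₐ[F] (R ⧸ (maximalIdeal R) ^ 2) :=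
    Algebra.FormallySmooth.liftOfSurjective (AlgHom.id F (ResidueField R)) g hg hnil
  have hs : ∀ x, g (s x) = x := fun x =>
    Algebra.FormallySmooth.liftOfSurjective_apply (AlgHom.id F (ResidueField R)) g hg hnil x
  choose r hr using fun x : ResidueField R => Ideal.Quotient.mk_surjective (s x)
  have hrx : ∀ x, residue R (r x) = x := fun x => by rw [← hgm, hr, hs]
  have hmem : ∀ a : R, a - r (residue R a) ∈ maximalIdeal R := fun a => by
    rw [← residue_eq_zero_iff, map_sub, hrx, sub_self]
  have h2 : ∀ a b : R, Ideal.Quotient.mk ((maximalIdeal R) ^ 2) a = Ideal.Quotient.mk _ b →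
      a - b ∈ (maximalIdeal R) ^ 2 := fun a b h => Ideal.Quotient.eq.1 h
  refine ⟨fun a => (maximalIdeal R).toCotangent ⟨a - r (residue R a), hmem a⟩, ?_, ?_, ?_, ?_⟩
  · intro a b
    rw [← map_add, Ideal.toCotangent_eq]
    change (a + b - r (residue R (a + b))) - ((a - r (residue R a)) + (b - r (residue R b))) ∈ _
    have h3 := h2 (r (residue R a) + r (residue R b)) (r (residue R (a + b))) (by
      rw [map_add, hr, hr, hr, map_add, map_add])
    have h4 : (a + b - r (residue R (a + b))) - ((a - r (residue R a)) + (b - r (residue R b))) =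
      (r (residue R a) + r (residue R b)) - r (residue R (a + b)) := by ring
    rwa [h4]
  · intro c
    rw [Ideal.toCotangent_eq_zero]
    refine h2 _ _ ?_
    rw [hr]
    have h3 : residue R (algebraMap F R c) = algebraMap F (ResidueField R) c := rfl
    rw [h3, AlgHom.commutes]
    rfl
  · intro a b
    rw [← map_smul, ← map_smul, ← map_add, Ideal.toCotangent_eq]
    change (a * b - r (residue R (a * b))) -
      (a * (b - r (residue R b)) + b * (a - r (residue R a))) ∈ _
    have h3 := h2 (r (residue R a) * r (residue R b)) (r (residue R (a * b))) (by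
      rw [map_mul, hr, hr, hr, map_mul, map_mul])
    have h4 : (a - r (residue R a)) * (b - r (residue R b)) ∈ (maximalIdeal R) ^ 2 := by
      rw [pow_two]
      exact Ideal.mul_mem_mul (hmem a) (hmem b)
    have h5 : (a * b - r (residue R (a * b))) -
      (a * (b - r (residue R b)) + b * (a - r (residue R a))) =
        (r (residue R a) * r (residue R b) - r (residue R (a * b))) -
          (a - r (residue R a)) * (b - r (residue R b)) := by ring
    rw [h5]
    exact Ideal.sub_mem _ h3 h4
  · intro a
    rw [Ideal.toCotangent_eq]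
    change ((a : R) - r (residue R (a : R))) - a ∈ _
    have h3 : residue R (a : R) = 0 := (residue_eq_zero_iff _).2 a.2
    have h4 := h2 0 (r (residue R (a : R))) (by rw [map_zero, hr, h3, map_zero])
    have h5 : ((a : R) - r (residue R (a : R))) - a = 0 - r (residue R (a : R)) := by ring
    rwa [h5]

/-- chain rule for a derivation of the polynomial ring along a homomorphism. -/
theorem chain {F κ : Type u} [Field F] [Field κ] [Algebra F κ] {σ : Type} [Fintype σ]
    (g : MvPolynomial σ F →ₐ[F] κ) (T : MvPolynomial σ F → κ)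
    (hadd : ∀ p q, T (p + q) = T p + T q) (hC : ∀ c, T (MvPolynomial.C c) = 0)
    (hmul : ∀ p q, T (p * q) = g p * T q + g q * T p) (p : MvPolynomial σ F) :
    T p = ∑ x, g (MvPolynomial.pderiv x p) * T (MvPolynomial.X x) := by
  classical
  induction p using MvPolynomial.induction_on with
  | C c =>
    rw [hC]
    simp
  | add p q hp hq =>
    rw [hadd, hp, hq, ← Finset.sum_add_distrib]
    refine Finset.sum_congr rfl fun x _ => ?_
    rw [map_add, map_add, add_mul]
  | mul_X p y hp =>
    rw [hmul]
    have h1 : ∀ x, g (MvPolynomial.pderiv x (p * MvPolynomial.X y)) * T (MvPolynomial.X x) =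
        (if x = y then g p * T (MvPolynomial.X y) else 0) +
          g (MvPolynomial.X y) * (g (MvPolynomial.pderiv x p) * T (MvPolynomial.X x)) := by
      intro x
      rw [Derivation.leibniz, MvPolynomial.pderiv_X, smul_eq_mul, smul_eq_mul, map_add, map_mul,
        map_mul]
      by_cases hxy : x = y
      · subst hxy
        simp
        ring
      · rw [if_neg hxy, Pi.single_eq_of_ne (Ne.symm hxy)]
        simp
        ring
    rw [Finset.sum_congr rfl fun x _ => h1 x, Finset.sum_add_distrib, ← Finset.mul_sum, ← hp]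
    simp

/-- two independent cotangent vectors and `n` algebraically independent elements give `n + 2`
independent tangent vectors. -/
theorem tan_ge {F K κ : Type u} [Field F] [Field K] [Field κ] [CharZero F] [Algebra F K]
    [Algebra F κ] {σ : Type} [Fintype σ] {E : Set (MvPolynomial σ F)} {A R : Type u} [CommRing A]
    [Algebra F A] [CommRing R] [IsLocalRing R] [Algebra F R] [Algebra A R] [IsScalarTower F A R]
    (𝔭 : Ideal A) [𝔭.IsPrime] [IsLocalization.AtPrime R 𝔭]
    (f : MvPolynomial σ F →ₐ[F] A) (hf : Function.Surjective f) (φ : A →ₐ[F] κ)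
    (hφ : ∀ a, φ a = 0 ↔ a ∈ 𝔭) (q : σ → κ) (hq : ∀ p, φ (f p) = MvPolynomial.aeval q p)
    (hE : ∀ p ∈ E, f p = 0) [FiniteDimensional (ResidueField R) (CotangentSpace R)]
    (h2 : 2 ≤ finrank (ResidueField R) (CotangentSpace R)) {n : ℕ}
    (hn : TrGe F (Set.range q) n) : n + 2 ≤ finrank κ (TanS E q) := by
  classical
  let ρ : R →+* κ := IsLocalization.lift (M := 𝔭.primeCompl) (g := (φ : A →+* κ))
    (fun y => IsUnit.mk0 _ (fun h => y.2 ((hφ y).1 h)))
  have hρ : ∀ a, ρ (algebraMap A R a) = φ a := fun a => IsLocalization.lift_eq _ a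
  have hρm : ∀ r ∈ maximalIdeal R, ρ r = 0 := by
    intro r hr
    obtain ⟨a, s, rfl⟩ := IsLocalization.exists_mk'_eq 𝔭.primeCompl r
    have h3 : a ∈ 𝔭 := (IsLocalization.AtPrime.mk'_mem_maximal_iff R 𝔭 a s).1 hr
    have h4 : IsLocalization.mk' R a s * algebraMap A R s = algebraMap A R a :=
      IsLocalization.mk'_spec R a s
    have h5 := congrArg ρ h4
    rw [map_mul, hρ, hρ, (hφ a).2 h3] at h5
    exact (mul_eq_zero.1 h5).resolve_right (fun h => s.2 ((hφ s).1 h))
  let ψ : ResidueField R →+* κ := Ideal.Quotient.lift (maximalIdeal R) ρ hρm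
  have hψ : ∀ r, ψ (residue R r) = ρ r := fun r => rfl
  obtain ⟨e, e1, e2, e3, e4⟩ := exists_cot (F := F) (R := R)
  let b := finBasis (ResidueField R) (CotangentSpace R)
  let j0 : Fin 2 → Fin (finrank (ResidueField R) (CotangentSpace R)) := fun i => ⟨i, by omega⟩
  have hj0 : Function.Injective j0 := fun i i' h => Fin.ext (Fin.mk.inj_iff.1 h)
  -- the derivations
  let D : Fin 2 → R → κ := fun i r => ψ (b.coord (j0 i) (e r))
  have D1 : ∀ i a c, D i (a + c) = D i a + D i c := fun i a c => by
    simp only [D, e1, map_add]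
  have D2 : ∀ i (c : F), D i (algebraMap F R c) = 0 := fun i c => by
    simp only [D, e2, map_zero]
  have hsm : ∀ (a : R) (m : CotangentSpace R) (i : Fin 2), ψ (b.coord (j0 i) (a • m)) =
      ρ a * ψ (b.coord (j0 i) m) := by
    intro a m i
    rw [← hψ, ← map_mul, ← smul_eq_mul, ← map_smul]
    rfl
  have D3 : ∀ i a c, D i (a * c) = ρ a * D i c + ρ c * D i a := fun i a c => by
    simp only [D, e3, map_add, hsm]
  -- elements of the prime ideal
  have hel : ∀ i : Fin 2, ∃ a ∈ 𝔭, ∀ i', D i' (algebraMap A R a) ≠ 0 ↔ i = i' := by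
    intro i
    obtain ⟨z, hz⟩ := (maximalIdeal R).toCotangent_surjective (b (j0 i))
    obtain ⟨a, s, has⟩ := IsLocalization.exists_mk'_eq 𝔭.primeCompl (z : R)
    have h3 : a ∈ 𝔭 := (IsLocalization.AtPrime.mk'_mem_maximal_iff R 𝔭 a s).1 (by
      rw [has]; exact z.2)
    have h4 : (z : R) * algebraMap A R s = algebraMap A R a := by
      rw [← has]
      exact IsLocalization.mk'_spec R a s
    refine ⟨a, h3, fun i' => ?_⟩
    rw [← h4, D3, hρm _ z.2, zero_mul, zero_add, hρ]
    have h5 : D i' (z : R) = if i = i' then 1 else 0 := by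
      simp only [D, e4, hz]
      rw [Basis.coord_apply, Basis.repr_self, Finsupp.single_apply]
      by_cases h : i = i'
      · subst h
        simp
      · rw [if_neg (fun h' => h (hj0 h')), if_neg h, map_zero]
    have h6 : φ (s : A) ≠ 0 := fun h => s.2 ((hφ s).1 h)
    rw [h5]
    by_cases h : i = i'
    · simp [h, h6]
    · simp [h]
  choose a ha haD using hel
  choose pa hpa using fun i => hf (a i)
  obtain ⟨w, hw, hw2⟩ := hn
  obtain ⟨δ, hδ⟩ := exists_der_indep w hw2
  -- the derivations on polynomials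
  let T : (Fin n ⊕ Fin 2) → MvPolynomial σ F → κ := Sum.elim
    (fun j p => δ j (MvPolynomial.aeval q p)) (fun i p => D i (algebraMap A R (f p)))
  have T1 : ∀ t p p', T t (p + p') = T t p + T t p' := by
    rintro (j | i) p p'
    · simp [T]
    · simp only [T, Sum.elim_inr, map_add, D1]
  have T2 : ∀ t c, T t (MvPolynomial.C c) = 0 := by
    rintro (j | i) c
    · simp [T]
    · simp only [T, Sum.elim_inr]
      rw [← MvPolynomial.algebraMap_eq, AlgHom.commutes, ← IsScalarTower.algebraMap_apply]
      exact D2 i c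
  have T3 : ∀ t p p', T t (p * p') = MvPolynomial.aeval q p * T t p' +
      MvPolynomial.aeval q p' * T t p := by
    rintro (j | i) p p'
    · simp only [T, Sum.elim_inl, map_mul, Derivation.leibniz, smul_eq_mul]
    · simp only [T, Sum.elim_inr, map_mul, D3, hρ, hq]
  have TX : ∀ t p, T t p = ∑ x, MvPolynomial.aeval q (MvPolynomial.pderiv x p) *
      T t (MvPolynomial.X x) := fun t p => chain (MvPolynomial.aeval q) (T t) (T1 t) (T2 t) (T3 t) p
  have TE : ∀ t, (fun x => T t (MvPolynomial.X x)) ∈ TanS E q := by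
    intro t
    rw [mem_TanS]
    intro p hp
    rw [← TX]
    have h3 : f p = 0 := hE p hp
    rcases t with (j | i)
    · simp only [T, Sum.elim_inl]
      rw [← hq, h3, map_zero, map_zero]
    · simp only [T, Sum.elim_inr]
      rw [h3, map_zero]
      have := D2 i 0
      rwa [map_zero] at this
  let V : (Fin n ⊕ Fin 2) → TanS E q := fun t => ⟨fun x => T t (MvPolynomial.X x), TE t⟩
  have hV : LinearIndependent κ V := by
    rw [Fintype.linearIndependent_iff]
    intro c hc
    have hc0 : ∀ p, ∑ t, c t * T t p = 0 := by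
      intro p
      have h3 : ∀ x, ∑ t, c t * T t (MvPolynomial.X x) = 0 := by
        intro x
        have h4 := congrArg (fun z : TanS E q => (z : σ → κ) x) hc
        simpa [V, Finset.sum_apply] using h4
      have h5 : ∑ t, c t * T t p = ∑ x, MvPolynomial.aeval q (MvPolynomial.pderiv x p) *
          ∑ t, c t * T t (MvPolynomial.X x) := by
        simp only [Finset.mul_sum]
        rw [Finset.sum_comm]
        refine Finset.sum_congr rfl fun t _ => ?_
        rw [TX t p, Finset.mul_sum]
        refine Finset.sum_congr rfl fun x _ => by ring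
      rw [h5]
      simp [h3]
    have hr : ∀ i, c (Sum.inr i) = 0 := by
      intro i
      have h3 := hc0 (pa i)
      rw [Fintype.sum_sum_type] at h3
      have h4 : ∀ j, T (Sum.inl j) (pa i) = 0 := by
        intro j
        simp only [T, Sum.elim_inl]
        rw [← hq, hpa, (hφ _).2 (ha i), map_zero]
      have h5 : ∀ i', T (Sum.inr i') (pa i) = D i' (algebraMap A R (a i)) := by
        intro i'
        simp only [T, Sum.elim_inr, hpa]
      simp only [h4, h5, mul_zero, Finset.sum_const_zero, zero_add] at h3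
      rw [Finset.sum_eq_single i] at h3
      · exact (mul_eq_zero.1 h3).resolve_right ((haD i i).2 rfl)
      · intro i' _ hi'
        have h6 : D i' (algebraMap A R (a i)) = 0 := by
          by_contra h7
          exact hi' ((haD i i').1 h7).symm
        rw [h6, mul_zero]
      · simp
    have hl : ∀ p : MvPolynomial σ F, ∑ j, c (Sum.inl j) * δ j (MvPolynomial.aeval q p) = 0 := by
      intro p
      have h3 := hc0 p
      rw [Fintype.sum_sum_type] at h3
      simpa [hr, T] using h3
    let δ' : Derivation F κ κ := ∑ j, c (Sum.inl j) • δ j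
    have hδ' : ∀ z, δ' z = ∑ j, c (Sum.inl j) * δ j z := fun z => by
      simp only [δ', sum_der_apply]
      rfl
    have hle : IntermediateField.adjoin F (Set.range q) ≤ kerF δ' := by
      rw [IntermediateField.adjoin_le_iff]
      rintro _ ⟨x, rfl⟩
      change δ' (q x) = 0
      rw [hδ']
      have h3 := hl (MvPolynomial.X x)
      rwa [MvPolynomial.aeval_X] at h3
    rintro (j | i)
    · have h3 : δ' (w j) = 0 := hle (hw j)
      rw [hδ', Finset.sum_eq_single j] at h3
      · rwa [hδ, if_pos rfl, mul_one] at h3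
      · intro j' _ hj'
        rw [hδ, if_neg hj', mul_zero]
      · simp
    · exact hr i
  have h3 := hV.fintype_card_le_finrank
  simpa using h3

/-- **LocP** (517 #6944 (2)): the local ring of the point `q` is a valuation ring. -/
theorem loc_val {F K κ : Type u} [Field F] [Field K] [Field κ] [CharZero F] [Algebra F K]
    [Algebra F κ] {σ : Type} [Fintype σ] {E : Set (MvPolynomial σ F)} {v : σ → K} {q : σ → κ}
    {N : ℕ} (hspec : ∀ p : MvPolynomial σ F, MvPolynomial.aeval v p = 0 →
      MvPolynomial.aeval q p = 0)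
    (htop : IntermediateField.adjoin F (Set.range v) = ⊤)
    (hv : ∀ p ∈ E, MvPolynomial.aeval v p = 0) (hNq : finrank κ (TanS E q) ≤ N)
    (hq : TrGe F (Set.range q) (N - 1)) (b : K) :
    ∃ P Q : MvPolynomial σ F, MvPolynomial.aeval v Q ≠ 0 ∧
      b * MvPolynomial.aeval v Q = MvPolynomial.aeval v P ∧
      (MvPolynomial.aeval q Q ≠ 0 ∨ MvPolynomial.aeval q P ≠ 0) := by
  classical
  let I : Ideal (MvPolynomial σ F) := RingHom.ker (MvPolynomial.aeval (R := F) v)
  haveI hI : I.IsPrime := RingHom.ker_isPrime _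
  let A := MvPolynomial σ F ⧸ I
  haveI : IsDomain A := Ideal.Quotient.isDomain I
  let φ : A →ₐ[F] κ := Ideal.Quotient.liftₐ I (MvPolynomial.aeval q) (fun p hp => hspec p hp)
  let ι : A →ₐ[F] K := Ideal.Quotient.liftₐ I (MvPolynomial.aeval v) (fun p hp => hp)
  have hφ : ∀ p, φ (Ideal.Quotient.mk I p) = MvPolynomial.aeval q p := fun p => rfl
  have hιm : ∀ p, ι (Ideal.Quotient.mk I p) = MvPolynomial.aeval v p := fun p => rfl
  have hι : Function.Injective ι := by
    rw [injective_iff_map_eq_zero]
    intro a ha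
    obtain ⟨p, rfl⟩ := Ideal.Quotient.mk_surjective a
    exact Ideal.Quotient.eq_zero_iff_mem.2 ha
  let 𝔭 : Ideal A := RingHom.ker (φ : A →+* κ)
  haveI h𝔭 : 𝔭.IsPrime := RingHom.ker_isPrime _
  let R := Localization.AtPrime 𝔭
  haveI : IsDomain R := IsLocalization.isDomain_localization (Ideal.primeCompl_le_nonZeroDivisors 𝔭)
  haveI : IsNoetherianRing R := IsLocalization.isNoetherianRing 𝔭.primeCompl R inferInstance
  have hfin : finrank (ResidueField R) (CotangentSpace R) ≤ 1 := by
    by_contra hcon
    have h1 := tan_ge (F := F) (K := K) (κ := κ) (E := E) (A := A) (R := R) 𝔭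
      (Ideal.Quotient.mkₐ F I) Ideal.Quotient.mk_surjective φ (fun a => Iff.rfl) q
      (fun p => rfl) (fun p hp => Ideal.Quotient.eq_zero_iff_mem.2 (hv p hp)) (by omega) hq
    omega
  haveI hval : ValuationRing R :=
    ((tfae_of_isNoetherianRing_of_isLocalRing_of_isDomain R).out 5 1).1 hfin
  -- `b` is a quotient
  have hb : ∃ a c : A, ι c ≠ 0 ∧ b * ι c = ι a := by
    have h1 : b ∈ IntermediateField.adjoin F (Set.range v) := by
      rw [htop]
      trivial
    rw [IntermediateField.mem_adjoin_range_iff] at h1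
    obtain ⟨r, s, hrs⟩ := h1
    by_cases hs : MvPolynomial.aeval v s = 0
    · refine ⟨0, 1, by simp, ?_⟩
      rw [hrs, hs]
      simp
    · refine ⟨Ideal.Quotient.mk I r, Ideal.Quotient.mk I s, hs, ?_⟩
      rw [hιm, hιm, hrs, div_mul_cancel₀ _ hs]
  obtain ⟨a, c, hc, hac⟩ := hb
  have hinj : Function.Injective (algebraMap A R) :=
    IsLocalization.injective R (Ideal.primeCompl_le_nonZeroDivisors 𝔭)
  have key : ∀ a c : A, (∃ z : R, algebraMap A R a * z = algebraMap A R c) →
      ∃ P Q : MvPolynomial σ F, MvPolynomial.aeval q Q ≠ 0 ∧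
        ι a * MvPolynomial.aeval v P = ι c * MvPolynomial.aeval v Q := by
    rintro a c ⟨z, hz⟩
    obtain ⟨p, s, rfl⟩ := IsLocalization.exists_mk'_eq 𝔭.primeCompl z
    obtain ⟨P, rfl⟩ := Ideal.Quotient.mk_surjective p
    obtain ⟨Q, hQ⟩ := Ideal.Quotient.mk_surjective (s : A)
    refine ⟨P, Q, ?_, ?_⟩
    · intro h0
      refine s.2 ?_
      change φ (s : A) = 0
      rw [← hQ]
      exact h0
    · have h1 : algebraMap A R (a * Ideal.Quotient.mk I P) = algebraMap A R (c * (s : A)) := by
        rw [map_mul, map_mul, ← hz, mul_assoc, IsLocalization.mk'_spec]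
      have h2 := congrArg ι (hinj h1)
      rw [map_mul, map_mul, ← hQ] at h2
      exact h2
  have hQv : ∀ Q : MvPolynomial σ F, MvPolynomial.aeval q Q ≠ 0 → MvPolynomial.aeval v Q ≠ 0 :=
    fun Q h h' => h (hspec Q h')
  obtain ⟨z, hz⟩ : ∃ z : R, algebraMap A R a * z = algebraMap A R c ∨
      algebraMap A R c * z = algebraMap A R a := hval.toPreValuationRing.cond' _ _
  rcases hz with hz | hz
  · obtain ⟨P, Q, hQ, hPQ⟩ := key a c ⟨z, hz⟩
    -- `a P = c Q`, `b = a / c = Q / P`
    have h1 : b * ι c * MvPolynomial.aeval v P = ι c * MvPolynomial.aeval v Q := by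
      rw [hac, hPQ]
    have h2 : b * MvPolynomial.aeval v P = MvPolynomial.aeval v Q :=
      mul_left_cancel₀ hc (by rw [← h1]; ring)
    refine ⟨Q, P, ?_, h2, Or.inr hQ⟩
    intro h0
    rw [h0, mul_zero] at h2
    exact hQv Q hQ h2.symm
  · obtain ⟨P, Q, hQ, hPQ⟩ := key c a ⟨z, hz⟩
    refine ⟨P, Q, hQv Q hQ, ?_, Or.inl hQ⟩
    have h1 : b * ι c * MvPolynomial.aeval v Q = ι c * MvPolynomial.aeval v P := by
      rw [hac, hPQ]
    exact mul_left_cancel₀ hc (by rw [← h1]; ring)

end Crest.Agent.R260.Loc_33
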