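import Mathlib
import Crest.Agent.R260.LinDefs_678

/-!
Row 260: base change of the common data `CData k` to an extension field `k'`.
-/

set_option autoImplicit false

namespace Crest.Agent.R260.Bc_678

open Crest.Agent.R270.BM_360 Crest.Agent.R260.Lin_678

universe u

variable {I : Type} {J : I → Type}
variable {k : Type u} [Field k] (k' : Type u) [Field k'] [Algebra k k']

/-- equations over the bigger field. -/
def bcE (E : Set (MvPolynomial (Σ i, J i) k)) : Set (MvPolynomial (Σ i, J i) k') :=
  MvPolynomial.map (algebraMap k k') '' E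

section tower

variable {k'} {E : Set (MvPolynomial (Σ i, J i) k)}
variable {A : Type*} [CommRing A] [Algebra k A] [Algebra k' A] [IsScalarTower k k' A]

theorem onX_bc {v : ∀ i, J i → A} : OnX (bcE k' E) v ↔ OnX E v := by
  constructor
  · intro h p hp
    have h1 := h _ ⟨p, hp, rfl⟩
    rwa [MvPolynomial.aeval_map_algebraMap] at h1
  · rintro h _ ⟨p, hp, rfl⟩
    rw [MvPolynomial.aeval_map_algebraMap]
    exact h p hp

variable [Fintype I] [∀ i, Fintype (J i)]

theorem tan_bc {v t : ∀ i, J i → A} : Tan (bcE k' E) v t ↔ Tan E v t := by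
  constructor
  · intro h p hp
    have h1 := h _ ⟨p, hp, rfl⟩
    simpa only [MvPolynomial.pderiv_map, MvPolynomial.aeval_map_algebraMap] using h1
  · rintro h _ ⟨p, hp, rfl⟩
    simpa only [MvPolynomial.pderiv_map, MvPolynomial.aeval_map_algebraMap] using h p hp

theorem form_bc (p : (Σ i, J i) → MvPolynomial (Σ i, J i) k) (v t : ∀ i, J i → A) :
    form (fun x => MvPolynomial.map (algebraMap k k') (p x)) v t = form p v t := by
  simp only [form, MvPolynomial.aeval_map_algebraMap]

theorem dform_bc (p : (Σ i, J i) → MvPolynomial (Σ i, J i) k) (v s t : ∀ i, J i → A) :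
    dform (fun x => MvPolynomial.map (algebraMap k k') (p x)) v s t = dform p v s t := by
  simp only [dform, MvPolynomial.pderiv_map, MvPolynomial.aeval_map_algebraMap]

end tower

theorem isMap_bc {k'} [Field k'] [Algebra k k'] {E : Set (MvPolynomial (Σ i, J i) k)}
    {κ : Type u} [Field κ] [Algebra k κ] [Algebra k' κ] [IsScalarTower k k' κ]
    {F : ∀ i, J i → Polynomial κ} : IsMap (bcE k' E) F ↔ IsMap E F :=
  ⟨fun h => ⟨onX_bc.mp h.on, h.cop⟩, fun h => ⟨onX_bc.mpr h.on, h.cop⟩⟩

theorem mHom_bc {E : Set (MvPolynomial (Σ i, J i) k)} (hE : MHom E) : MHom (bcE k' E) := by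
  classical
  rintro _ ⟨p, hp, rfl⟩
  obtain ⟨d, hd⟩ := hE p hp
  refine ⟨d, ?_⟩
  intro m hm
  apply hd
  intro h0
  apply hm
  rw [MvPolynomial.coeff_map, h0, map_zero]

variable [Fintype I] [∀ i, Fintype (J i)]

/-- the contact form over the bigger field. -/
noncomputable def cForm_bc {E : Set (MvPolynomial (Σ i, J i) k)} {w : I → ℤ} (th : CForm E w) :
    CForm (bcE k' E) w where
  N := th.N
  p := fun c x => MvPolynomial.map (algebraMap k k') (th.p c x)
  hom := fun c x m hm i => th.hom c x m (MvPolynomial.support_map_subset _ _ hm) i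
  agree := by
    intro A _ _ _ v t hv ht c c'
    let _ : Algebra k A := ((algebraMap k' A).comp (algebraMap k k')).toAlgebra
    have _ : IsScalarTower k k' A := IsScalarTower.of_algebraMap_eq fun _ => rfl
    simpa only [form_bc] using th.agree A v t (onX_bc.mp hv) (tan_bc.mp ht) c c'
  euler := by
    intro A _ _ _ v hv c i
    let _ : Algebra k A := ((algebraMap k' A).comp (algebraMap k k')).toAlgebra
    have _ : IsScalarTower k k' A := IsScalarTower.of_algebraMap_eq fun _ => rfl
    simpa only [MvPolynomial.aeval_map_algebraMap] using th.euler A v (onX_bc.mp hv) c i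

theorem val_bc {E : Set (MvPolynomial (Σ i, J i) k)} {w : I → ℤ} (th : CForm E w)
    {A : Type*} [CommRing A] [Algebra k A] [Algebra k' A] [IsScalarTower k k' A]
    {v t : ∀ i, J i → A} {q : A} : (cForm_bc k' th).Val v t q ↔ th.Val v t q := by
  unfold CForm.Val
  refine forall_congr' fun c => ?_
  have h : form ((cForm_bc k' th).p c) v t = form (th.p c) v t := form_bc _ _ _
  rw [h]
  rfl

/-- **base change** of the common data. -/
noncomputable def cData_bc (D : CData k I J) : CData k' I J where
  E := bcE k' D.E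
  hom := mHom_bc k' D.hom
  β := D.β
  β_pos := D.β_pos
  w := D.w
  wβ := D.wβ
  cls_eq := by
    intro κ _ _ F hF
    let _ : Algebra k κ := ((algebraMap k' κ).comp (algebraMap k k')).toAlgebra
    have _ : IsScalarTower k k' κ := IsScalarTower.of_algebraMap_eq fun _ => rfl
    exact D.cls_eq κ F (isMap_bc.mp hF)
  m := D.m
  tan_dim := by
    intro κ _ _ v hv h0
    let _ : Algebra k κ := ((algebraMap k' κ).comp (algebraMap k k')).toAlgebra
    have _ : IsScalarTower k k' κ := IsScalarTower.of_algebraMap_eq fun _ => rfl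
    have h1 : TanSp (bcE k' D.E) v = TanSp D.E v := by
      ext t
      exact tan_bc
    rw [h1]
    exact D.tan_dim κ v (onX_bc.mp hv) h0
  th := cForm_bc k' D.th
  nondeg := by
    intro κ _ _ v c hv h0 t ht hf hd
    let _ : Algebra k κ := ((algebraMap k' κ).comp (algebraMap k k')).toAlgebra
    have _ : IsScalarTower k k' κ := IsScalarTower.of_algebraMap_eq fun _ => rfl
    have h1 : ∀ t, form ((cForm_bc k' D.th).p c) v t = form (D.th.p c) v t :=
      fun t => form_bc _ _ _
    have h2 : ∀ s t, dform ((cForm_bc k' D.th).p c) v s t = dform (D.th.p c) v s t :=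
      fun s t => dform_bc _ _ _ _
    refine D.nondeg κ v c (onX_bc.mp hv) h0 t (tan_bc.mp ht) (by rw [← h1]; exact hf)
      fun t' ht' hf' => ?_
    rw [← h2]
    exact hd t' (tan_bc.mpr ht') (by rw [h1]; exact hf')
  th_ne := by
    intro κ _ _ v c hv h0
    let _ : Algebra k κ := ((algebraMap k' κ).comp (algebraMap k k')).toAlgebra
    have _ : IsScalarTower k k' κ := IsScalarTower.of_algebraMap_eq fun _ => rfl
    obtain ⟨t, ht, hne⟩ := D.th_ne κ v c (onX_bc.mp hv) h0
    refine ⟨t, tan_bc.mpr ht, ?_⟩
    have h1 : form ((cForm_bc k' D.th).p c) v t = form (D.th.p c) v t := form_bc _ _ _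
    rw [h1]
    exact hne

end Crest.Agent.R260.Bc_678
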