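import Mathlib
import Crest.Agent.R260.LinDefs_678

/-!
Row 260 (S0398), local part of LIN: a two parameter filtration of `K[X]` by a valuation
(coefficients on the closed annulus between two radii), and the neck lemma: the contact constant of
a map of `L`-degree two is bounded by the inner radius.
-/

set_option autoImplicit false

namespace Crest.Agent.R260.Lin_678

open Polynomial
open Crest.Agent.R270.BM_360

universe u

section fil

variable {K : Type u} [Field K] {O : ValuationSubring K} {α γ : O.ValueGroup}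

theorem val_add_mul_le {x y : K} {δ g : O.ValueGroup} (hx : O.valuation x * δ ≤ g)
    (hy : O.valuation y * δ ≤ g) : O.valuation (x + y) * δ ≤ g := by
  have h := O.valuation.map_add x y
  calc _ ≤ max (O.valuation x) (O.valuation y) * δ := by gcongr
    _ ≤ _ := by
      rcases max_choice (O.valuation x) (O.valuation y) with h1 | h1 <;> rw [h1]
      · exact hx
      · exact hy

theorem val_sum_mul_le {ι : Type*} {s : Finset ι} {f : ι → K} {δ g : O.ValueGroup}
    (h : ∀ i ∈ s, O.valuation (f i) * δ ≤ g) : O.valuation (∑ i ∈ s, f i) * δ ≤ g := by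
  classical
  induction s using Finset.induction_on with
  | empty => simp
  | insert a s ha ih =>
    rw [Finset.sum_insert ha]
    exact val_add_mul_le (h a (Finset.mem_insert_self _ _))
      (ih fun i hi => h i (Finset.mem_insert_of_mem hi))

/-- coefficients bounded by the two radii `α` (outer) and `α * γ` (inner). -/
def Sf (α γ : O.ValueGroup) (n : ℕ) (f : K[X]) : Prop :=
  ∀ j, O.valuation (f.coeff j) * α ^ j ≤ α ^ (2 * n) * γ ^ (n - j)

/-- moreover the middle coefficient is small. -/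
def Sf0 (α γ : O.ValueGroup) (n : ℕ) (f : K[X]) : Prop :=
  Sf α γ n f ∧ O.valuation (f.coeff n) * α ^ n ≤ α ^ (2 * n) * γ

theorem Sf.zero (n : ℕ) : Sf α γ n (0 : K[X]) := fun j => by simp

theorem Sf.add {n : ℕ} {f g : K[X]} (hf : Sf α γ n f) (hg : Sf α γ n g) : Sf α γ n (f + g) :=
  fun j => by
    rw [coeff_add]
    exact val_add_mul_le (hf j) (hg j)

theorem Sf0.zero (n : ℕ) : Sf0 α γ n (0 : K[X]) := ⟨Sf.zero n, by simp⟩

theorem Sf0.add {n : ℕ} {f g : K[X]} (hf : Sf0 α γ n f) (hg : Sf0 α γ n g) :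
    Sf0 α γ n (f + g) := by
  refine ⟨hf.1.add hg.1, ?_⟩
  rw [coeff_add]
  exact val_add_mul_le hf.2 hg.2

theorem Sf.sum {ι : Type*} {s : Finset ι} {n : ℕ} {f : ι → K[X]} (h : ∀ i ∈ s, Sf α γ n (f i)) :
    Sf α γ n (∑ i ∈ s, f i) := by
  classical
  induction s using Finset.induction_on with
  | empty => simpa using Sf.zero n
  | insert a s ha ih =>
    rw [Finset.sum_insert ha]
    exact (h a (Finset.mem_insert_self _ _)).add
      (ih fun i hi => h i (Finset.mem_insert_of_mem hi))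

theorem Sf0.sum {ι : Type*} {s : Finset ι} {n : ℕ} {f : ι → K[X]}
    (h : ∀ i ∈ s, Sf0 α γ n (f i)) : Sf0 α γ n (∑ i ∈ s, f i) := by
  classical
  induction s using Finset.induction_on with
  | empty => simpa using Sf0.zero n
  | insert a s ha ih =>
    rw [Finset.sum_insert ha]
    exact (h a (Finset.mem_insert_self _ _)).add
      (ih fun i hi => h i (Finset.mem_insert_of_mem hi))

theorem term_le {n m i j : ℕ} {f g : K[X]} (hf : Sf α γ n f) (hg : Sf α γ m g) :
    O.valuation (f.coeff i * g.coeff j) * α ^ (i + j) ≤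
      α ^ (2 * (n + m)) * γ ^ ((n - i) + (m - j)) := by
  have h1 := mul_le_mul' (hf i) (hg j)
  calc _ = (O.valuation (f.coeff i) * α ^ i) * (O.valuation (g.coeff j) * α ^ j) := by
        rw [map_mul, pow_add]
        ac_rfl
    _ ≤ _ := h1
    _ = _ := by
        rw [mul_add, pow_add, pow_add]
        ac_rfl

theorem Sf.mul {n m : ℕ} {f g : K[X]} (hγ : γ ≤ 1) (hf : Sf α γ n f) (hg : Sf α γ m g) :
    Sf α γ (n + m) (f * g) := by
  intro s
  rw [coeff_mul]
  refine val_sum_mul_le fun x hx => ?_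
  rw [Finset.HasAntidiagonal.mem_antidiagonal] at hx
  rw [← hx]
  refine (term_le hf hg).trans ?_
  have h : γ ^ ((n - x.1) + (m - x.2)) ≤ γ ^ (n + m - (x.1 + x.2)) :=
    pow_le_pow_right_of_le_one' hγ (by omega)
  gcongr

/-- the middle coefficient of a product. -/
theorem Sf.coeff_mul_sub {n m : ℕ} {f g : K[X]} (hγ : γ ≤ 1) (hf : Sf α γ n f)
    (hg : Sf α γ m g) :
    O.valuation ((f * g).coeff (n + m) - f.coeff n * g.coeff m) * α ^ (n + m) ≤
      α ^ (2 * (n + m)) * γ := by
  classical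
  rw [coeff_mul, ← Finset.add_sum_erase (Finset.HasAntidiagonal.antidiagonal (n + m))
    (fun x : ℕ × ℕ => f.coeff x.1 * g.coeff x.2) (a := (n, m)) (Finset.HasAntidiagonal.mem_antidiagonal.mpr rfl), add_sub_cancel_left]
  refine val_sum_mul_le fun x hx => ?_
  rw [Finset.mem_erase, Finset.HasAntidiagonal.mem_antidiagonal] at hx
  obtain ⟨h1, h2⟩ := hx
  rw [← h2]
  refine (term_le hf hg).trans ?_
  rw [h2]
  gcongr
  have h3 : x.1 ≠ n := by
    intro h
    apply h1
    ext
    · exact h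
    · change x.2 = m
      omega
  calc γ ^ (n - x.1 + (m - x.2)) ≤ γ ^ 1 := pow_le_pow_right_of_le_one' hγ (by omega)
    _ = γ := pow_one _

theorem Sf.mul0 {n m : ℕ} {f g : K[X]} (hγ : γ ≤ 1) (hf : Sf α γ n f) (hg : Sf0 α γ m g) :
    Sf0 α γ (n + m) (f * g) := by
  refine ⟨hf.mul hγ hg.1, ?_⟩
  have h1 := hf.coeff_mul_sub hγ hg.1
  have h2 : O.valuation (f.coeff n * g.coeff m) * α ^ (n + m) ≤ α ^ (2 * (n + m)) * γ := by
    have h3 := mul_le_mul' (hf n) hg.2
    calc _ = (O.valuation (f.coeff n) * α ^ n) * (O.valuation (g.coeff m) * α ^ m) := by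
          rw [map_mul, pow_add]
          ac_rfl
      _ ≤ _ := h3
      _ = _ := by
          rw [Nat.sub_self, pow_zero, mul_one, mul_add, pow_add]
          ac_rfl
  have h4 := val_add_mul_le h1 h2
  rwa [sub_add_cancel] at h4

theorem Sf.one : Sf α γ 0 (1 : K[X]) := by
  intro j
  rw [coeff_one]
  split_ifs with h
  · simp [h]
  · simp

theorem Sf.C {c : K} (hc : O.valuation c ≤ 1) : Sf α γ 0 (Polynomial.C c) := by
  intro j
  rw [coeff_C]
  split_ifs with h
  · simpa [h] using hc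
  · simp

theorem Sf.pow {n : ℕ} {f : K[X]} (hγ : γ ≤ 1) (hf : Sf α γ n f) (m : ℕ) :
    Sf α γ (m * n) (f ^ m) := by
  induction m with
  | zero => simpa using Sf.one
  | succ m ih =>
    rw [pow_succ, Nat.succ_mul]
    exact ih.mul hγ hf

theorem Sf.prod {ι : Type*} {s : Finset ι} {n : ι → ℕ} {f : ι → K[X]} (hγ : γ ≤ 1)
    (h : ∀ i ∈ s, Sf α γ (n i) (f i)) : Sf α γ (∑ i ∈ s, n i) (∏ i ∈ s, f i) := by
  classical
  induction s using Finset.induction_on with
  | empty => simpa using Sf.one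
  | insert a s ha ih =>
    rw [Finset.sum_insert ha, Finset.prod_insert ha]
    exact (h a (Finset.mem_insert_self _ _)).mul hγ
      (ih fun i hi => h i (Finset.mem_insert_of_mem hi))

/-- the middle coefficient is maximal. -/
def Um (α γ : O.ValueGroup) (n : ℕ) (f : K[X]) : Prop :=
  Sf α γ n f ∧ O.valuation (f.coeff n) = α ^ n

theorem Um.mul {n m : ℕ} {f g : K[X]} (hα : α ≠ 0) (hγ : γ < 1) (hf : Um α γ n f)
    (hg : Um α γ m g) : Um α γ (n + m) (f * g) := by
  refine ⟨hf.1.mul hγ.le hg.1, ?_⟩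
  have h1 := hf.1.coeff_mul_sub hγ.le hg.1
  have h2 : O.valuation (f.coeff n * g.coeff m) = α ^ (n + m) := by
    rw [map_mul, hf.2, hg.2, pow_add]
  have hpos : 0 < α ^ (n + m) := zero_lt_iff.mpr (pow_ne_zero _ hα)
  have h3 : O.valuation ((f * g).coeff (n + m) - f.coeff n * g.coeff m) < α ^ (n + m) := by
    by_contra hcon
    push Not at hcon
    have h4 : α ^ (n + m) * α ^ (n + m) ≤ α ^ (2 * (n + m)) * γ :=
      le_trans (by gcongr) h1
    have h5 : α ^ (2 * (n + m)) * γ < α ^ (2 * (n + m)) * 1 :=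
      mul_lt_mul_of_pos_left hγ (zero_lt_iff.mpr (pow_ne_zero _ hα))
    have h6 : α ^ (2 * (n + m)) = α ^ (n + m) * α ^ (n + m) := by rw [two_mul, pow_add]
    rw [mul_one] at h5
    rw [← h6] at h4
    exact absurd h4 (not_le.mpr h5)
  have h4 : (f * g).coeff (n + m) = ((f * g).coeff (n + m) - f.coeff n * g.coeff m) +
      f.coeff n * g.coeff m := by ring
  rw [h4, Valuation.map_add_eq_of_lt_right _ (by rw [h2]; exact h3)]
  exact h2

theorem Um.one : Um α γ 0 (1 : K[X]) := ⟨Sf.one, by simp⟩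

theorem Um.pow {n : ℕ} {f : K[X]} (hα : α ≠ 0) (hγ : γ < 1) (hf : Um α γ n f) (m : ℕ) :
    Um α γ (m * n) (f ^ m) := by
  induction m with
  | zero => simpa using Um.one
  | succ m ih =>
    rw [pow_succ, Nat.succ_mul]
    exact ih.mul hα hγ hf

theorem Um.prod {ι : Type*} {s : Finset ι} {n : ι → ℕ} {f : ι → K[X]} (hα : α ≠ 0) (hγ : γ < 1)
    (h : ∀ i ∈ s, Um α γ (n i) (f i)) : Um α γ (∑ i ∈ s, n i) (∏ i ∈ s, f i) := by
  classical
  induction s using Finset.induction_on with
  | empty => simpa using Um.one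
  | insert a s ha ih =>
    rw [Finset.sum_insert ha, Finset.prod_insert ha]
    exact (h a (Finset.mem_insert_self _ _)).mul hα hγ
      (ih fun i hi => h i (Finset.mem_insert_of_mem hi))

end fil

section aev

variable {k : Type u} [Field k] {K : Type u} [Field K] [Algebra k K] {O : ValuationSubring K}
  {α γ : O.ValueGroup}

theorem Sf.aeval {σ : Type} [Fintype σ] (hk : ∀ a : k, O.valuation (algebraMap k K a) ≤ 1)
    (hγ : γ ≤ 1) {d : σ → ℕ} {n : ℕ} {p : MvPolynomial σ k}
    (hp : ∀ m ∈ p.support, ∑ x, m x * d x = n) {G : σ → K[X]} (hG : ∀ x, Sf α γ (d x) (G x)) :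
    Sf α γ n (MvPolynomial.aeval G p) := by
  rw [MvPolynomial.aeval_def, MvPolynomial.eval₂_eq']
  refine Sf.sum fun m hm => ?_
  have h1 : Sf α γ (0 + ∑ x, m x * d x) (algebraMap k K[X] (p.coeff m) * ∏ x, G x ^ m x) := by
    refine Sf.mul hγ ?_ (Sf.prod hγ fun x _ => (hG x).pow hγ (m x))
    rw [IsScalarTower.algebraMap_apply k K K[X]]
    exact Sf.C (hk _)
  rwa [zero_add, hp m hm] at h1

end aev

section neck

variable {I : Type} {J : I → Type} [Fintype I] [∀ i, Fintype (J i)]
variable {k : Type u} [Field k] {K : Type u} [Field K] [Algebra k K] {O : ValuationSubring K}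
  {α γ : O.ValueGroup}

/-- weighted degree of the coefficients of the contact form. -/
theorem CForm.wdeg {E : Set (MvPolynomial (Σ i, J i) k)} {w : I → ℤ} (th : CForm E w)
    (β : I → ℕ) (hβ : ∑ i, w i * (β i : ℤ) = 1) (c : ∀ i, J i) (x : Σ i, J i)
    (m : (Σ i, J i) →₀ ℕ) (hm : m ∈ (th.p c x).support) :
    (∑ y : Σ i, J i, m y * β y.1) + β x.1 = th.N * (∑ i, β i) + 1 := by
  classical
  have h1 := fun i => th.hom c x m hm i
  have h2 : (∑ y : Σ i, J i, m y * β y.1) = ∑ i, (∑ a, m ⟨i, a⟩) * β i := by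
    rw [Fintype.sum_sigma]
    refine Finset.sum_congr rfl fun i _ => ?_
    rw [Finset.sum_mul]
  have h3 : ∑ i, ((((∑ a, m ⟨i, a⟩ : ℕ) : ℤ) + (if x.1 = i then 1 else 0)) * (β i : ℤ)) =
      ∑ i, (((th.N : ℤ) + w i) * (β i : ℤ)) := by
    refine Finset.sum_congr rfl fun i _ => ?_
    rw [← h1 i]
  have h4 : ((∑ y : Σ i, J i, m y * β y.1 : ℕ) : ℤ) + (β x.1 : ℤ) =
      (th.N : ℤ) * (∑ i, (β i : ℤ)) + 1 := by
    rw [h2, ← hβ, Finset.mul_sum, ← Finset.sum_add_distrib]
    have h5 : ∑ i, ((if x.1 = i then (1 : ℤ) else 0) * (β i : ℤ)) = β x.1 := by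
      simp
    calc _ = ∑ i, ((((∑ a, m ⟨i, a⟩ : ℕ) : ℤ) + (if x.1 = i then 1 else 0)) * (β i : ℤ)) := by
          rw [← h5]
          push_cast
          rw [← Finset.sum_add_distrib]
          refine Finset.sum_congr rfl fun i _ => ?_
          ring
      _ = _ := by
          rw [h3]
          refine Finset.sum_congr rfl fun i _ => ?_
          ring
  exact_mod_cast h4

theorem Sf0.euler {n : ℕ} {f : K[X]} (hf : Sf α γ n f) :
    Sf0 α γ n (X * derivative f - Polynomial.C (n : K) * f) := by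
  have h1 : ∀ j : ℕ, (X * derivative f - Polynomial.C (n : K) * f).coeff j =
      ((j : K) - n) * f.coeff j := by
    intro j
    rw [coeff_sub, coeff_C_mul]
    cases j with
    | zero => simp
    | succ j =>
      rw [coeff_X_mul, coeff_derivative]
      push_cast
      ring
  have h2 : ∀ j : ℕ, O.valuation ((j : K) - n) ≤ 1 := by
    intro j
    rw [O.valuation_le_one_iff]
    exact sub_mem (natCast_mem _ _) (natCast_mem _ _)
  refine ⟨fun j => ?_, ?_⟩
  · rw [h1, map_mul, mul_assoc]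
    calc _ ≤ 1 * (O.valuation (f.coeff j) * α ^ j) := by
          gcongr
          exact h2 j
      _ ≤ _ := by
        rw [one_mul]
        exact hf j
  · rw [h1, sub_self, zero_mul, map_zero, zero_mul]
    exact zero_le

theorem neck_aux {E : Set (MvPolynomial (Σ i, J i) k)} {w : I → ℤ} (th : CForm E w)
    {β : I → ℕ} (hβ : ∑ i, w i * (β i : ℤ) = 1)
    (hk : ∀ a : k, O.valuation (algebraMap k K a) ≤ 1) (hγ : γ ≤ 1)
    {F : ∀ i, J i → K[X]} (hF : OnX E F) (hS : ∀ i x, Sf α γ (β i) (F i x)) (c : ∀ i, J i) :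
    Sf0 α γ (th.N * (∑ i, β i) + 1)
      (X * form (th.p c) F (fun i x => derivative (F i x))) := by
  have h1 : X * form (th.p c) F (fun i x => derivative (F i x)) =
      ∑ x : Σ i, J i, MvPolynomial.aeval (fun y : Σ i, J i => F y.1 y.2) (th.p c x) *
        (X * derivative (F x.1 x.2) - Polynomial.C ((β x.1 : ℕ) : K) * F x.1 x.2) := by
    have h2 : ∑ x : Σ i, J i, MvPolynomial.aeval (fun y : Σ i, J i => F y.1 y.2) (th.p c x) *
        (Polynomial.C ((β x.1 : ℕ) : K) * F x.1 x.2) = 0 := by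
      rw [Fintype.sum_sigma]
      refine Finset.sum_eq_zero fun i _ => ?_
      have h3 := th.euler K[X] F hF c i
      calc _ = Polynomial.C ((β i : ℕ) : K) * ∑ a,
            MvPolynomial.aeval (fun y : Σ i, J i => F y.1 y.2) (th.p c ⟨i, a⟩) * F i a := by
            rw [Finset.mul_sum]
            refine Finset.sum_congr rfl fun a _ => ?_
            ring
        _ = 0 := by rw [h3, mul_zero]
    rw [form, Finset.mul_sum, ← sub_zero (∑ x : Σ i, J i, X * _), ← h2,
      ← Finset.sum_sub_distrib]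
    refine Finset.sum_congr rfl fun x _ => ?_
    ring
  rw [h1]
  refine Sf0.sum fun x _ => ?_
  by_cases hp : th.p c x = 0
  · rw [hp, map_zero, zero_mul]
    exact Sf0.zero _
  · obtain ⟨m₀, hm₀⟩ := MvPolynomial.support_nonempty.mpr hp
    have h3 := th.wdeg β hβ c x m₀ hm₀
    have h4 : Sf α γ (∑ y : Σ i, J i, m₀ y * β y.1)
        (MvPolynomial.aeval (fun y : Σ i, J i => F y.1 y.2) (th.p c x)) := by
      refine Sf.aeval (d := fun y : Σ i, J i => β y.1) hk hγ (fun m hm => ?_)
        fun y => hS y.1 y.2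
      have h5 := th.wdeg β hβ c x m hm
      omega
    rw [← h3]
    exact h4.mul0 hγ (Sf0.euler (hS x.1 x.2))

/-- the neck lemma: if the middle coefficients are maximal, the contact constant is bounded by
the inner radius. -/
theorem neck_lt {E : Set (MvPolynomial (Σ i, J i) k)} {w : I → ℤ} (th : CForm E w)
    {β : I → ℕ} (hβ : ∑ i, w i * (β i : ℤ) = 1)
    (hk : ∀ a : k, O.valuation (algebraMap k K a) ≤ 1) (hα : α ≠ 0) (hγ : γ < 1)
    {F : ∀ i, J i → K[X]} (hF : OnX E F) (hS : ∀ i x, Sf α γ (β i) (F i x))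
    (c : ∀ i, J i) (hU : ∀ i, O.valuation ((F i (c i)).coeff (β i)) = α ^ β i) {q : K}
    (hq : th.Val F (fun i x => derivative (F i x)) (Polynomial.C q)) :
    O.valuation q ≤ α * γ := by
  have h1 : Um α γ (th.N * ∑ i, β i) (den c F ^ th.N) :=
    Um.pow hα hγ (Um.prod hα hγ fun i _ => ⟨hS i (c i), hU i⟩) _
  have h2 := (neck_aux th hβ hk hγ.le hF hS c).2
  rw [← hq c, coeff_X_mul, coeff_mul_C, map_mul, h1.2] at h2
  set D := th.N * ∑ i, β i
  have hpos : 0 < α ^ (2 * D + 1) := zero_lt_iff.mpr (pow_ne_zero _ hα)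
  have h3 : α ^ (2 * D + 1) * O.valuation q ≤ α ^ (2 * D + 1) * (α * γ) := by
    calc _ = α ^ D * O.valuation q * α ^ (D + 1) := by
          rw [show 2 * D + 1 = D + (D + 1) by ring, pow_add]
          ac_rfl
      _ ≤ _ := h2
      _ = _ := by
          rw [show 2 * (D + 1) = (2 * D + 1) + 1 by ring, pow_succ α (2 * D + 1), mul_assoc]
  exact le_of_mul_le_mul_left h3 hpos

theorem coeff_prod_le {ι : Type*} {s : Finset ι} {f : ι → K[X]} {n : ι → ℕ}
    (h : ∀ i ∈ s, (f i).natDegree ≤ n i) :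
    (∏ i ∈ s, f i).coeff (∑ i ∈ s, n i) = ∏ i ∈ s, (f i).coeff (n i) := by
  classical
  induction s using Finset.induction_on with
  | empty => simp
  | insert a s ha ih =>
    rw [Finset.sum_insert ha, Finset.prod_insert ha, Finset.prod_insert ha,
      coeff_mul_add_eq_of_natDegree_le (h a (Finset.mem_insert_self _ _)) ?_,
      ih fun i hi => h i (Finset.mem_insert_of_mem hi)]
    exact (natDegree_prod_le _ _).trans
      (Finset.sum_le_sum fun i hi => h i (Finset.mem_insert_of_mem hi))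

/-- the contact constant is bounded by the outer radius. -/
theorem neck_one {E : Set (MvPolynomial (Σ i, J i) k)} {w : I → ℤ} (th : CForm E w)
    {β : I → ℕ} (hβ : ∑ i, w i * (β i : ℤ) = 1)
    (hk : ∀ a : k, O.valuation (algebraMap k K a) ≤ 1) (hα : α ≠ 0) (hγ : γ ≤ 1)
    {F : ∀ i, J i → K[X]} (hF : OnX E F) (hS : ∀ i x, Sf α γ (β i) (F i x))
    (c : ∀ i, J i) (hd : ∀ i, (F i (c i)).natDegree ≤ 2 * β i)
    (hU : ∀ i, O.valuation ((F i (c i)).coeff (2 * β i)) = 1) {q : K}
    (hq : th.Val F (fun i x => derivative (F i x)) (Polynomial.C q)) :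
    O.valuation q ≤ α := by
  have h1 : (den c F ^ th.N).coeff (th.N * ∑ i, 2 * β i) =
      (∏ i, (F i (c i)).coeff (2 * β i)) ^ th.N := by
    have h2 : (den c F).natDegree ≤ ∑ i, 2 * β i :=
      (natDegree_prod_le _ _).trans (Finset.sum_le_sum fun i _ => hd i)
    rw [coeff_pow_of_natDegree_le h2]
    congr 1
    exact coeff_prod_le fun i _ => hd i
  have h2 := (neck_aux th hβ hk hγ hF hS c).1 (th.N * (∑ i, 2 * β i) + 1)
  rw [← hq c, coeff_X_mul, coeff_mul_C, map_mul, h1, map_pow, map_prod,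
    Finset.prod_congr rfl fun i _ => hU i, Finset.prod_const_one, one_pow, one_mul,
    ← Finset.mul_sum] at h2
  set D := th.N * ∑ i, β i with hD
  have h3 : th.N * (2 * ∑ i, β i) = 2 * D := by rw [hD]; ring
  rw [h3] at h2
  have hpos : 0 < α ^ (2 * D + 1) := zero_lt_iff.mpr (pow_ne_zero _ hα)
  have h4 : α ^ (2 * D + 1) * O.valuation q ≤ α ^ (2 * D + 1) * α := by
    calc _ = O.valuation q * α ^ (2 * D + 1) := mul_comm _ _
      _ ≤ _ := h2
      _ ≤ α ^ (2 * (D + 1)) * 1 := by
          gcongr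
          exact pow_le_one' hγ _
      _ = _ := by
          rw [show 2 * (D + 1) = (2 * D + 1) + 1 by ring, pow_succ α (2 * D + 1), mul_one]
  exact le_of_mul_le_mul_left h4 hpos

end neck

end Crest.Agent.R260.Lin_678
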