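import Mathlib
import Crest.Agent.R260.Loc1_678
import Crest.Agent.R270.Fin_305

/-!
Row 260 (S0398), local part of LIN: the two radii of a map of `L`-degree two over a valued field,
the bound for the contact constant and for the derivative (REG).
-/

set_option autoImplicit false

namespace Crest.Agent.R260.Lin_678

open Polynomial IsLocalRing
open Crest.Agent.R270.BM_360 Crest.Agent.R270.Fin_305

universe u

section newton

variable {I : Type} {J : I → Type}
variable {k : Type u} [Field k] {L : Type u} [Field L] [Algebra k L] {O : ValuationSubring L}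

theorem lam0_mul [∀ i, Fintype (J i)] {E : Set (MvPolynomial (Σ i, J i) k)} {β : I → ℕ}
    (hcls : ∀ (κ : Type u) [Field κ] [Algebra k κ] (F : ∀ i, J i → Polynomial κ),
      IsMap E F → ∃ e : ℕ, cls F = e • β) {b : I → ℕ} (hb : b ∈ Lam0 E) : ∃ e : ℕ, b = e • β := by
  refine AddSubmonoid.closure_induction (motive := fun b _ => ∃ e : ℕ, b = e • β) ?_ ?_ ?_ hb
  · rintro b ⟨κ, _, _, _, F, hF, rfl⟩
    exact hcls κ F hF
  · exact ⟨0, by simp⟩
  · rintro x y _ _ ⟨e, rfl⟩ ⟨e', rfl⟩
    exact ⟨e + e', by rw [add_smul]⟩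

theorem exists_lead {κ : Type u} [Field κ] {T : Type} [Fintype T] {r : T → κ[X]} (hr : r ≠ 0) :
    ∃ a, (r a).coeff (vdeg r) ≠ 0 := by
  obtain ⟨b, hb⟩ := Function.ne_iff.mp hr
  obtain ⟨a, -, ha⟩ := Finset.exists_mem_eq_sup (Finset.univ : Finset T) ⟨b, Finset.mem_univ b⟩
    (fun a => (r a).natDegree)
  have ha' : vdeg r = (r a).natDegree := ha
  by_cases h0 : r a = 0
  · rw [h0, natDegree_zero] at ha'
    have h1 : (r b).natDegree ≤ vdeg r :=
      Finset.le_sup (f := fun a => (r a).natDegree) (Finset.mem_univ b)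
    refine ⟨b, ?_⟩
    have h2 : vdeg r = (r b).natDegree := by omega
    rw [h2, coeff_natDegree, Ne, leadingCoeff_eq_zero]
    exact hb
  · refine ⟨a, ?_⟩
    rw [ha', coeff_natDegree, Ne, leadingCoeff_eq_zero]
    exact h0

/-- the Newton polygon of a map at one scale: the indices where the maximum is attained first and
last are multiples of `β` with a common factor. -/
theorem newton [IsAlgClosed L] [Fintype I] [∀ i, Fintype (J i)]
    {E : Set (MvPolynomial (Σ i, J i) k)} (hE : MHom E) {β : I → ℕ}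
    (hlam : ∀ b ∈ Lam0 E, ∃ e : ℕ, b = e • β) (hk : ∀ a : k, algebraMap k L a ∈ O)
    {F : ∀ i, J i → L[X]} (hF : IsMap E F) {π : L} {μ : I → L} (hμ0 : ∀ i, μ i ≠ 0)
    (hle : ∀ i a j, O.valuation ((F i a).coeff j * π ^ j) ≤ O.valuation (μ i))
    (hatt : ∀ i, ∃ a j, O.valuation ((F i a).coeff j * π ^ j) = O.valuation (μ i)) :
    ∃ e₀ e₁ : ℕ, e₀ ≤ e₁ ∧ ∀ i,
      (∃ a, O.valuation ((F i a).coeff (e₀ * β i) * π ^ (e₀ * β i)) = O.valuation (μ i)) ∧
      (∀ a j, j < e₀ * β i → O.valuation ((F i a).coeff j * π ^ j) < O.valuation (μ i)) ∧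
      (∃ a, O.valuation ((F i a).coeff (e₁ * β i) * π ^ (e₁ * β i)) = O.valuation (μ i)) ∧
      (∀ a j, e₁ * β i < j → O.valuation ((F i a).coeff j * π ^ j) < O.valuation (μ i)) := by
  classical
  let _ : Algebra k O := ((algebraMap k L).codRestrict O.toSubring hk).toAlgebra
  have _ : IsScalarTower k O L := IsScalarTower.of_algebraMap_eq fun _ => rfl
  have hmap2 : IsMap E (fun i a => (F i a).comp (C π * X)) := hF.comp _
  set F₂ : ∀ i, J i → L[X] := fun i a => (F i a).comp (C π * X) with hF₂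
  have hcoef : ∀ i a j, (F₂ i a).coeff j = (F i a).coeff j * π ^ j := by
    intro i a j
    rw [hF₂]
    exact comp_C_mul_X_coeff
  have hμv : ∀ i, 0 < O.valuation (μ i) := fun i => by
    rw [zero_lt_iff, Ne, Valuation.zero_iff]; exact hμ0 i
  have hred2 : ∀ i, ∃ r, RedBy O (μ i)⁻¹ (F₂ i) r := by
    intro i
    refine exists_redBy (inv_ne_zero (hμ0 i)) fun a j => ?_
    rw [hcoef, map_mul, map_inv₀, inv_mul_le_one₀ (hμv i)]
    exact hle i a j
  choose R₂ hR₂ using hred2
  have hz : ∀ i a j, (R₂ i a).coeff j = 0 ↔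
      O.valuation ((F i a).coeff j * π ^ j) < O.valuation (μ i) := by
    intro i a j
    rw [(hR₂ i).coeff_eq_zero, hcoef, map_mul, map_inv₀, inv_mul_lt_one₀ (hμv i)]
  have hnz : ∀ i a j, (R₂ i a).coeff j ≠ 0 ↔
      O.valuation ((F i a).coeff j * π ^ j) = O.valuation (μ i) := by
    intro i a j
    rw [Ne, hz, not_lt]
    exact ⟨fun h => le_antisymm (hle i a j) h, fun h => h.ge⟩
  have hR₂0 : ∀ i, R₂ i ≠ 0 := by
    intro i h
    obtain ⟨a, j, haj⟩ := hatt i
    have := (hnz i a j).mpr haj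
    apply this
    rw [h]; simp
  have hred : ∀ i, IsRed O (F₂ i) (R₂ i) := fun i => ⟨hR₂0 i, _, hR₂ i⟩
  obtain ⟨e₀, he₀⟩ := hlam _ (tree0 hE hmap2 hred 0)
  obtain ⟨e', he'⟩ := hlam _ (tree0_annulus hE hmap2 hred)
  have h0 : ∀ i, vmul 0 (R₂ i) = e₀ * β i := fun i => by
    have := congrFun he₀ i
    simpa using this
  have h1 : ∀ i, vdeg (R₂ i) = (e₀ + e') * β i := fun i => by
    have h2 := congrFun he' i
    have h3 := vmul_le_vdeg (hR₂0 i) 0
    have h4 := h0 i
    simp only [Pi.smul_apply, smul_eq_mul] at h2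
    rw [add_mul]
    omega
  refine ⟨e₀, e₀ + e', Nat.le_add_right _ _, fun i => ⟨?_, ?_, ?_, ?_⟩⟩
  · by_contra hcon
    push Not at hcon
    have h2 : e₀ * β i + 1 ≤ vmul 0 (R₂ i) := by
      rw [le_vmul_zero_iff (hR₂0 i)]
      intro a j hj
      rcases Nat.lt_succ_iff_lt_or_eq.mp hj with h | h
      · exact (le_vmul_zero_iff (hR₂0 i) _).mp (h0 i).ge a j h
      · rw [h]
        by_contra hne
        exact hcon a ((hnz i a _).mp hne)
    rw [h0 i] at h2
    omega
  · intro a j hj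
    rw [← hz]
    exact (le_vmul_zero_iff (hR₂0 i) _).mp (h0 i).ge a j hj
  · obtain ⟨a, ha⟩ := exists_lead (hR₂0 i)
    rw [h1 i] at ha
    exact ⟨a, (hnz i a _).mp ha⟩
  · intro a j hj
    rw [← hz]
    refine coeff_eq_zero_of_natDegree_lt (lt_of_le_of_lt ?_ hj)
    rw [← h1 i]
    exact Finset.le_sup (f := fun a => (R₂ i a).natDegree) (Finset.mem_univ a)

/-- **the two radii** of a map of `L`-degree two with unimodular leading vectors. -/
theorem radii [IsAlgClosed L] [Fintype I] [Nonempty I] [∀ i, Fintype (J i)]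
    {E : Set (MvPolynomial (Σ i, J i) k)} (hE : MHom E) {β : I → ℕ} (hβ0 : ∀ i, 0 < β i)
    (hlam : ∀ b ∈ Lam0 E, ∃ e : ℕ, b = e • β) (hk : ∀ a : k, algebraMap k L a ∈ O)
    {F : ∀ i, J i → L[X]} (hF : IsMap E F) (hcls : cls F = 2 • β)
    (hl : ∀ i, ∃ x, O.valuation ((F i x).coeff (2 * β i)) = 1)
    (hl1 : ∀ i x, O.valuation ((F i x).coeff (2 * β i)) ≤ 1) :
    ∃ a b : L, a ≠ 0 ∧ b ≠ 0 ∧ O.valuation b ≤ O.valuation a ∧
      (∀ i x, Sf (O.valuation a) (O.valuation b / O.valuation a) (β i) (F i x)) ∧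
      (∀ i, ∃ x, O.valuation ((F i x).coeff 0) = (O.valuation a * O.valuation b) ^ β i) ∧
      (O.valuation b < O.valuation a →
        ∀ i, ∃ x, O.valuation ((F i x).coeff (β i)) = O.valuation a ^ β i) := by
  classical
  choose xl hxl using hl
  have hgt : ∀ i x j, 2 * β i < j → (F i x).coeff j = 0 := by
    intro i x j hj
    refine coeff_eq_zero_of_natDegree_lt (lt_of_le_of_lt ?_ hj)
    have : (F i x).natDegree ≤ cls F i :=
      Finset.le_sup (f := fun a => (F i a).natDegree) (Finset.mem_univ x)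
    rw [hcls] at this
    simpa using this
  obtain ⟨i₀⟩ := (inferInstance : Nonempty I)
  obtain ⟨a₀, ha₀⟩ := exists_coeff_zero_ne (hF.cop i₀)
  have hbl : ∀ i, (F i (xl i)).coeff (2 * β i) ≠ 0 := by
    intro i h0
    have := hxl i
    rw [h0, map_zero] at this
    exact zero_ne_one this
  obtain ⟨π, hπ0, hle, i₁, a₁, j₁, hj₁, heq⟩ := exists_outer (O := O) (c := fun i => 2 * β i)
    (b := xl) hbl (fun i a => by rw [hxl]; exact hl1 i a) hgt (i₀ := i₀)
    (by have := hβ0 i₀; omega) ha₀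
  have hπv : O.valuation π ≠ 0 := by rw [Ne, Valuation.zero_iff]; exact hπ0
  have hμ : ∀ i, O.valuation ((F i (xl i)).coeff (2 * β i) * π ^ (2 * β i)) =
      O.valuation π ^ (2 * β i) := fun i => by
    rw [map_mul, hxl, one_mul, map_pow]
  obtain ⟨e₀, e₁, he, hn⟩ := newton (O := O) hE hlam hk hF (π := π)
    (μ := fun i => (F i (xl i)).coeff (2 * β i) * π ^ (2 * β i))
    (fun i => mul_ne_zero (hbl i) (pow_ne_zero _ hπ0)) hle (fun i => ⟨xl i, 2 * β i, rfl⟩)
  have he₀ : e₀ ≤ 1 := by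
    by_contra hcon
    push Not at hcon
    have h1 : 2 * β i₁ ≤ e₀ * β i₁ := Nat.mul_le_mul_right _ hcon
    have h2 := (hn i₁).2.1 a₁ j₁ (lt_of_lt_of_le hj₁ h1)
    rw [heq] at h2
    exact lt_irrefl _ h2
  have hle' : ∀ i x j, O.valuation ((F i x).coeff j) * O.valuation π ^ j ≤
      O.valuation π ^ (2 * β i) := by
    intro i x j
    have h1 := hle i x j
    rw [hμ i, map_mul, map_pow] at h1
    exact h1
  rcases Nat.le_one_iff_eq_zero_or_eq_one.mp he₀ with h0 | h1
  · -- one radius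
    refine ⟨π, π, hπ0, hπ0, le_rfl, fun i x j => ?_, fun i => ?_, fun h => absurd h (lt_irrefl _)⟩
    · rw [div_self hπv, one_pow, mul_one]
      exact hle' i x j
    · obtain ⟨x, hx⟩ := (hn i).1
      refine ⟨x, ?_⟩
      rw [hμ i, h0, zero_mul, pow_zero, mul_one] at hx
      rw [hx, ← sq, ← pow_mul]
  · -- two radii
    rw [h1] at hn
    have hmid : ∀ i, ∃ x, O.valuation ((F i x).coeff (β i)) = O.valuation π ^ β i := by
      intro i
      obtain ⟨x, hx⟩ := (hn i).1
      refine ⟨x, ?_⟩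
      rw [hμ i, one_mul, map_mul, map_pow, two_mul, pow_add] at hx
      exact mul_right_cancel₀ (pow_ne_zero _ hπv) hx
    choose xm hxm using hmid
    set F₂ : ∀ i, J i → L[X] := fun i a => (F i a).comp (C π * X) with hF₂
    have hcoef : ∀ i a j, (F₂ i a).coeff j = (F i a).coeff j * π ^ j := by
      intro i a j
      rw [hF₂]
      exact comp_C_mul_X_coeff
    have hμ2 : ∀ i, O.valuation ((F₂ i (xm i)).coeff (β i)) = O.valuation π ^ (2 * β i) := by
      intro i
      rw [hcoef, map_mul, map_pow, hxm, two_mul, pow_add]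
    obtain ⟨ρ, hρ0, hρ1, hc1, hc2, i₂, a₂, j₂, hj₂, hne₂, heq₂⟩ := exists_crit (O := O) (F := F₂)
      (N := β) (b := xm) (fun i a j => by
        rw [hμ2, hcoef, map_mul, map_pow]
        exact hle' i a j)
      (fun i a j hj => by
        rw [hμ2, hcoef]
        have h2 := (hn i).2.1 a j (by rw [one_mul]; exact hj)
        rw [hμ i] at h2
        exact h2)
      (i₀ := i₀) (hβ0 i₀) (a₀ := a₀) (by rw [hcoef, pow_zero, mul_one]; exact ha₀)
    have hρv : O.valuation ρ ≠ 0 := by rw [Ne, Valuation.zero_iff]; exact hρ0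
    have hmul : ∀ i a j, (F₂ i a).coeff j * ρ ^ j = (F i a).coeff j * (π * ρ) ^ j := by
      intro i a j
      rw [hcoef, mul_pow, mul_assoc]
    have hμ3 : ∀ i, O.valuation ((F₂ i (xm i)).coeff (β i) * ρ ^ β i) =
        (O.valuation π * O.valuation (π * ρ)) ^ β i := by
      intro i
      rw [map_mul, hμ2, map_pow, map_mul, mul_pow, mul_pow, two_mul, pow_add, mul_assoc]
    have hne : ∀ i, (F₂ i (xm i)).coeff (β i) ≠ 0 := by
      intro i h0
      have := hμ2 i
      rw [h0, map_zero] at this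
      exact pow_ne_zero _ hπv this.symm
    obtain ⟨e₂, e₃, he', hn'⟩ := newton (O := O) hE hlam hk hF (π := π * ρ)
      (μ := fun i => (F₂ i (xm i)).coeff (β i) * ρ ^ β i)
      (fun i => mul_ne_zero (hne i) (pow_ne_zero _ hρ0))
      (fun i a j => by rw [← hmul]; exact hc1 i a j)
      (fun i => ⟨xm i, β i, by rw [← hmul]⟩)
    have he₂ : e₂ = 0 := by
      by_contra hcon
      have h2 : β i₂ ≤ e₂ * β i₂ := Nat.le_mul_of_pos_left _ (Nat.pos_of_ne_zero hcon)
      have h3 := (hn' i₂).2.1 a₂ j₂ (lt_of_lt_of_le hj₂ h2)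
      rw [← hmul, heq₂] at h3
      exact lt_irrefl _ h3
    have hba : O.valuation (π * ρ) ≤ O.valuation π := by
      rw [map_mul]
      exact mul_le_of_le_one_right' hρ1.le
    refine ⟨π, π * ρ, hπ0, mul_ne_zero hπ0 hρ0, hba, fun i x j => ?_, fun i => ?_,
      fun _ i => ⟨xm i, hxm i⟩⟩
    · have hdiv : O.valuation (π * ρ) / O.valuation π = O.valuation ρ := by
        rw [map_mul, mul_div_cancel_left₀ _ hπv]
      rw [hdiv]
      rcases le_total (β i) j with hj | hj
      · rw [Nat.sub_eq_zero_of_le hj, pow_zero, mul_one]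
        exact hle' i x j
      · have h2 := hc1 i x j
        rw [hmul, hμ3 i, map_mul, map_pow] at h2
        have h3 : 0 < O.valuation ρ ^ j := zero_lt_iff.mpr (pow_ne_zero _ hρv)
        refine le_of_mul_le_mul_right ?_ h3
        calc _ = O.valuation ((F i x).coeff j) * O.valuation (π * ρ) ^ j := by
              rw [map_mul, mul_pow, mul_assoc]
          _ ≤ _ := h2
          _ = O.valuation π ^ (2 * β i) * O.valuation ρ ^ β i := by
              rw [map_mul, mul_pow, mul_pow, two_mul, pow_add, mul_assoc]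
          _ = _ := by
              rw [mul_assoc, ← pow_add, Nat.sub_add_cancel hj]
    · obtain ⟨x, hx⟩ := (hn' i).1
      refine ⟨x, ?_⟩
      rw [he₂, zero_mul, pow_zero, mul_one, hμ3 i] at hx
      exact hx

end newton

section reg

variable {I : Type} {J : I → Type} [Fintype I] [∀ i, Fintype (J i)]
variable {k : Type u} [Field k] {K : Type u} [Field K] [Algebra k K] [IsAlgClosed K]
  {O : ValuationSubring K}

theorem pow_div_aux {Γ : Type*} [CommGroupWithZero Γ] {a b : Γ} (ha : a ≠ 0) (n : ℕ) :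
    a ^ (2 * (n + 1)) * (b / a) ^ n = a ^ (n + 1) * b ^ n * a := by
  rw [div_pow, mul_div_assoc', div_eq_iff (pow_ne_zero _ ha),
      show 2 * (n + 1) = (n + 1) + 1 + n by ring, pow_add _ (n + 1 + 1), pow_succ _ (n + 1)]
  simp only [mul_comm, mul_left_comm]

theorem CData.nonempty (D : CData k I J) : Nonempty I := by
  by_contra h
  rw [not_nonempty_iff] at h
  have h1 := D.wβ
  rw [Fintype.sum_empty] at h1
  exact zero_ne_one h1

theorem CData.lam0 (D : CData k I J) : ∀ b ∈ Lam0 D.E, ∃ e : ℕ, b = e • D.β :=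
  fun _ hb => lam0_mul D.cls_eq hb

omit [Fintype I] in
theorem natDegree_le_cls {κ : Type u} [Field κ] (F : ∀ i, J i → κ[X]) (i : I) (x : J i) :
    (F i x).natDegree ≤ cls F i :=
  Finset.le_sup (f := fun a => (F i a).natDegree) (Finset.mem_univ x)

/-- **REG with radii**: the two radii of a map of `L`-degree two, the neck lemma `v q ≤ v b` for the
contact constant `q`, the bound for the derivative at `0`. -/
theorem CData.reg_radii (D : CData k I J) (hk : ∀ a : k, algebraMap k K a ∈ O)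
    {F : ∀ i, J i → K[X]} (hF : IsMap D.E F) (hcls : cls F = 2 • D.β)
    (hl : ∀ i, ∃ x, O.valuation ((F i x).coeff (2 * D.β i)) = 1)
    (hl1 : ∀ i x, O.valuation ((F i x).coeff (2 * D.β i)) ≤ 1) :
    ∃ a b : K, a ≠ 0 ∧ b ≠ 0 ∧ O.valuation b ≤ O.valuation a ∧
      (∀ i x, Sf (O.valuation a) (O.valuation b / O.valuation a) (D.β i) (F i x)) ∧
      (∀ i, ∃ x, O.valuation ((F i x).coeff 0) = (O.valuation a * O.valuation b) ^ D.β i) ∧
      (O.valuation b < O.valuation a →
        ∀ i, ∃ x, O.valuation ((F i x).coeff (D.β i)) = O.valuation a ^ D.β i) ∧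
      (∀ q : K, D.th.Val F (fun i x => derivative (F i x)) (C q) →
        O.valuation q ≤ O.valuation b) ∧
      (∀ i x, O.valuation ((F i x).coeff 1) ≤
        O.valuation a ^ D.β i * O.valuation b ^ (D.β i - 1)) := by
  have := D.nonempty
  obtain ⟨a, b, ha, hb, hba, hS, h0, hm⟩ := radii D.hom D.β_pos D.lam0 hk hF hcls hl hl1
  have hav : O.valuation a ≠ 0 := by rw [Ne, Valuation.zero_iff]; exact ha
  have hbv : O.valuation b ≠ 0 := by rw [Ne, Valuation.zero_iff]; exact hb
  have hk' : ∀ c : k, O.valuation (algebraMap k K c) ≤ 1 := fun c =>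
    (O.valuation_le_one_iff _).mpr (hk c)
  have hγ : O.valuation b / O.valuation a ≤ 1 := by
    rw [div_le_one₀ (zero_lt_iff.mpr hav)]
    exact hba
  refine ⟨a, b, ha, hb, hba, hS, h0, hm, fun q hq => ?_, fun i x => ?_⟩
  · rcases hba.lt_or_eq with hlt | heq
    · choose c hc using hm hlt
      have h1 := neck_lt D.th D.wβ hk' hav (by rwa [div_lt_one₀ (zero_lt_iff.mpr hav)]) hF.on hS
        c hc hq
      rwa [mul_div_cancel₀ _ hav] at h1
    · choose c hc using hl
      rw [heq]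
      exact neck_one D.th D.wβ hk' hav hγ hF.on hS c
        (fun i => by
          have := natDegree_le_cls F i (c i)
          rw [hcls] at this
          simpa using this) hc hq
  · have h1 := hS i x 1
    have hβ := D.β_pos i
    rw [pow_one] at h1
    refine le_of_mul_le_mul_right (h1.trans_eq ?_) (zero_lt_iff.mpr hav)
    obtain ⟨n, hn⟩ : ∃ n, D.β i = n + 1 := ⟨D.β i - 1, by omega⟩
    rw [hn, Nat.add_sub_cancel]
    exact pow_div_aux hav n

/-- `c F'(0)` is bounded by `F(0)`. -/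
theorem CData.reg_aux (D : CData k I J) (hk : ∀ a : k, algebraMap k K a ∈ O)
    {F : ∀ i, J i → K[X]} (hF : IsMap D.E F) (hcls : cls F = 2 • D.β)
    (hl : ∀ i, ∃ x, O.valuation ((F i x).coeff (2 * D.β i)) = 1)
    (hl1 : ∀ i x, O.valuation ((F i x).coeff (2 * D.β i)) ≤ 1)
    {q : K} (hq : D.th.Val F (fun i x => derivative (F i x)) (C q)) (i : I) (x : J i) :
    ∃ y : J i, O.valuation (q * (F i x).coeff 1) ≤ O.valuation ((F i y).coeff 0) := by
  obtain ⟨a, b, ha, hb, hba, hS, h0, hm, hn, hd⟩ := D.reg_radii hk hF hcls hl hl1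
  obtain ⟨y, hy⟩ := h0 i
  refine ⟨y, ?_⟩
  rw [hy, map_mul]
  have hβ := D.β_pos i
  obtain ⟨n, hn'⟩ : ∃ n, D.β i = n + 1 := ⟨D.β i - 1, by omega⟩
  calc _ ≤ O.valuation b * (O.valuation a ^ D.β i * O.valuation b ^ (D.β i - 1)) :=
        mul_le_mul' (hn q hq) (hd i x)
    _ = _ := by
        rw [hn', Nat.add_sub_cancel, mul_pow, pow_succ (O.valuation b) n]
        ac_rfl

omit [Fintype I] [IsAlgClosed K] in
/-- leading vectors with entries in the small field are unimodular. -/
theorem based_lead {β : I → ℕ} (hk : ∀ a : k, algebraMap k K a ∈ O) {F : ∀ i, J i → K[X]}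
    (hcls : cls F = 2 • β) {x₀ : ∀ i, J i → k} (hx₀ : ∀ i, x₀ i ≠ 0) (hb : Based x₀ F) :
    (∀ i, ∃ x, O.valuation ((F i x).coeff (2 * β i)) = 1) ∧
      ∀ i x, O.valuation ((F i x).coeff (2 * β i)) ≤ 1 := by
  have h1 : ∀ i, vdeg (F i) = 2 * β i := fun i => by
    have := congrFun hcls i
    simpa [cls] using this
  have h2 : ∀ i x, (F i x).coeff (2 * β i) = algebraMap k K (x₀ i x) := by
    intro i x
    rw [← h1 i]
    exact hb i x
  refine ⟨fun i => ?_, fun i x => ?_⟩
  · obtain ⟨x, hx⟩ := Function.ne_iff.mp (hx₀ i)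
    refine ⟨x, le_antisymm ?_ ?_⟩
    · rw [h2, O.valuation_le_one_iff]
      exact hk _
    · have h3 : O.valuation ((algebraMap k K (x₀ i x))⁻¹) ≤ 1 := by
        rw [O.valuation_le_one_iff, ← map_inv₀]
        exact hk _
      rw [h2]
      rw [map_inv₀] at h3
      have h4 : algebraMap k K (x₀ i x) ≠ 0 := by
        rw [Ne, map_eq_zero]
        exact hx
      have h5 : 0 < O.valuation (algebraMap k K (x₀ i x)) := by
        rw [zero_lt_iff, Ne, Valuation.zero_iff]
        exact h4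
      rwa [inv_le_one₀ h5] at h3
  · rw [h2, O.valuation_le_one_iff]
    exact hk _

/-- **REG** (integrality of `X = c F'(0)` at a unimodular representative of the point `F(0)`). -/
theorem CData.reg (D : CData k I J) (hk : ∀ a : k, algebraMap k K a ∈ O)
    {F : ∀ i, J i → K[X]} (hF : IsMap D.E F) (hcls : cls F = 2 • D.β)
    {x₀ : ∀ i, J i → k} (hx₀ : ∀ i, x₀ i ≠ 0) (hb : Based x₀ F)
    {q : K} (hq : D.th.Val F (fun i x => derivative (F i x)) (C q))
    {y : ∀ i, J i → K} (hy : ∀ i x, y i x ∈ O) {r : I → K} (hr : ∀ i, r i ≠ 0)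
    (hFy : ∀ i x, (F i x).coeff 0 = r i * y i x) (i : I) (x : J i) :
    q * (F i x).coeff 1 / r i ∈ O := by
  obtain ⟨hl, hl1⟩ := based_lead hk hcls hx₀ hb
  obtain ⟨z, hz⟩ := D.reg_aux hk hF hcls hl hl1 hq i x
  have hrv : 0 < O.valuation (r i) := by
    rw [zero_lt_iff, Ne, Valuation.zero_iff]
    exact hr i
  rw [← O.valuation_le_one_iff, map_div₀, div_le_one₀ hrv]
  refine hz.trans ?_
  rw [hFy, map_mul]
  exact mul_le_of_le_one_right' ((O.valuation_le_one_iff _).mpr (hy i z))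

end reg

end Crest.Agent.R260.Lin_678
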