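import Mathlib
import Crest.Agent.R260.QuadDefs_517
import Crest.Agent.R260.Loc2_678

/-!
Row 260: block scalars. The value of the contact form, maps, classes, the number `Φ` under
constant scaling of the blocks.
-/

set_option autoImplicit false

namespace Crest.Agent.R260.Scl_678

open Polynomial
open Crest.Agent.R270.BM_360 Crest.Agent.R260.Lin_678 Crest.Agent.R260.QuadDefs_517

universe u

section scale

variable {I : Type} {J : I → Type} [Fintype I] [∀ i, Fintype (J i)]
variable {k : Type u} [Field k] {E : Set (MvPolynomial (Σ i, J i) k)} {w : I → ℤ}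

/-- homogeneity of a coefficient of the contact form. -/
theorem aeval_scale_p (th : CForm E w) {A : Type*} [CommRing A] [Algebra k A] (lam : I → A)
    (v : ∀ i, J i → A) (c : ∀ i, J i) (x : Σ i, J i) (d : I → ℕ)
    (hd : ∀ i, (d i : ℤ) = th.N + w i) :
    MvPolynomial.aeval (fun y : Σ i, J i => lam y.1 * v y.1 y.2) (th.p c x) * lam x.1 =
      (∏ i, lam i ^ d i) *
        MvPolynomial.aeval (fun y : Σ i, J i => v y.1 y.2) (th.p c x) := by
  classical
  rw [MvPolynomial.aeval_def, MvPolynomial.aeval_def, MvPolynomial.eval₂_eq',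
    MvPolynomial.eval₂_eq', Finset.sum_mul, Finset.mul_sum]
  refine Finset.sum_congr rfl fun m hm => ?_
  have h1 := fun i => th.hom c x m hm i
  have h2 : ∀ i, (∑ a, m ⟨i, a⟩) + (if x.1 = i then 1 else 0) = d i := by
    intro i
    have h3 := h1 i
    rw [← hd i] at h3
    by_cases hi : x.1 = i
    · simp only [hi, if_true] at h3 ⊢
      exact_mod_cast h3
    · simp only [hi, if_false] at h3 ⊢
      exact_mod_cast h3
  have h4 : ∏ y : Σ i, J i, (lam y.1 * v y.1 y.2) ^ m y =
      (∏ i, lam i ^ (∑ a, m ⟨i, a⟩)) * ∏ y : Σ i, J i, (v y.1 y.2) ^ m y := by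
    simp only [mul_pow, Finset.prod_mul_distrib]
    congr 1
    rw [Fintype.prod_sigma]
    refine Finset.prod_congr rfl fun i _ => ?_
    exact (Finset.prod_pow_eq_pow_sum Finset.univ (fun a => m ⟨i, a⟩) (lam i))
  have h5 : (∏ i, lam i ^ (∑ a, m ⟨i, a⟩)) * lam x.1 = ∏ i, lam i ^ d i := by
    have h6 : lam x.1 = ∏ i, lam i ^ (if x.1 = i then 1 else 0) := by
      simp
    rw [h6, ← Finset.prod_mul_distrib]
    refine Finset.prod_congr rfl fun i _ => ?_
    rw [← h2 i, pow_add]
  rw [h4, ← h5]
  ring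

theorem form_scale (th : CForm E w) {A : Type*} [CommRing A] [Algebra k A] (lam : I → A)
    (v t : ∀ i, J i → A) (c : ∀ i, J i) (d : I → ℕ) (hd : ∀ i, (d i : ℤ) = th.N + w i) :
    form (th.p c) (fun i j => lam i * v i j) (fun i j => lam i * t i j) =
      (∏ i, lam i ^ d i) * form (th.p c) v t := by
  unfold form
  rw [Finset.mul_sum]
  refine Finset.sum_congr rfl fun x _ => ?_
  rw [← mul_assoc, aeval_scale_p th lam v c x d hd, mul_assoc]

omit [∀ i, Fintype (J i)] in
theorem den_scale {A : Type*} [CommRing A] (lam : I → A) (v : ∀ i, J i → A) (c : ∀ i, J i) :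
    den c (fun i j => lam i * v i j) = (∏ i, lam i) * den c v := by
  unfold den
  rw [Finset.prod_mul_distrib]

/-- the value of `θ` under constant scaling of the blocks. -/
theorem val_scale (th : CForm E w) {K A : Type u} [Field K] [CommRing A] [Algebra K A]
    [Algebra k A] {lam : I → K} (hlam : ∀ i, lam i ≠ 0) {v t : ∀ i, J i → A} {q : A}
    (h : th.Val v t q) :
    th.Val (fun i j => algebraMap K A (lam i) * v i j) (fun i j => algebraMap K A (lam i) * t i j)
      (algebraMap K A (∏ i, lam i ^ w i) * q) := by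
  classical
  intro c
  rw [den_scale, mul_pow]
  by_cases hd : ∀ i, 0 ≤ (th.N : ℤ) + w i
  · choose d hd' using fun i => Int.eq_ofNat_of_zero_le (hd i)
    have hd2 : ∀ i, (d i : ℤ) = th.N + w i := fun i => (hd' i).symm
    rw [form_scale th _ v t c d hd2, ← h c]
    have h1 : (∏ i, lam i) ^ th.N * ∏ i, lam i ^ w i = ∏ i, lam i ^ d i := by
      rw [← Finset.prod_pow, ← Finset.prod_mul_distrib]
      refine Finset.prod_congr rfl fun i _ => ?_
      rw [← zpow_natCast (lam i) (d i), hd2 i, zpow_add₀ (hlam i), zpow_natCast]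
    have h2 := congrArg (algebraMap K A) h1
    simp only [map_mul, map_pow, map_prod] at h2
    rw [← h2, map_prod]
    ring
  · push Not at hd
    obtain ⟨i, hi⟩ := hd
    have hp : ∀ x, th.p c x = 0 := by
      intro x
      by_contra hne
      obtain ⟨m, hm⟩ := MvPolynomial.support_nonempty.mpr hne
      have h1 := th.hom c x m hm i
      rw [← h1] at hi
      have h2 : (0 : ℤ) ≤ (open Classical in if x.1 = i then 1 else 0) := by
        split_ifs <;> simp
      have h3 : (0 : ℤ) ≤ ((∑ a, m ⟨i, a⟩ : ℕ) : ℤ) := Int.natCast_nonneg _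
      omega
    have hf : ∀ v' t' : ∀ i, J i → A, form (th.p c) v' t' = 0 := by
      intro v' t'
      unfold form
      refine Finset.sum_eq_zero fun x _ => ?_
      rw [hp x, map_zero, zero_mul]
    have h1 := h c
    rw [hf] at h1 ⊢
    calc _ = (∏ i, algebraMap K A (lam i)) ^ th.N * algebraMap K A (∏ i, lam i ^ w i) *
          (den c v ^ th.N * q) := by ring
      _ = 0 := by rw [h1, mul_zero]

end scale

section maps

variable {I : Type} {J : I → Type}
variable {k : Type u} [Field k] {K : Type u} [Field K] [Algebra k K]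

theorem cop_scale {T : Type} {f : T → K[X]} (hf : Cop f) {a : K} (ha : a ≠ 0) :
    Cop (fun x => C a * f x) := by
  unfold Cop at *
  rw [Ideal.eq_top_iff_one] at *
  have h1 : C a * (1 : K[X]) ∈ Ideal.span (Set.range fun x => C a * f x) := by
    have h2 : ∀ p ∈ Ideal.span (Set.range f), C a * p ∈
        Ideal.span (Set.range fun x => C a * f x) := by
      intro p hp
      refine Submodule.span_induction (p := fun p _ => C a * p ∈
        Ideal.span (Set.range fun x => C a * f x)) ?_ ?_ ?_ ?_ hp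
      · rintro _ ⟨x, rfl⟩
        exact Ideal.subset_span ⟨x, rfl⟩
      · rw [mul_zero]
        exact zero_mem _
      · intro x y _ _ hx hy
        rw [mul_add]
        exact add_mem hx hy
      · intro b x _ hx
        rw [smul_eq_mul, mul_left_comm]
        exact Ideal.mul_mem_left _ _ hx
    exact h2 1 hf
  rw [mul_one] at h1
  have h3 := Ideal.mul_mem_left _ (C a⁻¹) h1
  rwa [← C_mul, inv_mul_cancel₀ ha, C_1] at h3

theorem isMap_scale [Fintype I] {E : Set (MvPolynomial (Σ i, J i) k)} (hE : MHom E)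
    {F : ∀ i, J i → K[X]} (hF : IsMap E F) {a : I → K} (ha : ∀ i, a i ≠ 0) :
    IsMap E (fun i x => C (a i) * F i x) :=
  ⟨hF.on.scale hE (fun i => C (a i)), fun i => cop_scale (hF.cop i) (ha i)⟩

theorem cls_scale [∀ i, Fintype (J i)] {F : ∀ i, J i → K[X]} {a : I → K} (ha : ∀ i, a i ≠ 0) :
    cls (fun i x => C (a i) * F i x) = cls F := by
  funext i
  unfold cls vdeg
  refine Finset.sup_congr rfl fun x _ => ?_
  exact natDegree_C_mul (ha i)

end maps

section joins

variable {I : Type} {J : I → Type} [Fintype I] [∀ i, Fintype (J i)]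
variable {k : Type u} [Field k] {K : Type u} [Field K] [Algebra k K]

/-- scaling of the blocks of a conic. -/
theorem joins_scale (D : CData k I J) {f : ∀ i, J i → K[X]} {x y : ∀ i, J i → K} {a b : I → K}
    {c : K} (h : Joins D f x y a b c) {l : I → K} (hl : ∀ i, l i ≠ 0) :
    Joins D (fun i j => C (l i) * f i j) x y (fun i => l i * a i) (fun i => l i * b i)
      ((∏ i, l i ^ D.w i) * c) where
  a0 := fun i => mul_ne_zero (hl i) (h.a0 i)
  b0 := fun i => mul_ne_zero (hl i) (h.b0 i)
  lead := fun i j => by rw [coeff_C_mul, h.lead, mul_assoc]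
  bot := fun i j => by rw [coeff_C_mul, h.bot, mul_assoc]
  val := by
    have h1 := val_scale D.th (A := K[X]) hl h.val
    have h2 : dd (fun i j => C (l i) * f i j) =
        fun i j => algebraMap K K[X] (l i) * dd f i j := by
      funext i j
      simp only [dd, derivative_C_mul]
      rfl
    rw [h2, C_mul]
    exact h1

theorem phi_scale (D : CData k I J) {a b : I → K} {c : K} {l : I → K} (hl : ∀ i, l i ≠ 0) :
    phi D (fun i => l i * a i) (fun i => l i * b i) ((∏ i, l i ^ D.w i) * c) = phi D a b c := by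
  unfold phi
  have h1 : (∏ i, l i ^ D.w i) * ∏ i, l i ^ (-D.w i) = 1 := by
    rw [← Finset.prod_mul_distrib]
    refine Finset.prod_eq_one fun i _ => ?_
    rw [← zpow_add₀ (hl i), add_neg_cancel, zpow_zero]
  simp only [mul_zpow, Finset.prod_mul_distrib]
  calc _ = ((∏ i, l i ^ D.w i) * ∏ i, l i ^ (-D.w i)) * ((∏ i, l i ^ D.w i) *
        ∏ i, l i ^ (-D.w i)) * (c ^ 2 * (∏ i, a i ^ (-D.w i)) * ∏ i, b i ^ (-D.w i)) := by ring
    _ = _ := by rw [h1, one_mul, one_mul]

/-- normalisation of the leading vector. -/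
theorem joins_normalise (D : CData k I J) {f : ∀ i, J i → K[X]} {x y : ∀ i, J i → K}
    {a b : I → K} {c : K} (h : Joins D f x y a b c) :
    Joins D (fun i j => C (a i)⁻¹ * f i j) x y (fun _ => 1) (fun i => (a i)⁻¹ * b i)
        ((∏ i, (a i)⁻¹ ^ D.w i) * c) ∧
      phi D (fun _ => 1) (fun i => (a i)⁻¹ * b i) ((∏ i, (a i)⁻¹ ^ D.w i) * c) =
        phi D a b c := by
  have hl : ∀ i, (a i)⁻¹ ≠ 0 := fun i => inv_ne_zero (h.a0 i)
  have h1 := joins_scale D h hl
  have h2 := phi_scale D (a := a) (b := b) (c := c) hl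
  have h3 : (fun i => (a i)⁻¹ * a i) = fun _ => (1 : K) := by
    funext i
    exact inv_mul_cancel₀ (h.a0 i)
  rw [h3] at h1 h2
  exact ⟨h1, h2⟩

end joins

end Crest.Agent.R260.Scl_678
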