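import Mathlib
import Crest.Agent.R260.Pd4_365
import Crest.Agent.R260.Scl_678
import Crest.Agent.R260.Bc_678

/-!
Row 260: LIN in the literal form `LinP` of `QuadDefs_517`.
-/

set_option autoImplicit false

namespace Crest.Agent.R260.Lp_678

open Polynomial
open Crest.Agent.R270.BM_360 Crest.Agent.R260.Lin_678 Crest.Agent.R260.QuadDefs_517
open Crest.Agent.R260.Scl_678 Crest.Agent.R260.Bc_678

universe u

variable {I : Type} {J : I → Type} [Fintype I] [∀ i, Fintype (J i)]
variable {k : Type u} [Field k]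

/-- **LIN**: the number `Φ` of the conic joining `x₀` to the point `s` of a line is a polynomial of
degree at most one in `s`. -/
theorem linP [CharZero k] (D : CData k I J) : LinP D := by
  intro F₀ kl M _ _ _ _ _ _ _ _ _ _ _ _ _ _ _ _ x₀ l s f a b c hx₀ hx0 hl hlc hs hf hfc hj
  obtain ⟨hj', hphi⟩ := joins_normalise D hj
  set f' : ∀ i, J i → M[X] := fun i j => C (a i)⁻¹ * f i j with hf'
  set c' : M := (∏ i, (a i)⁻¹ ^ D.w i) * c with hc'
  have ha : ∀ i, (a i)⁻¹ ≠ 0 := fun i => inv_ne_zero (hj.a0 i)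
  have hfm : IsMap D.E f' := isMap_scale D.hom hf ha
  have hfcl : cls f' = 2 • D.β := by rw [hf', cls_scale ha, hfc]
  have : CharZero kl := charZero_of_injective_algebraMap (algebraMap k kl).injective
  have hb : ∀ i, (a i)⁻¹ * b i ≠ 0 := fun i => mul_ne_zero (ha i) (hj.b0 i)
  have hvd : ∀ i, vdeg (f' i) = 2 * D.β i := fun i => by
    have := congrFun hfcl i
    simpa [cls] using this
  have hbased : Based x₀ f' := by
    intro i j
    rw [hvd i, hj'.lead i j, one_mul]
    rfl
  have hval : (cData_bc kl D).th.Val f' (fun i j => derivative (f' i j)) (C c') :=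
    (val_bc kl D.th).mpr hj'.val
  obtain ⟨a₀, a₁, h⟩ := Crest.Agent.R260.Pd_365.lin (cData_bc kl D) (F := f')
    ((isMap_bc (E := D.E)).mpr hfm) (c := c') hval
    (fun O hO r y hr hy hyO hy1 i x => by
      have hOk : ∀ z : k, algebraMap k M z ∈ O := fun z => by
        rw [IsScalarTower.algebraMap_apply k kl M]
        exact hO _
      have hOF : ∀ z : F₀, algebraMap F₀ M z ∈ O := fun z => by
        rw [IsScalarTower.algebraMap_apply F₀ kl M]
        exact hO _
      obtain ⟨hl1, hl2⟩ := based_lead hOF hfcl hx0 hbased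
      obtain ⟨z, hz⟩ := D.reg_aux hOk hfm hfcl hl1 hl2 hj'.val i x
      have hrv : 0 < O.valuation (r i) := by
        rw [zero_lt_iff, Ne, Valuation.zero_iff]
        exact hr i
      rw [← O.valuation_le_one_iff, map_div₀, div_le_one₀ hrv]
      refine hz.trans ?_
      rw [hy, map_mul]
      exact mul_le_of_le_one_right' ((O.valuation_le_one_iff _).mpr (hyO i z)))
    (l := l) hl.cop hlc (s := s)
    (fun z hz => hs (by rw [← hz]; exact isAlgebraic_algebraMap z))
    (r := fun i => (a i)⁻¹ * b i) hb hj'.bot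
  refine ⟨a₀, a₁, ?_⟩
  rw [← hphi]
  unfold phi
  rw [h]
  have h1 : (∏ i, ((a i)⁻¹ * b i) ^ (cData_bc kl D).w i) *
      ∏ i, ((a i)⁻¹ * b i) ^ (-D.w i) = 1 := by
    rw [← Finset.prod_mul_distrib]
    refine Finset.prod_eq_one fun i _ => ?_
    change ((a i)⁻¹ * b i) ^ D.w i * ((a i)⁻¹ * b i) ^ (-D.w i) = 1
    rw [← zpow_add₀ (hb i), add_neg_cancel, zpow_zero]
  have h2 : ∏ i, (1 : M) ^ (-D.w i) = 1 := by simp
  rw [h2, mul_one]
  calc _ = ((∏ i, ((a i)⁻¹ * b i) ^ (cData_bc kl D).w i) *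
      ∏ i, ((a i)⁻¹ * b i) ^ (-D.w i)) * (algebraMap kl M a₀ + algebraMap kl M a₁ * s) := by ring
    _ = _ := by rw [h1, one_mul]

end Crest.Agent.R260.Lp_678
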