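import Crest.Agent.R260.GaDefs_323
import Crest.Agent.R273.D13_505

set_option autoImplicit false
set_option linter.unusedSectionVars false

/-!
# Row 260 (S0398), GAGA-TH, part 2 (helper323): generating systems

* `exists_lsys` : `L` positive, `A` projective (some `ProjD A`) ⟹ for all large exponents there
  is a generating system `LSys L I`.
* `LSys.solv`   : vanishing.
-/

open Set Filter Topology Complex MvPolynomial
open scoped ContDiff Matrix ComplexConjugate

namespace Crest.Agent.R260.Ga_323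

open Crest.Agent.R275 Crest.Agent.R275.Geo Crest.Agent.R275.Core144 Crest.Agent.R275.Dg199
open Crest.Agent.R273.SerA_945 Crest.Agent.R273.Defs_333 Crest.Agent.R273.SerB_945
open Crest.Agent.R273.SerC_945 Crest.Agent.R273.SerE_945 Crest.Agent.R273.KosGen_313
open Crest.Agent.R273.FS_333 Crest.Agent.R273.TD3_733 Crest.Agent.R273.Kah_333
open Crest.Agent.R270.BM_360

noncomputable section

variable {n : ℕ} {M : Type} [TopologicalSpace M] {A : Atl n M}

/-- sections of `L ^ e` -/
abbrev VV (L : LB A) (e : ℕ) : Submodule ℂ (Fn A) := HS (L ^ e) univ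

theorem VV_mul (L : LB A) (e f : ℕ) : VV L e * VV L f ≤ VV L (e + f) := by
  rw [Submodule.mul_le]
  intro u hu w hw
  show IsHS (L ^ (e + f)) univ (u * w)
  rw [pow_add]
  exact IsHS.mul hu hw

/-- `L ^ m` twisted by a negative power of `O(1)` is globally generated for `m` large -/
theorem ggen_twist [T2Space M] [CompactSpace M] (P : ProjD A) (L : LB A) {m : ℕ} (c : ℕ)
    (hV : ∀ p, p ≤ n + c → ∀ q, 1 ≤ q → Solv (L ^ m * (lb P)⁻¹ ^ p) q) :
    GGen (L ^ m * (lb P)⁻¹ ^ c) := by
  refine gg_fin_of fun x0 => ?_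
  obtain ⟨ℓ, h1, h2, h3⟩ := (ofProj P).exists_forms x0
  have h4 : ∀ y, Rel (ofProj P).F x0 y ↔ x0 = y := fun y => rel_sec_iff P
  obtain ⟨s, hs, hs0⟩ := exists_at (lb P) (fun p => L ^ m * (lb P)⁻¹ ^ (c + p))
    (fun p => by
      show L ^ m * (lb P)⁻¹ ^ (c + (p + 1)) * lb P = _
      rw [← add_assoc, pow_succ, ← mul_assoc, inv_mul_cancel_right])
    ℓ h1 x0 (fun j i => h2 j i x0 ((h4 x0).2 rfl))
    (fun i x hx hne => h3 i x hx fun h => hne ((h4 x).1 h).symm)
    (fun q hq hqn => hV _ (by omega) q hq)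
  exact ⟨s, hs, hs0⟩

section Main

variable [T2Space M] [CompactSpace M] [Finite A.ι]

theorem exists_bounds (PA : Part A) (P : ProjD A) {L : LB A} (hL : HM L) (hp : hL.Pos) :
    ∃ m1 : ℕ, 0 < m1 ∧ (∀ m, m1 ≤ m → ∀ p, p ≤ n + 1 → ∀ q, 1 ≤ q →
      Solv (L ^ m * (lb P)⁻¹ ^ p) q) := by
  have hD : D2 A := Crest.Agent.R273.D13_505.d2 PA (kah (fs P) (fs_pos P))
  choose f hf using fun p : ℕ => solv_large PA hD hp ((lb P)⁻¹ ^ p)
  refine ⟨(Finset.range (n + 2)).sup f + 1, by omega, fun m hm p hpn q hq => ?_⟩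
  rw [mul_comm]
  refine hf p m ?_ q hq
  have : f p ≤ (Finset.range (n + 2)).sup f := Finset.le_sup (Finset.mem_range.2 (by omega))
  omega

theorem vv_step {L : LB A} {m1 : ℕ} (hV : ∀ m, m1 ≤ m → ∀ q, 1 ≤ q → Solv (L ^ m) q) {g f : ℕ}
    (hg : GGen (L ^ g)) (hf : m1 + g * n ≤ f) : VV L (g + f) ≤ VV L g * VV L f := by
  obtain ⟨r, F, hF, hne⟩ := hg
  intro s hs
  have hN : ∀ p : ℕ, (L ^ (g + f) * (L ^ g)⁻¹ ^ (p + 1)) * L ^ g = L ^ (g + f) * (L ^ g)⁻¹ ^ p := by
    intro p
    rw [pow_succ, ← mul_assoc, inv_mul_cancel_right]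
  have hNq : ∀ q : ℕ, g * q ≤ g + f → L ^ (g + f) * (L ^ g)⁻¹ ^ q = L ^ (g + f - g * q) := by
    intro q hq
    have e1 : L ^ (g + f) = L ^ (g + f - g * q) * (L ^ g) ^ q := by
      rw [← pow_mul, ← pow_add, Nat.sub_add_cancel hq]
    rw [e1, mul_assoc, inv_pow, mul_inv_cancel, mul_one]
  have h1 : IsHS ((fun p : ℕ => L ^ (g + f) * (L ^ g)⁻¹ ^ p) 0) univ s := by
    show IsHS (L ^ (g + f) * (L ^ g)⁻¹ ^ 0) univ _
    rw [hNq 0 (by omega)]
    simpa using hs
  obtain ⟨w, hw, hs'⟩ := kosgen (L ^ g) (fun p => L ^ (g + f) * (L ^ g)⁻¹ ^ p) hN F hF hne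
    (fun q hq hqn => by
      have h2 : g * (q + 1) ≤ g + f := by
        have : g * q ≤ g * n := Nat.mul_le_mul_left g hqn
        rw [mul_add, mul_one]
        omega
      show Solv (L ^ (g + f) * (L ^ g)⁻¹ ^ (q + 1)) q
      rw [hNq (q + 1) h2]
      refine hV _ ?_ q hq
      have : g * q ≤ g * n := Nat.mul_le_mul_left g hqn
      rw [mul_add, mul_one]
      omega) h1
  rw [hs']
  refine Submodule.sum_mem _ fun k _ => Submodule.mul_mem_mul (hF k) ?_
  have h2 := hw k
  rw [hNq 1 (by omega)] at h2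
  have e : g + f - g * 1 = f := by omega
  rw [e] at h2
  exact h2

/-- for `e`, `f` large, `V e * V f = V (e + f)` -/
theorem vv_gen (PA : Part A) (P : ProjD A) {L : LB A} (hL : HM L) (hp : hL.Pos) :
    ∃ K : ℕ, 0 < K ∧ (∀ e f, K ≤ e → K ≤ f → VV L (e + f) ≤ VV L e * VV L f) ∧
      (∀ m, K ≤ m → ∃ P' : ProjD A, lb P' = L ^ m) ∧
      (∀ m, K ≤ m → ∀ q, 1 ≤ q → Solv (L ^ m) q) := by
  obtain ⟨m1, hm1, hV⟩ := exists_bounds PA P hL hp
  have hV0 : ∀ m, m1 ≤ m → ∀ q, 1 ≤ q → Solv (L ^ m) q := by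
    intro m hm q hq
    have := hV m hm 0 (by omega) q hq
    rwa [pow_zero, mul_one] at this
  have hG : ∀ m, m1 ≤ m → GGen (L ^ m) := by
    intro m hm
    have := ggen_twist P L 0 fun p hp' q hq => hV m hm p (by omega) q hq
    rwa [pow_zero, mul_one] at this
  have hP : ∀ m, m1 ≤ m → ∃ P' : ProjD A, lb P' = L ^ m := by
    intro m hm
    obtain ⟨P', h⟩ := projMul P (ggen_twist P L 1 fun p hp' q hq => hV m hm p (by omega) q hq)
    refine ⟨P', ?_⟩
    rw [h, pow_one, inv_mul_cancel_right]
  let F0 := m1 + 2 * m1 * n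
  have hQ : ∀ e, m1 ≤ e → ∀ f, F0 ≤ f → VV L (e + f) ≤ VV L e * VV L f := by
    intro e
    induction e using Nat.strong_induction_on with
    | _ e ih =>
      intro he f hf
      by_cases h2 : e ≤ 2 * m1
      · refine vv_step hV0 (hG e he) (le_trans ?_ hf)
        show m1 + e * n ≤ m1 + 2 * m1 * n
        have := Nat.mul_le_mul_right n h2
        omega
      · have e1 : e + f = m1 + ((e - m1) + f) := by omega
        have e2 : m1 + (e - m1) = e := by omega
        have h3 : VV L (m1 + ((e - m1) + f)) ≤ VV L m1 * VV L ((e - m1) + f) := by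
          refine vv_step hV0 (hG m1 le_rfl) (le_trans ?_ (le_trans hf (by omega)))
          show m1 + m1 * n ≤ m1 + 2 * m1 * n
          nlinarith
        have h4 := ih (e - m1) (by omega) (by omega) f hf
        rw [e1]
        refine h3.trans ((mul_le_mul_right h4 _).trans ?_)
        rw [← mul_assoc]
        refine mul_le_mul_left ?_ _
        have h5 := VV_mul L m1 (e - m1)
        rwa [e2] at h5
  refine ⟨F0 + 1, by omega, fun e f he hf => hQ e ?_ f (by omega), fun m hm => hP m ?_,
    fun m hm => hV0 m ?_⟩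
  · have : m1 ≤ F0 := Nat.le_add_right _ _
    omega
  · have : m1 ≤ F0 := Nat.le_add_right _ _
    omega
  · have : m1 ≤ F0 := Nat.le_add_right _ _
    omega

/-! ### polynomials in the sections -/

section Poly

variable {L : LB A} {I : Type} [Fintype I] [DecidableEq I] {J : I → Type} [∀ i, Fintype (J i)]
  (F : ∀ i, J i → Fn A)

/-- the functions which are multihomogeneous polynomials of multidegree `d` -/
def WW (d : I → ℕ) : Submodule ℂ (Fn A) where
  carrier := {s | ∃ p : MvPolynomial (Σ i, J i) ℂ, MH p d ∧ ∀ c, ∀ x ∈ (A.e c).source,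
      s c x = eval (fun y => F y.1 y.2 c x) p}
  add_mem' := by
    rintro s t ⟨p, hp, h1⟩ ⟨q, hq, h2⟩
    refine ⟨p + q, hp.add hq, fun c x hx => ?_⟩
    rw [map_add, ← h1 c x hx, ← h2 c x hx]
    rfl
  zero_mem' := ⟨0, isWeightedHomogeneous_zero _ _ _, fun c x hx => by rw [map_zero]; rfl⟩
  smul_mem' := by
    rintro a s ⟨p, hp, h1⟩
    refine ⟨C a * p, ?_, fun c x hx => ?_⟩
    · have := (isWeightedHomogeneous_C (mw J) a).mul hp
      rwa [zero_add] at this
    · rw [map_mul, eval_C, ← h1 c x hx]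
      rfl

theorem WW_mul (d d' : I → ℕ) : WW F d * WW F d' ≤ WW F (d + d') := by
  rw [Submodule.mul_le]
  rintro s ⟨p, hp, h1⟩ t ⟨q, hq, h2⟩
  refine ⟨p * q, hp.mul hq, fun c x hx => ?_⟩
  rw [map_mul, ← h1 c x hx, ← h2 c x hx]
  rfl

theorem mem_WW_single (i : I) (a : J i) : F i a ∈ WW F (Pi.single i 1) := by
  refine ⟨X ⟨i, a⟩, isWeightedHomogeneous_X ℂ (mw J) _, fun c x hx => ?_⟩
  rw [eval_X]

end Poly

/-- **generating systems exist** -/
theorem exists_lsys (PA : Part A) (P : ProjD A) {L : LB A} (hL : HM L) (hp : hL.Pos) :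
    ∃ K : ℕ, ∀ (I : Type) [Fintype I] [DecidableEq I] (β : I → ℕ), (∀ i, K ≤ β i) →
      ∃ S : LSys L I, S.β = β := by
  obtain ⟨K, hK, hgen, hP, -⟩ := vv_gen PA P hL hp
  refine ⟨K, fun I _ _ β hβ => ?_⟩
  have hfd : ∀ i, FiniteDimensional ℂ (HS (L ^ β i) univ) := fun i => fd_HS PA _
  let N : I → ℕ := fun i => Module.finrank ℂ (HS (L ^ β i) univ)
  let b : ∀ i, Module.Basis (Fin (N i)) ℂ (HS (L ^ β i) univ) := fun i =>
    Module.finBasis ℂ (HS (L ^ β i) univ)
  let F : ∀ i, Fin (N i) → Fn A := fun i a => (b i a : Fn A)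
  have hs : ∀ i a, IsHS (L ^ β i) univ (F i a) := fun i a => (b i a).2
  -- every section is a combination
  have hspan : ∀ i, ∀ s ∈ HS (L ^ β i) univ, ∃ l : Fin (N i) → ℂ, s = ∑ a, l a • F i a := by
    intro i s hsm
    refine ⟨fun a => (b i).repr ⟨s, hsm⟩ a, ?_⟩
    have h3 := congrArg Subtype.val ((b i).sum_repr ⟨s, hsm⟩)
    rw [AddSubmonoidClass.coe_finsetSum] at h3
    exact h3.symm
  have hPs : ∀ i, ∃ P' : ProjD A, lb P' = L ^ β i := fun i => hP (β i) (hβ i)
  choose P' hP' using hPs
  have hsec : ∀ i k, ∃ l : Fin (N i) → ℂ, sec (P' i) k = ∑ a, l a • F i a := by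
    intro i k
    refine hspan i _ ?_
    have := isHS_sec (P' i) k
    rw [hP' i] at this
    exact this
  choose l hl using hsec
  have hlx : ∀ i k c x, sec (P' i) k c x = ∑ a, l i k a * F i a c x := by
    intro i k c x
    rw [hl i k, Finset.sum_apply, Finset.sum_apply]
    rfl
  have hWW : ∀ m, ∀ d : I → ℕ, ∑ i, d i = m + 1 → VV L (∑ i, d i * β i) ≤ WW F d := by
    intro m
    induction m with
    | zero =>
      intro d hd
      obtain ⟨i, hi⟩ : ∃ i, d = Pi.single i 1 := by
        have h1 : ∃ i, d i ≠ 0 := by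
          by_contra h
          push Not at h
          simp [h] at hd
        obtain ⟨i, hi⟩ := h1
        refine ⟨i, funext fun j => ?_⟩
        have h2 : d i + ∑ j ∈ Finset.univ.erase i, d j = 1 := by
          rw [Finset.add_sum_erase _ _ (Finset.mem_univ i)]
          simpa using hd
        have h3 : d i = 1 := by omega
        by_cases hj : j = i
        · subst hj
          rw [h3, Pi.single_eq_same]
        · have h4 : d j ≤ ∑ j ∈ Finset.univ.erase i, d j :=
            Finset.single_le_sum (f := d) (fun _ _ => Nat.zero_le _)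
              (Finset.mem_erase.2 ⟨hj, Finset.mem_univ j⟩)
          rw [Pi.single_eq_of_ne hj]
          omega
      subst hi
      have e : ∑ j, (Pi.single i 1 : I → ℕ) j * β j = β i := by
        rw [Finset.sum_eq_single i]
        · rw [Pi.single_eq_same, one_mul]
        · intro j _ hj
          rw [Pi.single_eq_of_ne hj, zero_mul]
        · intro h
          exact absurd (Finset.mem_univ i) h
      rw [e]
      intro s hs'
      obtain ⟨l, hl⟩ := hspan i s hs'
      rw [hl]
      exact Submodule.sum_mem _ fun a _ => Submodule.smul_mem _ _ (mem_WW_single F i a)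
    | succ m ih =>
      intro d hd
      obtain ⟨i, hi⟩ : ∃ i, d i ≠ 0 := by
        by_contra h
        push Not at h
        simp [h] at hd
      set d' : I → ℕ := fun j => if j = i then d j - 1 else d j with hd'
      have e1 : d = Pi.single i 1 + d' := by
        funext j
        rw [Pi.add_apply, hd']
        by_cases hj : j = i
        · subst hj
          rw [Pi.single_eq_same]
          show d j = 1 + (if j = j then d j - 1 else d j)
          rw [if_pos rfl]
          omega
        · rw [Pi.single_eq_of_ne hj]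
          show d j = 0 + (if j = i then d j - 1 else d j)
          rw [if_neg hj, zero_add]
      have e2 : ∑ j, (Pi.single i 1 : I → ℕ) j * β j = β i := by
        rw [Finset.sum_eq_single i]
        · rw [Pi.single_eq_same, one_mul]
        · intro j _ hj
          rw [Pi.single_eq_of_ne hj, zero_mul]
        · intro h
          exact absurd (Finset.mem_univ i) h
      have e3 : ∑ j, (Pi.single i 1 : I → ℕ) j = 1 := by
        rw [Finset.sum_eq_single i]
        · rw [Pi.single_eq_same]
        · intro j _ hj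
          rw [Pi.single_eq_of_ne hj]
        · intro h
          exact absurd (Finset.mem_univ i) h
      have h1 : ∑ j, d' j = m + 1 := by
        have : ∑ j, d j = ∑ j, (Pi.single i 1 : I → ℕ) j + ∑ j, d' j := by
          rw [← Finset.sum_add_distrib]
          exact Finset.sum_congr rfl fun j _ => congrFun e1 j
        omega
      have h2 : ∑ j, d j * β j = β i + ∑ j, d' j * β j := by
        rw [← e2, ← Finset.sum_add_distrib]
        refine Finset.sum_congr rfl fun j _ => ?_
        rw [← add_mul]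
        exact congrArg (· * β j) (congrFun e1 j)
      have h3 : K ≤ ∑ j, d' j * β j := by
        obtain ⟨j, hj⟩ : ∃ j, d' j ≠ 0 := by
          by_contra h
          push Not at h
          simp [h] at h1
        have h4 : d' j * β j ≤ ∑ j, d' j * β j :=
          Finset.single_le_sum (f := fun j => d' j * β j) (fun _ _ => Nat.zero_le _)
            (Finset.mem_univ j)
        have h5 : β j ≤ d' j * β j := Nat.le_mul_of_pos_left _ (Nat.pos_of_ne_zero hj)
        exact (hβ j).trans (h5.trans h4)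
      rw [h2]
      refine (hgen _ _ (hβ i) h3).trans ?_
      conv_rhs => rw [e1]
      refine le_trans ?_ (WW_mul F _ _)
      refine (mul_le_mul_right (ih d' h1) _).trans (mul_le_mul_left ?_ _)
      intro s hs'
      obtain ⟨l, hl⟩ := hspan i s hs'
      rw [hl]
      exact Submodule.sum_mem _ fun a _ => Submodule.smul_mem _ _ (mem_WW_single F i a)
  refine ⟨{
    β := β
    pos := fun i => lt_of_lt_of_le hK (hβ i)
    J := fun i => Fin (N i)
    F := F
    hs := hs
    ne := fun i c x hx => ?_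
    inj := fun i c c' x hx y hy m h => ?_
    imm := fun i c x hx u m h => ?_
    ng := fun d hd s hs' => ?_ }, rfl⟩
  · by_contra h
    push Not at h
    refine (P' i).ne c x hx (funext fun k => ?_)
    rw [← sec_eq (P' i) hx k, hlx i k c x]
    show _ = (0 : ℂ)
    exact Finset.sum_eq_zero fun a _ => by rw [h a, mul_zero]
  · refine (P' i).inj c c' x hx y hy ⟨m, funext fun k => ?_⟩
    rw [Pi.smul_apply, smul_eq_mul, ← sec_eq (P' i) hx k, ← sec_eq (P' i) hy k, hlx, hlx,
      Finset.mul_sum]
    refine Finset.sum_congr rfl fun a _ => ?_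
    rw [h a]
    ring
  · have hz := (A.e c).map_source hx
    have hFd : ∀ a, DifferentiableAt ℂ (fun z => F i a c ((A.e c).symm z)) (A.e c x) := fun a =>
      ((hs i a).hol c).diffAt isOpen_univ hx (mem_univ x)
    refine (P' i).imm c (A.e c x) hz u ⟨m, ?_⟩
    have hdiff : DifferentiableAt ℂ (fun w => (P' i).F c ((A.e c).symm w)) (A.e c x) := by
      rw [differentiableAt_pi]
      intro k
      exact ((P' i).hol c k).diffAt isOpen_univ hx (mem_univ x)
    funext k
    have e1 : fderiv ℂ (fun w => (P' i).F c ((A.e c).symm w)) (A.e c x) u k =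
        fderiv ℂ (fun w => (P' i).F c ((A.e c).symm w) k) (A.e c x) u := by
      have h1 : HasFDerivAt (fun w => (P' i).F c ((A.e c).symm w) k)
          ((ContinuousLinearMap.proj k).comp
            (fderiv ℂ (fun w => (P' i).F c ((A.e c).symm w)) (A.e c x))) (A.e c x) :=
        ((ContinuousLinearMap.proj (R := ℂ) (φ := fun _ : Fin ((P' i).N + 1) => ℂ)
          k).hasFDerivAt).comp (A.e c x) hdiff.hasFDerivAt
      rw [h1.fderiv]
      rfl
    have e2 : (fun w => (P' i).F c ((A.e c).symm w) k) =ᶠ[𝓝 (A.e c x)]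
        fun w => ∑ a, l i k a * F i a c ((A.e c).symm w) := by
      filter_upwards [(A.e c).open_target.mem_nhds hz] with w hw
      rw [← hlx i k c, sec_eq (P' i) ((A.e c).map_target hw)]
    rw [e1, e2.fderiv_eq, Pi.smul_apply, smul_eq_mul, (A.e c).left_inv hx, ← sec_eq (P' i) hx k,
      hlx i k c x]
    have e3 : HasFDerivAt (fun w => ∑ a, l i k a * F i a c ((A.e c).symm w))
        (∑ a, l i k a • fderiv ℂ (fun z => F i a c ((A.e c).symm z)) (A.e c x)) (A.e c x) :=
      HasFDerivAt.fun_sum fun a _ => (hFd a).hasFDerivAt.const_mul _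
    rw [e3.fderiv, _root_.sum_apply, Finset.mul_sum]
    refine Finset.sum_congr rfl fun a _ => ?_
    rw [_root_.smul_apply, smul_eq_mul, h a]
    ring
  · have h1 : ∑ i, d i ≠ 0 := by
      intro h
      refine hd (funext fun i => ?_)
      exact Finset.sum_eq_zero_iff.1 h i (Finset.mem_univ i)
    obtain ⟨m, hm⟩ := Nat.exists_eq_succ_of_ne_zero h1
    exact hWW m d hm hs'

end Main

end

end Crest.Agent.R260.Ga_323
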