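import Crest.Agent.R260.BrIf_592
import Crest.Agent.R260.Ga2_323

/-!
# R260 (S0398), AG-BRIDGE, part 5 (helper592)

* `exists_msys_pos` : systems `MSys A L I` from a positive `L` and any `ProjD A`;
* `bridge_of`       : `BridgeS → Bridge`.
-/

set_option autoImplicit false
set_option linter.unusedSectionVars false

open Set Filter Topology Complex
open scoped ContDiff Matrix ComplexConjugate

namespace Crest.Agent.R260.Br5_592

open Crest.Agent.R275 Crest.Agent.R275.Geo Crest.Agent.R275.Core144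
open Crest.Agent.R273.Defs_333 Crest.Agent.R273.FS_333 Crest.Agent.R273.SerA_945
open Crest.Agent.R273.SerE_945 Crest.Agent.R273.TD3_733
open Crest.Agent.R270.BM_360 Crest.Agent.R260.BrDefs_592 Crest.Agent.R260.Br1_592
open Crest.Agent.R260.BrIf_592
open Crest.Agent.R260.Ga_323 (VV vv_gen OneForm Contact)

noncomputable section

variable {n : ℕ} {M : Type} [TopologicalSpace M] {A : Atl n M}

theorem mul_of_vv {L : LB A} {k j : ℕ} (h : VV L (k + j) ≤ VV L k * VV L j) : Mul L k j := by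
  intro t ht
  have h1 : t ∈ VV L k * VV L j := h ht
  refine Submodule.mul_induction_on h1 (fun s hs s' hs' => ?_) fun x y hx hy =>
    Submodule.add_mem _ hx hy
  exact Submodule.subset_span ⟨s, s', hs, hs', rfl⟩

variable [T2Space M] [ConnectedSpace M] [CompactSpace M] [Finite A.ι]

/-- the Hodge theorem for a projective manifold -/
theorem d2_proj (PA : Part A) (P : ProjD A) : D2 A :=
  Crest.Agent.R273.D13_505.d2 PA (fsKah P)

theorem exists_msys_pos (PA : Part A) (P : ProjD A) {L : LB A} (hL : HM L) (hp : hL.Pos)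
    (I : Type) [Fintype I] :
    ∃ K : ℕ, ∀ β : I → ℕ, (∀ i, K ≤ β i) → ∃ S : MSys A L I, S.β = β := by
  obtain ⟨K, hK0, hK, hP, -⟩ := vv_gen PA P hL hp
  refine ⟨K, fun β hβ => ?_⟩
  have h1 : ∀ i, ∃ P' : ProjD A, lb P' = L ^ β i ∧ Complete P' := by
    intro i
    obtain ⟨P', hP'⟩ := hP (β i) (hβ i)
    obtain ⟨P'', h1, h2⟩ := exists_complete PA P'
    exact ⟨P'', h1.trans hP', h2⟩
  choose P' hP' hc using h1
  have hM : ∀ k, K ≤ k → ∀ j, K ≤ j → Mul L k j := fun k hk j hj => mul_of_vv (hK k j hk hj)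
  exact ⟨⟨β, fun i => by have := hβ i; omega, P', hP', fun d t ht =>
    rep_all hM hβ hP' hc _ d rfl t ht⟩, rfl⟩

end

/-- **`BridgeS` implies `Bridge`** -/
theorem bridge_of (H : BridgeS) : Bridge := by
  intro m M _ _ _ _ A _ hPA L h hp Pr θ hθ
  obtain ⟨PA⟩ := hPA
  obtain ⟨K, hK⟩ := exists_msys_pos PA Pr h hp (Fin 2)
  refine ⟨K, fun k hk => ?_⟩
  obtain ⟨S, hS⟩ := hK ![k, k + 1] (fun i => by
    fin_cases i
    · exact hk
    · exact hk.trans (Nat.le_succ k))
  refine ⟨S, hS, H m M A ⟨PA⟩ (d2_proj PA Pr) L (Fin 2) S ![-1, 1] ?_ θ hθ⟩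
  rw [hS, Fin.sum_univ_two]
  simp

end Crest.Agent.R260.Br5_592
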