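import Crest.Agent.R260.Rank3_406
import Crest.Agent.R260.LinDefs_678

/-!
# Row 260 (S0398), GAGA-TH, transfer of non-degeneracy (helper186)

`transfer_nd` (#6754 of 323): dimension of the tangent space, `θ ≠ 0` and non-degeneracy of `dθ`
modulo the Euler vectors pass from the `k`-points (k algebraically closed) of the chart
`∀ i, v i (c i) ≠ 0` of the multicone of `E` to the points over all fields.
-/

set_option autoImplicit false
set_option linter.unusedSectionVars false

open MvPolynomial Module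

namespace Crest.Agent.R260.Ga6a_186

open Crest.Agent.R260.Rk_406
open Crest.Agent.R270.BM_360 (OnX)
open Crest.Agent.R260.Lin_678 (Tan TanSp form dform)

universe u

noncomputable section

/-! ### linear algebra -/

section lin

variable {F : Type*} [Field F] {b : Type*} [Fintype b]

/-- the linear functional of a row -/
def fun1 (w : b → F) : (b → F) →ₗ[F] F where
  toFun t := ∑ y, w y * t y
  map_add' s t := by
    rw [← Finset.sum_add_distrib]
    exact Finset.sum_congr rfl fun y _ => by rw [Pi.add_apply]; ring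
  map_smul' c t := by
    rw [RingHom.id_apply, smul_eq_mul, Finset.mul_sum]
    exact Finset.sum_congr rfl fun y _ => by rw [Pi.smul_apply, smul_eq_mul]; ring

theorem fun1_apply (w t : b → F) : fun1 w t = ∑ y, w y * t y := rfl

/-- adding a row to a family of rows -/
theorem finrank_inf_ker (K : Submodule F (b → F)) (w : b → F) (h : ∃ t ∈ K, fun1 w t ≠ 0) :
    finrank F ↥(K ⊓ LinearMap.ker (fun1 w)) + 1 = finrank F K := by
  set φ : K →ₗ[F] F := (fun1 w).domRestrict K with hφ
  have h1 : finrank F (LinearMap.range φ) + finrank F (LinearMap.ker φ) = finrank F K :=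
    LinearMap.finrank_range_add_finrank_ker φ
  have h2 : LinearMap.range φ = ⊤ := by
    obtain ⟨t, ht, hne⟩ := h
    apply LinearMap.range_eq_top.2
    intro c
    refine ⟨(c / fun1 w t) • ⟨t, ht⟩, ?_⟩
    rw [map_smul]
    show c / fun1 w t * fun1 w t = c
    rw [div_mul_cancel₀ _ hne]
  have h3 : (LinearMap.ker φ).map K.subtype = K ⊓ LinearMap.ker (fun1 w) := by
    ext t
    constructor
    · rintro ⟨s, hs, rfl⟩
      exact ⟨s.2, hs⟩
    · rintro ⟨ht, hw⟩
      exact ⟨⟨t, ht⟩, hw, rfl⟩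
  have h4 : finrank F ((LinearMap.ker φ).map K.subtype) = finrank F (LinearMap.ker φ) :=
    LinearEquiv.finrank_eq (Submodule.equivMapOfInjective K.subtype K.injective_subtype
      (LinearMap.ker φ)).symm
  rw [← h3, h4, ← h1, h2, finrank_top, finrank_self, add_comm]

end lin

variable {k : Type u} [Field k] {I : Type} {J : I → Type} [Fintype I] [∀ i, Fintype (J i)]

/-- the rows: the form and the equations -/
def MM (E : Set (MvPolynomial (Σ i, J i) k)) (p : (Σ i, J i) → MvPolynomial (Σ i, J i) k) :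
    Option E → (Σ i, J i) → MvPolynomial (Σ i, J i) k :=
  fun o x => o.elim (p x) (fun e => pderiv x e.1)

/-- the exterior derivative -/
def Om (p : (Σ i, J i) → MvPolynomial (Σ i, J i) k) :
    (Σ i, J i) → (Σ i, J i) → MvPolynomial (Σ i, J i) k :=
  fun x y => pderiv x (p y) - pderiv y (p x)

open Classical in
/-- the Euler vectors -/
def eu : I → (Σ i, J i) → MvPolynomial (Σ i, J i) k := fun i y => if y.1 = i then X y else 0

theorem Tan_iff {E : Set (MvPolynomial (Σ i, J i) k)} {κ : Type*} [Field κ] [Algebra k κ]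
    {v t : ∀ i, J i → κ} : Tan E v t ↔ unc t ∈ Ker (ev (Jm E) (unc v)) :=
  ⟨fun h p => h p.1 p.2, fun h p hp => h ⟨p, hp⟩⟩

theorem form_eq (p : (Σ i, J i) → MvPolynomial (Σ i, J i) k) {κ : Type*} [Field κ] [Algebra k κ]
    (v t : ∀ i, J i → κ) : form p v t = fun1 (fun x => aeval (unc v) (p x)) (unc t) := rfl

theorem dform_eq (p : (Σ i, J i) → MvPolynomial (Σ i, J i) k) {κ : Type*} [Field κ] [Algebra k κ]
    (v s t : ∀ i, J i → κ) :
    dform p v s t = ∑ x, ∑ y, unc s x * ev (Om p) (unc v) x y * unc t y := by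
  have h1 : dform p v s t = (∑ x : Σ i, J i, ∑ y : Σ i, J i,
      aeval (unc v) (pderiv y (p x)) * (unc s y * unc t x)) -
      ∑ x : Σ i, J i, ∑ y : Σ i, J i, aeval (unc v) (pderiv y (p x)) * (unc t y * unc s x) := by
    rw [← Finset.sum_sub_distrib]
    refine Finset.sum_congr rfl fun x _ => ?_
    rw [← Finset.sum_sub_distrib]
    refine Finset.sum_congr rfl fun y _ => ?_
    rw [← mul_sub]
    rfl
  rw [h1, Finset.sum_comm, ← Finset.sum_sub_distrib]
  refine Finset.sum_congr rfl fun x _ => ?_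
  rw [← Finset.sum_sub_distrib]
  refine Finset.sum_congr rfl fun y _ => ?_
  simp only [ev, Om, map_sub]
  ring

theorem mem_Ker_MM {E : Set (MvPolynomial (Σ i, J i) k)}
    {p : (Σ i, J i) → MvPolynomial (Σ i, J i) k} {κ : Type*} [Field κ] [Algebra k κ]
    {v t : ∀ i, J i → κ} : unc t ∈ Ker (ev (MM E p) (unc v)) ↔ Tan E v t ∧ form p v t = 0 := by
  constructor
  · intro h
    exact ⟨fun q hq => h (some ⟨q, hq⟩), h none⟩
  · rintro ⟨h1, h2⟩ (_ | e)
    · exact h2
    · exact h1 e.1 e.2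

theorem Ker_MM (E : Set (MvPolynomial (Σ i, J i) k))
    (p : (Σ i, J i) → MvPolynomial (Σ i, J i) k) {κ : Type*} [Field κ] [Algebra k κ]
    (v : ∀ i, J i → κ) : Ker (ev (MM E p) (unc v)) = Ker (ev (Jm E) (unc v)) ⊓
      LinearMap.ker (fun1 (fun x => aeval (unc v) (p x))) := by
  ext t
  have h1 : t ∈ Ker (ev (MM E p) (unc v)) ↔ Tan E v (cur t) ∧ form p v (cur t) = 0 :=
    mem_Ker_MM (t := cur t)
  rw [h1, Submodule.mem_inf, Tan_iff, form_eq, LinearMap.mem_ker, unc_cur]

theorem finrank_TanSp (E : Set (MvPolynomial (Σ i, J i) k)) {κ : Type*} [Field κ] [Algebra k κ]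
    (v : ∀ i, J i → κ) : finrank κ (TanSp E v) = finrank κ (Ker (ev (Jm E) (unc v))) := by
  have h : TanSp E v = TanK E v := by
    ext t
    exact mem_TanK.symm
  rw [h, finrank_TanK]

theorem mem_Rad_MM {E : Set (MvPolynomial (Σ i, J i) k)}
    {p : (Σ i, J i) → MvPolynomial (Σ i, J i) k} {κ : Type*} [Field κ] [Algebra k κ]
    {v t : ∀ i, J i → κ} : unc t ∈ Rad (ev (MM E p) (unc v)) (ev (Om p) (unc v)) ↔
      Tan E v t ∧ form p v t = 0 ∧ ∀ t', Tan E v t' → form p v t' = 0 → dform p v t t' = 0 := by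
  rw [mem_Rad, mem_Ker_MM, and_assoc]
  refine and_congr_right fun _ => and_congr_right fun _ => ?_
  constructor
  · intro h t' h1 h2
    rw [dform_eq]
    exact h (unc t') (mem_Ker_MM.2 ⟨h1, h2⟩)
  · intro h t' ht'
    have h1 : Tan E v (cur t') ∧ form p v (cur t') = 0 := mem_Ker_MM.1 ht'
    have := h (cur t') h1.1 h1.2
    rw [dform_eq] at this
    exact this

theorem ev_eu {κ : Type*} [Field κ] [Algebra k κ] (v : ∀ i, J i → κ) (i : I) [DecidableEq I] :
    ev (eu (k := k) (J := J)) (unc v) i =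
      unc (fun i' j => (if i' = i then (1 : κ) else 0) * v i' j) := by
  funext y
  simp only [ev, eu, unc]
  by_cases h : y.1 = i
  · rw [if_pos h, if_pos h, aeval_X, one_mul]; rfl
  · rw [if_neg h, if_neg h, map_zero, zero_mul]

theorem mem_span_eu {κ : Type*} [Field κ] [Algebra k κ] (v : ∀ i, J i → κ)
    {t : ∀ i, J i → κ} : unc t ∈ Submodule.span κ (Set.range (ev (eu (k := k) (J := J)) (unc v))) ↔
      ∃ a : I → κ, ∀ i j, t i j = a i * v i j := by
  classical
  rw [Submodule.mem_span_range_iff_exists_fun]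
  have key : ∀ a : I → κ, ∑ i, a i • ev (eu (k := k) (J := J)) (unc v) i =
      unc (fun i j => a i * v i j) := by
    intro a
    funext y
    rw [Finset.sum_apply, Finset.sum_eq_single y.1]
    · rw [Pi.smul_apply, ev_eu, smul_eq_mul]
      simp [unc]
    · intro i _ hi
      rw [Pi.smul_apply, ev_eu, smul_eq_mul]
      simp [unc, Ne.symm hi]
    · intro h
      exact absurd (Finset.mem_univ _) h
  constructor
  · rintro ⟨a, ha⟩
    refine ⟨a, fun i j => ?_⟩
    rw [key] at ha
    exact (congrFun ha ⟨i, j⟩).symm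
  · rintro ⟨a, ha⟩
    refine ⟨a, ?_⟩
    rw [key]
    funext y
    exact (ha y.1 y.2).symm

theorem finrank_span_eu {κ : Type*} [Field κ] [Algebra k κ] (v : ∀ i, J i → κ) (c : ∀ i, J i)
    (hc : ∀ i, v i (c i) ≠ 0) :
    finrank κ (Submodule.span κ (Set.range (ev (eu (k := k) (J := J)) (unc v)))) =
      Fintype.card I := by
  classical
  refine finrank_span_eq_card ?_
  rw [Fintype.linearIndependent_iff]
  intro a ha i
  have h1 := congrFun ha ⟨i, c i⟩
  rw [Finset.sum_apply, Finset.sum_eq_single i] at h1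
  · rw [Pi.smul_apply, ev_eu, smul_eq_mul] at h1
    simpa [unc, hc i] using h1
  · intro i' _ hi
    rw [Pi.smul_apply, ev_eu, smul_eq_mul]
    simp [unc, Ne.symm hi]
  · intro h
    exact absurd (Finset.mem_univ _) h

theorem B_ne {κ : Type*} [Field κ] [Algebra k κ] (v : ∀ i, J i → κ) (c : ∀ i, J i) :
    aeval (unc v) (∏ i, X (⟨i, c i⟩ : Σ i, J i) : MvPolynomial (Σ i, J i) k) ≠ 0 ↔
      ∀ i, v i (c i) ≠ 0 := by
  rw [map_prod, Finset.prod_ne_zero_iff]
  constructor
  · intro h i
    have := h i (Finset.mem_univ i)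
    rwa [aeval_X] at this
  · intro h i _
    rw [aeval_X]
    exact h i

/-- **transfer of non-degeneracy** -/
theorem transfer_nd [IsAlgClosed k] {E : Set (MvPolynomial (Σ i, J i) k)} (c : ∀ i, J i)
    (p : (Σ i, J i) → MvPolynomial (Σ i, J i) k) {d : ℕ}
    (h1 : ∀ v : ∀ i, J i → k, OnX E v → (∀ i, v i (c i) ≠ 0) →
      Module.finrank k (TanSp E v) = d + 1)
    (h2 : ∀ v : ∀ i, J i → k, OnX E v → (∀ i, v i (c i) ≠ 0) → ∃ t, Tan E v t ∧ form p v t ≠ 0)
    (h3 : ∀ v : ∀ i, J i → k, OnX E v → (∀ i, v i (c i) ≠ 0) → ∀ a : I → k,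
      Tan E v (fun i j => a i * v i j) ∧ form p v (fun i j => a i * v i j) = 0 ∧
      ∀ t', Tan E v t' → form p v t' = 0 → dform p v (fun i j => a i * v i j) t' = 0)
    (h4 : ∀ v : ∀ i, J i → k, OnX E v → (∀ i, v i (c i) ≠ 0) → ∀ t, Tan E v t →
      form p v t = 0 → (∀ t', Tan E v t' → form p v t' = 0 → dform p v t t' = 0) →
      ∃ a : I → k, ∀ i j, t i j = a i * v i j)
    {κ : Type u} [Field κ] [Algebra k κ] (v : ∀ i, J i → κ) (hv : OnX E v)
    (hc : ∀ i, v i (c i) ≠ 0) :
    Module.finrank κ (TanSp E v) = d + 1 ∧ (∃ t, Tan E v t ∧ form p v t ≠ 0) ∧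
      ∀ t, Tan E v t → form p v t = 0 →
        (∀ t', Tan E v t' → form p v t' = 0 → dform p v t t' = 0) →
        ∃ a : I → κ, ∀ i j, t i j = a i * v i j := by
  classical
  set B : MvPolynomial (Σ i, J i) k := ∏ i, X (⟨i, c i⟩ : Σ i, J i) with hB
  have hBv : aeval (unc v) B ≠ 0 := (B_ne v c).2 hc
  have hvO : On E (unc v) := hv
  -- dimension of the kernel of the equations
  have hT : finrank κ (Ker (ev (Jm E) (unc v))) = d + 1 := by
    refine ker_eq (E := E) (B := B) (Jm E) ?_ (unc v) hvO hBv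
    intro x hx hBx
    have h5 := h1 (cur x) hx ((B_ne (cur x) c).1 hBx)
    rw [finrank_TanSp] at h5
    exact h5
  have hN0 : ∀ x : (Σ i, J i) → k, On E x → aeval x B ≠ 0 →
      finrank k (Ker (ev (MM E p) x)) = d := by
    intro x hx hBx
    have hcx := (B_ne (cur x) c).1 hBx
    have h5 := h1 (cur x) hx hcx
    rw [finrank_TanSp] at h5
    obtain ⟨t, ht, htne⟩ := h2 (cur x) hx hcx
    have h6 := finrank_inf_ker (Ker (ev (Jm E) (unc (cur x))))
      (fun y => aeval (unc (cur x)) (p y)) ⟨unc t, Tan_iff.1 ht, htne⟩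
    rw [← Ker_MM, h5] at h6
    exact Nat.succ_injective h6
  have hN : finrank κ (Ker (ev (MM E p) (unc v))) = d :=
    ker_eq (E := E) (B := B) (MM E p) hN0 (unc v) hvO hBv
  have hR : Rad (ev (MM E p) (unc v)) (ev (Om p) (unc v)) =
      Submodule.span κ (Set.range (ev (eu (k := k) (J := J)) (unc v))) := by
    refine rad_eq_span (E := E) (B := B) (MM E p) (Om p) (eu (k := k) (J := J)) (N := d)
      (s := Fintype.card I) hN0 ?_ ?_ (unc v) hvO hBv
    · intro x hx hBx
      have hcx := (B_ne (cur x) c).1 hBx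
      ext t
      have e1 : t ∈ Rad (ev (MM E p) x) (ev (Om p) x) ↔ Tan E (cur x) (cur t) ∧
          form p (cur x) (cur t) = 0 ∧ ∀ t', Tan E (cur x) t' → form p (cur x) t' = 0 →
            dform p (cur x) (cur t) t' = 0 := mem_Rad_MM (v := cur x) (t := cur t)
      have e2 : t ∈ Submodule.span k (Set.range (ev (eu (k := k) (J := J)) x)) ↔
          ∃ a : I → k, ∀ i j, cur t i j = a i * cur x i j :=
        mem_span_eu (cur x) (t := cur t)
      rw [e1, e2]
      constructor
      · rintro ⟨g1, g2, g3⟩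
        exact h4 (cur x) hx hcx (cur t) g1 g2 g3
      · rintro ⟨a, ha⟩
        have e3 : cur t = fun i j => a i * cur x i j := by
          funext i j
          exact ha i j
        rw [e3]
        exact h3 (cur x) hx hcx a
    · intro x hx hBx
      exact finrank_span_eu (cur x) c ((B_ne (cur x) c).1 hBx)
  refine ⟨by rw [finrank_TanSp]; exact hT, ?_, ?_⟩
  · by_contra hcon
    push Not at hcon
    have h7 : Ker (ev (MM E p) (unc v)) = Ker (ev (Jm E) (unc v)) := by
      rw [Ker_MM]
      refine inf_eq_left.2 fun t ht => ?_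
      rw [LinearMap.mem_ker]
      exact hcon (cur t) (Tan_iff.2 ht)
    rw [h7, hT] at hN
    omega
  · intro t g1 g2 g3
    have h8 : unc t ∈ Rad (ev (MM E p) (unc v)) (ev (Om p) (unc v)) :=
      mem_Rad_MM.2 ⟨g1, g2, g3⟩
    rw [hR] at h8
    exact (mem_span_eu v).1 h8

end

end Crest.Agent.R260.Ga6a_186
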