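import Crest.Agent.R260.Br1_592

/-!
# R260 (S0398), AG-BRIDGE, part 2 (helper592): points

* `exists_pt` : `ExistsPt S` (Chow's theorem in several blocks, by the Segre embedding);
* `pt_inj`    : one block determines the point.
-/

set_option autoImplicit false
set_option linter.unusedSectionVars false

open Set Filter Topology Complex
open scoped ContDiff Matrix ComplexConjugate

namespace Crest.Agent.R260.Br2_592

open Crest.Agent.R275 Crest.Agent.R275.Geo Crest.Agent.R275.Core144
open Crest.Agent.R273.LamN127 Crest.Agent.R273.KosAb_619 Crest.Agent.R273.SerA_945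
open Crest.Agent.R273.SerB_945 Crest.Agent.R273.SerC_945 Crest.Agent.R273.KosGen_313
open Crest.Agent.R273.Defs_333 Crest.Agent.R273.FS_333
open Crest.Agent.R273.TD3_733 Crest.Agent.R273.SerE_945 Crest.Agent.R273.Chow_313
open Crest.Agent.R270.BM_360 Crest.Agent.R260.BrDefs_592 Crest.Agent.R260.Br1_592

noncomputable section

/-! ### substitution -/

/-- substitution of weighted homogeneous polynomials in a homogeneous polynomial -/
theorem wh_aeval {σ τ : Type*} {W : Type*} [AddCommMonoid W] {k : Type*} [CommSemiring k]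
    {p : MvPolynomial σ k} {D : ℕ} (hp : p.IsHomogeneous D) {w : τ → W} {e : W}
    {f : σ → MvPolynomial τ k} (hf : ∀ s, (f s).IsWeightedHomogeneous w e) :
    (MvPolynomial.aeval f p).IsWeightedHomogeneous w (D • e) := by
  classical
  rw [MvPolynomial.aeval_def, MvPolynomial.eval₂_eq]
  refine MvPolynomial.IsWeightedHomogeneous.sum _ _ _ fun m hm => ?_
  have h1 : ∑ i ∈ m.support, m i = D := by
    have h2 := hp (MvPolynomial.mem_support_iff.1 hm)
    rw [← h2, Finsupp.weight_apply, Finsupp.sum]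
    simp
  have h3 : (∏ i ∈ m.support, f i ^ m i).IsWeightedHomogeneous w (D • e) := by
    rw [← h1, Finset.sum_smul]
    refine MvPolynomial.IsWeightedHomogeneous.prod _ _ _ fun i _ => ?_
    exact (hf i).pow (m i)
  have h4 := (MvPolynomial.isWeightedHomogeneous_C w (MvPolynomial.coeff m p)).mul h3
  rw [zero_add] at h4
  exact h4

variable {n : ℕ} {M : Type} [TopologicalSpace M] {A : Atl n M} {L : LB A} {I : Type} [Fintype I]
  (S : MSys A L I)

theorem vanish_large [T2Space M] [ConnectedSpace M] [CompactSpace M] [Finite A.ι] (PA : Part A)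
    (hD : D2 A) {L : LB A} {Pr : ProjD A} {k0 : ℕ} (hk0 : 1 ≤ k0) (h : lb Pr = L ^ k0) :
    ∃ m1 : ℕ, ∀ N, m1 ≤ N → ∀ q, 1 ≤ q → Solv (L ^ N) q :=
  residue (Q := fun N => ∀ q, 1 ≤ q → Solv N q) hk0 h fun L' => by
    obtain ⟨m0, hm0⟩ := solv_large PA hD (fs_pos Pr) L'
    exact ⟨m0, fun m hm q hq => hm0 m hm q hq⟩

/-! ### the Segre family -/

open Classical in
/-- the products of the coordinates -/
def Sg (a : ∀ i, S.J i) : Fn A := fun c x =>
  if x ∈ (A.e c).source then ∏ i, S.pt c x i (a i) else 0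

theorem Sg_apply (a : ∀ i, S.J i) {c : A.ι} {x : M} (hx : x ∈ (A.e c).source) :
    Sg S a c x = ∏ i, S.pt c x i (a i) := if_pos hx

theorem isHS_Sg (a : ∀ i, S.J i) : IsHS (L ^ (∑ i, S.β i)) univ (Sg S a) where
  hol c := (HolAt.prod (Finset.univ) (F := fun i x => S.pt c x i (a i)) fun i _ =>
    (S.P i).hol c (a i)).congr fun x hx _ => (Sg_apply S a hx).symm
  off c x hx := if_neg hx
  tr c c' x hx _ := by
    rw [Sg_apply S a hx.1, Sg_apply S a hx.2, pow_g, ← Finset.prod_pow_eq_pow_sum,
      ← Finset.prod_mul_distrib]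
    exact Finset.prod_congr rfl fun i _ => S.pt_chg hx i (a i)

theorem pt_inj {i : I} {c c' : A.ι} {x x' : M} (hx : x ∈ (A.e c).source)
    (hx' : x' ∈ (A.e c').source) {l : ℂ} (h : ∀ a, S.pt c x i a = l * S.pt c' x' i a) : x = x' :=
  (S.P i).inj c c' x hx x' hx' ⟨l, funext fun a => h a⟩

/-- **Chow's theorem in several blocks** -/
theorem exists_pt [T2Space M] [ConnectedSpace M] [CompactSpace M] [Finite A.ι] (PA : Part A)
    (hD : D2 A) : ExistsPt S := by
  classical
  intro v hv hv0
  by_cases hI : Nonempty I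
  swap
  · obtain ⟨x⟩ := (inferInstance : Nonempty M)
    obtain ⟨c, hc⟩ := A.cover x
    exact ⟨c, x, hc, fun _ => 1, fun i => absurd ⟨i⟩ hI, funext fun i => absurd ⟨i⟩ hI⟩
  obtain ⟨i0⟩ := hI
  obtain ⟨m1, hm1⟩ := vanish_large PA hD (S.pos i0) (S.hb i0)
  have hpos : 1 ≤ ∑ i, S.β i :=
    (S.pos i0).trans (Finset.single_le_sum (f := S.β) (fun _ _ => Nat.zero_le _) (Finset.mem_univ i0))
  choose a0 ha0 using fun i => Function.ne_iff.1 (hv0 i)
  simp only [Pi.zero_apply] at ha0
  set V : (∀ i, S.J i) → ℂ := fun a => ∏ i, v i (a i) with hV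
  have hVa0 : V a0 ≠ 0 := Finset.prod_ne_zero_iff.2 fun i _ => ha0 i
  obtain ⟨c, x, hx, cst, hcst, hVc⟩ := chow_vec' (O := L ^ (∑ i, S.β i)) (F := Sg S)
    (fun a => isHS_Sg S a)
    (fun c x hx => by
      choose a ha using fun i => Function.ne_iff.1 (S.pt_ne hx i)
      refine ⟨a, ?_⟩
      rw [Sg_apply S a hx]
      exact Finset.prod_ne_zero_iff.2 fun i _ => ha i)
    (fun k => fd_pow PA _ k) (m0 := m1)
    (fun m hm q hq => by
      rw [← pow_mul]
      exact hm1 _ (hm.trans (Nat.le_mul_of_pos_left _ hpos)) q hq)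
    V (fun h => hVa0 (congrFun h a0))
    (fun D p hp hz => by
      set f : (∀ i, S.J i) → MvPolynomial (Σ i, S.J i) ℂ := fun a => ∏ i, MvPolynomial.X ⟨i, a i⟩
        with hf
      have hfw : ∀ a, MHd (f a) (fun _ => 1) := by
        intro a
        unfold MHd
        have h1 : (fun _ : I => 1) = ∑ i : I, (Pi.single i 1 : I → ℕ) := by
          funext j
          rw [Finset.sum_apply, Finset.sum_eq_single j (fun i _ hi => Pi.single_eq_of_ne (Ne.symm hi) _)
            (fun h => absurd (Finset.mem_univ j) h), Pi.single_eq_same]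
        rw [h1]
        refine MvPolynomial.IsWeightedHomogeneous.prod _ _ _ fun i _ => ?_
        have h2 := MvPolynomial.isWeightedHomogeneous_X ℂ
          (fun x : Σ i, S.J i => (Pi.single x.1 1 : I → ℕ)) ⟨i, a i⟩
        convert h2
      have h1 : MHd (MvPolynomial.aeval f p) (D • fun _ => 1) := wh_aeval hp hfw
      have h2 : ∀ u : ∀ i, S.J i → ℂ, MvPolynomial.aeval (fun y : Σ i, S.J i => u y.1 y.2)
          (MvPolynomial.aeval f p) = MvPolynomial.eval (fun a => ∏ i, u i (a i)) p := by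
        intro u
        rw [← aeval_eq]
        have h3 := MvPolynomial.comp_aeval_apply (R := ℂ)
          (φ := MvPolynomial.aeval (R := ℂ) (fun y : Σ i, S.J i => u y.1 y.2)) (f := f) (p := p)
        rw [h3]
        congr 2
        funext a
        rw [hf, map_prod]
        exact Finset.prod_congr rfl fun i _ => by rw [MvPolynomial.aeval_X]
      have h3 : MvPolynomial.aeval f p ∈ S.E := by
        refine ⟨⟨_, h1⟩, fun c x hx => ?_⟩
        have h4 := h2 (S.pt c x)
        rw [aeval_eq] at h4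
        show MvPolynomial.eval (fun y : Σ i, S.J i => S.pt c x y.1 y.2) _ = 0
        rw [h4, ← hz c x hx]
        congr 2
        funext a
        exact (Sg_apply S a hx).symm
      have h5 := hv _ h3
      rw [h2 v] at h5
      exact h5)
  have hG : ∀ a, V a = cst * ∏ i, S.pt c x i (a i) := by
    intro a
    rw [hVc, Pi.smul_apply, smul_eq_mul, Sg_apply S a hx]
  have hF0 : ∀ i, S.pt c x i (a0 i) ≠ 0 := by
    intro i h
    refine hVa0 ?_
    rw [hG, Finset.prod_eq_zero (Finset.mem_univ i) h, mul_zero]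
  refine ⟨c, x, hx, fun i => v i (a0 i) / S.pt c x i (a0 i), fun i => div_ne_zero (ha0 i) (hF0 i), ?_⟩
  funext i a
  have h1 := hG (Function.update a0 i a)
  have h2 := hG a0
  simp only [hV] at h1 h2
  rw [← Finset.mul_prod_erase _ _ (Finset.mem_univ i), ← Finset.mul_prod_erase _ _ (Finset.mem_univ i),
    Function.update_self] at h1
  rw [← Finset.mul_prod_erase _ _ (Finset.mem_univ i),
    ← Finset.mul_prod_erase (Finset.univ) (fun i => S.pt c x i (a0 i)) (Finset.mem_univ i)] at h2
  have h3 : ∏ j ∈ Finset.univ.erase i, v j (Function.update a0 i a j) =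
      ∏ j ∈ Finset.univ.erase i, v j (a0 j) := by
    refine Finset.prod_congr rfl fun j hj => ?_
    rw [Function.update_of_ne (Finset.ne_of_mem_erase hj)]
  have h4 : ∏ j ∈ Finset.univ.erase i, S.pt c x j (Function.update a0 i a j) =
      ∏ j ∈ Finset.univ.erase i, S.pt c x j (a0 j) := by
    refine Finset.prod_congr rfl fun j hj => ?_
    rw [Function.update_of_ne (Finset.ne_of_mem_erase hj)]
  rw [h3, h4] at h1
  have h5 : ∏ j ∈ Finset.univ.erase i, v j (a0 j) ≠ 0 :=
    Finset.prod_ne_zero_iff.2 fun j _ => ha0 j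
  have h6 : ∏ j ∈ Finset.univ.erase i, S.pt c x j (a0 j) ≠ 0 :=
    Finset.prod_ne_zero_iff.2 fun j _ => hF0 j
  have h7 := hF0 i
  rw [div_mul_eq_mul_div, eq_div_iff h7]
  refine mul_right_cancel₀ h5 ?_
  refine mul_right_cancel₀ h6 ?_
  linear_combination S.pt c x i (a0 i) * (∏ j ∈ Finset.univ.erase i, S.pt c x j (a0 j)) * h1 -
    (∏ j ∈ Finset.univ.erase i, S.pt c x j (a0 j)) * S.pt c x i a * h2

end

end Crest.Agent.R260.Br2_592
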