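import Crest.Agent.R260.Ga1_323
import Crest.Agent.R260.Br2_592
import Crest.Agent.R260.Had_12
import Crest.Agent.R260.LinDefs_678

set_option autoImplicit false
set_option linter.unusedSectionVars false

/-!
# Row 260 (S0398), GAGA-TH, part 3 (helper323): tangent spaces of the multicone

* `had2`    : second order division by functions with injective differential;
* `Dv v t p`: the derivative of the polynomial `p` at `v` in the direction `t`;
* `dpt`     : the derivative of the coordinates; `ev_fderiv`;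
* `sv S p`  : multihomogeneous polynomials as sections of powers of `L`.
-/

open Set Filter Topology Complex
open scoped ContDiff Matrix ComplexConjugate

namespace Crest.Agent.R260.Ga_323

open Crest.Agent.R275 Crest.Agent.R275.Geo Crest.Agent.R275.Core144 Crest.Agent.R275.Dg199
open Crest.Agent.R273.LamN127 Crest.Agent.R273.SerA_945
open Crest.Agent.R273.SerB_945 Crest.Agent.R273.SerC_945 Crest.Agent.R273.KosGen_313
open Crest.Agent.R273.Defs_333 Crest.Agent.R273.FS_333
open Crest.Agent.R273.TD3_733 Crest.Agent.R273.SerE_945 Crest.Agent.R273.Chow_313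
open Crest.Agent.R270.BM_360 Crest.Agent.R260.BrDefs_592 Crest.Agent.R260.Br1_592
open Crest.Agent.R260.Br2_592 Crest.Agent.R260.Had_12

noncomputable section

/-! ### second order division -/

section Had

variable {E : Type*} [NormedAddCommGroup E] [NormedSpace ℂ E] [FiniteDimensional ℂ E]
  {ι : Type*} [Fintype ι]

/-- second order division -/
theorem had2 {g : ι → E → ℂ} {z0 : E} (hg : ∀ j, AnalyticAt ℂ (g j) z0)
    (hg0 : ∀ j, g j z0 = 0) (hd : ∀ u, (∀ j, fderiv ℂ (g j) z0 u = 0) → u = 0)
    {f : E → ℂ} (hf : AnalyticAt ℂ f z0) (hf0 : f z0 = 0) (hf1 : fderiv ℂ f z0 = 0) :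
    ∃ v : ι → ι → E → ℂ, (∀ j k, AnalyticAt ℂ (v j k) z0) ∧
      ∀ᶠ z in 𝓝 z0, f z = ∑ j, ∑ k, g j z * g k z * v j k z := by
  classical
  have : CompleteSpace E := FiniteDimensional.complete ℂ E
  obtain ⟨q, hq, hq0, hqe⟩ := exists_quot hf
  -- `z - z0` is a combination of the `g j`
  let b := Module.finBasis ℂ E
  let ι' := Fin (Module.finrank ℂ E)
  have hc : ∀ a : ι', ∃ v : ι → E → ℂ, (∀ j, AnalyticAt ℂ (v j) z0) ∧
      ∀ᶠ z in 𝓝 z0, b.repr (z - z0) a = ∑ j, g j z * v j z := by
    intro a
    have h1 : AnalyticAt ℂ (fun z : E => b.repr (z - z0) a) z0 := by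
      have h2 : AnalyticAt ℂ (fun z : E => LinearMap.toContinuousLinearMap (b.coord a) (z - z0))
          z0 :=
        ((LinearMap.toContinuousLinearMap (b.coord a)).analyticAt _).comp
          (analyticAt_id.sub analyticAt_const)
      exact h2
    exact hadamard hg hg0 hd h1 (by simp)
  choose V hV hVe using hc
  have hq2 : ∀ a : ι', ∃ w : ι → E → ℂ, (∀ j, AnalyticAt ℂ (w j) z0) ∧
      ∀ᶠ z in 𝓝 z0, q z (b a) = ∑ k, g k z * w k z := by
    intro a
    have h1 : AnalyticAt ℂ (fun z : E => q z (b a)) z0 :=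
      AnalyticAt.comp (g := fun T : E →L[ℂ] ℂ => T (b a)) (f := q)
        ((ContinuousLinearMap.apply ℂ ℂ (b a)).analyticAt _) hq
    refine hadamard hg hg0 hd h1 ?_
    rw [hq0, hf1]
    rfl
  choose W hW hWe using hq2
  refine ⟨fun j k z => ∑ a, V a j z * W a k z, fun j k => ?_, ?_⟩
  · exact Finset.analyticAt_fun_sum _ fun a _ => (hV a j).mul (hW a k)
  · filter_upwards [hqe, Filter.eventually_all.2 hVe, Filter.eventually_all.2 hWe] with z h1 h2 h3
    have h4 : q z (z - z0) = ∑ a, b.repr (z - z0) a * q z (b a) := by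
      conv_lhs => rw [← b.sum_repr (z - z0)]
      rw [map_sum]
      exact Finset.sum_congr rfl fun a _ => by rw [map_smul, smul_eq_mul]
    rw [h1, hf0, zero_add, h4]
    have h5 : ∀ a, b.repr (z - z0) a * q z (b a) =
        ∑ j, ∑ k, g j z * g k z * (V a j z * W a k z) := by
      intro a
      rw [h2 a, h3 a, Finset.sum_mul_sum]
      exact Finset.sum_congr rfl fun j _ => Finset.sum_congr rfl fun k _ => by ring
    rw [Finset.sum_congr rfl fun a _ => h5 a, Finset.sum_comm]
    refine Finset.sum_congr rfl fun j _ => ?_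
    rw [Finset.sum_comm]
    refine Finset.sum_congr rfl fun k _ => ?_
    rw [Finset.mul_sum]

end Had

/-! ### the derivation at a point -/

section Der

variable {σ : Type*} [Fintype σ] {k R : Type*} [CommRing k] [CommRing R] [Algebra k R]

/-- the derivative of `p` at `v` in the direction `t` -/
def Dv (v t : σ → R) (p : MvPolynomial σ k) : R :=
  ∑ y, MvPolynomial.aeval v (MvPolynomial.pderiv y p) * t y

variable (v t : σ → R)

theorem Dv_add (p q : MvPolynomial σ k) : Dv v t (p + q) = Dv v t p + Dv v t q := by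
  unfold Dv
  simp only [map_add, add_mul, Finset.sum_add_distrib]

theorem Dv_sub (p q : MvPolynomial σ k) : Dv v t (p - q) = Dv v t p - Dv v t q := by
  unfold Dv
  simp only [map_sub, sub_mul, Finset.sum_sub_distrib]

theorem Dv_sum {α : Type*} (s : Finset α) (p : α → MvPolynomial σ k) :
    Dv v t (∑ a ∈ s, p a) = ∑ a ∈ s, Dv v t (p a) := by
  unfold Dv
  rw [Finset.sum_comm]
  exact Finset.sum_congr rfl fun y _ => by rw [map_sum, map_sum, Finset.sum_mul]

theorem Dv_mul (p q : MvPolynomial σ k) : Dv v t (p * q) =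
    Dv v t p * MvPolynomial.aeval v q + MvPolynomial.aeval v p * Dv v t q := by
  unfold Dv
  rw [Finset.sum_mul, Finset.mul_sum, ← Finset.sum_add_distrib]
  refine Finset.sum_congr rfl fun y _ => ?_
  rw [Derivation.leibniz, map_add, smul_eq_mul, smul_eq_mul, map_mul, map_mul]
  ring

theorem Dv_C (c : k) : Dv v t (MvPolynomial.C c : MvPolynomial σ k) = 0 := by
  unfold Dv
  exact Finset.sum_eq_zero fun y _ => by rw [MvPolynomial.pderiv_C, map_zero, zero_mul]

theorem Dv_X (y : σ) : Dv v t (MvPolynomial.X y : MvPolynomial σ k) = t y := by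
  classical
  unfold Dv
  rw [Finset.sum_eq_single y]
  · rw [MvPolynomial.pderiv_X_self, map_one, one_mul]
  · intro z _ hz
    rw [MvPolynomial.pderiv_X_of_ne hz.symm, map_zero, zero_mul]
  · intro h
    exact absurd (Finset.mem_univ y) h

theorem Dv_C_mul (c : k) (p : MvPolynomial σ k) :
    Dv v t (MvPolynomial.C c * p) = algebraMap k R c * Dv v t p := by
  rw [Dv_mul, Dv_C, zero_mul, zero_add, MvPolynomial.aeval_C]

end Der

/-! ### multihomogeneous polynomials as sections -/

section Sec

variable {n : ℕ} {M : Type} [TopologicalSpace M] {A : Atl n M} {L : LB A} {I : Type} [Fintype I]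
  (S : MSys A L I)

/-- the derivative of the coordinates in the direction `u` -/
def dpt (c : A.ι) (x : M) (u : Cn n) : ∀ i, S.J i → ℂ := fun i a =>
  fderiv ℂ (fun z => (S.P i).F c ((A.e c).symm z) a) (A.e c x) u

theorem pt_diff (c : A.ι) {x : M} (hx : x ∈ (A.e c).source) (i : I) (a : S.J i) :
    DifferentiableAt ℂ (fun z => S.pt c ((A.e c).symm z) i a) (A.e c x) :=
  ((S.P i).hol c a).diffAt isOpen_univ hx (mem_univ x)

/-- chain rule -/
theorem hasFDerivAt_eval {E : Type*} [NormedAddCommGroup E] [NormedSpace ℂ E] {σ : Type*}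
    [Fintype σ] {f : σ → E → ℂ} {z0 : E} (hf : ∀ y, DifferentiableAt ℂ (f y) z0)
    (p : MvPolynomial σ ℂ) :
    HasFDerivAt (fun z => MvPolynomial.eval (fun y => f y z) p)
      (∑ y, MvPolynomial.eval (fun y => f y z0) (MvPolynomial.pderiv y p) • fderiv ℂ (f y) z0)
      z0 := by
  classical
  induction p using MvPolynomial.induction_on with
  | C a =>
    have h0 : (∑ y, MvPolynomial.eval (fun y => f y z0) (MvPolynomial.pderiv y
        (MvPolynomial.C a : MvPolynomial σ ℂ)) • fderiv ℂ (f y) z0) = 0 :=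
      Finset.sum_eq_zero fun y _ => by
        rw [MvPolynomial.pderiv_C, map_zero]
        ext u
        simp
    have h1 : (fun z => MvPolynomial.eval (fun y => f y z) (MvPolynomial.C a)) = fun _ => a := by
      funext z
      exact MvPolynomial.eval_C a
    rw [h0, h1]
    exact hasFDerivAt_const a z0
  | add p q hp hq =>
    have h0 : (∑ y, MvPolynomial.eval (fun y => f y z0) (MvPolynomial.pderiv y (p + q)) •
        fderiv ℂ (f y) z0) =
        (∑ y, MvPolynomial.eval (fun y => f y z0) (MvPolynomial.pderiv y p) • fderiv ℂ (f y) z0) +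
        ∑ y, MvPolynomial.eval (fun y => f y z0) (MvPolynomial.pderiv y q) • fderiv ℂ (f y) z0 := by
      rw [← Finset.sum_add_distrib]
      exact Finset.sum_congr rfl fun y _ => by
        rw [map_add, map_add]
        ext u
        simp [add_mul]
    have h1 : (fun z => MvPolynomial.eval (fun y => f y z) (p + q)) = fun z =>
        MvPolynomial.eval (fun y => f y z) p + MvPolynomial.eval (fun y => f y z) q := by
      funext z
      rw [map_add]
    rw [h0, h1]
    exact hp.fun_add hq
  | mul_X p y hp =>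
    have h1 := hp.fun_mul (hf y).hasFDerivAt
    have h2 : (fun z => MvPolynomial.eval (fun y => f y z) (p * MvPolynomial.X y)) = fun z =>
        MvPolynomial.eval (fun y => f y z) p * f y z := by
      funext z
      rw [map_mul, MvPolynomial.eval_X]
    rw [h2]
    refine h1.congr_fderiv ?_
    have h3 : ∀ y', MvPolynomial.eval (fun y => f y z0) (MvPolynomial.pderiv y'
        (p * MvPolynomial.X y)) • fderiv ℂ (f y') z0 =
        (if y' = y then MvPolynomial.eval (fun y => f y z0) p • fderiv ℂ (f y) z0 else 0) +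
          f y z0 • MvPolynomial.eval (fun y => f y z0) (MvPolynomial.pderiv y' p) •
            fderiv ℂ (f y') z0 := by
      intro y'
      rw [Derivation.leibniz, map_add, smul_eq_mul, smul_eq_mul, map_mul, map_mul,
        MvPolynomial.eval_X]
      by_cases hy : y' = y
      · subst hy
        rw [MvPolynomial.pderiv_X_self, map_one, mul_one, if_pos rfl]
        ext u
        simp [add_mul, mul_assoc]
      · rw [MvPolynomial.pderiv_X_of_ne (Ne.symm hy), map_zero, mul_zero, if_neg hy]
        ext u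
        simp [add_mul, mul_assoc]
    rw [Finset.sum_congr rfl fun y' _ => h3 y', Finset.sum_add_distrib,
      Finset.sum_ite_eq' Finset.univ, if_pos (Finset.mem_univ _), Finset.smul_sum]

theorem ev_fderiv (c : A.ι) {x : M} (hx : x ∈ (A.e c).source) (p : MvPolynomial (Σ i, S.J i) ℂ)
    (u : Cn n) :
    fderiv ℂ (fun z => S.ev c ((A.e c).symm z) p) (A.e c x) u =
      Dv (fun y : Σ i, S.J i => S.pt c x y.1 y.2) (fun y : Σ i, S.J i => dpt S c x u y.1 y.2) p := by
  have h := hasFDerivAt_eval (f := fun (y : Σ i, S.J i) z => S.pt c ((A.e c).symm z) y.1 y.2)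
    (fun y => pt_diff S c hx y.1 y.2) p
  have h2 : fderiv ℂ (fun z => S.ev c ((A.e c).symm z) p) (A.e c x) = _ := h.fderiv
  rw [h2, _root_.sum_apply]
  unfold Dv
  refine Finset.sum_congr rfl fun y _ => ?_
  rw [_root_.smul_apply, smul_eq_mul, aeval_eq, (A.e c).left_inv hx]
  rfl

open Classical in
/-- the section of `L ^ (∑ i, β i * d i)` given by a multihomogeneous polynomial -/
def sv (p : MvPolynomial (Σ i, S.J i) ℂ) : Fn A := fun c x =>
  if x ∈ (A.e c).source then S.ev c x p else 0

theorem sv_eq (p : MvPolynomial (Σ i, S.J i) ℂ) {c : A.ι} {x : M} (hx : x ∈ (A.e c).source) :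
    sv S p c x = S.ev c x p := if_pos hx

theorem ev_chg {p : MvPolynomial (Σ i, S.J i) ℂ} {d : I → ℕ} (hp : MHd p d) {c c' : A.ι} {x : M}
    (hx : x ∈ (A.e c).source ∩ (A.e c').source) :
    S.ev c x p = L.g c c' x ^ (∑ i, S.β i * d i) * S.ev c' x p := by
  have h1 := eval_scale hp (fun i => L.g c c' x ^ S.β i) (S.pt c' x)
  rw [aeval_eq, aeval_eq] at h1
  have h2 : S.ev c x p = MvPolynomial.eval
      (fun y : Σ i, S.J i => L.g c c' x ^ S.β y.1 * S.pt c' x y.1 y.2) p := by
    unfold MSys.ev
    congr 2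
    funext y
    exact S.pt_chg hx y.1 y.2
  rw [h2, h1]
  congr 1
  rw [← Finset.prod_pow_eq_pow_sum]
  exact Finset.prod_congr rfl fun i _ => by rw [pow_mul]

theorem isHS_sv {p : MvPolynomial (Σ i, S.J i) ℂ} {d : I → ℕ} (hp : MHd p d) :
    IsHS (L ^ (∑ i, S.β i * d i)) univ (sv S p) := by
  refine ⟨fun c => ?_, fun c x hx => if_neg hx, fun c c' x hx _ => ?_⟩
  · have h1 : HolAt A c univ (fun x => S.ev c x p) := by
      intro z hz
      have hx := (A.e c).map_target hz.1
      have h := hasFDerivAt_eval (f := fun (y : Σ i, S.J i) z => S.pt c ((A.e c).symm z) y.1 y.2)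
        (fun y => pt_diff S c hx y.1 y.2) p
      rw [(A.e c).right_inv hz.1] at h
      exact h.differentiableAt.differentiableWithinAt
    exact h1.congr fun x hx _ => (sv_eq S p hx).symm
  · rw [sv_eq S p hx.1, sv_eq S p hx.2, ev_chg S hp hx, pow_g]

end Sec

/-! ### division of a section vanishing to second order -/

section Div2

variable {n : ℕ} {M : Type} [TopologicalSpace M] {A : Atl n M} {L : LB A} {I : Type} [Fintype I]
  (S : MSys A L I)

/-- the linear forms in the block `i1` vanishing at a vector `a` with `a a0 ≠ 0` -/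
def Lf (i1 : I) (a : S.J i1 → ℂ) (a0 k : S.J i1) : MvPolynomial (Σ i, S.J i) ℂ :=
  MvPolynomial.C (a a0) * MvPolynomial.X ⟨i1, k⟩ - MvPolynomial.C (a k) * MvPolynomial.X ⟨i1, a0⟩

open Classical in
theorem Lf_MHd (i1 : I) (a : S.J i1 → ℂ) (a0 k : S.J i1) :
    MHd (Lf S i1 a a0 k) (Pi.single i1 1) := by
  have h1 : ∀ (b : ℂ) (k : S.J i1), MHd (MvPolynomial.C b * MvPolynomial.X (⟨i1, k⟩ : Σ i, S.J i))
      (Pi.single i1 1) := by
    intro b k
    have h2 := (MvPolynomial.isWeightedHomogeneous_C
      (fun x : Σ i, S.J i => (Pi.single x.1 1 : I → ℕ)) b).mul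
      (MvPolynomial.isWeightedHomogeneous_X ℂ
        (fun x : Σ i, S.J i => (Pi.single x.1 1 : I → ℕ)) ⟨i1, k⟩)
    rw [zero_add] at h2
    exact h2
  exact (h1 _ _).sub (h1 _ _)

theorem Lf_aeval {R : Type*} [CommRing R] [Algebra ℂ R] (i1 : I) (a : S.J i1 → ℂ) (a0 k : S.J i1)
    (v : (Σ i, S.J i) → R) : MvPolynomial.aeval v (Lf S i1 a a0 k) =
      algebraMap ℂ R (a a0) * v ⟨i1, k⟩ - algebraMap ℂ R (a k) * v ⟨i1, a0⟩ := by
  unfold Lf
  rw [map_sub, map_mul, map_mul, MvPolynomial.aeval_C, MvPolynomial.aeval_C, MvPolynomial.aeval_X,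
    MvPolynomial.aeval_X]

end Div2

end

end Crest.Agent.R260.Ga_323
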