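import Crest.Agent.R260.Zt3_313
import Crest.Agent.R260.Ga3_323

/-!
# R260 (S0398), leaf P2 (helper313): the tangent spaces of the multicone

`S : MSys A L I` (592), `x ∈ M`, `l i ≠ 0`:
* `tan_of`   : `l_i dpt u + al_i pt` are tangent vectors of the multicone at `l · pt`;
* `tan_iff`  : there are no other ones;
* `dpt_inj`, `tan_rank` : the dimension is `n + card I`.
-/

set_option autoImplicit false
set_option linter.unusedSectionVars false

open Set Filter Topology Complex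
open scoped ContDiff Matrix ComplexConjugate

namespace Crest.Agent.R260.Zt4_313

open Crest.Agent.R275 Crest.Agent.R275.Geo Crest.Agent.R275.Core144 Crest.Agent.R275.Dg199
open Crest.Agent.R273.LamN127 Crest.Agent.R273.SerA_945
open Crest.Agent.R273.SerB_945 Crest.Agent.R273.SerC_945 Crest.Agent.R273.KosGen_313
open Crest.Agent.R273.Defs_333 Crest.Agent.R273.FS_333
open Crest.Agent.R273.TD3_733 Crest.Agent.R273.SerE_945 Crest.Agent.R273.Chow_313
open Crest.Agent.R270.BM_360 Crest.Agent.R260.BrDefs_592 Crest.Agent.R260.Br1_592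
open Crest.Agent.R260.Br2_592 Crest.Agent.R260.Ga_323 Crest.Agent.R260.Zt_313
open Crest.Agent.R260.Lin_678

noncomputable section

variable {n : ℕ} {M : Type} [TopologicalSpace M] {A : Atl n M} {L : LB A} {I : Type} [Fintype I]
  (S : MSys A L I)

theorem tan_def (v t : ∀ i, S.J i → ℂ) : Tan S.E v t ↔
    ∀ p ∈ S.E, Dv (fun y : Σ i, S.J i => v y.1 y.2) (fun y : Σ i, S.J i => t y.1 y.2) p = 0 :=
  Iff.rfl

/-- the directions of the manifold and the Euler directions are tangent -/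
theorem tan_of {c : A.ι} {x : M} (hx : x ∈ (A.e c).source) (l : I → ℂ) (u : Cn n) (al : I → ℂ) :
    Tan S.E (fun i a => l i * S.pt c x i a)
      (fun i a => l i * dpt S c x u i a + al i * S.pt c x i a) := by
  rw [tan_def]
  intro p hp
  obtain ⟨⟨d, hd⟩, hp0⟩ := hp
  let f : (Σ i, S.J i) → (Cn n × ℂ) → ℂ := fun y q =>
    (l y.1 + q.2 * al y.1) * S.pt c ((A.e c).symm q.1) y.1 y.2
  have hf : ∀ y, HasFDerivAt (f y)
      ((l y.1 + (0 : ℂ) * al y.1) • ((fderiv ℂ (fun z => S.pt c ((A.e c).symm z) y.1 y.2)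
          (A.e c x)).comp (ContinuousLinearMap.fst ℂ (Cn n) ℂ)) +
        S.pt c ((A.e c).symm (A.e c x)) y.1 y.2 • (al y.1 • ContinuousLinearMap.snd ℂ (Cn n) ℂ))
      (A.e c x, (0 : ℂ)) := by
    intro y
    have h1 : HasFDerivAt (fun q : Cn n × ℂ => l y.1 + q.2 * al y.1)
        (al y.1 • ContinuousLinearMap.snd ℂ (Cn n) ℂ) (A.e c x, (0 : ℂ)) :=
      ((hasFDerivAt_snd (𝕜 := ℂ) (p := (A.e c x, (0 : ℂ)))).mul_const (al y.1)).const_add _
    have h2 : HasFDerivAt (fun q : Cn n × ℂ => S.pt c ((A.e c).symm q.1) y.1 y.2)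
        ((fderiv ℂ (fun z => S.pt c ((A.e c).symm z) y.1 y.2) (A.e c x)).comp
          (ContinuousLinearMap.fst ℂ (Cn n) ℂ)) (A.e c x, (0 : ℂ)) :=
      HasFDerivAt.comp (g := fun z => S.pt c ((A.e c).symm z) y.1 y.2)
        (f := fun q : Cn n × ℂ => q.1) (A.e c x, (0 : ℂ))
        (pt_diff S c hx y.1 y.2).hasFDerivAt hasFDerivAt_fst
    exact h1.fun_mul h2
  have h := hasFDerivAt_eval (f := f) (fun y => (hf y).differentiableAt) p
  have hz : (fun q => MvPolynomial.eval (fun y => f y q) p) =ᶠ[𝓝 (A.e c x, (0 : ℂ))]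
      fun _ => 0 := by
    have h1 : ∀ᶠ q : Cn n × ℂ in 𝓝 (A.e c x, (0 : ℂ)), q.1 ∈ (A.e c).target :=
      continuous_fst.continuousAt.eventually
        ((A.e c).open_target.mem_nhds ((A.e c).map_source hx))
    filter_upwards [h1] with q hq
    have h2 := eval_scale hd (fun i => l i + q.2 * al i) (S.pt c ((A.e c).symm q.1))
    rw [aeval_eq, aeval_eq] at h2
    have h3 : MvPolynomial.eval
        (fun y : Σ i, S.J i => S.pt c ((A.e c).symm q.1) y.1 y.2) p = 0 :=
      hp0 c _ ((A.e c).map_target hq)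
    show MvPolynomial.eval (fun y : Σ i, S.J i =>
      (l y.1 + q.2 * al y.1) * S.pt c ((A.e c).symm q.1) y.1 y.2) p = 0
    rw [h2, h3, mul_zero]
  have h4 := h.fderiv
  rw [hz.fderiv_eq] at h4
  have h5 := congrArg (fun T : (Cn n × ℂ) →L[ℂ] ℂ => T (u, 1)) h4
  simp only [fderiv_const_apply, zero_apply, sum_apply, smul_apply, smul_eq_mul] at h5
  rw [Dv]
  refine Eq.trans (Finset.sum_congr rfl fun y _ => ?_) h5.symm
  have h6 : fderiv ℂ (f y) (A.e c x, (0 : ℂ)) (u, 1) =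
      l y.1 * dpt S c x u y.1 y.2 + al y.1 * S.pt c x y.1 y.2 := by
    rw [(hf y).fderiv]
    simp only [add_apply, smul_apply, ContinuousLinearMap.comp_apply,
      ContinuousLinearMap.coe_fst', ContinuousLinearMap.coe_snd', smul_eq_mul, mul_one, zero_mul,
      add_zero]
    rw [(A.e c).left_inv hx]
    have h7 : dpt S c x u y.1 y.2 = fderiv ℂ (fun z => S.pt c ((A.e c).symm z) y.1 y.2)
      (A.e c x) u := rfl
    rw [h7]
    ring
  rw [h6, aeval_eq]
  have h8 : (fun y => f y (A.e c x, (0 : ℂ))) =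
      fun y : Σ i, S.J i => l y.1 * S.pt c x y.1 y.2 := by
    funext y
    show (l y.1 + 0 * al y.1) * S.pt c ((A.e c).symm (A.e c x)) y.1 y.2 = _
    rw [(A.e c).left_inv hx]
    ring
  rw [h8]

/-! ### the test polynomial -/

section Test

open Classical in
/-- the test polynomial -/
def P0 (κ : I → ℂ) (f : (Σ i, S.J i) → ℂ) (a0 : ∀ i, S.J i) : MvPolynomial (Σ i, S.J i) ℂ :=
  ∑ i, MvPolynomial.C (κ i) * ((∑ a, MvPolynomial.C (f ⟨i, a⟩) * MvPolynomial.X ⟨i, a⟩) *
    ∏ j ∈ Finset.univ.erase i, MvPolynomial.X ⟨j, a0 j⟩)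

variable (κ : I → ℂ) (f : (Σ i, S.J i) → ℂ) (a0 : ∀ i, S.J i)

theorem P0_MHd : MHd (P0 S κ f a0) (fun _ => 1) := by
  classical
  have hc : ∀ b : ℂ, MHd (MvPolynomial.C b : MvPolynomial (Σ i, S.J i) ℂ) 0 := fun b =>
    MvPolynomial.isWeightedHomogeneous_C (fun x : Σ i, S.J i => (Pi.single x.1 1 : I → ℕ)) b
  have hX : ∀ y : Σ i, S.J i, MHd (MvPolynomial.X y : MvPolynomial (Σ i, S.J i) ℂ)
      (Pi.single y.1 1) := fun y => by
    have := MvPolynomial.isWeightedHomogeneous_X ℂ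
      (fun x : Σ i, S.J i => (Pi.single x.1 1 : I → ℕ)) y
    unfold MHd
    convert this
  have hm : ∀ {p q : MvPolynomial (Σ i, S.J i) ℂ} {d d' : I → ℕ}, MHd p d → MHd q d' →
      MHd (p * q) (d + d') := fun h h' => MvPolynomial.IsWeightedHomogeneous.mul h h'
  unfold P0
  refine Submodule.sum_mem (MvPolynomial.weightedHomogeneousSubmodule ℂ
    (fun x : Σ i, S.J i => (Pi.single x.1 1 : I → ℕ)) (fun _ => 1)) fun i _ => ?_
  have h1 : MHd (∑ a, MvPolynomial.C (f ⟨i, a⟩) * MvPolynomial.X ⟨i, a⟩ :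
      MvPolynomial (Σ i, S.J i) ℂ) (Pi.single i 1) := by
    refine Submodule.sum_mem (MvPolynomial.weightedHomogeneousSubmodule ℂ
      (fun x : Σ i, S.J i => (Pi.single x.1 1 : I → ℕ)) (Pi.single i 1)) fun a _ => ?_
    have := hm (hc (f ⟨i, a⟩)) (hX ⟨i, a⟩)
    rw [zero_add] at this
    unfold MHd at this
    rw [MvPolynomial.mem_weightedHomogeneousSubmodule]
    convert this
  have h2 : MHd (∏ j ∈ Finset.univ.erase i, MvPolynomial.X ⟨j, a0 j⟩ :
      MvPolynomial (Σ i, S.J i) ℂ) (∑ j ∈ Finset.univ.erase i, Pi.single j 1) := by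
    have := MvPolynomial.IsWeightedHomogeneous.prod (R := ℂ)
      (w := fun x : Σ i, S.J i => (Pi.single x.1 1 : I → ℕ)) (Finset.univ.erase i)
      (fun j => (MvPolynomial.X ⟨j, a0 j⟩ : MvPolynomial (Σ i, S.J i) ℂ))
      (fun j => Pi.single j 1) (fun j _ => MvPolynomial.isWeightedHomogeneous_X ℂ _ _)
    unfold MHd
    convert this
  have h3 := hm (hc (κ i)) (hm h1 h2)
  have h4 : (0 : I → ℕ) + (Pi.single i 1 + ∑ j ∈ Finset.univ.erase i, Pi.single j 1) =
      fun _ => 1 := by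
    rw [zero_add, Finset.add_sum_erase Finset.univ (fun j => (Pi.single j 1 : I → ℕ))
      (Finset.mem_univ i)]
    funext k
    simp [Finset.sum_apply, Pi.single_apply]
  rw [h4] at h3
  unfold MHd at h3
  rw [MvPolynomial.mem_weightedHomogeneousSubmodule]
  convert h3

theorem aeval_P0 {v : (Σ i, S.J i) → ℂ} (hv : ∀ i, ∑ a, f ⟨i, a⟩ * v ⟨i, a⟩ = 0) :
    MvPolynomial.aeval v (P0 S κ f a0) = 0 := by
  classical
  unfold P0
  rw [map_sum]
  refine Finset.sum_eq_zero fun i _ => ?_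
  have h1 : MvPolynomial.aeval v (∑ a, MvPolynomial.C (f ⟨i, a⟩) * MvPolynomial.X ⟨i, a⟩ :
      MvPolynomial (Σ i, S.J i) ℂ) = 0 := by
    rw [map_sum, ← hv i]
    refine Finset.sum_congr rfl fun a _ => ?_
    rw [map_mul, MvPolynomial.aeval_C, MvPolynomial.aeval_X]
    rfl
  rw [map_mul, map_mul, h1, zero_mul, mul_zero]

open Classical in
theorem Dv_P0 {v : (Σ i, S.J i) → ℂ} (hv : ∀ i, ∑ a, f ⟨i, a⟩ * v ⟨i, a⟩ = 0)
    (t : (Σ i, S.J i) → ℂ) : Dv v t (P0 S κ f a0) =
      ∑ i, κ i * ((∑ a, f ⟨i, a⟩ * t ⟨i, a⟩) * ∏ j ∈ Finset.univ.erase i, v ⟨j, a0 j⟩) := by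
  unfold P0
  rw [Dv_sum]
  refine Finset.sum_congr rfl fun i _ => ?_
  have h1 : MvPolynomial.aeval v (∑ a, MvPolynomial.C (f ⟨i, a⟩) * MvPolynomial.X ⟨i, a⟩ :
      MvPolynomial (Σ i, S.J i) ℂ) = 0 := by
    rw [map_sum, ← hv i]
    refine Finset.sum_congr rfl fun a _ => ?_
    rw [map_mul, MvPolynomial.aeval_C, MvPolynomial.aeval_X]
    rfl
  have h2 : Dv v t (∑ a, MvPolynomial.C (f ⟨i, a⟩) * MvPolynomial.X ⟨i, a⟩ :
      MvPolynomial (Σ i, S.J i) ℂ) = ∑ a, f ⟨i, a⟩ * t ⟨i, a⟩ := by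
    rw [Dv_sum]
    refine Finset.sum_congr rfl fun a _ => ?_
    rw [Dv_C_mul, Dv_X]
    rfl
  have h3 : MvPolynomial.aeval v (∏ j ∈ Finset.univ.erase i, MvPolynomial.X ⟨j, a0 j⟩ :
      MvPolynomial (Σ i, S.J i) ℂ) = ∏ j ∈ Finset.univ.erase i, v ⟨j, a0 j⟩ := by
    rw [map_prod]
    exact Finset.prod_congr rfl fun j _ => MvPolynomial.aeval_X _ _
  rw [Dv_C_mul, Dv_mul, h1, h2, h3, zero_mul, add_zero]
  rfl

end Test

/-! ### the tangent spaces -/

theorem lb_mul_pow (i1 : I) (m : ℕ) (d : I → ℕ) (hd : d i1 = m) (hd1 : ∀ i, i ≠ i1 → d i = 1) :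
    L ^ (∑ i, S.β i * d i) =
      L ^ (∑ i ∈ (open Classical in Finset.univ.erase i1), S.β i) * lb (S.P i1) ^ m := by
  classical
  have h1 : ∑ i, S.β i * d i = (∑ i ∈ Finset.univ.erase i1, S.β i) + S.β i1 * m := by
    rw [← Finset.sum_erase_add Finset.univ _ (Finset.mem_univ i1), hd]
    congr 1
    exact Finset.sum_congr rfl fun i hi => by rw [hd1 i (Finset.ne_of_mem_erase hi), mul_one]
  rw [h1, pow_add, pow_mul, ← S.hb i1]

/-- no other tangent vectors -/
theorem of_tan [T2Space M] [ConnectedSpace M] [CompactSpace M] [Finite A.ι] [Nonempty I]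
    (PA : Part A) (hD : D2 A) {c : A.ι} {x : M} (hx : x ∈ (A.e c).source) (l : I → ℂ)
    (hl : ∀ i, l i ≠ 0) {t : ∀ i, S.J i → ℂ} (ht : Tan S.E (fun i a => l i * S.pt c x i a) t) :
    ∃ (u : Cn n) (al : I → ℂ),
      t = fun i a => l i * dpt S c x u i a + al i * S.pt c x i a := by
  classical
  -- the linear map
  let Λ : (Cn n × (I → ℂ)) →ₗ[ℂ] ((Σ i, S.J i) → ℂ) :=
    { toFun := fun q y => l y.1 * dpt S c x q.1 y.1 y.2 + q.2 y.1 * S.pt c x y.1 y.2
      map_add' := fun q q' => by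
        funext y
        have h1 : dpt S c x (q + q').1 y.1 y.2 = dpt S c x q.1 y.1 y.2 + dpt S c x q'.1 y.1 y.2 :=
          map_add _ _ _
        simp only [Pi.add_apply, h1, Prod.snd_add]
        ring
      map_smul' := fun b q => by
        funext y
        have h1 : dpt S c x (b • q).1 y.1 y.2 = b * dpt S c x q.1 y.1 y.2 :=
          map_smul _ _ _
        simp only [Pi.smul_apply, h1, Prod.smul_snd, smul_eq_mul, RingHom.id_apply]
        ring }
  have hΛ : ∀ q y, Λ q y = l y.1 * dpt S c x q.1 y.1 y.2 + q.2 y.1 * S.pt c x y.1 y.2 :=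
    fun _ _ => rfl
  let t' : (Σ i, S.J i) → ℂ := fun y => t y.1 y.2
  by_cases hmem : t' ∈ LinearMap.range Λ
  · obtain ⟨q, hq⟩ := hmem
    refine ⟨q.1, q.2, ?_⟩
    funext i a
    exact (congrFun hq ⟨i, a⟩).symm
  exfalso
  obtain ⟨φ, hφt, hφ⟩ := Submodule.exists_le_ker_of_notMem hmem
  let f : (Σ i, S.J i) → ℂ := fun y => φ (fun j => if y = j then 1 else 0)
  have hφf : ∀ w : (Σ i, S.J i) → ℂ, φ w = ∑ i, ∑ a, f ⟨i, a⟩ * w ⟨i, a⟩ := by
    intro w
    rw [LinearMap.pi_apply_eq_sum_univ φ w, Fintype.sum_sigma]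
    refine Finset.sum_congr rfl fun i _ => Finset.sum_congr rfl fun a _ => ?_
    rw [smul_eq_mul, mul_comm]
  have hker : ∀ q, φ (Λ q) = 0 := fun q => hφ ⟨q, rfl⟩
  -- the functional kills the Euler directions
  have hE : ∀ i, ∑ a, f ⟨i, a⟩ * S.pt c x i a = 0 := by
    intro i
    have h1 := hker (0, Pi.single i 1)
    rw [hφf] at h1
    rw [Finset.sum_eq_single i] at h1
    · rw [← h1]
      refine Finset.sum_congr rfl fun a _ => ?_
      rw [hΛ]
      have h2 : dpt S c x (0 : Cn n) i a = 0 := map_zero _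
      simp [h2]
    · intro j _ hj
      refine Finset.sum_eq_zero fun a _ => ?_
      rw [hΛ]
      have h2 : dpt S c x (0 : Cn n) j a = 0 := map_zero _
      simp [h2, hj]
    · intro h
      exact absurd (Finset.mem_univ i) h
  have hU : ∀ u : Cn n, ∑ i, l i * ∑ a, f ⟨i, a⟩ * dpt S c x u i a = 0 := by
    intro u
    have h1 := hker (u, 0)
    rw [hφf] at h1
    rw [← h1]
    refine Finset.sum_congr rfl fun i _ => ?_
    rw [Finset.mul_sum]
    refine Finset.sum_congr rfl fun a _ => ?_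
    rw [hΛ]
    simp only [Pi.zero_apply, zero_mul, add_zero]
    ring
  -- coordinates which do not vanish
  have hne : ∀ i, ∃ a, S.pt c x i a ≠ 0 := fun i => by
    by_contra h
    push Not at h
    exact S.pt_ne hx i (funext h)
  choose a0 ha0 using hne
  obtain ⟨i1⟩ := ‹Nonempty I›
  let κ : I → ℂ := fun i => (∏ j ∈ Finset.univ.erase i, l j * S.pt c x j (a0 j))⁻¹
  let Q := P0 S κ f a0
  have hQ : Q = P0 S κ f a0 := rfl
  -- vanishing of cohomology
  obtain ⟨m0, hV⟩ := solv_large PA hD (fs_pos (S.P i1))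
    (L ^ (∑ i ∈ Finset.univ.erase i1, S.β i))
  let m := m0 + n
  let Pm : MvPolynomial (Σ i, S.J i) ℂ := MvPolynomial.X ⟨i1, a0 i1⟩ ^ m * Q
  let d : I → ℕ := fun i => if i = i1 then m + 1 else 1
  let d' : I → ℕ := fun i => if i = i1 then m else 1
  have hX : ∀ y : Σ i, S.J i, MHd (MvPolynomial.X y : MvPolynomial (Σ i, S.J i) ℂ)
      (Pi.single y.1 1) := fun y => by
    have := MvPolynomial.isWeightedHomogeneous_X ℂ
      (fun x : Σ i, S.J i => (Pi.single x.1 1 : I → ℕ)) y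
    unfold MHd
    convert this
  have hm : ∀ {p q : MvPolynomial (Σ i, S.J i) ℂ} {d d' : I → ℕ}, MHd p d → MHd q d' →
      MHd (p * q) (d + d') := fun h h' => MvPolynomial.IsWeightedHomogeneous.mul h h'
  have hXm : ∀ k : ℕ, MHd ((MvPolynomial.X ⟨i1, a0 i1⟩ : MvPolynomial (Σ i, S.J i) ℂ) ^ k)
      (k • Pi.single i1 1) := by
    intro k
    have := MvPolynomial.IsWeightedHomogeneous.pow (hX ⟨i1, a0 i1⟩) k
    unfold MHd
    convert this
  have hPm : MHd Pm d := by
    have h1 := hm (hXm m) (P0_MHd S κ f a0)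
    have h2 : (m • Pi.single i1 1 + fun _ => 1 : I → ℕ) = d := by
      funext i
      by_cases hi : i = i1
      · subst hi
        simp [d]
      · simp [d, hi]
    rw [h2] at h1
    exact h1
  -- the section and its second order vanishing
  have hs := isHS_sv S hPm
  rw [lb_mul_pow S i1 (m + 1) d (by simp [d]) (fun i hi => by simp [d, hi])] at hs
  have hv0 : ∀ i, ∑ a, f ⟨i, a⟩ * (fun y : Σ i, S.J i => S.pt c x y.1 y.2) ⟨i, a⟩ = 0 := hE
  have hs0 : sv S Pm c x = 0 := by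
    rw [sv_eq S Pm hx]
    have h1 : MvPolynomial.aeval (fun y : Σ i, S.J i => S.pt c x y.1 y.2) Pm = 0 := by
      rw [map_mul, aeval_P0 S κ f a0 hv0, mul_zero]
    rw [aeval_eq] at h1
    exact h1
  have hs1 : fderiv ℂ (fun w => sv S Pm c ((A.e c).symm w)) (A.e c x) = 0 := by
    ext1 u
    have h1 : (fun w => sv S Pm c ((A.e c).symm w)) =ᶠ[𝓝 (A.e c x)]
        fun w => S.ev c ((A.e c).symm w) Pm := by
      filter_upwards [(A.e c).open_target.mem_nhds ((A.e c).map_source hx)] with w hw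
      exact sv_eq S Pm ((A.e c).map_target hw)
    rw [h1.fderiv_eq, ev_fderiv S c hx Pm u, Dv_mul, aeval_P0 S κ f a0 hv0, mul_zero, zero_add,
      Dv_P0 S κ f a0 hv0]
    have h2 : ∀ i, κ i * ((∑ a, f ⟨i, a⟩ * dpt S c x u i a) *
        ∏ j ∈ Finset.univ.erase i, S.pt c x j (a0 j)) =
        (∏ j, l j)⁻¹ * (l i * ∑ a, f ⟨i, a⟩ * dpt S c x u i a) := by
      intro i
      have h3 : (∏ j ∈ Finset.univ.erase i, S.pt c x j (a0 j)) ≠ 0 :=
        Finset.prod_ne_zero_iff.2 fun j _ => ha0 j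
      have h4 : (∏ j ∈ Finset.univ.erase i, l j) ≠ 0 :=
        Finset.prod_ne_zero_iff.2 fun j _ => hl j
      have h5 : (∏ j, l j) = l i * ∏ j ∈ Finset.univ.erase i, l j :=
        (Finset.mul_prod_erase Finset.univ l (Finset.mem_univ i)).symm
      have h6 : κ i = ((∏ j ∈ Finset.univ.erase i, l j) *
          ∏ j ∈ Finset.univ.erase i, S.pt c x j (a0 j))⁻¹ := by
        rw [← Finset.prod_mul_distrib]
      rw [h6, h5]
      have h7 := hl i
      field_simp
    have h8 : (∑ i, κ i * ((∑ a, f ⟨i, a⟩ * dpt S c x u i a) *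
        ∏ j ∈ Finset.univ.erase i, S.pt c x j (a0 j))) = 0 := by
      rw [Finset.sum_congr rfl fun i _ => h2 i, ← Finset.mul_sum, hU u, mul_zero]
    refine Eq.trans (congrArg _ h8) ?_
    simp
  -- division
  obtain ⟨w, hw, hsw, hw0⟩ := div_at (ofProj (S.P i1))
    (fun y z h => (rel_sec_iff (S.P i1)).1 h)
    (L ^ (∑ i ∈ Finset.univ.erase i1, S.β i)) (le_refl (m0 + n)) hV hx (k0 := a0 i1)
    (by
      have h1 : sec (S.P i1) (a0 i1) c x = (S.P i1).F c x (a0 i1) := sec_eq (S.P i1) hx _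
      show sec (S.P i1) (a0 i1) c x ≠ 0
      rw [h1]
      exact ha0 i1) hs hs0
  have hW : ∀ k, ∃ p : MvPolynomial (Σ i, S.J i) ℂ, MHd p d' ∧ ∀ c, ∀ x ∈ (A.e c).source,
      w k c x = S.ev c x p := by
    intro k
    have h1 := hw k
    have h2 := lb_mul_pow S i1 m d' (by simp [d']) (fun i hi => by simp [d', hi])
    rw [← h2] at h1
    exact S.gen d' (w k) h1
  choose W hWd hWe using hW
  -- the relation
  let a : S.J i1 → ℂ := fun k => (ofProj (S.P i1)).F k c x
  have ha : ∀ k, a k = S.pt c x i1 k := fun k => sec_eq (S.P i1) hx k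
  let Z : MvPolynomial (Σ i, S.J i) ℂ := Pm - ∑ k, Lf S i1 a (a0 i1) k * W k
  have hZE : Z ∈ S.E := by
    refine ⟨⟨d, ?_⟩, fun c' x' hx' => ?_⟩
    · have h1 : ∀ k, MHd (Lf S i1 a (a0 i1) k * W k) d := by
        intro k
        have h2 := hm (Lf_MHd S i1 a (a0 i1) k) (hWd k)
        have h3 : (Pi.single i1 1 + d' : I → ℕ) = d := by
          funext i
          by_cases hi : i = i1
          · subst hi
            simp [d, d', add_comm]
          · simp [d, d', hi]
        rw [← h3]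
        unfold MHd at h2 ⊢
        convert h2
      exact (MvPolynomial.weightedHomogeneousSubmodule ℂ _ _).sub_mem hPm
        (Submodule.sum_mem _ fun k _ => h1 k)
    · have h1 : sv S Pm c' x' = ∑ k, ((ofProj (S.P i1)).lform
          (fun k => (ofProj (S.P i1)).F k c x) (a0 i1) k * w k) c' x' := by
        conv_lhs => rw [hsw]
        rw [Finset.sum_apply, Finset.sum_apply]
      rw [sv_eq S Pm hx'] at h1
      unfold MSys.ev at h1 ⊢
      show MvPolynomial.eval _ (Pm - ∑ k, Lf S i1 a (a0 i1) k * W k) = 0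
      rw [map_sub, map_sum, h1, sub_eq_zero]
      refine Finset.sum_congr rfl fun k _ => ?_
      rw [map_mul, Pi.mul_apply, Pi.mul_apply, hWe k c' x' hx', FD.lform_apply]
      congr 1
      have h2 := Lf_aeval S i1 a (a0 i1) k (fun y : Σ i, S.J i => S.pt c' x' y.1 y.2)
      rw [aeval_eq] at h2
      rw [h2]
      have h3 : ∀ k, (ofProj (S.P i1)).F k c' x' = S.pt c' x' i1 k := fun k =>
        sec_eq (S.P i1) hx' k
      rw [h3, h3]
      rfl
  have hT := (tan_def S _ _).1 ht Z hZE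
  -- evaluation at the scaled point
  have hv1 : ∀ i, ∑ a, f ⟨i, a⟩ * (fun y : Σ i, S.J i => l y.1 * S.pt c x y.1 y.2) ⟨i, a⟩ = 0 := by
    intro i
    have h1 : ∑ a, f ⟨i, a⟩ * (l i * S.pt c x i a) = l i * ∑ a, f ⟨i, a⟩ * S.pt c x i a := by
      rw [Finset.mul_sum]
      exact Finset.sum_congr rfl fun a _ => by ring
    rw [hE i, mul_zero] at h1
    exact h1
  have hLf0 : ∀ k, MvPolynomial.aeval (fun y : Σ i, S.J i => l y.1 * S.pt c x y.1 y.2)
      (Lf S i1 a (a0 i1) k) = 0 := by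
    intro k
    rw [Lf_aeval, ha, ha, Algebra.algebraMap_self]
    simp only [RingHom.id_apply]
    ring
  have hW0 : ∀ k, MvPolynomial.aeval (fun y : Σ i, S.J i => l y.1 * S.pt c x y.1 y.2)
      (W k) = 0 := by
    intro k
    have h1 := eval_scale (hWd k) l (S.pt c x)
    rw [h1, aeval_eq]
    have h2 : MvPolynomial.eval (fun y : Σ i, S.J i => S.pt c x y.1 y.2) (W k) = 0 := by
      have h3 := hWe k c x hx
      rw [hw0 hs1 k] at h3
      exact h3.symm
    rw [h2, mul_zero]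
  rw [Dv_sub, Dv_sum] at hT
  have hT2 : (∑ k, Dv (fun y : Σ i, S.J i => l y.1 * S.pt c x y.1 y.2)
      (fun y : Σ i, S.J i => t y.1 y.2) (Lf S i1 a (a0 i1) k * W k)) = 0 :=
    Finset.sum_eq_zero fun k _ => by rw [Dv_mul, hLf0 k, hW0 k, mul_zero, zero_mul, add_zero]
  rw [hT2, sub_zero, Dv_mul, aeval_P0 S κ f a0 hv1, mul_zero, zero_add, map_pow,
    MvPolynomial.aeval_X, Dv_P0 S κ f a0 hv1] at hT
  have h9 : ∀ i, κ i * ((∑ a, f ⟨i, a⟩ * t i a) *
      ∏ j ∈ Finset.univ.erase i, (l j * S.pt c x j (a0 j))) = ∑ a, f ⟨i, a⟩ * t i a := by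
    intro i
    have h3 : (∏ j ∈ Finset.univ.erase i, (l j * S.pt c x j (a0 j))) ≠ 0 :=
      Finset.prod_ne_zero_iff.2 fun j _ => mul_ne_zero (hl j) (ha0 j)
    show (∏ j ∈ Finset.univ.erase i, l j * S.pt c x j (a0 j))⁻¹ * _ = _
    field_simp
  have h10 : (∑ i, κ i * ((∑ a, f ⟨i, a⟩ * t i a) *
      ∏ j ∈ Finset.univ.erase i, (l j * S.pt c x j (a0 j)))) = φ t' := by
    rw [hφf, Finset.sum_congr rfl fun i _ => h9 i]
  have h11 : (l i1 * S.pt c x i1 (a0 i1)) ^ m * φ t' = 0 := by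
    rw [← h10]
    exact hT
  exact hφt ((mul_eq_zero.1 h11).resolve_left (pow_ne_zero _ (mul_ne_zero (hl i1) (ha0 i1))))

/-- **the tangent vectors of the multicone** -/
theorem tan_iff [T2Space M] [ConnectedSpace M] [CompactSpace M] [Finite A.ι] [Nonempty I]
    (PA : Part A) (hD : D2 A) {c : A.ι} {x : M} (hx : x ∈ (A.e c).source) (l : I → ℂ)
    (hl : ∀ i, l i ≠ 0) (t : ∀ i, S.J i → ℂ) :
    Tan S.E (fun i a => l i * S.pt c x i a) t ↔ ∃ (u : Cn n) (al : I → ℂ),
      t = fun i a => l i * dpt S c x u i a + al i * S.pt c x i a := by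
  constructor
  · exact of_tan S PA hD hx l hl
  · rintro ⟨u, al, rfl⟩
    exact tan_of S hx l u al

/-- one block is enough -/
theorem dpt_inj_block {c : A.ι} {x : M} (hx : x ∈ (A.e c).source) {u : Cn n} (i : I)
    (h : ∃ b : ℂ, ∀ a, dpt S c x u i a = b * S.pt c x i a) : u = 0 := by
  obtain ⟨b, hb⟩ := h
  refine (S.P i).imm c (A.e c x) ((A.e c).map_source hx) u ⟨b, funext fun a => ?_⟩
  have h3 := fderiv_pi (h := fun k => pt_diff S c hx i k)
  have h4 : fderiv ℂ (fun w => (S.P i).F c ((A.e c).symm w)) (A.e c x) u a =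
      dpt S c x u i a := by
    rw [show (fun w => fun k => S.pt c ((A.e c).symm w) i k) =
      fun w => (S.P i).F c ((A.e c).symm w) from rfl] at h3
    rw [h3]
    rfl
  rw [h4, hb a, (A.e c).left_inv hx]
  rfl

theorem dpt_inj [Nonempty I] {c : A.ι} {x : M} (hx : x ∈ (A.e c).source) {u : Cn n}
    (h : ∃ al : I → ℂ, ∀ i a, dpt S c x u i a = al i * S.pt c x i a) : u = 0 := by
  obtain ⟨al, hal⟩ := h
  obtain ⟨i⟩ := ‹Nonempty I›
  exact dpt_inj_block S hx i ⟨al i, hal i⟩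

/-- the linear parametrisation of the tangent space -/
def tanMap (c : A.ι) (x : M) (l : I → ℂ) : (Cn n × (I → ℂ)) →ₗ[ℂ] (∀ i, S.J i → ℂ) where
  toFun q := fun i a => l i * dpt S c x q.1 i a + q.2 i * S.pt c x i a
  map_add' q q' := by
    funext i a
    have h1 : dpt S c x (q + q').1 i a = dpt S c x q.1 i a + dpt S c x q'.1 i a := map_add _ _ _
    simp only [Pi.add_apply, h1, Prod.snd_add]
    ring
  map_smul' b q := by
    funext i a
    have h1 : dpt S c x (b • q).1 i a = b * dpt S c x q.1 i a := map_smul _ _ _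
    simp only [Pi.smul_apply, h1, Prod.smul_snd, smul_eq_mul, RingHom.id_apply]
    ring

theorem tanMap_injective [Nonempty I] {c : A.ι} {x : M} (hx : x ∈ (A.e c).source) {l : I → ℂ}
    (hl : ∀ i, l i ≠ 0) : Function.Injective (tanMap S c x l) := by
  rw [← LinearMap.ker_eq_bot, LinearMap.ker_eq_bot']
  intro q hq
  have h1 : ∀ i a, l i * dpt S c x q.1 i a + q.2 i * S.pt c x i a = 0 := fun i a =>
    congrFun (congrFun hq i) a
  have h2 : q.1 = 0 := dpt_inj S hx ⟨fun i => - q.2 i / l i, fun i a => by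
    have h3 := h1 i a
    have h4 := hl i
    rw [div_mul_eq_mul_div, eq_div_iff h4]
    linear_combination h3⟩
  have h3 : q.2 = 0 := by
    funext i
    obtain ⟨a, ha⟩ := Function.ne_iff.1 (S.pt_ne hx i)
    have h4 := h1 i a
    have h5 : dpt S c x q.1 i a = 0 := by
      rw [h2]
      exact map_zero _
    rw [h5, mul_zero, zero_add] at h4
    exact (mul_eq_zero.1 h4).resolve_right ha
  exact Prod.ext h2 h3

/-- **the dimension of the tangent spaces of the multicone** -/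
theorem tan_rank [T2Space M] [ConnectedSpace M] [CompactSpace M] [Finite A.ι] [Nonempty I]
    (PA : Part A) (hD : D2 A) {c : A.ι} {x : M} (hx : x ∈ (A.e c).source) (l : I → ℂ)
    (hl : ∀ i, l i ≠ 0) :
    Module.finrank ℂ (TanSp S.E (fun i a => l i * S.pt c x i a)) = n + Fintype.card I := by
  have h1 : TanSp S.E (fun i a => l i * S.pt c x i a) = LinearMap.range (tanMap S c x l) := by
    ext t
    constructor
    · intro ht
      obtain ⟨u, al, h⟩ := (tan_iff S PA hD hx l hl t).1 ht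
      exact ⟨(u, al), h.symm⟩
    · rintro ⟨q, rfl⟩
      exact tan_of S hx l q.1 q.2
  rw [h1, LinearMap.finrank_range_of_inj (tanMap_injective S hx hl), Module.finrank_prod,
    finrank_euclideanSpace_fin, Module.finrank_fintype_fun_eq_card]

end

end Crest.Agent.R260.Zt4_313
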