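import Crest.Agent.R260.Ga5_323
import Crest.Agent.R260.Ga6a_186
import Crest.Agent.R260.Zt4_313
import Crest.Agent.R260.Br5_592

set_option autoImplicit false
set_option linter.unusedSectionVars false

/-!
# Row 260 (S0398), GAGA-TH, part 6 (helper323): the contact data in tuple language

* `PF.dform_eul` : `dP(E_a, t) = (∑ a_i (N + w_i)) P(t)`;
* `PF.dform_dpt` : `dP(l • dpt u, l • dpt u') = g * dθ(u, u')` if `θ(u) = θ(u') = 0`;
* `exists_cdata`, `bridgeS : BridgeS`, `bridge : Bridge`.
-/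

open Set Filter Topology Complex
open scoped ContDiff Matrix ComplexConjugate

namespace Crest.Agent.R260.Ga_323

open Crest.Agent.R275 Crest.Agent.R275.Geo Crest.Agent.R275.Core144
open Crest.Agent.R273.SerE_945 Crest.Agent.R273.TD3_733
open Crest.Agent.R273.Defs_333 Crest.Agent.R273.SerA_945
open Crest.Agent.R270.BM_360 Crest.Agent.R260.BrDefs_592 Crest.Agent.R260.Br1_592
open Crest.Agent.R260.Br2_592 Crest.Agent.R260.Lin_678

noncomputable section

/-! ### Euler's relation -/

section Eul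

variable {k : Type*} [CommRing k] {I : Type} {J : I → Type} [∀ i, Fintype (J i)]

theorem mhd_euler {p : MvPolynomial (Σ i, J i) k} {d : I → ℕ} (hp : MHd p d) (i : I)
    {B : Type*} [CommRing B] [Algebra k B] (v : (Σ i, J i) → B) :
    ∑ a, MvPolynomial.aeval v (MvPolynomial.pderiv ⟨i, a⟩ p) * v ⟨i, a⟩ =
      (d i : B) * MvPolynomial.aeval v p := by
  have h0 : ∑ a, MvPolynomial.X ⟨i, a⟩ * MvPolynomial.pderiv ⟨i, a⟩ p =
      ((d i : ℕ) : MvPolynomial (Σ i, J i) k) * p := by
    conv_lhs => rw [p.as_sum]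
    conv_rhs => rw [p.as_sum]
    simp only [map_sum, Finset.mul_sum]
    rw [Finset.sum_comm]
    refine Finset.sum_congr rfl fun m hm => ?_
    have h1 : ∀ a : J i, MvPolynomial.X ⟨i, a⟩ * MvPolynomial.pderiv ⟨i, a⟩
        (MvPolynomial.monomial m (p.coeff m)) =
        (m ⟨i, a⟩) • MvPolynomial.monomial m (p.coeff m) := fun a =>
      MvPolynomial.X_mul_pderiv_monomial
    rw [Finset.sum_congr rfl fun a _ => h1 a, ← Finset.sum_smul, nsmul_eq_mul,
      ← mhd_support hp hm i]
  have h2 := congrArg (MvPolynomial.aeval v) h0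
  rw [map_sum, map_mul, map_natCast] at h2
  rw [← h2]
  exact Finset.sum_congr rfl fun a _ => by rw [map_mul, MvPolynomial.aeval_X, mul_comm]

theorem dform_add {k : Type*} [Field k] [Fintype I] (p : (Σ i, J i) → MvPolynomial (Σ i, J i) k)
    {B : Type*} [CommRing B] [Algebra k B] (v s s' t : ∀ i, J i → B) :
    dform p v (fun i a => s i a + s' i a) t = dform p v s t + dform p v s' t := by
  unfold dform
  rw [← Finset.sum_add_distrib]
  refine Finset.sum_congr rfl fun x _ => ?_
  rw [← Finset.sum_add_distrib]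
  exact Finset.sum_congr rfl fun y _ => by ring

end Eul

variable {n : ℕ} {M : Type} [TopologicalSpace M] {A : Atl n M} {L : LB A} {I : Type} [Fintype I]

namespace PF

variable {S : MSys A L I} {θ : OneForm L} {w : I → ℤ} (F : PF S θ w)

/-- contraction of `dP` with the Euler fields -/
theorem dform_eul {B : Type*} [CommRing B] [Algebra ℂ B] {v t : ∀ i, S.J i → B}
    (ht : Tan S.E v t) (c : ∀ i, S.J i) (a : I → B) :
    dform (F.p c) v (fun i b => a i * v i b) t =
      (∑ i, a i * (F.tg i : B)) * form (F.p c) v t := by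
  classical
  set vv : (Σ i, S.J i) → B := fun y => v y.1 y.2 with hvv
  -- first part
  have e1 : ∀ x : Σ i, S.J i, ∑ y : Σ i, S.J i,
      MvPolynomial.aeval vv (MvPolynomial.pderiv y (F.p c x)) * (a y.1 * v y.1 y.2) =
      (∑ i, a i * (F.dg x.1 i : B)) * MvPolynomial.aeval vv (F.p c x) := by
    intro x
    rw [Fintype.sum_sigma, Finset.sum_mul]
    refine Finset.sum_congr rfl fun i _ => ?_
    have h1 := mhd_euler (F.mhd c x) i vv
    calc ∑ b, MvPolynomial.aeval vv (MvPolynomial.pderiv ⟨i, b⟩ (F.p c x)) * (a i * v i b)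
        = a i * ∑ b, MvPolynomial.aeval vv (MvPolynomial.pderiv ⟨i, b⟩ (F.p c x)) * v i b := by
          rw [Finset.mul_sum]
          exact Finset.sum_congr rfl fun b _ => by ring
      _ = a i * (F.dg x.1 i : B) * MvPolynomial.aeval vv (F.p c x) := by
          rw [mul_assoc]
          congr 1
  -- second part
  have e2 : ∀ i, ∑ b, ∑ y : Σ i, S.J i,
      MvPolynomial.aeval vv (MvPolynomial.pderiv y (F.p c ⟨i, b⟩)) * (t y.1 y.2 * v i b) =
      - ∑ b, MvPolynomial.aeval vv (F.p c ⟨i, b⟩) * t i b := by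
    intro i
    have h1 : ∑ y : Σ i, S.J i, MvPolynomial.aeval vv (MvPolynomial.pderiv y (F.eup c i)) *
        t y.1 y.2 = 0 := ht _ (F.eup_mem c i)
    have h2 : ∀ y : Σ i, S.J i, MvPolynomial.aeval vv (MvPolynomial.pderiv y (F.eup c i)) *
        t y.1 y.2 = ∑ b, (MvPolynomial.aeval vv (MvPolynomial.pderiv y (F.p c ⟨i, b⟩)) *
          (t y.1 y.2 * v i b) + if y = ⟨i, b⟩ then
            MvPolynomial.aeval vv (F.p c ⟨i, b⟩) * t i b else 0) := by
      intro y
      unfold eup
      rw [map_sum, map_sum, Finset.sum_mul]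
      refine Finset.sum_congr rfl fun b _ => ?_
      rw [Derivation.leibniz, map_add, smul_eq_mul, smul_eq_mul, map_mul, map_mul,
        MvPolynomial.aeval_X]
      by_cases hy : y = ⟨i, b⟩
      · subst hy
        rw [MvPolynomial.pderiv_X_self, map_one, if_pos rfl]
        ring
      · rw [MvPolynomial.pderiv_X_of_ne (Ne.symm hy), map_zero, if_neg hy]
        ring
    rw [Finset.sum_congr rfl fun y _ => h2 y, Finset.sum_comm] at h1
    simp only [Finset.sum_add_distrib, Finset.sum_ite_eq', Finset.mem_univ, if_true] at h1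
    exact eq_neg_of_add_eq_zero_left h1
  -- conclusion
  unfold dform
  have e3 : ∀ x : Σ i, S.J i, ∑ y : Σ i, S.J i,
      MvPolynomial.aeval vv (MvPolynomial.pderiv y (F.p c x)) *
        (a y.1 * v y.1 y.2 * t x.1 x.2 - t y.1 y.2 * (a x.1 * v x.1 x.2)) =
      (∑ i, a i * (F.dg x.1 i : B)) * MvPolynomial.aeval vv (F.p c x) * t x.1 x.2 -
        a x.1 * ∑ y : Σ i, S.J i, MvPolynomial.aeval vv (MvPolynomial.pderiv y (F.p c x)) *
          (t y.1 y.2 * v x.1 x.2) := by
    intro x
    rw [← e1 x, Finset.sum_mul, Finset.mul_sum, ← Finset.sum_sub_distrib]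
    exact Finset.sum_congr rfl fun y _ => by ring
  have e4 : ∑ x : Σ i, S.J i, a x.1 * ∑ y : Σ i, S.J i,
      MvPolynomial.aeval vv (MvPolynomial.pderiv y (F.p c x)) * (t y.1 y.2 * v x.1 x.2) =
      - ∑ x : Σ i, S.J i, a x.1 * (MvPolynomial.aeval vv (F.p c x) * t x.1 x.2) := by
    rw [Fintype.sum_sigma, Fintype.sum_sigma, ← Finset.sum_neg_distrib]
    refine Finset.sum_congr rfl fun i _ => ?_
    refine (Finset.mul_sum Finset.univ (fun b => ∑ y : Σ i, S.J i, MvPolynomial.aeval vv
      (MvPolynomial.pderiv y (F.p c ⟨i, b⟩)) * (t y.1 y.2 * v i b)) (a i)).symm.trans ?_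
    refine (congrArg (fun z => a i * z) (e2 i)).trans ?_
    show a i * (-∑ b, MvPolynomial.aeval vv (F.p c ⟨i, b⟩) * t i b) = _
    rw [mul_neg, Finset.mul_sum]
  have e5 : ∀ y : I, ∑ i, a i * (F.tg i : B) = (∑ i, a i * (F.dg y i : B)) + a y := by
    intro y
    have h1 : ∀ i, a i * (F.tg i : B) = a i * (F.dg y i : B) + if i = y then a y else 0 := by
      intro i
      rw [← F.dg_tg y, Pi.add_apply, Nat.cast_add]
      by_cases h : i = y
      · subst h
        rw [Pi.single_eq_same, if_pos rfl]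
        push_cast
        ring
      · rw [Pi.single_eq_of_ne h, if_neg h]
        push_cast
        ring
    rw [Finset.sum_congr rfl fun i _ => h1 i, Finset.sum_add_distrib, Finset.sum_ite_eq',
      if_pos (Finset.mem_univ _)]
  rw [Finset.sum_congr rfl fun x _ => e3 x, Finset.sum_sub_distrib, e4, sub_neg_eq_add,
    ← Finset.sum_add_distrib]
  unfold form
  rw [Finset.mul_sum]
  refine Finset.sum_congr rfl fun x _ => ?_
  rw [e5 x.1]
  ring

/-- the exterior derivative in the directions of the manifold -/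
theorem dform_dpt {ch : A.ι} {x : M} (hx : x ∈ (A.e ch).source) (c : ∀ i, S.J i) {l : I → ℂ}
    (hl : ∀ i, l i ≠ 0) {u u' : Cn n} (hu : θ.app ch x u = 0) (hu' : θ.app ch x u' = 0) :
    dform (F.p c) (fun i b => l i * S.pt ch x i b) (fun i b => l i * dpt S ch x u i b)
        (fun i b => l i * dpt S ch x u' i b) =
      den c (fun i b => l i * S.pt ch x i b) ^ F.N * (∏ i, l i ^ w i) * θ.dapp ch x u u' := by
  classical
  set z0 := A.e ch x with hz0
  have hz0t : z0 ∈ (A.e ch).target := (A.e ch).map_source hx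
  have hsx : (A.e ch).symm z0 = x := (A.e ch).left_inv hx
  let f : (Σ i, S.J i) → Cn n → ℂ := fun y z => l y.1 * S.pt ch ((A.e ch).symm z) y.1 y.2
  have hfa : ∀ y, AnalyticAt ℂ (f y) z0 := by
    intro y
    have h1 : DifferentiableOn ℂ (f y) (A.e ch).target := by
      intro z hz
      have h2 := pt_diff S ch ((A.e ch).map_target hz) y.1 y.2
      rw [(A.e ch).right_inv hz] at h2
      exact (h2.const_mul _).differentiableWithinAt
    exact Crest.Agent.R266.SCV.analyticOnNhd_of_differentiableOn (A.e ch).open_target h1 z0 hz0t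
  have hfd : ∀ y, ∀ z ∈ (A.e ch).target, ∀ v, fderiv ℂ (f y) z v =
      l y.1 * dpt S ch ((A.e ch).symm z) v y.1 y.2 := by
    intro y z hz v
    have h2 := pt_diff S ch ((A.e ch).map_target hz) y.1 y.2
    rw [(A.e ch).right_inv hz] at h2
    have h3 : fderiv ℂ (f y) z = l y.1 • fderiv ℂ
        (fun z => S.pt ch ((A.e ch).symm z) y.1 y.2) z := (h2.hasFDerivAt.const_mul _).fderiv
    rw [h3]
    unfold dpt
    rw [(A.e ch).right_inv hz]
    rfl
  let g : Cn n → ℂ := fun z => den c (fun i b => l i * S.pt ch ((A.e ch).symm z) i b) ^ F.N *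
    (∏ i, l i ^ w i)
  have hgd : DifferentiableAt ℂ g z0 := by
    have h2 : DifferentiableAt ℂ (fun z => ∏ i, l i * S.pt ch ((A.e ch).symm z) i (c i)) z0 :=
      (Finset.analyticAt_fun_prod Finset.univ fun i _ => hfa ⟨i, c i⟩).differentiableAt
    exact (h2.pow _).mul_const _
  have hthd : ∀ b, DifferentiableAt ℂ (fun z => θ.th ch ((A.e ch).symm z) b) z0 := fun b =>
    (θ.hol ch b).diffAt isOpen_univ hx (mem_univ x)
  -- the pulled back form near `z0`
  have hG : ∀ v : Cn n, (fun z => ∑ y, MvPolynomial.eval (fun y => f y z) (F.p c y) *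
      fderiv ℂ (f y) z v) =ᶠ[𝓝 z0]
      fun z => g z * ∑ b, θ.th ch ((A.e ch).symm z) b * v b := by
    intro v
    filter_upwards [(A.e ch).open_target.mem_nhds hz0t] with z hz
    have h1 := F.link ((A.e ch).map_target hz) c hl v (fun _ => 0)
    have h2 : ∀ y : Σ i, S.J i, MvPolynomial.eval (fun y => f y z) (F.p c y) *
        fderiv ℂ (f y) z v = MvPolynomial.aeval
          (fun y : Σ i, S.J i => l y.1 * S.pt ch ((A.e ch).symm z) y.1 y.2) (F.p c y) *
          (l y.1 * dpt S ch ((A.e ch).symm z) v y.1 y.2 +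
            0 * S.pt ch ((A.e ch).symm z) y.1 y.2) := by
      intro y
      rw [hfd y z hz v, aeval_eq]
      ring
    rw [Finset.sum_congr rfl fun y _ => h2 y]
    exact h1
  -- derivative of the left side
  have hL : ∀ v v' : Cn n, fderiv ℂ (fun z => ∑ y, MvPolynomial.eval (fun y => f y z) (F.p c y) *
      fderiv ℂ (f y) z v) z0 v' =
      (∑ y, (∑ y', MvPolynomial.eval (fun y => f y z0) (MvPolynomial.pderiv y' (F.p c y)) *
        fderiv ℂ (f y') z0 v') * fderiv ℂ (f y) z0 v) +
      ∑ y, MvPolynomial.eval (fun y => f y z0) (F.p c y) * (fderiv ℂ (fderiv ℂ (f y)) z0 v') v := by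
    intro v v'
    have h1 : ∀ y, HasFDerivAt (fun z => MvPolynomial.eval (fun y => f y z) (F.p c y)) _ z0 :=
      fun y => hasFDerivAt_eval (f := f) (fun y => (hfa y).differentiableAt) (F.p c y)
    have h2 : ∀ y, HasFDerivAt (fun z => fderiv ℂ (f y) z v)
        ((ContinuousLinearMap.apply ℂ ℂ v).comp (fderiv ℂ (fderiv ℂ (f y)) z0)) z0 := by
      intro y
      exact (ContinuousLinearMap.apply ℂ ℂ v).hasFDerivAt.comp z0
        (hfa y).fderiv.differentiableAt.hasFDerivAt
    have h3 := HasFDerivAt.fun_sum (u := Finset.univ) fun y _ => (h1 y).fun_mul (h2 y)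
    rw [h3.fderiv, ← Finset.sum_add_distrib]
    simp only [FunLike.coe_sum, Finset.sum_apply, FunLike.coe_add, Pi.add_apply, FunLike.coe_smul,
      Pi.smul_apply, smul_eq_mul, ContinuousLinearMap.comp_apply, ContinuousLinearMap.apply_apply]
    refine Finset.sum_congr rfl fun y _ => ?_
    ring
  -- derivative of the right side
  have hR : ∀ v v' : Cn n, θ.app ch x v = 0 →
      fderiv ℂ (fun z => g z * ∑ b, θ.th ch ((A.e ch).symm z) b * v b) z0 v' =
      g z0 * ∑ b, fderiv ℂ (fun z => θ.th ch ((A.e ch).symm z) b) z0 v' * v b := by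
    intro v v' hv
    have h1 : ∀ b, HasFDerivAt (fun z => θ.th ch ((A.e ch).symm z) b * v b) _ z0 := fun b =>
      (hthd b).hasFDerivAt.mul_const (v b)
    have h2 := hgd.hasFDerivAt.fun_mul (HasFDerivAt.fun_sum (u := Finset.univ) fun b _ => h1 b)
    rw [h2.fderiv]
    have h3 : ∑ b, θ.th ch ((A.e ch).symm z0) b * v b = 0 := by
      rw [hsx]
      exact hv
    simp only [FunLike.coe_sum, Finset.sum_apply, FunLike.coe_add, Pi.add_apply, FunLike.coe_smul,
      Pi.smul_apply, smul_eq_mul, h3, zero_mul, add_zero]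
    congr 1
    exact Finset.sum_congr rfl fun b _ => mul_comm _ _
  have hS : ∀ (y : Σ i, S.J i) (v v' : Cn n), (fderiv ℂ (fderiv ℂ (f y)) z0 v') v =
      (fderiv ℂ (fderiv ℂ (f y)) z0 v) v' := by
    intro y v v'
    have h1 : ContDiffAt ℂ ω (f y) z0 := (hfa y).contDiffAt
    exact (h1.isSymmSndFDerivAt (by simp)) v' v
  have key : ∀ v v' : Cn n, θ.app ch x v = 0 →
      (∑ y, (∑ y', MvPolynomial.eval (fun y => f y z0) (MvPolynomial.pderiv y' (F.p c y)) *
        fderiv ℂ (f y') z0 v') * fderiv ℂ (f y) z0 v) +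
      ∑ y, MvPolynomial.eval (fun y => f y z0) (F.p c y) * (fderiv ℂ (fderiv ℂ (f y)) z0 v') v =
      g z0 * ∑ b, fderiv ℂ (fun z => θ.th ch ((A.e ch).symm z) b) z0 v' * v b := by
    intro v v' hv
    rw [← hL v v', (hG v).fderiv_eq, hR v v' hv]
  have k1 := key u' u hu'
  have k2 := key u u' hu
  have k3 : ∑ y, MvPolynomial.eval (fun y => f y z0) (F.p c y) *
      (fderiv ℂ (fderiv ℂ (f y)) z0 u) u' =
      ∑ y, MvPolynomial.eval (fun y => f y z0) (F.p c y) *
      (fderiv ℂ (fderiv ℂ (f y)) z0 u') u :=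
    Finset.sum_congr rfl fun y _ => by rw [hS y u u']
  have hgz : g z0 = den c (fun i b => l i * S.pt ch x i b) ^ F.N * (∏ i, l i ^ w i) := by
    show den c (fun i b => l i * S.pt ch ((A.e ch).symm z0) i b) ^ F.N * _ = _
    rw [hsx]
  have hfz : (fun y => f y z0) = fun y : Σ i, S.J i => l y.1 * S.pt ch x y.1 y.2 := by
    funext y
    show l y.1 * S.pt ch ((A.e ch).symm z0) y.1 y.2 = _
    rw [hsx]
  have hfdz : ∀ (y : Σ i, S.J i) (v : Cn n), fderiv ℂ (f y) z0 v =
      l y.1 * dpt S ch x v y.1 y.2 := by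
    intro y v
    rw [hfd y z0 hz0t v, hsx]
  have k4 : θ.dapp ch x u u' = (∑ b, fderiv ℂ (fun z => θ.th ch ((A.e ch).symm z) b) z0 u * u' b) -
      ∑ b, fderiv ℂ (fun z => θ.th ch ((A.e ch).symm z) b) z0 u' * u b := by
    unfold OneForm.dapp
    rw [Finset.sum_sub_distrib]
  rw [k4, ← hgz, mul_sub, ← k1, ← k2, k3]
  unfold dform
  rw [hfz]
  simp only [hfdz]
  rw [add_sub_add_right_eq_sub, ← Finset.sum_sub_distrib]
  refine Finset.sum_congr rfl fun y _ => ?_
  rw [Finset.sum_mul, Finset.sum_mul, ← Finset.sum_sub_distrib]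
  refine Finset.sum_congr rfl fun y' _ => ?_
  rw [aeval_eq]
  ring

end PF

/-! ### the common data -/

section Main

variable (S : MSys A L I) (θ : OneForm L) (w : I → ℤ) [T2Space M] [ConnectedSpace M]
  [CompactSpace M] [Finite A.ι]

/-- the facts at the points over `ℂ` -/
theorem cpoint [Nonempty I] (PA : Part A) (hD : D2 A) {w : I → ℤ} {θ : OneForm L} (F : PF S θ w)
    (hθ : Contact θ) (c : ∀ i, S.J i) {v : ∀ i, S.J i → ℂ} (hv : OnX S.E v)
    (hc : ∀ i, v i (c i) ≠ 0) :
    Module.finrank ℂ (TanSp S.E v) = n + Fintype.card I ∧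
    (∃ t, Tan S.E v t ∧ form (F.p c) v t ≠ 0) ∧
    (∀ a : I → ℂ, Tan S.E v (fun i j => a i * v i j) ∧
      form (F.p c) v (fun i j => a i * v i j) = 0 ∧
      ∀ t', Tan S.E v t' → form (F.p c) v t' = 0 →
        dform (F.p c) v (fun i j => a i * v i j) t' = 0) ∧
    ∀ t, Tan S.E v t → form (F.p c) v t = 0 →
      (∀ t', Tan S.E v t' → form (F.p c) v t' = 0 → dform (F.p c) v t t' = 0) →
      ∃ a : I → ℂ, ∀ i j, t i j = a i * v i j := by
  have hv0 : ∀ i, v i ≠ 0 := fun i h => hc i (congrFun h (c i))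
  obtain ⟨ch, x, hx, l, hl, rfl⟩ := exists_pt S PA hD v hv hv0
  have hden : den c (fun i b => l i * S.pt ch x i b) ^ F.N * (∏ i, l i ^ w i) ≠ 0 := by
    refine mul_ne_zero (pow_ne_zero _ (Finset.prod_ne_zero_iff.2 fun i _ => hc i))
      (Finset.prod_ne_zero_iff.2 fun i _ => zpow_ne_zero _ (hl i))
  have hform : ∀ (u : Cn n) (a : I → ℂ), form (F.p c) (fun i b => l i * S.pt ch x i b)
      (fun i b => l i * dpt S ch x u i b + a i * S.pt ch x i b) = 0 ↔ θ.app ch x u = 0 := by
    intro u a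
    rw [F.link hx c hl u a, mul_eq_zero]
    exact ⟨fun h => h.resolve_left hden, Or.inr⟩
  refine ⟨Zt4_313.tan_rank S PA hD hx l hl, ?_, fun a => ⟨?_, ?_, ?_⟩, ?_⟩
  · obtain ⟨u, hu⟩ := hθ.ne ch x hx
    exact ⟨_, Zt4_313.tan_of S hx l u (fun _ => 0), fun h => hu ((hform u _).1 h)⟩
  · have h1 := Zt4_313.tan_of S hx l 0 (fun i => a i * l i)
    have h2 : (fun i b => l i * dpt S ch x 0 i b + a i * l i * S.pt ch x i b) =
        fun i j => a i * (l i * S.pt ch x i j) := by
      funext i b
      have h3 : dpt S ch x 0 i b = 0 := map_zero _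
      rw [h3]
      ring
    rw [h2] at h1
    exact h1
  · unfold form
    rw [Fintype.sum_sigma]
    refine Finset.sum_eq_zero fun i _ => ?_
    have h1 := F.euler hv c i
    have h2 := congrArg (fun z => a i * z) h1
    simp only [mul_zero, Finset.mul_sum] at h2
    rw [← h2]
    exact Finset.sum_congr rfl fun b _ => by ring
  · intro t' ht' hf'
    rw [F.dform_eul ht' c a, hf', mul_zero]
  · intro t ht hft hrad
    obtain ⟨u, al, rfl⟩ := (Zt4_313.tan_iff S PA hD hx l hl t).1 ht
    have hu : θ.app ch x u = 0 := (hform u al).1 hft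
    have hu0 : u = 0 := by
      refine hθ.nd ch x hx u hu fun u' hu' => ?_
      have e0 : (fun i b => l i * dpt S ch x u' i b + (0 : ℂ) * S.pt ch x i b) =
          fun i b => l i * dpt S ch x u' i b := by
        funext i b
        ring
      have h1 := Zt4_313.tan_of S hx l u' (fun _ => 0)
      have h2 := (hform u' (fun _ => 0)).2 hu'
      rw [e0] at h1 h2
      have h3 := hrad _ h1 h2
      have e1 : (fun i b => l i * dpt S ch x u i b + al i * S.pt ch x i b) =
          fun i b => l i * dpt S ch x u i b + al i / l i * (l i * S.pt ch x i b) := by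
        funext i b
        have := hl i
        field_simp
      rw [e1, dform_add, F.dform_eul h1 c, h2, mul_zero, add_zero, F.dform_dpt hx c hl hu hu',
        mul_eq_zero] at h3
      exact h3.resolve_left hden
    refine ⟨fun i => al i / l i, fun i j => ?_⟩
    have h3 : dpt S ch x u i j = 0 := by
      rw [hu0]
      exact map_zero _
    have := hl i
    show l i * dpt S ch x u i j + al i * S.pt ch x i j = al i / l i * (l i * S.pt ch x i j)
    rw [h3]
    field_simp
    ring

end Main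

section Bridge

variable {m : ℕ} {A : Atl (2 * m + 1) M} {L : LB A} [T2Space M] [ConnectedSpace M]
  [CompactSpace M] [Finite A.ι]

theorem tanPt [Nonempty I] (PA : Part A) (hD : D2 A) (S : MSys A L I) : BrIf_592.TanPt S :=
  fun _ _ hx l hl t => Zt4_313.tan_iff S PA hD hx l hl t

/-- **the common data of a contact manifold** -/
def cdata (PA : Part A) (hD : D2 A) (S : MSys A L I) {w : I → ℤ}
    (hw : ∑ i, w i * (S.β i : ℤ) = 1) {θ : OneForm L} (hθ : Contact θ) [Nonempty I]
    (F : PF S θ w) : CData ℂ I S.J where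
  E := S.E
  hom := S.hom
  β := S.β
  β_pos := S.pos
  w := w
  wβ := hw
  cls_eq := fun κ _ _ F hF => Br4_592.cls_eq S hw hF
  m := m
  tan_dim := fun κ _ _ v hv hv0 => by
    have h1 : ∀ i, ∃ a, v i a ≠ 0 := fun i => Function.ne_iff.1 (hv0 i)
    choose c hc using h1
    have hI : 1 ≤ Fintype.card I := Fintype.card_pos
    have h2 := (Ga6a_186.transfer_nd (E := S.E) c (F.p c) (d := 2 * m + Fintype.card I)
      (fun v hv hc => by
        rw [(cpoint S PA hD F hθ c hv hc).1]
        omega)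
      (fun v hv hc => (cpoint S PA hD F hθ c hv hc).2.1)
      (fun v hv hc => (cpoint S PA hD F hθ c hv hc).2.2.1)
      (fun v hv hc => (cpoint S PA hD F hθ c hv hc).2.2.2) v hv hc).1
    rw [h2]
    omega
  th := F.toCForm (exists_pt S PA hD) (tanPt PA hD S)
  nondeg := fun κ _ _ v c hv hc => by
    exact (Ga6a_186.transfer_nd (E := S.E) c (F.p c) (d := 2 * m + Fintype.card I)
      (fun v hv hc => by
        rw [(cpoint S PA hD F hθ c hv hc).1]
        omega)
      (fun v hv hc => (cpoint S PA hD F hθ c hv hc).2.1)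
      (fun v hv hc => (cpoint S PA hD F hθ c hv hc).2.2.1)
      (fun v hv hc => (cpoint S PA hD F hθ c hv hc).2.2.2) v hv hc).2.2
  th_ne := fun κ _ _ v c hv hc => by
    exact (Ga6a_186.transfer_nd (E := S.E) c (F.p c) (d := 2 * m + Fintype.card I)
      (fun v hv hc => by
        rw [(cpoint S PA hD F hθ c hv hc).1]
        omega)
      (fun v hv hc => (cpoint S PA hD F hθ c hv hc).2.1)
      (fun v hv hc => (cpoint S PA hD F hθ c hv hc).2.2.1)
      (fun v hv hc => (cpoint S PA hD F hθ c hv hc).2.2.2) v hv hc).2.1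

end Bridge

/-- **BRIDGE, one system** -/
theorem bridgeS : BrIf_592.BridgeS := by
  intro m M _ _ _ _ A _ hPA hD L I _ S w hw θ hθ
  obtain ⟨PA⟩ := hPA
  have hI : Nonempty I := by
    by_contra h
    rw [not_nonempty_iff] at h
    rw [Finset.univ_eq_empty, Finset.sum_empty] at hw
    exact zero_ne_one hw
  obtain ⟨F⟩ := exists_pf PA hD S θ w hw
  exact ⟨{
    D := cdata PA hD S hw hθ F
    hE := rfl
    hβ := rfl
    hw := rfl
    hm := rfl
    link := fun ch x hx c l hl u a => F.link hx c hl u a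
    tanPt := tanPt PA hD S
    pt := exists_pt S PA hD
    prime := Br3_592.prime_E S }⟩

/-- **BRIDGE** -/
theorem bridge : BrIf_592.Bridge := Br5_592.bridge_of bridgeS

end

end Crest.Agent.R260.Ga_323
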