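import Crest.Agent.R260.MainH_803
import Crest.Agent.R260.NN6_900

/-!
# Row 260 (S0398), MAIN (helper803): `NNP` (900)
-/

set_option autoImplicit false

namespace Crest.Agent.R260.MainC_803

theorem nnp : NNP := by
  intro m _
  refine NN6_900.nnat (2 * m + 1) _ ?_
  rw [Module.finrank_prod, finrank_euclideanSpace_fin, Complex.finrank_real_complex]
  ring

end Crest.Agent.R260.MainC_803
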