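import Crest.Agent.R260.NnLb4_254
import Crest.Agent.R273.Chow_313

/-!
# R260, NN-LB, part 5 (helper254): the final theorems

`exists_cx` : `C : ACM V Z` integrable, contact data `D : CD C`, local Newlander-Nirenberg ⟹ finite
good atlas, holomorphic contact line bundle with a metric of positive curvature, comparison `Lnk`.
`Lnk.exists_sk` : sections of `L ^ k` in the smooth frames of `D`.
-/

set_option autoImplicit false

open Set Filter Topology Complex
open scoped ContDiff Matrix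

namespace Crest.Agent.R260.Nn_254

open Crest.Agent.R260.ACM_580 Crest.Agent.R260.NNB_580 Crest.Agent.R260.Ga_323
open Crest.Agent.R275.Geo Crest.Agent.R275.Core144 Crest.Agent.R273.Defs_333
open Crest.Agent.R275.GC293

noncomputable section

variable {V Z : Type} [NormedAddCommGroup V] [NormedSpace ℝ V] [TopologicalSpace Z]
  {C : ACM V Z} {d : ℕ}

/-- local holomorphic charts with a coordinate vector transversal to `ker θ` -/
theorem exists_supply [FiniteDimensional ℝ V] (D : CD C) (hC : C.Int) (hNN : NNat V d) (x : Z) :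
    ∃ i, x ∈ (C.e i).source ∧ ∃ (W : Set V) (F : V → EuclideanSpace ℂ (Fin d)),
      C.e i x ∈ W ∧ LocF C i W F ∧ ∃ p : EuclideanSpace ℂ (Fin d), ∀ y ∈ W, ∀ v : V,
        fderiv ℝ F y v = p → D.θ i y v ≠ 0 := by
  have : CompleteSpace V := FiniteDimensional.complete ℝ V
  obtain ⟨i, hi, W, F, hW, hF⟩ := exists_locF hNN hC x
  obtain ⟨v0, hv0⟩ := D.θ_ne i _ ((C.e i).map_source hi)
  set y0 := C.e i x with hy0
  set p := fderiv ℝ F y0 v0 with hp
  have heq : ∀ y ∈ W, ∃ T : V ≃L[ℝ] EuclideanSpace ℂ (Fin d),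
      (T : V →L[ℝ] EuclideanSpace ℂ (Fin d)) = fderiv ℝ F y := by
    intro y hy
    refine ⟨ContinuousLinearEquiv.ofBijective (fderiv ℝ F y)
      (LinearMap.ker_eq_bot.2 (hF.bij y hy).1) (LinearMap.range_eq_top.2 (hF.bij y hy).2), ?_⟩
    rw [ContinuousLinearEquiv.coe_ofBijective]
  have hinv : ∀ y ∈ W, ∀ v, ContinuousLinearMap.inverse (fderiv ℝ F y) (fderiv ℝ F y v) = v := by
    intro y hy v
    obtain ⟨T, hT⟩ := heq y hy
    rw [← hT, ContinuousLinearMap.inverse_equiv]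
    simp
  have hcF : ContinuousOn (fderiv ℝ F) W :=
    (hF.sm.fderiv_of_isOpen hF.isOpen (m := ∞) (by simp)).continuousOn
  have hcX : ContinuousOn (fun y => ContinuousLinearMap.inverse (fderiv ℝ F y) p) W := by
    intro y hy
    obtain ⟨T, hT⟩ := heq y hy
    have h1 : ContinuousAt ContinuousLinearMap.inverse (fderiv ℝ F y) := by
      rw [← hT]
      exact (contDiffAt_map_inverse (n := 1) T).continuousAt
    have h2 : ContinuousAt (fderiv ℝ F) y := hcF.continuousAt (hF.isOpen.mem_nhds hy)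
    have h3 : ContinuousAt (fun y => ContinuousLinearMap.inverse (fderiv ℝ F y)) y :=
      ContinuousAt.comp (f := fderiv ℝ F) h1 h2
    exact (h3.clm_apply continuousAt_const).continuousWithinAt
  have hcθ : ContinuousOn
      (fun y => D.θ i y (ContinuousLinearMap.inverse (fderiv ℝ F y) p)) W :=
    ((D.θ_sm i).continuousOn.mono hF.sub).clm_apply hcX
  have ho : IsOpen (W ∩ (fun y => D.θ i y (ContinuousLinearMap.inverse (fderiv ℝ F y) p)) ⁻¹'
      {0}ᶜ) := hcθ.isOpen_inter_preimage hF.isOpen isOpen_compl_singleton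
  refine ⟨i, hi, W ∩ (fun y => D.θ i y (ContinuousLinearMap.inverse (fderiv ℝ F y) p)) ⁻¹'
      {0}ᶜ, F, ⟨hW, ?_⟩, hF.mono ho inter_subset_left, p, fun y hy v hv => ?_⟩
  · show D.θ i y0 (ContinuousLinearMap.inverse (fderiv ℝ F y0) p) ≠ 0
    rw [hp, hinv y0 hW]
    exact hv0
  · have h1 : D.θ i y (ContinuousLinearMap.inverse (fderiv ℝ F y) p) ≠ 0 := hy.2
    rw [← hv, hinv y hy.1] at h1
    exact h1

/-- **NN-LB**: the holomorphic contact line bundle and its positive metric -/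
theorem exists_cx' [FiniteDimensional ℝ V] [CompactSpace Z] [T2Space Z] (C : ACM V Z)
    (hC : C.Int) (D : CD C) (hNN : NNat V d) {κ : Type*} (O : κ → Set Z) (hO : ∀ k, IsOpen (O k))
    (hOc : ∀ x, ∃ k, x ∈ O k) :
    ∃ (A : Atl d Z) (L : LB A) (θ : OneForm L) (h : HM L) (cm : A.ι → C.ι → Z → ℂ),
      Finite A.ι ∧ GoodA A ∧ Nonempty (Part A) ∧ Cp C A ∧ Contact θ ∧ h.Pos ∧ Lnk D L θ h cm ∧
        (∀ a, ∃ k, (A.e a).source ⊆ O k) ∧ ∀ a, ∃ i, (A.e a).source ⊆ (C.e i).source := by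
  obtain ⟨A, hA1, hA2, hA3, hA4, hCp, hA5⟩ := exists_atl_of C
    (fun i W F => ∃ p : EuclideanSpace ℂ (Fin d), ∀ y ∈ W, ∀ v : V,
        fderiv ℝ F y v = p → D.θ i y v ≠ 0) (exists_supply D hC hNN) O hO hOc
  beta_reduce at hA5
  choose i W F hF hp' hs hW c hc v hv using hA5
  choose p hp using hp'
  have hq : QC D (fun a => (c a : ℂ) • p a) := by
    refine qc_of hCp fun a x hx => ⟨i a, hs a hx, ?_⟩
    have hi := hs a hx
    have hc' := mem_ovc_of_source hx hi
    have hr := mem_ovr_of_source hx hi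
    show Gf D (A.e a) (i a) x ((c a : ℂ) • p a) ≠ 0
    rw [Gf_apply D hx]
    apply hp a _ (hW a x hx)
    set w := fderiv ℝ (Ps C (i a) (A.e a)) (A.e a x) ((c a : ℂ) • p a) with hw
    have h1 : fderiv ℝ (fun y => A.e a ((C.e (i a)).symm y)) (C.e (i a) x) w =
        (c a : ℂ) • p a := by
      have h2 := (hCp a).inv_left hc' ((c a : ℂ) • p a)
      rw [(A.e a).left_inv hx] at h2
      exact h2
    have h3 : (fun y => A.e a ((C.e (i a)).symm y)) =ᶠ[𝓝 (C.e (i a) x)]
        fun y => (c a : ℂ) • F a y + v a := by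
      filter_upwards [(isOpen_ovr (i a) (A.e a)).mem_nhds hr] with y hy
      rw [hv a _ hy.2, (C.e (i a)).right_inv hy.1]
    have h4 : HasFDerivAt (F a) (fderiv ℝ (F a) (C.e (i a) x)) (C.e (i a) x) :=
      (((hF a).sm.contDiffAt ((hF a).isOpen.mem_nhds (hW a x hx))).differentiableAt
        (by simp)).hasFDerivAt
    have h5 : HasFDerivAt (fun y => (c a : ℂ) • F a y + v a)
        ((c a : ℂ) • fderiv ℝ (F a) (C.e (i a) x)) (C.e (i a) x) :=
      (h4.const_smul (c a : ℂ)).add_const (v a)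
    rw [h3.fderiv_eq, h5.fderiv] at h1
    have h6 : (c a : ℂ) • fderiv ℝ (F a) (C.e (i a) x) w = (c a : ℂ) • p a := h1
    have h7 : (c a : ℂ) ≠ 0 := by
      exact_mod_cast (hc a).ne'
    exact smul_right_injective _ h7 h6
  refine ⟨A, _, _, _, _, hA1, hA2, hA3, hCp, contact hCp hq, met_pos hCp hq, lnk hCp hq, hA4,
    fun a => ⟨i a, hs a⟩⟩

/-- **NN-LB** -/
theorem exists_cx [FiniteDimensional ℝ V] [CompactSpace Z] [T2Space Z] (C : ACM V Z)
    (hC : C.Int) (D : CD C) (hNN : NNat V d) :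
    ∃ (A : Atl d Z) (L : LB A) (θ : OneForm L) (h : HM L) (cm : A.ι → C.ι → Z → ℂ),
      Finite A.ι ∧ GoodA A ∧ Nonempty (Part A) ∧ Cp C A ∧ Contact θ ∧ h.Pos ∧ Lnk D L θ h cm := by
  obtain ⟨A, L, θ, h, cm, h1, h2, h3, h4, h5, h6, h7, -, -⟩ := exists_cx' C hC D hNN
    (fun _ : Unit => (univ : Set Z)) (fun _ => isOpen_univ) (fun x => ⟨(), mem_univ x⟩)
  exact ⟨A, L, θ, h, cm, h1, h2, h3, h4, h5, h6, h7⟩

/-! ### sections of `L ^ k` in the smooth frames -/

variable {A : Atl d Z} {D : CD C} {L : LB A} {θ : OneForm L} {h : HM L}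
  {cm : A.ι → C.ι → Z → ℂ}

theorem lb_pow_g (L : LB A) (k : ℕ) (i j : A.ι) (x : Z) : (L ^ k).g i j x = L.g i j x ^ k :=
  Crest.Agent.R273.Chow_313.pow_g L k i j x

theorem Lnk.sk_chg (H : Lnk D L θ h cm) {k : ℕ} {t : A.ι → Z → ℂ} (ht : IsHS (L ^ k) univ t)
    {a b : A.ι} {i : C.ι} {x : Z} (ha : x ∈ (A.e a).source) (hb : x ∈ (A.e b).source)
    (hi : x ∈ (C.e i).source) : cm a i x ^ k * t a x = cm b i x ^ k * t b x := by
  rw [H.trL a b i x ha hb hi, ht.tr a b x ⟨ha, hb⟩ (mem_univ x), lb_pow_g, mul_pow]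
  ring

/-- sections of `L ^ k` in the smooth frames of `D` -/
theorem Lnk.exists_sk (H : Lnk D L θ h cm) (hCp : Cp C A) (k : ℕ) {t : A.ι → Z → ℂ}
    (ht : IsHS (L ^ k) univ t) :
    ∃ s : C.ι → V → ℂ, (∀ i, ContDiffOn ℝ ∞ (s i) (C.e i).target) ∧
      (∀ i, ∀ y ∈ (C.e i).target, ∀ v, fderiv ℝ (s i) y v + I * fderiv ℝ (s i) y (C.J i y v) +
        k * (D.α i y v + I * D.α i y (C.J i y v)) * s i y = 0) ∧
      (∀ i j, ∀ y ∈ C.ov i j, s i y = D.lam i j y ^ k * s j (C.e j ((C.e i).symm y))) ∧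
      ∀ i a x, x ∈ (A.e a).source → x ∈ (C.e i).source →
        s i (C.e i x) = cm a i x ^ k * t a x := by
  have hex : ∀ x, ∃ a, x ∈ (A.e a).source := A.cover
  choose ca hca using hex
  set s : C.ι → V → ℂ := fun i y => cm (ca ((C.e i).symm y)) i ((C.e i).symm y) ^ k *
    t (ca ((C.e i).symm y)) ((C.e i).symm y) with hs
  have hval : ∀ i a x, x ∈ (A.e a).source → x ∈ (C.e i).source →
      s i (C.e i x) = cm a i x ^ k * t a x := by
    intro i a x ha hi
    simp only [hs, (C.e i).left_inv hi]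
    exact H.sk_chg ht (hca x) ha hi
  -- local form
  have hloc : ∀ i a, ∀ y ∈ ovr C i (A.e a), s i =ᶠ[𝓝 y] fun y =>
      cm a i ((C.e i).symm y) ^ k * t a ((C.e i).symm y) := by
    intro i a y hy
    filter_upwards [(isOpen_ovr i (A.e a)).mem_nhds hy] with w hw
    have h1 := hval i a ((C.e i).symm w) hw.2 ((C.e i).map_target hw.1)
    rw [(C.e i).right_inv hw.1] at h1
    exact h1
  have hts : ∀ i a, ContDiffOn ℝ ∞ (fun y => t a ((C.e i).symm y)) (ovr C i (A.e a)) := by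
    intro i a
    have h1 : A.SmAt a (t a) := by
      have h2 := (ht.hol a).contDiffOn isOpen_univ
      simpa [Atl.SmAt] using h2
    exact (smAt_iff (hCp a)).1 h1 i
  have hsm : ∀ i a, ContDiffOn ℝ ∞ (fun y => cm a i ((C.e i).symm y) ^ k *
      t a ((C.e i).symm y)) (ovr C i (A.e a)) := fun i a => ((H.sm a i).pow k).mul (hts i a)
  refine ⟨s, fun i y hy => ?_, fun i y hy v => ?_, fun i j y hy => ?_, hval⟩
  · have hr : y ∈ ovr C i (A.e (ca ((C.e i).symm y))) := ⟨hy, hca _⟩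
    apply ContDiffAt.contDiffWithinAt
    exact ((hsm i _).contDiffAt ((isOpen_ovr i _).mem_nhds hr)).congr_of_eventuallyEq
      (hloc i _ y hr)
  · set x := (C.e i).symm y with hx
    have hi : x ∈ (C.e i).source := (C.e i).map_target hy
    have ha := hca x
    have hr : y ∈ ovr C i (A.e (ca x)) := ⟨hy, ha⟩
    have hyx : C.e i x = y := (C.e i).right_inv hy
    have hc1 : DifferentiableAt ℝ (fun y => cm (ca x) i ((C.e i).symm y)) y :=
      ((H.sm (ca x) i).contDiffAt ((isOpen_ovr i _).mem_nhds hr)).differentiableAt (by simp)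
    have ht1 : DifferentiableAt ℝ (fun y => t (ca x) ((C.e i).symm y)) y :=
      ((hts i (ca x)).contDiffAt ((isOpen_ovr i _).mem_nhds hr)).differentiableAt (by simp)
    have h1 : HasFDerivAt (fun y => cm (ca x) i ((C.e i).symm y) ^ k *
        t (ca x) ((C.e i).symm y)) _ y := (hc1.hasFDerivAt.pow k).mul ht1.hasFDerivAt
    rw [(hloc i _ y hr).fderiv_eq, h1.fderiv, (hloc i _ y hr).eq_of_nhds]
    have h2 := H.db (ca x) i x ha hi v
    rw [hyx] at h2
    have h3 := ((hCp (ca x)).holo_iff (f := t (ca x)) ha hi).1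
      ((ht.hol (ca x)).diffAt isOpen_univ ha (mem_univ x))
    have h4 := h3.2 v
    rw [hyx, smul_eq_mul] at h4
    simp only [_root_.add_apply, _root_.smul_apply, smul_eq_mul,
      nsmul_eq_mul, ← hx]
    rw [h4]
    have hk : (k : ℂ) * cm (ca x) i x ^ (k - 1) * cm (ca x) i x = k * cm (ca x) i x ^ k := by
      rcases k with _ | k
      · simp
      · rw [Nat.add_sub_cancel, pow_succ]
        ring
    linear_combination (t (ca x) x * k * cm (ca x) i x ^ (k - 1)) * h2 +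
      cm (ca x) i x ^ k * (fderiv ℝ (fun y => t (ca x) ((C.e i).symm y)) y v) * I_sq -
      t (ca x) x * (D.α i y v + I * D.α i y (C.J i y v)) * hk
  · have hj : (C.e i).symm y ∈ (C.e j).source := hy.2
    have hi : (C.e i).symm y ∈ (C.e i).source := (C.e i).map_target hy.1
    have h1 := hval i _ _ (hca ((C.e i).symm y)) hi
    have h2 := hval j _ _ (hca ((C.e i).symm y)) hj
    rw [(C.e i).right_inv hy.1] at h1
    rw [h1, h2, H.trR _ i j _ (hca _) hi hj, (C.e i).right_inv hy.1, mul_pow]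
    ring

end

end Crest.Agent.R260.Nn_254
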