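import Crest.Agent.R260.MainH_803
import Crest.Agent.R260.NnLb5_254

/-!
# Row 260 (S0398), MAIN (helper803): `CxP` from 254's `exists_cx`
-/

set_option autoImplicit false

open Set Filter Topology Complex
open scoped ContDiff Manifold
open Crest.Agent.R260.ACM_580 Crest.Agent.R260.NNB_580 Crest.Agent.R260.Tup_45
open Crest.Agent.R275.Geo Crest.Agent.R275.Core144 Crest.Agent.R273.Defs_333
open Crest.Agent.R260.Nn_254
open Crest.Agent.R260.Ga_323 (OneForm Contact)

noncomputable section

namespace Crest.Agent.R260.MainC_803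

variable {V Z : Type} [NormedAddCommGroup V] [NormedSpace ℝ V] [TopologicalSpace Z] {d : ℕ}
  {C : ACM V Z} {A : Atl d Z} {D : CD C} {L : LB A} {θ : OneForm L} {h : HM L}
  {cm : A.ι → C.ι → Z → ℂ}

/-- near a point of the real chart the two readings of the comparison function coincide -/
theorem flink_of (H : Lnk D L θ h cm) : ∃ K : FLink C A L D.lam D.α,
    ∀ a i, K.κ a i = fun y => cm a i ((C.e i).symm y) := by
  have hc : ∀ a i x, x ∈ (A.e a).source → x ∈ (C.e i).source →
      cm a i ((C.e i).symm (C.e i x)) = cm a i x := fun a i x _ hi => by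
    rw [(C.e i).left_inv hi]
  refine ⟨⟨fun a i y => cm a i ((C.e i).symm y), ?_, ?_, ?_, ?_, ?_⟩, fun a i => rfl⟩
  · intro a i x ha hi
    show cm a i ((C.e i).symm (C.e i x)) ≠ 0
    rw [hc a i x ha hi]
    exact H.ne a i x ha hi
  · intro a i x ha hi
    exact (H.sm a i).contDiffAt ((isOpen_ovr i (A.e a)).mem_nhds (mem_ovr_of_source ha hi))
  · intro a i x ha hi v
    have h1 := H.db a i x ha hi v
    show _ + _ + _ * cm a i ((C.e i).symm (C.e i x)) = 0
    rw [hc a i x ha hi, h1]
    ring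
  · intro a b i x ha hb hi
    show cm b i ((C.e i).symm (C.e i x)) = L.g a b x * cm a i ((C.e i).symm (C.e i x))
    rw [hc a i x ha hi, hc b i x hb hi]
    exact H.trL a b i x ha hb hi
  · intro a i j x ha hi hj
    show cm a i ((C.e i).symm (C.e i x)) = _ * cm a j ((C.e j).symm (C.e j x))
    rw [hc a i x ha hi, hc a j x ha hj]
    exact H.trR a i j x ha hi hj

theorem cxp : CxP := by
  intro V Z _ _ _ _ _ _ d C hC cd hNN
  obtain ⟨A, L, θ, h, cm, h1, -, h3, h4, h5, h6, h7⟩ := exists_cx C hC cd hNN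
  obtain ⟨K, hK⟩ := flink_of h7
  refine ⟨A, L, θ, h, K, h1, h3, h4, h5, h6, fun a i x ha hi v => ?_⟩
  rw [hK a i]
  show _ = cm a i ((C.e i).symm (C.e i x)) * _
  rw [(C.e i).left_inv hi]
  exact h7.th a i x ha hi v

end Crest.Agent.R260.MainC_803
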