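import Crest.Agent.R260.ACM_580
import Crest.Agent.R260.GaDefs_323

/-!
# R260, interface T -> E on the Newlander-Nirenberg route: definitions (helper254)

`dd β y v w = (Dβ v) w - (Dβ w) v`  : exterior derivative of a one-form on an open set of `V`.

`CD C` : contact data on the almost complex manifold `C : ACM V Z` of helper580: a smooth
`L`-valued form `θ` of type `(1,0)` (`L = T_Z / ker θ`), Hermitian metric and connection of `L`
in the local smooth frames `e_i` of `L` (`∇ e_i = α_i e_i`, `|e_i|² = h_i`, `θ = θ_i e_i`),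
`∂̄ θ = 0`, positive curvature `i dα (v, J v) > 0`, `dθ` non-degenerate on `ker θ`.
`θ_i = lam i j * θ_j`, so `e_j = lam i j * e_i` and `h_j = |lam i j|² h_i`.
-/

set_option autoImplicit false

open Set Filter Topology Complex
open scoped ContDiff

namespace Crest.Agent.R260.Nn_254

open Crest.Agent.R260.ACM_580

noncomputable section

/-- `dβ (v, w)` for a one-form `β` at `y` -/
def dd {V : Type*} [NormedAddCommGroup V] [NormedSpace ℝ V] {W : Type*} [NormedAddCommGroup W]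
    [NormedSpace ℝ W] (β : V → V →L[ℝ] W) (y v w : V) : W :=
  fderiv ℝ β y v w - fderiv ℝ β y w v

/-- contact data, see the header -/
structure CD {V Z : Type} [NormedAddCommGroup V] [NormedSpace ℝ V] [TopologicalSpace Z]
    (C : ACM V Z) where
  θ : C.ι → V → V →L[ℝ] ℂ
  θ_sm : ∀ i, ContDiffOn ℝ ∞ (θ i) (C.e i).target
  θ_J : ∀ i, ∀ y ∈ (C.e i).target, ∀ v, θ i y (C.J i y v) = I * θ i y v
  θ_ne : ∀ i, ∀ y ∈ (C.e i).target, ∃ v, θ i y v ≠ 0
  lam : C.ι → C.ι → V → ℂ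
  lam_ne : ∀ i j, ∀ y ∈ C.ov i j, lam i j y ≠ 0
  θ_tr : ∀ i j, ∀ y ∈ C.ov i j, ∀ v,
    θ i y v = lam i j y *
      θ j (C.e j ((C.e i).symm y)) (fderiv ℝ (fun y => C.e j ((C.e i).symm y)) y v)
  h : C.ι → V → ℝ
  h_sm : ∀ i, ContDiffOn ℝ ∞ (h i) (C.e i).target
  h_pos : ∀ i, ∀ y ∈ (C.e i).target, 0 < h i y
  h_tr : ∀ i j, ∀ y ∈ C.ov i j, h j (C.e j ((C.e i).symm y)) = ‖lam i j y‖ ^ 2 * h i y
  α : C.ι → V → V →L[ℝ] ℂ
  α_sm : ∀ i, ContDiffOn ℝ ∞ (α i) (C.e i).target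
  α_h : ∀ i, ∀ y ∈ (C.e i).target, ∀ v, fderiv ℝ (h i) y v = 2 * (α i y v).re * h i y
  θ_db : ∀ i, ∀ y ∈ (C.e i).target, ∀ v w,
    dd (θ i) y v w + I * dd (θ i) y (C.J i y v) w =
      -(α i y v + I * α i y (C.J i y v)) * θ i y w
  pos : ∀ i, ∀ y ∈ (C.e i).target, ∀ v, v ≠ 0 → 0 < (I * dd (α i) y v (C.J i y v)).re
  nondeg : ∀ i, ∀ y ∈ (C.e i).target, ∀ v, θ i y v = 0 →
    (∀ w, θ i y w = 0 → dd (θ i) y v w = 0) → v = 0

end

end Crest.Agent.R260.Nn_254
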