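import Crest.Agent.R260.Br4_592
import Crest.Agent.R260.LinDefs_678
import Crest.Agent.R260.GaDefs_323

/-!
# R260 (S0398), step 3 of the chain (BRIDGE): the interface file (helper592)

INPUT  (steps 1, 2): `M` compact connected T2, `A : Atl (2 * m + 1) M` finite with a partition of
unity, `L : LB A` with a positive Hermitian metric, some `Pr : ProjD A`, a contact form `θ` with
values in `L`.
OUTPUT (steps 4, 6): for all large `k` the embedding `S : MSys A L (Fin 2)` by `L^k`, `L^(k+1)`
and the common data `D : CData ℂ (Fin 2) S.J` (LinDefs_678) over the equations `S.E`, with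
`β = (k, k+1)`, `w = (-1, 1)`; `Link` = the analytic meaning of `D.th`; `ExistsPt`, `PrimeE`.

* `dpt`    : derivative of the coordinates in a chart;
* `Link`   : `θ_v(t)` at `v = l • pt`, `t = l • dpt u + a • pt` is `∏ l_i ^ w_i * θ(u)`;
* `TanPt`  : the tangent vectors of the multicone at `l • pt` are the `l • dpt u + a • pt`;
* `Bridge` : the statement of step 3.
-/

set_option autoImplicit false
set_option linter.unusedSectionVars false

open Set Filter Topology Complex
open scoped ContDiff Matrix ComplexConjugate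

namespace Crest.Agent.R260.BrIf_592

open Crest.Agent.R275 Crest.Agent.R275.Geo Crest.Agent.R275.Core144
open Crest.Agent.R273.Defs_333 Crest.Agent.R273.SerA_945 Crest.Agent.R273.SerE_945
open Crest.Agent.R273.TD3_733
open Crest.Agent.R270.BM_360 Crest.Agent.R260.BrDefs_592
open Crest.Agent.R260.Lin_678
open Crest.Agent.R260.Ga_323 (OneForm Contact)

noncomputable section

variable {n : ℕ} {M : Type} [TopologicalSpace M] {A : Atl n M} {L : LB A} {I : Type} [Fintype I]

/-- derivative of the coordinates of the chart `c` at the point `x` in the direction `u` -/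
def dpt (S : MSys A L I) (c : A.ι) (x : M) (u : Cn n) : ∀ i, S.J i → ℂ := fun i a =>
  fderiv ℂ (fun z => S.pt c ((A.e c).symm z) i a) (A.e c x) u

/-- the tangent vectors of the multicone at the points `l • pt` over `ℂ` -/
def TanPt (S : MSys A L I) : Prop :=
  ∀ c, ∀ x ∈ (A.e c).source, ∀ l : I → ℂ, (∀ i, l i ≠ 0) → ∀ t : ∀ i, S.J i → ℂ,
    Tan S.E (fun i b => l i * S.pt c x i b) t ↔ ∃ (u : Cn n) (a : I → ℂ),
      t = fun i b => l i * dpt S c x u i b + a i * S.pt c x i b

/-- the analytic meaning of the algebraic contact form -/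
def Link (S : MSys A L I) (θ : OneForm L) {E : Set (MvPolynomial (Σ i, S.J i) ℂ)} {w : I → ℤ}
    (th : CForm E w) : Prop :=
  ∀ ch, ∀ x ∈ (A.e ch).source, ∀ (c : ∀ i, S.J i) (l : I → ℂ), (∀ i, l i ≠ 0) →
    ∀ (u : Cn n) (a : I → ℂ),
      form (th.p c) (fun i b => l i * S.pt ch x i b)
        (fun i b => l i * dpt S ch x u i b + a i * S.pt ch x i b) =
      den c (fun i b => l i * S.pt ch x i b) ^ th.N * (∏ i, l i ^ w i) * θ.app ch x u

/-- the output of step 3 for the system `S` -/
structure Out (S : MSys A L I) (θ : OneForm L) (m : ℕ) (w : I → ℤ) where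
  D : CData ℂ I S.J
  hE : D.E = S.E
  hβ : D.β = S.β
  hw : D.w = w
  hm : D.m = m
  link : Link S θ D.th
  tanPt : TanPt S
  pt : ExistsPt S
  prime : PrimeE S

/-- **BRIDGE**, one system -/
def BridgeS : Prop :=
  ∀ (m : ℕ) (M : Type) [TopologicalSpace M] [T2Space M] [ConnectedSpace M] [CompactSpace M]
    (A : Atl (2 * m + 1) M) [Finite A.ι], Nonempty (Part A) → D2 A → ∀ (L : LB A) (I : Type)
    [Fintype I] (S : MSys A L I) (w : I → ℤ), ∑ i, w i * (S.β i : ℤ) = 1 →
    ∀ θ : OneForm L, Contact θ → Nonempty (Out S θ m w)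

/-- **BRIDGE** -/
def Bridge : Prop :=
  ∀ (m : ℕ) (M : Type) [TopologicalSpace M] [T2Space M] [ConnectedSpace M] [CompactSpace M]
    (A : Atl (2 * m + 1) M) [Finite A.ι], Nonempty (Part A) → ∀ (L : LB A) (h : HM L), h.Pos →
    ProjD A → ∀ θ : OneForm L, Contact θ →
    ∃ K : ℕ, ∀ k, K ≤ k → ∃ S : MSys A L (Fin 2), S.β = ![k, k + 1] ∧
      Nonempty (Out S θ m ![-1, 1])

end

end Crest.Agent.R260.BrIf_592
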