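import Crest.Agent.R260.Tup2_45
import Crest.Agent.R260.NNB3_580
import Crest.Agent.R260.BrIf_592

/-!
Row 260, leaf TUP (helper45), part 4: from the holomorphic coordinates `S : MSys A L I` of the
twistor space to functions in the real charts.

* `FLink C A L lam α` : comparison functions `κ a i` between the holomorphic frame `e_a` of `L` in
   the chart `a` of `A` and the smooth frame `e_i` of `L` in the real chart `i` of `C`
   (`e_a = κ a i • e_i`, `e_j = lam i j • e_i`, `∇ e_i = α i • e_i`), `∂̄`-closed;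
* `FLink.Th`          : compatibility with the contact forms (`θ i` real chart, `θ'` in `A`);
* `sec S K i y`       : the homogeneous coordinates in the frame `e_i` at the point `y` of the chart
* `rawFam_of_link`    : the raw family of twistor tuples.
-/

set_option autoImplicit false
set_option linter.unusedSectionVars false

open Complex Matrix Set Filter
open scoped ContDiff Topology
open Crest.GeometryTopology.CoordMetric Crest.GeometryTopology.ChartRiem
open Crest.Agent.R260.Tw_979 Crest.Agent.R260.TwPen_389 Crest.Agent.R270.BM_360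
open Crest.Agent.R260.ACM_580 Crest.Agent.R260.NNB_580 Crest.Agent.R260.BrDefs_592
open Crest.Agent.R275.Geo Crest.Agent.R275.Core144
open Crest.Agent.R260.Ga_323 (OneForm Contact)

noncomputable section

namespace Crest.Agent.R260.Tup_45

section Link

variable {V Z : Type} [NormedAddCommGroup V] [NormedSpace ℝ V] [TopologicalSpace Z] {d : ℕ}

/-- comparison functions between the holomorphic frames (charts of `A`) and the smooth frames (charts
of `C`) of `L` -/
structure FLink (C : ACM V Z) (A : Atl d Z) (L : LB A) (lam : C.ι → C.ι → V → ℂ)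
    (α : C.ι → V → V →L[ℝ] ℂ) where
  κ : A.ι → C.ι → V → ℂ
  ne : ∀ a i, ∀ x ∈ (A.e a).source, x ∈ (C.e i).source → κ a i (C.e i x) ≠ 0
  sm : ∀ a i, ∀ x ∈ (A.e a).source, x ∈ (C.e i).source → ContDiffAt ℝ ∞ (κ a i) (C.e i x)
  db : ∀ a i, ∀ x ∈ (A.e a).source, x ∈ (C.e i).source → ∀ v,
    fderiv ℝ (κ a i) (C.e i x) v + I * fderiv ℝ (κ a i) (C.e i x) (C.J i (C.e i x) v) +
      (α i (C.e i x) v + I * α i (C.e i x) (C.J i (C.e i x) v)) * κ a i (C.e i x) = 0
  trA : ∀ a b i, ∀ x ∈ (A.e a).source, x ∈ (A.e b).source → x ∈ (C.e i).source →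
    κ b i (C.e i x) = L.g a b x * κ a i (C.e i x)
  trC : ∀ a i j, ∀ x ∈ (A.e a).source, x ∈ (C.e i).source → x ∈ (C.e j).source →
    κ a i (C.e i x) = lam i j (C.e i x) * κ a j (C.e j x)

/-- compatibility of `FLink` with the contact forms: `θ_i e_i = θ'_a e_a` -/
def FLink.Th {C : ACM V Z} {A : Atl d Z} {L : LB A} {lam : C.ι → C.ι → V → ℂ}
    {α : C.ι → V → V →L[ℝ] ℂ} (K : FLink C A L lam α) (θ : C.ι → V → V →L[ℝ] ℂ)
    (θ' : OneForm L) : Prop :=
  ∀ a i, ∀ x ∈ (A.e a).source, x ∈ (C.e i).source → ∀ u : Cn d,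
    θ i (C.e i x) (fderiv ℝ (fun z => C.e i ((A.e a).symm z)) (A.e a x) u) =
      K.κ a i (C.e i x) * θ'.app a x u

variable {C : ACM V Z} {A : Atl d Z} {L : LB A} {lam : C.ι → C.ι → V → ℂ}
  {α : C.ι → V → V →L[ℝ] ℂ} {I' : Type} [Fintype I']

open Classical in
/-- the homogeneous coordinates in the frame of the real chart `i` -/
def sec (S : MSys A L I') (K : FLink C A L lam α) (i : C.ι) (y : V) : ∀ j, S.J j → ℂ := fun j b =>
  K.κ (A.cover ((C.e i).symm y)).choose i y ^ S.β j *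
    S.pt (A.cover ((C.e i).symm y)).choose ((C.e i).symm y) j b

theorem sec_eq' (S : MSys A L I') (K : FLink C A L lam α) {i : C.ι} {a : A.ι} {y : V}
    (hy : y ∈ (C.e i).target) (ha : (C.e i).symm y ∈ (A.e a).source) (j : I') (b : S.J j) :
    sec S K i y j b = K.κ a i y ^ S.β j * S.pt a ((C.e i).symm y) j b := by
  unfold sec
  set a' := (A.cover ((C.e i).symm y)).choose with ha'
  have h1 : (C.e i).symm y ∈ (A.e a').source := (A.cover ((C.e i).symm y)).choose_spec
  have hi := (C.e i).map_target hy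
  have h2 := K.trA a' a i _ h1 ha hi
  rw [(C.e i).right_inv hy] at h2
  have h3 := S.pt_chg ⟨h1, ha⟩ j b
  rw [h3, h2, mul_pow]
  ring

theorem sec_eq (S : MSys A L I') (K : FLink C A L lam α) {i : C.ι} {a : A.ι} {x : Z}
    (ha : x ∈ (A.e a).source) (hi : x ∈ (C.e i).source) (j : I') (b : S.J j) :
    sec S K i (C.e i x) j b = K.κ a i (C.e i x) ^ S.β j * S.pt a x j b := by
  have h1 := sec_eq' S K (i := i) (a := a) ((C.e i).map_source hi)
    (by rw [(C.e i).left_inv hi]; exact ha) j b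
  rwa [(C.e i).left_inv hi] at h1

/-- near a point, in the real chart -/
theorem sec_ev (S : MSys A L I') (K : FLink C A L lam α) {i : C.ι} {a : A.ι} {x : Z}
    (ha : x ∈ (A.e a).source) (hi : x ∈ (C.e i).source) (j : I') (b : S.J j) :
    (fun y => sec S K i y j b) =ᶠ[𝓝 (C.e i x)]
      fun y => K.κ a i y ^ S.β j * S.pt a ((C.e i).symm y) j b := by
  have h1 : ovr C i (A.e a) ∈ 𝓝 (C.e i x) :=
    (isOpen_ovr i (A.e a)).mem_nhds (mem_ovr_of_source ha hi)
  filter_upwards [h1] with y hy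
  have h2 : C.e i ((C.e i).symm y) = y := (C.e i).right_inv hy.1
  have h3 := sec_eq S K hy.2 ((C.e i).map_target hy.1) j b
  rw [h2] at h3
  exact h3

theorem pt_holAt (S : MSys A L I') (a : A.ι) (j : I') (b : S.J j) :
    HolAt A a univ (fun x => S.pt a x j b) := by
  have h := (S.P j).hol a b
  exact h

/-- coordinates in a holomorphic chart, read in a real chart -/
theorem pt_real (hC : ∀ a, JCh C (A.e a)) (S : MSys A L I') {i : C.ι} {a : A.ι} {x : Z}
    (ha : x ∈ (A.e a).source) (hi : x ∈ (C.e i).source) (j : I') (b : S.J j) :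
    ContDiffAt ℝ ∞ (fun y => S.pt a ((C.e i).symm y) j b) (C.e i x) ∧
      ∀ v, fderiv ℝ (fun y => S.pt a ((C.e i).symm y) j b) (C.e i x) (C.J i (C.e i x) v) =
        I * fderiv ℝ (fun y => S.pt a ((C.e i).symm y) j b) (C.e i x) v := by
  have h0 := pt_holAt S a j b
  constructor
  · have h1 : ContDiffAt ℝ ∞ (fun z => S.pt a ((A.e a).symm z) j b) (A.e a x) := by
      refine (h0.contDiffOn isOpen_univ).contDiffAt ?_
      refine ((A.e a).isOpen_inter_preimage_symm isOpen_univ).mem_nhds ?_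
      exact ⟨(A.e a).map_source ha, mem_univ _⟩
    exact (JCh.contDiffAt_iff (f := fun x => S.pt a x j b) (hC a) ha hi (n := ⊤)).1 h1
  · exact ((holAt_iff (hC a) isOpen_univ).1 h0 i x ha hi (mem_univ _)).2

theorem sec_contDiffAt (hC : ∀ a, JCh C (A.e a)) (S : MSys A L I') (K : FLink C A L lam α)
    {i : C.ι} {x : Z} (hi : x ∈ (C.e i).source) (j : I') (b : S.J j) :
    ContDiffAt ℝ ∞ (fun y => sec S K i y j b) (C.e i x) := by
  obtain ⟨a, ha⟩ := A.cover x
  refine ContDiffAt.congr_of_eventuallyEq ?_ (sec_ev S K ha hi j b)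
  exact ((K.sm a i x ha hi).pow _).mul (pt_real hC S ha hi j b).1

/-- **the Cauchy-Riemann equation of the coordinates in the smooth frame** -/
theorem sec_db (hC : ∀ a, JCh C (A.e a)) (S : MSys A L I') (K : FLink C A L lam α)
    {i : C.ι} {x : Z} (hi : x ∈ (C.e i).source) (j : I') (b : S.J j) (v : V) :
    fderiv ℝ (fun y => sec S K i y j b) (C.e i x) v +
      I * fderiv ℝ (fun y => sec S K i y j b) (C.e i x) (C.J i (C.e i x) v) +
      (S.β j : ℂ) * (α i (C.e i x) v + I * α i (C.e i x) (C.J i (C.e i x) v)) *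
        sec S K i (C.e i x) j b = 0 := by
  obtain ⟨a, ha⟩ := A.cover x
  obtain ⟨h1, h2⟩ := pt_real hC S ha hi j b
  have hk : HasFDerivAt (K.κ a i) (fderiv ℝ (K.κ a i) (C.e i x)) (C.e i x) :=
    ((K.sm a i x ha hi).differentiableAt (by simp)).hasFDerivAt
  have hp : HasFDerivAt (fun y => S.pt a ((C.e i).symm y) j b)
      (fderiv ℝ (fun y => S.pt a ((C.e i).symm y) j b) (C.e i x)) (C.e i x) :=
    (h1.differentiableAt (by simp)).hasFDerivAt
  have hk' := hk.pow (S.β j)
  have hm := hk'.mul hp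
  have he : fderiv ℝ (fun y => sec S K i y j b) (C.e i x) = _ :=
    (hm.congr_of_eventuallyEq (sec_ev S K ha hi j b)).fderiv
  have hdb := K.db a i x ha hi v
  have hx : (C.e i).symm (C.e i x) = x := (C.e i).left_inv hi
  rw [he, sec_eq S K ha hi j b]
  have hb : S.β j = (S.β j - 1) + 1 := (Nat.succ_pred_eq_of_pos (S.pos j)).symm
  have hpow : K.κ a i (C.e i x) ^ S.β j =
      K.κ a i (C.e i x) ^ (S.β j - 1) * K.κ a i (C.e i x) := by
    conv_lhs => rw [hb]
    rw [pow_succ]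
  simp only [_root_.add_apply, _root_.smul_apply, smul_eq_mul, hx, nsmul_eq_mul]
  rw [h2 v, hpow]
  linear_combination (K.κ a i (C.e i x) ^ (S.β j - 1) * (S.β j : ℂ) * S.pt a x j b) * hdb +
    (K.κ a i (C.e i x) ^ (S.β j - 1) * K.κ a i (C.e i x) *
      fderiv ℝ (fun y => S.pt a ((C.e i).symm y) j b) (C.e i x) v) * I_sq

theorem sec_tr (S : MSys A L I') (K : FLink C A L lam α) {i j' : C.ι} {x : Z}
    (hi : x ∈ (C.e i).source) (hj : x ∈ (C.e j').source) (j : I') (b : S.J j) :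
    sec S K i (C.e i x) j b = lam i j' (C.e i x) ^ S.β j * sec S K j' (C.e j' x) j b := by
  obtain ⟨a, ha⟩ := A.cover x
  rw [sec_eq S K ha hi j b, sec_eq S K ha hj j b, K.trC a i j' x ha hi hj, mul_pow]
  ring

theorem sec_on (S : MSys A L I') (K : FLink C A L lam α) {i : C.ι} {x : Z}
    (hi : x ∈ (C.e i).source) : OnX S.E (sec S K i (C.e i x)) := by
  obtain ⟨a, ha⟩ := A.cover x
  have h1 : sec S K i (C.e i x) = fun j b => K.κ a i (C.e i x) ^ S.β j * S.pt a x j b := by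
    funext j b
    exact sec_eq S K ha hi j b
  rw [h1]
  exact S.onX ha fun j => K.κ a i (C.e i x) ^ S.β j

theorem sec_ne (S : MSys A L I') (K : FLink C A L lam α) {i : C.ι} {x : Z}
    (hi : x ∈ (C.e i).source) (j : I') : sec S K i (C.e i x) j ≠ 0 := by
  obtain ⟨a, ha⟩ := A.cover x
  intro h0
  apply S.pt_ne ha j
  funext b
  have h1 := congrFun h0 b
  rw [sec_eq S K ha hi j b] at h1
  exact (mul_eq_zero.1 h1).resolve_left (pow_ne_zero _ (K.ne a i x ha hi))

end Link

section Raw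

variable {n d : ℕ} {Z : Type} [TopologicalSpace Z]
  {C : ACM (EuclideanSpace ℝ (Fin n) × ℂ) Z} {A : Atl d Z} {L : LB A}
  {lam : C.ι → C.ι → EuclideanSpace ℝ (Fin n) × ℂ → ℂ}
  {α : C.ι → EuclideanSpace ℝ (Fin n) × ℂ → EuclideanSpace ℝ (Fin n) × ℂ →L[ℝ] ℂ}
  {I' : Type} [Fintype I']

/-- the chart of the twistor space over the open set `U` with the two stereographic coordinates -/
structure TwCh (C : ACM (EuclideanSpace ℝ (Fin n) × ℂ) Z)
    (lam : C.ι → C.ι → EuclideanSpace ℝ (Fin n) × ℂ → ℂ)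
    (α : C.ι → EuclideanSpace ℝ (Fin n) × ℂ → EuclideanSpace ℝ (Fin n) × ℂ →L[ℝ] ℂ)
    (J : Fin 3 → EuclideanSpace ℝ (Fin n) → Matrix (Fin n) (Fin n) ℝ)
    (c : EuclideanSpace ℝ (Fin n) → Fin n → Fin 3 → Fin 3 → ℝ)
    (Jo : EuclideanSpace ℝ (Fin n) → Fin 3 → (EuclideanSpace ℝ (Fin n) →L[ℝ] EuclideanSpace ℝ (Fin n)))
    (Th : EuclideanSpace ℝ (Fin n) → Fin 3 → (EuclideanSpace ℝ (Fin n) →L[ℝ] ℝ))
    (U : Set (EuclideanSpace ℝ (Fin n))) (ip im : C.ι) : Prop where
  isOpen : IsOpen U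
  tp : (C.e ip).target = U ×ˢ univ
  tm : (C.e im).target = U ×ˢ univ
  tr : ∀ x ∈ U, ∀ w : ℂ, w ≠ 0 → (C.e ip).symm (x, w) = (C.e im).symm (x, w⁻¹)
  hlam : ∀ x ∈ U, ∀ w : ℂ, w ≠ 0 → lam ip im (x, w) = -w ^ 2
  hJ : ∀ x ∈ U, ∀ w : ℂ, C.J ip (x, w) = JZ Jo Th (x, w)
  hα : ∀ x ∈ U, ∀ w : ℂ, AlSpec Th (x, w) (α ip (x, w))
  hfr : ∀ x ∈ U, FrSpec J c Jo Th x

variable {J : Fin 3 → EuclideanSpace ℝ (Fin n) → Matrix (Fin n) (Fin n) ℝ}
  {c : EuclideanSpace ℝ (Fin n) → Fin n → Fin 3 → Fin 3 → ℝ}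
  {Jo : EuclideanSpace ℝ (Fin n) → Fin 3 → (EuclideanSpace ℝ (Fin n) →L[ℝ] EuclideanSpace ℝ (Fin n))}
  {Th : EuclideanSpace ℝ (Fin n) → Fin 3 → (EuclideanSpace ℝ (Fin n) →L[ℝ] ℝ)}
  {U : Set (EuclideanSpace ℝ (Fin n))} {ip im : C.ι}

/-- the point of the twistor space with coordinates `(x, w)` -/
def TwCh.q (_ : TwCh C lam α J c Jo Th U ip im) (x : EuclideanSpace ℝ (Fin n)) (w : ℂ) : Z :=
  (C.e ip).symm (x, w)

theorem TwCh.q_mem (h : TwCh C lam α J c Jo Th U ip im) {x : EuclideanSpace ℝ (Fin n)}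
    (hx : x ∈ U) (w : ℂ) : h.q x w ∈ (C.e ip).source :=
  (C.e ip).map_target (by rw [h.tp]; exact ⟨hx, mem_univ _⟩)

theorem TwCh.e_q (h : TwCh C lam α J c Jo Th U ip im) {x : EuclideanSpace ℝ (Fin n)}
    (hx : x ∈ U) (w : ℂ) : C.e ip (h.q x w) = (x, w) :=
  (C.e ip).right_inv (by rw [h.tp]; exact ⟨hx, mem_univ _⟩)

/-- **the raw family of twistor tuples** -/
theorem rawFam_of_link (h : TwCh C lam α J c Jo Th U ip im) (hC : ∀ a, JCh C (A.e a))
    (S : MSys A L I') (K : FLink C A L lam α) :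
    RawFam J c U S.E S.β (fun x w => sec S K ip (x, w)) (fun x v => sec S K im (x, v)) := by
  have hp : ∀ x ∈ U, ∀ w j b, ContDiffAt ℝ ∞ (fun y => sec S K ip y j b) (x, w) := by
    intro x hx w j b
    have := sec_contDiffAt hC S K (h.q_mem hx w) j b
    rwa [h.e_q hx w] at this
  have hdb : ∀ x ∈ U, ∀ w j b, ∀ v, fderiv ℝ (fun y => sec S K ip y j b) (x, w) v +
      I * fderiv ℝ (fun y => sec S K ip y j b) (x, w) (JZ Jo Th (x, w) v) +
      (S.β j : ℂ) * (α ip (x, w) v + I * α ip (x, w) (JZ Jo Th (x, w) v)) *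
        sec S K ip (x, w) j b = 0 := by
    intro x hx w j b v
    have := sec_db hC S K (h.q_mem hx w) j b v
    rw [h.e_q hx w, h.hJ x hx w] at this
    exact this
  have hm : ∀ x ∈ U, ∀ v : ℂ, (C.e im).symm (x, v) ∈ (C.e im).source ∧
      C.e im ((C.e im).symm (x, v)) = (x, v) := by
    intro x hx v
    have : (x, v) ∈ (C.e im).target := by rw [h.tm]; exact ⟨hx, mem_univ _⟩
    exact ⟨(C.e im).map_target this, (C.e im).right_inv this⟩
  refine ⟨?_, ?_, ?_, ?_, ?_, ?_, ?_, ?_⟩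
  · intro w j b x hx
    have h1 := hp x hx w j b
    have h2 : ContDiffAt ℝ ∞ (fun x : EuclideanSpace ℝ (Fin n) => (x, w)) x :=
      contDiffAt_id.prodMk contDiffAt_const
    exact (ContDiffAt.comp (g := fun y => sec S K ip y j b) x h1 h2).contDiffWithinAt
  · intro x hx j b w
    have h1 := (hp x hx w j b).differentiableAt (by simp)
    exact (holw_of_dbar (z := (x, w)) (s := fun y => sec S K ip y j b) (h.hα x hx w) h1
      (hdb x hx w j b)).differentiableAt
  · intro x hx j b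
    obtain ⟨h1, h2⟩ := hm x hx 0
    have h3 := (sec_contDiffAt hC S K h1 j b).continuousAt
    rw [h2] at h3
    have h4 : ContinuousAt (fun v : ℂ => (x, v)) 0 := by fun_prop
    exact ContinuousAt.comp (g := fun y => sec S K im y j b) h3 h4
  · intro x hx w hw j b
    have h1 := h.q_mem hx w
    have h2 := h.e_q hx w
    obtain ⟨h3, h4⟩ := hm x hx w⁻¹
    have h5 : h.q x w = (C.e im).symm (x, w⁻¹) := h.tr x hx w hw
    have h6 : h.q x w ∈ (C.e im).source := by rw [h5]; exact h3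
    have h7 := sec_tr S K h1 h6 j b
    rw [h2, h.hlam x hx w hw] at h7
    have h8 : C.e im (h.q x w) = (x, w⁻¹) := by rw [h5]; exact h4
    rw [h8] at h7
    exact h7
  · intro x hx w
    have := sec_on S K (h.q_mem hx w)
    rwa [h.e_q hx w] at this
  · intro x hx w j
    have := sec_ne S K (h.q_mem hx w) j
    rwa [h.e_q hx w] at this
  · intro x hx j
    obtain ⟨h1, h2⟩ := hm x hx 0
    have := sec_ne S K h1 j
    rwa [h2] at this
  · intro x hx w j b
    exact holK_of_dbar (h.hfr x hx) (s := fun y => sec S K ip y j b) (h.hα x hx w)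
      ((hp x hx w j b).differentiableAt (by simp)) (hdb x hx w j b)

end Raw

end Crest.Agent.R260.Tup_45
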