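import Crest.Agent.R260.TwPenB_389
import Crest.Agent.R270.BmDefs_360

/-!
Row 260, leaf TUP (helper45), part 1: the smooth family of twistor tuples, definitions and the
fibre direction.

* `horK`   : horizontal derivative of a section of `L ^ k` in the frame `nn`
* `TwFam`  : a smooth family of polynomial tuples of class `2 β`, horizontally holomorphic
* `RawFam` : the raw data in two stereographic charts; `RawFam.exists_fam` gives `TwFam`.
-/

set_option autoImplicit false
set_option linter.unusedSectionVars false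

open Complex Matrix
open scoped ContDiff Topology
open Crest.GeometryTopology.CoordMetric Crest.GeometryTopology.ChartRiem
open Crest.Agent.R260.Tw_979 Crest.Agent.R260.TwPen_389 Crest.Agent.R270.BM_360

noncomputable section

namespace Crest.Agent.R260.Tup_45

open Polynomial Filter

/-! ### entire functions with a pole of order `≤ N` at infinity -/

/-- an entire function which is `w ^ N` times a function continuous at infinity is a polynomial -/
theorem poly_of_two_charts (N : ℕ) : ∀ {f h : ℂ → ℂ}, Differentiable ℂ f → ContinuousAt h 0 →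
    (∀ w, w ≠ 0 → f w = w ^ N * h w⁻¹) →
    ∃ p : ℂ[X], p.natDegree ≤ N ∧ (∀ w, f w = p.eval w) ∧ p.coeff N = h 0 := by
  induction N with
  | zero =>
    intro f h hf hh e
    have hlim : Tendsto (fun w : ℂ => h w⁻¹) (cocompact ℂ) (𝓝 (h 0)) := by
      have h1 : Tendsto (fun w : ℂ => w⁻¹) (cocompact ℂ) (𝓝 0) := tendsto_inv₀_cobounded.mono_left
        (by rw [Metric.cobounded_eq_cocompact])
      exact hh.tendsto.comp h1
    have hne : ∀ᶠ w : ℂ in cocompact ℂ, w ≠ 0 := by
      have : ({0} : Set ℂ)ᶜ ∈ cocompact ℂ := isCompact_singleton.compl_mem_cocompact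
      filter_upwards [this] with w hw
      simpa using hw
    have hlim2 : Tendsto f (cocompact ℂ) (𝓝 (h 0)) := by
      refine hlim.congr' ?_
      filter_upwards [hne] with w hw
      rw [e w hw]; simp
    have hc : ∀ w, f w = h 0 := fun w => hf.apply_eq_of_tendsto_cocompact w hlim2
    exact ⟨Polynomial.C (h 0), by simp, fun w => by rw [hc w]; simp, by simp⟩
  | succ N ih =>
    intro f h hf hh e
    have hd : Differentiable ℂ (dslope f 0) := by
      have := (Complex.differentiableOn_dslope (s := Set.univ) (c := (0 : ℂ)) (f := f)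
        Filter.univ_mem).2 hf.differentiableOn
      exact differentiableOn_univ.1 this
    have e1 : ∀ w, f w = f 0 + w * dslope f 0 w := by
      intro w
      have := sub_smul_dslope f 0 w
      rw [smul_eq_mul, sub_zero] at this
      rw [this]; ring
    have h2 : ContinuousAt (fun v => h v - f 0 * v ^ (N + 1)) 0 :=
      hh.sub (by fun_prop)
    obtain ⟨p, hp1, hp2, hp3⟩ := ih hd h2 (by
      intro w hw
      have h3 : w * dslope f 0 w = w ^ (N + 1) * h w⁻¹ - f 0 := by
        rw [← e w hw, e1 w]; ring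
      have h4 : w ^ (N + 1) * (w⁻¹) ^ (N + 1) = 1 := by
        rw [← mul_pow, mul_inv_cancel₀ hw, one_pow]
      have h5 : w * dslope f 0 w = w * (w ^ N * (h w⁻¹ - f 0 * w⁻¹ ^ (N + 1))) := by
        rw [h3]
        linear_combination f 0 * h4
      exact mul_left_cancel₀ hw h5)
    refine ⟨Polynomial.C (f 0) + Polynomial.X * p, ?_, ?_, ?_⟩
    · refine (natDegree_add_le _ _).trans (max_le (by simp) ?_)
      refine natDegree_mul_le.trans ?_
      have : (X : ℂ[X]).natDegree ≤ 1 := natDegree_X_le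
      omega
    · intro w
      rw [e1 w, hp2 w]
      simp
    · rw [coeff_add, coeff_X_mul, hp3]
      simp

/-- the coefficients of a polynomial of degree `≤ N` from its values at `0, ..., N` -/
theorem coeff_lagrange {N : ℕ} {p : ℂ[X]} (hp : p.natDegree ≤ N) (k : ℕ) :
    p.coeff k = ∑ i ∈ Finset.range (N + 1), p.eval (i : ℂ) *
      (Lagrange.basis (Finset.range (N + 1)) (fun i : ℕ => (i : ℂ)) i).coeff k := by
  have hinj : Set.InjOn (fun i : ℕ => (i : ℂ)) (Finset.range (N + 1)) := by
    intro i _ j _ hij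
    have hij' : (i : ℂ) = (j : ℂ) := hij
    exact_mod_cast hij'
  have hdeg : p.degree < (Finset.range (N + 1)).card := by
    rw [Finset.card_range]
    exact (degree_le_natDegree).trans_lt (by exact_mod_cast Nat.lt_succ_of_le hp)
  have h := Lagrange.eq_interpolate hinj hdeg
  conv_lhs => rw [h]
  rw [Lagrange.interpolate_apply, finsetSum_coeff]
  refine Finset.sum_congr rfl fun i _ => ?_
  rw [coeff_C_mul]

/-- no common zero: the polynomial vector is coprime -/
theorem cop_of_no_root {T : Type} {f : T → ℂ[X]} (h : ∀ z : ℂ, ∃ a, (f a).eval z ≠ 0) :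
    Cop f := by
  unfold Cop
  set Id := Ideal.span (Set.range f) with hId
  obtain ⟨g, hg⟩ : ∃ g, Id = Ideal.span {g} := (IsPrincipalIdealRing.principal Id).principal
  have hdvd : ∀ a, g ∣ f a := by
    intro a
    rw [← Ideal.mem_span_singleton, ← hg]
    exact Ideal.subset_span ⟨a, rfl⟩
  have hg0 : g ≠ 0 := by
    rintro rfl
    obtain ⟨a, ha⟩ := h 0
    have := hdvd a
    rw [zero_dvd_iff] at this
    rw [this] at ha
    simp at ha
  have hdeg : g.degree = 0 := by
    by_contra hne
    obtain ⟨z, hz⟩ := IsAlgClosed.exists_root g hne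
    obtain ⟨a, ha⟩ := h z
    obtain ⟨q, hq⟩ := hdvd a
    apply ha
    rw [hq, eval_mul, hz.eq_zero, zero_mul]
  rw [hg, Ideal.span_singleton_eq_top]
  exact Polynomial.isUnit_iff_degree_eq_zero.2 hdeg

/-! ### the definitions -/

variable {n : ℕ}

/-- the horizontal derivative of a section of `L ^ k` in the frame `nn` (`k = 1`: `TwPen_389.hor`) -/
def horK (c : EuclideanSpace ℝ (Fin n) → Fin n → Fin 3 → Fin 3 → ℝ) (k : ℂ)
    (f : EuclideanSpace ℝ (Fin n) → ℂ → ℂ) (x : EuclideanSpace ℝ (Fin n)) (w : ℂ) (i : Fin n) : ℂ :=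
  cpd i (fun y => f y w) x - mu (c x i) w * deriv (f x) w - k * lam (c x i) w * f x w

theorem horK_one (c : EuclideanSpace ℝ (Fin n) → Fin n → Fin 3 → Fin 3 → ℝ)
    (f : EuclideanSpace ℝ (Fin n) → ℂ → ℂ) : horK c 1 f = hor c f := by
  funext x w i
  simp [horK, hor]

/-- `f` satisfies the horizontal Cauchy-Riemann equation of weight `k` at `(x, w)` -/
def HolK (J : Fin 3 → EuclideanSpace ℝ (Fin n) → Matrix (Fin n) (Fin n) ℝ)
    (c : EuclideanSpace ℝ (Fin n) → Fin n → Fin 3 → Fin 3 → ℝ) (k : ℂ)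
    (f : EuclideanSpace ℝ (Fin n) → ℂ → ℂ) (x : EuclideanSpace ℝ (Fin n)) (w : ℂ) : Prop :=
  ∀ j, ∑ i, Nq (fun a => cm (J a x)) (nn w) i j * horK c k f x w i = 0

variable {I : Type} {Jt : I → Type} [Fintype I] [∀ i, Fintype (Jt i)]

/-- a smooth family of twistor tuples over the chart domain `U` -/
structure TwFam (J : Fin 3 → EuclideanSpace ℝ (Fin n) → Matrix (Fin n) (Fin n) ℝ)
    (c : EuclideanSpace ℝ (Fin n) → Fin n → Fin 3 → Fin 3 → ℝ)
    (U : Set (EuclideanSpace ℝ (Fin n))) (E : Set (MvPolynomial (Σ i, Jt i) ℂ)) (β : I → ℕ)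
    (F : EuclideanSpace ℝ (Fin n) → ∀ i, Jt i → ℂ[X]) : Prop where
  map : ∀ x ∈ U, IsMap E (F x)
  cls : ∀ x ∈ U, cls (F x) = 2 • β
  sm : ∀ i a k, ContDiffOn ℝ ∞ (fun x => (F x i a).coeff k) U
  hol : ∀ x ∈ U, ∀ w i a, HolK J c (β i) (fun y w => (F y i a).eval w) x w

/-- the raw data of a family of twistor tuples: values `s x w` in the frame of the chart `w`, values
`s' x v` in the frame of the opposite chart `v = w⁻¹` -/
structure RawFam (J : Fin 3 → EuclideanSpace ℝ (Fin n) → Matrix (Fin n) (Fin n) ℝ)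
    (c : EuclideanSpace ℝ (Fin n) → Fin n → Fin 3 → Fin 3 → ℝ)
    (U : Set (EuclideanSpace ℝ (Fin n))) (E : Set (MvPolynomial (Σ i, Jt i) ℂ)) (β : I → ℕ)
    (s s' : EuclideanSpace ℝ (Fin n) → ℂ → ∀ i, Jt i → ℂ) : Prop where
  sm : ∀ w i a, ContDiffOn ℝ ∞ (fun x => s x w i a) U
  ent : ∀ x ∈ U, ∀ i a, Differentiable ℂ (fun w => s x w i a)
  cont' : ∀ x ∈ U, ∀ i a, ContinuousAt (fun v => s' x v i a) 0
  tr : ∀ x ∈ U, ∀ w, w ≠ 0 → ∀ i a, s x w i a = (-w ^ 2) ^ β i * s' x w⁻¹ i a
  on : ∀ x ∈ U, ∀ w, OnX E (s x w)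
  ne : ∀ x ∈ U, ∀ w i, s x w i ≠ 0
  ne' : ∀ x ∈ U, ∀ i, s' x 0 i ≠ 0
  hol : ∀ x ∈ U, ∀ w i a, HolK J c (β i) (fun y w => s y w i a) x w

omit [Fintype I] [∀ i, Fintype (Jt i)] in
theorem eval_aeval_poly {k : Type} [Field k] {F : ∀ i, Jt i → k[X]} (w : k)
    (p : MvPolynomial (Σ i, Jt i) k) :
    (MvPolynomial.aeval (fun x : Σ i, Jt i => F x.1 x.2) p).eval w =
      MvPolynomial.aeval (fun x : Σ i, Jt i => (F x.1 x.2).eval w) p := by
  have h : (Polynomial.aeval w : k[X] →ₐ[k] k).comp
      (MvPolynomial.aeval (fun x : Σ i, Jt i => F x.1 x.2)) =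
      MvPolynomial.aeval (fun x : Σ i, Jt i => (F x.1 x.2).eval w) := by
    apply MvPolynomial.algHom_ext
    intro x
    simp
  have := DFunLike.congr_fun h p
  simpa using this

theorem RawFam.exists_fam {J : Fin 3 → EuclideanSpace ℝ (Fin n) → Matrix (Fin n) (Fin n) ℝ}
    {c : EuclideanSpace ℝ (Fin n) → Fin n → Fin 3 → Fin 3 → ℝ}
    {U : Set (EuclideanSpace ℝ (Fin n))} {E : Set (MvPolynomial (Σ i, Jt i) ℂ)} {β : I → ℕ}
    {s s' : EuclideanSpace ℝ (Fin n) → ℂ → ∀ i, Jt i → ℂ} (h : RawFam J c U E β s s')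
    (hU : IsOpen U) :
    ∃ F : EuclideanSpace ℝ (Fin n) → ∀ i, Jt i → ℂ[X], TwFam J c U E β F ∧
      (∀ x ∈ U, ∀ w i a, (F x i a).eval w = s x w i a) ∧
      (∀ x ∈ U, ∀ i a, (F x i a).coeff (2 * β i) = (-1) ^ β i * s' x 0 i a) ∧
      ∀ x ∈ U, ∀ i a, (F x i a).natDegree ≤ 2 * β i := by
  classical
  have key : ∀ x ∈ U, ∀ i a, ∃ p : ℂ[X], p.natDegree ≤ 2 * β i ∧
      (∀ w, s x w i a = p.eval w) ∧ p.coeff (2 * β i) = (-1) ^ β i * s' x 0 i a := by
    intro x hx i a
    refine poly_of_two_charts (2 * β i) (h := fun v => (-1) ^ β i * s' x v i a) (h.ent x hx i a)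
      ((h.cont' x hx i a).const_mul _) ?_
    intro w hw
    rw [h.tr x hx w hw i a, neg_pow, ← pow_mul]
    ring
  set F : EuclideanSpace ℝ (Fin n) → ∀ i, Jt i → ℂ[X] := fun x i a =>
    if hx : x ∈ U then (key x hx i a).choose else 0 with hF
  have F1 : ∀ x ∈ U, ∀ i a, (F x i a).natDegree ≤ 2 * β i := by
    intro x hx i a
    simp only [hF, dif_pos hx]
    exact (key x hx i a).choose_spec.1
  have F2 : ∀ x ∈ U, ∀ w i a, (F x i a).eval w = s x w i a := by
    intro x hx w i a
    simp only [hF, dif_pos hx]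
    exact ((key x hx i a).choose_spec.2.1 w).symm
  have F3 : ∀ x ∈ U, ∀ i a, (F x i a).coeff (2 * β i) = (-1) ^ β i * s' x 0 i a := by
    intro x hx i a
    simp only [hF, dif_pos hx]
    exact (key x hx i a).choose_spec.2.2
  refine ⟨F, ⟨?_, ?_, ?_, ?_⟩, F2, F3, F1⟩
  · intro x hx
    refine ⟨fun p hp => ?_, fun i => ?_⟩
    · apply Polynomial.funext
      intro w
      rw [eval_aeval_poly, eval_zero]
      have h1 := h.on x hx w p hp
      have h2 : (fun y : Σ i, Jt i => (F x y.1 y.2).eval w) = fun y => s x w y.1 y.2 := by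
        funext y
        exact F2 x hx w y.1 y.2
      rw [h2]
      exact h1
    · refine cop_of_no_root fun z => ?_
      by_contra hcon
      push Not at hcon
      apply h.ne x hx z i
      funext a
      rw [← F2 x hx z i a]
      exact hcon a
  · intro x hx
    funext i
    show vdeg (F x i) = 2 * β i
    apply le_antisymm
    · exact Finset.sup_le fun a _ => F1 x hx i a
    · obtain ⟨a, ha⟩ : ∃ a, s' x 0 i a ≠ 0 := by
        by_contra hcon
        push Not at hcon
        exact h.ne' x hx i (funext hcon)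
      have h1 : (F x i a).coeff (2 * β i) ≠ 0 := by
        rw [F3 x hx i a]
        exact mul_ne_zero (pow_ne_zero _ (by norm_num)) ha
      exact (le_natDegree_of_ne_zero h1).trans
        (Finset.le_sup (f := fun a => (F x i a).natDegree) (Finset.mem_univ a))
  · intro i a k
    have h1 : ∀ x ∈ U, (F x i a).coeff k = ∑ j ∈ Finset.range (2 * β i + 1),
        s x (j : ℂ) i a * (Lagrange.basis (Finset.range (2 * β i + 1))
          (fun i : ℕ => (i : ℂ)) j).coeff k := by
      intro x hx
      rw [coeff_lagrange (F1 x hx i a) k]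
      exact Finset.sum_congr rfl fun j _ => by rw [F2 x hx]
    refine ContDiffOn.congr ?_ h1
    exact ContDiffOn.sum fun j _ => (h.sm j i a).mul contDiffOn_const
  · intro x hx w i a j
    have h1 := h.hol x hx w i a j
    rw [← h1]
    refine Finset.sum_congr rfl fun l _ => ?_
    congr 1
    unfold horK
    have e1 : (fun w => (F x i a).eval w) = fun w => s x w i a := by
      funext w; exact F2 x hx w i a
    have e2 : cpd l (fun y => (F y i a).eval w) x = cpd l (fun y => s y w i a) x := by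
      apply cpd_congr
      filter_upwards [hU.mem_nhds hx] with y hy
      exact F2 y hy w i a
    rw [e2]
    show cpd l (fun y => s y w i a) x - mu (c x l) w * deriv (fun w => (F x i a).eval w) w -
      (β i : ℂ) * lam (c x l) w * (F x i a).eval w = _
    rw [e1, F2 x hx w i a]

end Crest.Agent.R260.Tup_45
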