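import Crest.Agent.R260.TwPenC_389
import Crest.Agent.R260.Tup1_45
import Crest.Agent.R260.Tw4_979
import Crest.Agent.R260.Qk4_151

/-!
Row 260, leaf TW-PEN (helper389), part F: adapters.

* `qh_of` : `Qk4_151.QKOn g J U` gives `QH g J (cf g J) U`.
* `hol_k` : the weight `k` Cauchy-Riemann equation in the frame `nn`, from 979's `JZ` and the
  connection form `a(v) = 2 w̄ η/(1+|w|²) + i Θ(X)·xx(w)`.
-/

set_option autoImplicit false

open Complex Matrix
open scoped ContDiff Topology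
open Crest.GeometryTopology.CoordMetric Crest.GeometryTopology.ChartRiem
open Crest.Agent.R260.Tw_979

noncomputable section

namespace Crest.Agent.R260.TwPen_389

variable {n : ℕ}

theorem qh_of {g : MetricField n} {J : Fin 3 → EuclideanSpace ℝ (Fin n) → Matrix (Fin n) (Fin n) ℝ}
    {U : Set (EuclideanSpace ℝ (Fin n))} (h : Qk4_151.QKOn g J U) :
    QH g J (Qk4_151.cf g J) U where
  riem := h.riem
  smooth := h.smooth
  sq := h.sq
  mul := h.mul
  orth := h.orth
  skew _ hx i a b := h.cf_antisymm hx i a b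
  csm i a b := h.cf_smooth i a b

section Gen

variable {J : Fin 3 → EuclideanSpace ℝ (Fin n) → Matrix (Fin n) (Fin n) ℝ}
  {c : EuclideanSpace ℝ (Fin n) → Fin n → Fin 3 → Fin 3 → ℝ} {g : MetricField n}
  {U : Set (EuclideanSpace ℝ (Fin n))}

/-- `∑ X_i ℓ_i` -/
def lin (ℓ : Fin n → ℂ) (X : EuclideanSpace ℝ (Fin n)) : ℂ := ∑ i, (X i : ℂ) * ℓ i

/-- `hol_real` with an arbitrary zero order term -/
theorem hol_gen (h : QH g J c U) {x : EuclideanSpace ℝ (Fin n)} (hx : x ∈ U) {w : ℂ}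
    {f : EuclideanSpace ℝ (Fin n) → ℂ → ℂ} (ℓ : Fin n → ℂ)
    (hd : DifferentiableAt ℝ (fun p : EuclideanSpace ℝ (Fin n) × ℂ => f p.1 p.2) (x, w))
    (hR : ∀ v : EuclideanSpace ℝ (Fin n) × ℂ,
      fderiv ℝ (fun p : EuclideanSpace ℝ (Fin n) × ℂ => f p.1 p.2) (x, w) v +
        I * fderiv ℝ (fun p : EuclideanSpace ℝ (Fin n) × ℂ => f p.1 p.2) (x, w) (JZ J c x w v) =
      (lin ℓ v.1 + I * lin ℓ (IwX J x w v.1)) * f x w) :
    DifferentiableAt ℂ (f x) w ∧
      ∀ j, ∑ i, Nq (fun a => cm (J a x)) (nn w) i j *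
        (cpd i (fun y => f y w) x - mu (c x i) w * deriv (f x) w - ℓ i * f x w) = 0 := by
  set H : Fin n → ℂ := fun i =>
    cpd i (fun y => f y w) x - mu (c x i) w * deriv (f x) w - ℓ i * f x w with hHdef
  set D := fderiv ℝ (fun p : EuclideanSpace ℝ (Fin n) × ℂ => f p.1 p.2) (x, w) with hD
  have hDf := hd.hasFDerivAt
  rw [← hD] at hDf
  have hfib : HasFDerivAt (f x) (D.comp (ContinuousLinearMap.inr ℝ _ ℂ)) w := by
    have h1 : HasFDerivAt (fun u : ℂ => (x, u)) (ContinuousLinearMap.inr ℝ _ ℂ) w :=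
      hasFDerivAt_prodMk_right x w
    exact hDf.comp w h1
  have hbase : HasFDerivAt (fun y => f y w) (D.comp (ContinuousLinearMap.inl ℝ _ ℂ)) x := by
    have h1 : HasFDerivAt (fun y : EuclideanSpace ℝ (Fin n) => (y, w))
        (ContinuousLinearMap.inl ℝ _ ℂ) x := hasFDerivAt_prodMk_left x w
    exact hDf.comp x h1
  have hI0 : IwX J x w 0 = 0 := by
    simp [IwX]
  have hb0 : bet c x w 0 = 0 := by simp [bet]
  have hb0' : lin ℓ 0 = 0 := by simp [lin]
  have hfI : ∀ η : ℂ, D (0, I * η) = I * D (0, η) := by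
    intro η
    have h1 := hR (0, η)
    simp only [JZ, hI0, hb0, hb0', mul_zero, add_zero, sub_zero, zero_mul] at h1
    have h2 : I * (D (0, η) + I * D (0, I * η)) = 0 := by rw [h1, mul_zero]
    linear_combination -h2 + D (0, I * η) * I_sq
  have hcd : DifferentiableAt ℂ (f x) w := by
    rw [differentiableAt_complex_iff_differentiableAt_real]
    refine ⟨hfib.differentiableAt, ?_⟩
    rw [hfib.fderiv]
    simp only [ContinuousLinearMap.comp_apply, ContinuousLinearMap.inr_apply, smul_eq_mul]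
    have := hfI 1
    rwa [mul_one] at this
  refine ⟨hcd, ?_⟩
  have hder : ∀ η : ℂ, D (0, η) = η * deriv (f x) w := by
    intro η
    have h1 : fderiv ℝ (f x) w = (fderiv ℂ (f x) w).restrictScalars ℝ :=
      hcd.fderiv_restrictScalars ℝ
    have h2 : D (0, η) = fderiv ℝ (f x) w η := by
      rw [hfib.fderiv]; simp
    rw [h2, h1]
    simp only [ContinuousLinearMap.coe_restrictScalars']
    rw [fderiv_eq_smul_deriv, smul_eq_mul]
  have hcp : ∀ i, D (EuclideanSpace.single i 1, 0) = cpd i (fun y => f y w) x := by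
    intro i
    unfold cpd
    rw [hbase.fderiv]
    simp
  have hH : ∀ X : EuclideanSpace ℝ (Fin n), D (X, bet c x w X) - lin ℓ X * f x w =
      ∑ i, (X i : ℂ) * H i := by
    intro X
    have h1 : D (X, bet c x w X) = D (X, 0) + D (0, bet c x w X) := by
      rw [← map_add]; simp
    have h2 : D (X, 0) = ∑ i, (X i : ℂ) * cpd i (fun y => f y w) x := by
      have hX : X = ∑ i, X i • EuclideanSpace.single i (1 : ℝ) := by
        ext j
        simp [Finset.sum_apply, Pi.single_apply]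
      have h3 : D (X, 0) = (D.comp (ContinuousLinearMap.inl ℝ _ ℂ)) X := by simp
      rw [h3]
      conv_lhs => rw [hX]
      rw [map_sum]
      refine Finset.sum_congr rfl fun i _ => ?_
      rw [map_smul]
      simp only [ContinuousLinearMap.comp_apply, ContinuousLinearMap.inl_apply, hcp i]
      rw [Complex.real_smul]
    rw [h1, h2, hder]
    simp only [hHdef]
    unfold bet lin
    simp only [mul_sub, Finset.sum_sub_distrib]
    have h4 : (-∑ i, (X i : ℂ) * mu (c x i) w) * deriv (f x) w =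
        -∑ i, (X i : ℂ) * (mu (c x i) w * deriv (f x) w) := by
      rw [neg_mul, Finset.sum_mul]
      congr 1
      exact Finset.sum_congr rfl fun i _ => by ring
    have h5 : (∑ i, (X i : ℂ) * ℓ i) * f x w =
        ∑ i, (X i : ℂ) * (ℓ i * f x w) := by
      rw [Finset.sum_mul]
      exact Finset.sum_congr rfl fun i _ => by ring
    rw [h4, h5]; ring
  have hE : ∀ X : EuclideanSpace ℝ (Fin n), ∑ i, (X i : ℂ) * H i +
      I * ∑ i, ((IwX J x w X) i : ℂ) * H i = 0 := by
    intro X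
    have h1 := hR (X, bet c x w X)
    simp only [JZ] at h1
    have h2 : I * bet c x w X + bet c x w (IwX J x w X) - I * bet c x w X =
        bet c x w (IwX J x w X) := by ring
    rw [h2] at h1
    have h3 := hH X
    have h4 := hH (IwX J x w X)
    rw [← h3, ← h4]
    linear_combination h1
  have hk : ∀ k, H k + I * ∑ i, ((Iw J x w i k : ℝ) : ℂ) * H i = 0 := by
    intro k
    have h1 := hE (EuclideanSpace.single k 1)
    have h2 : ∑ i, (((EuclideanSpace.single k (1 : ℝ) : EuclideanSpace ℝ (Fin n)) i : ℝ) : ℂ) *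
        H i = H k := by
      rw [Finset.sum_eq_single k]
      · simp
      · intro b _ hb
        simp [hb]
      · intro hk; exact absurd (Finset.mem_univ k) hk
    have h3 : ∀ i, (IwX J x w (EuclideanSpace.single k 1)) i = Iw J x w i k := by
      intro i
      simp [IwX]
    rw [h2] at h1
    simp only [h3] at h1
    exact h1
  intro j
  have hN := Iw_N h hx w
  have h1 : ∀ i, ∑ k, ((Iw J x w i k : ℝ) : ℂ) * Nq (fun a => cm (J a x)) (nn w) k j =
      -I * Nq (fun a => cm (J a x)) (nn w) i j := by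
    intro i
    have := congrFun (congrFun hN i) j
    rw [Matrix.mul_apply] at this
    simpa [cm_apply] using this
  have h2 : ∑ k, Nq (fun a => cm (J a x)) (nn w) k j * (H k +
      I * ∑ i, ((Iw J x w i k : ℝ) : ℂ) * H i) = 0 :=
    Finset.sum_eq_zero fun k _ => by rw [hk k, mul_zero]
  have h3 : ∑ k, Nq (fun a => cm (J a x)) (nn w) k j *
      (I * ∑ i, ((Iw J x w i k : ℝ) : ℂ) * H i) =
      ∑ i, Nq (fun a => cm (J a x)) (nn w) i j * H i := by
    calc ∑ k, Nq (fun a => cm (J a x)) (nn w) k j *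
        (I * ∑ i, ((Iw J x w i k : ℝ) : ℂ) * H i)
        = ∑ k, ∑ i, I * (((Iw J x w i k : ℝ) : ℂ) * Nq (fun a => cm (J a x)) (nn w) k j) *
          H i := by
          refine Finset.sum_congr rfl fun k _ => ?_
          rw [Finset.mul_sum, Finset.mul_sum]
          exact Finset.sum_congr rfl fun i _ => by ring
      _ = ∑ i, I * (∑ k, ((Iw J x w i k : ℝ) : ℂ) * Nq (fun a => cm (J a x)) (nn w) k j) *
          H i := by
          rw [Finset.sum_comm]
          refine Finset.sum_congr rfl fun i _ => ?_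
          rw [Finset.mul_sum, Finset.sum_mul]
      _ = _ := by
          refine Finset.sum_congr rfl fun i _ => ?_
          rw [h1 i]
          linear_combination (-(Nq (fun a => cm (J a x)) (nn w) i j * H i)) * I_sq
  simp only [mul_add, Finset.sum_add_distrib] at h2
  rw [h3] at h2
  have h4 : (2 : ℂ) * ∑ i, Nq (fun a => cm (J a x)) (nn w) i j * H i = 0 := by
    linear_combination h2
  rcases mul_eq_zero.1 h4 with h5 | h5
  · norm_num at h5
  · exact h5

end Gen

section Dict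

variable {J : Fin 3 → EuclideanSpace ℝ (Fin n) → Matrix (Fin n) (Fin n) ℝ}
  {c : EuclideanSpace ℝ (Fin n) → Fin n → Fin 3 → Fin 3 → ℝ} {g : MetricField n}
  {U : Set (EuclideanSpace ℝ (Fin n))}
  {Jo : EuclideanSpace ℝ (Fin n) → Fin 3 → (EuclideanSpace ℝ (Fin n) →L[ℝ] EuclideanSpace ℝ (Fin n))}
  {Th : EuclideanSpace ℝ (Fin n) → Fin 3 → (EuclideanSpace ℝ (Fin n) →L[ℝ] ℝ)}

/-- 979's `Θ(∂_i)` -/
def tht (c : Fin 3 → Fin 3 → ℝ) : Fin 3 → ℝ := ![c 2 1, c 0 2, c 1 0]

/-- `Jo`, `Th` are the operators of `J`, `c` at `x` -/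
structure DictAt (J : Fin 3 → EuclideanSpace ℝ (Fin n) → Matrix (Fin n) (Fin n) ℝ)
    (c : EuclideanSpace ℝ (Fin n) → Fin n → Fin 3 → Fin 3 → ℝ)
    (Jo : EuclideanSpace ℝ (Fin n) → Fin 3 → (EuclideanSpace ℝ (Fin n) →L[ℝ] EuclideanSpace ℝ (Fin n)))
    (Th : EuclideanSpace ℝ (Fin n) → Fin 3 → (EuclideanSpace ℝ (Fin n) →L[ℝ] ℝ))
    (x : EuclideanSpace ℝ (Fin n)) : Prop where
  jo : ∀ a X, Jo x a X = WithLp.toLp 2 (J a x *ᵥ (X : Fin n → ℝ))
  th : ∀ a X, Th x a X = ∑ i, X i * tht (c x i) a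

lemma Iw_dict {x : EuclideanSpace ℝ (Fin n)} (hdic : DictAt J c Jo Th x) (w : ℂ)
    (X : EuclideanSpace ℝ (Fin n)) : Tw_979.Iw Jo (x, w) X = IwX J x w X := by
  ext l
  simp only [Tw_979.Iw, IwX, Iw, _root_.sum_apply, _root_.smul_apply, hdic.jo, Matrix.sum_mulVec,
    Matrix.smul_mulVec]
  simp [Finset.sum_apply]

lemma mu_tht {c : Fin 3 → Fin 3 → ℝ} (hc : ∀ a b, c a b = -c b a) (w : ℂ) :
    mu c w = I / 2 * dt (nn w) (cx (tht c)) := by
  have h10 := hc 1 0
  have h21 := hc 2 1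
  simp only [mu, dt, nn, cx, tht, Matrix.cons_val_zero, Matrix.cons_val_one, Matrix.cons_val, h10,
    h21]
  push_cast
  linear_combination (1 / 2 * (1 + w ^ 2) * (c 0 1 : ℂ)) * I_sq

lemma lam_tht {c : Fin 3 → Fin 3 → ℝ} (hc : ∀ a b, c a b = -c b a) (w : ℂ) :
    lam c w = -(I / 2) * dt (nd w) (cx (tht c)) := by
  have h10 := hc 1 0
  have h21 := hc 2 1
  simp only [lam, dt, nd, cx, tht, Matrix.cons_val_zero, Matrix.cons_val_one, Matrix.cons_val, h10,
    h21]
  push_cast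
  linear_combination (-(w * (c 0 1 : ℂ))) * I_sq

lemma dt_sum (z : Fin 3 → ℂ) (X : Fin n → ℝ) (t : Fin n → Fin 3 → ℝ) :
    dt z (cx fun a => ∑ i, X i * t i a) = ∑ i, (X i : ℂ) * dt z (cx (t i)) := by
  simp only [dt, cx, Complex.ofReal_sum, Complex.ofReal_mul, Finset.mul_sum,
    ← Finset.sum_add_distrib]
  exact Finset.sum_congr rfl fun i _ => by ring

lemma bet_dict (h : QH g J c U) {x : EuclideanSpace ℝ (Fin n)} (hx : x ∈ U)
    (hdic : DictAt J c Jo Th x) (w : ℂ) (X : EuclideanSpace ℝ (Fin n)) :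
    bec Th (x, w) X = bet c x w X := by
  rw [bec_apply]
  unfold be bet
  have e1 : thv Th x X = fun a => ∑ i, X i * tht (c x i) a := by
    funext a; exact hdic.th a X
  show -(I / 2) * dt (nn w) (cx (thv Th x X)) = _
  rw [e1, dt_sum, Finset.mul_sum, ← Finset.sum_neg_distrib]
  refine Finset.sum_congr rfl fun i _ => ?_
  rw [mu_tht (fun a b => h.skew x hx i a b)]
  ring

lemma bet'_dict (h : QH g J c U) {x : EuclideanSpace ℝ (Fin n)} (hx : x ∈ U)
    (hdic : DictAt J c Jo Th x) (w : ℂ) (X : EuclideanSpace ℝ (Fin n)) :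
    bet' c x w X = -(I / 2) * dt (nd w) (cx (thv Th x X)) := by
  have e1 : thv Th x X = fun a => ∑ i, X i * tht (c x i) a := by
    funext a; exact hdic.th a X
  rw [e1, dt_sum, Finset.mul_sum]
  unfold bet'
  refine Finset.sum_congr rfl fun i _ => ?_
  rw [lam_tht (fun a b => h.skew x hx i a b)]
  ring

lemma JZ_dict (h : QH g J c U) {x : EuclideanSpace ℝ (Fin n)} (hx : x ∈ U)
    (hdic : DictAt J c Jo Th x) (w : ℂ) (v : EuclideanSpace ℝ (Fin n) × ℂ) :
    Tw_979.JZ Jo Th (x, w) v = JZ J c x w v := by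
  refine Prod.ext ?_ ?_
  · rw [JZ_fst]; exact Iw_dict hdic w v.1
  · rw [JZ_snd]
    show I * v.2 + (bec Th (x, w) (Tw_979.Iw Jo (x, w) v.1) - I * bec Th (x, w) v.1) = _
    rw [Iw_dict hdic, bet_dict h hx hdic, bet_dict h hx hdic]
    simp only [JZ]; ring

/-- the Chern connection form of `L⁻¹` in the frame `nn·J` -/
def aL (Th : EuclideanSpace ℝ (Fin n) → Fin 3 → (EuclideanSpace ℝ (Fin n) →L[ℝ] ℝ))
    (x : EuclideanSpace ℝ (Fin n)) (w : ℂ) (v : EuclideanSpace ℝ (Fin n) × ℂ) : ℂ :=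
  2 * (starRingEnd ℂ) w * v.2 / (1 + w * (starRingEnd ℂ) w) + I * dt (cx (xx w)) (cx (thv Th x v.1))

lemma dt_add_left (u v z : Fin 3 → ℂ) : dt (u + v) z = dt u z + dt v z := by
  simp only [dt, Pi.add_apply]; ring

lemma dt_smul_left (k : ℂ) (u z : Fin 3 → ℂ) : dt (k • u) z = k * dt u z := by
  simp only [dt, Pi.smul_apply, smul_eq_mul]; ring

/-- the `(0,1)`-part of the connection form: `a(v) + i a(J_Z v) = β'(X) + i β'(I_w X)` -/
lemma aL_JZ (h : QH g J c U) {x : EuclideanSpace ℝ (Fin n)} (hx : x ∈ U)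
    (hdic : DictAt J c Jo Th x) (w : ℂ) (v : EuclideanSpace ℝ (Fin n) × ℂ) :
    aL Th x w v + I * aL Th x w (Tw_979.JZ Jo Th (x, w) v) =
      bet' c x w v.1 + I * bet' c x w (IwX J x w v.1) := by
  have hden := cden_ne w
  have hxs : ∀ z : Fin 3 → ℂ, dt (cx (xx w)) z =
      ((starRingEnd ℂ) w / (1 + w * (starRingEnd ℂ) w)) * dt (nn w) z + (-(1 / 2 : ℂ)) * dt (nd w) z := by
    intro z
    have h1 := xx_sub w
    have h2 : cx (xx w) = ((starRingEnd ℂ) w / (1 + w * (starRingEnd ℂ) w)) • nn w +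
        (-(1 / 2 : ℂ)) • nd w := by
      rw [← h1]; abel
    rw [h2, dt_add_left, dt_smul_left, dt_smul_left]
  rw [JZ_dict h hx hdic]
  rw [bet'_dict h hx hdic, bet'_dict h hx hdic]
  unfold aL
  simp only [JZ]
  rw [hxs, hxs]
  have e1 : bet c x w v.1 = -(I / 2) * dt (nn w) (cx (thv Th x v.1)) := by
    rw [← bet_dict h hx hdic, bec_apply]; rfl
  have e2 : bet c x w (IwX J x w v.1) =
      -(I / 2) * dt (nn w) (cx (thv Th x (IwX J x w v.1))) := by
    rw [← bet_dict h hx hdic, bec_apply]; rfl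
  rw [e1, e2]
  field_simp
  ring_nf
  have hI2 : I ^ 2 = -1 := I_sq
  have hI3 : I ^ 3 = -I := by rw [pow_succ, I_sq]; ring
  simp only [hI2, hI3]
  ring

/-- **The weight `k` Cauchy–Riemann equation in the frame `nn`** from the real form with 979's
`JZ` and the connection form `aL`. -/
theorem hol_k (h : QH g J c U) {x : EuclideanSpace ℝ (Fin n)} (hx : x ∈ U)
    (hdic : DictAt J c Jo Th x) {w : ℂ} (k : ℂ) {f : EuclideanSpace ℝ (Fin n) → ℂ → ℂ}
    (hd : DifferentiableAt ℝ (fun p : EuclideanSpace ℝ (Fin n) × ℂ => f p.1 p.2) (x, w))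
    (hR : ∀ v : EuclideanSpace ℝ (Fin n) × ℂ,
      fderiv ℝ (fun p : EuclideanSpace ℝ (Fin n) × ℂ => f p.1 p.2) (x, w) v +
        I * fderiv ℝ (fun p : EuclideanSpace ℝ (Fin n) × ℂ => f p.1 p.2) (x, w)
          (Tw_979.JZ Jo Th (x, w) v) =
      k * (aL Th x w v + I * aL Th x w (Tw_979.JZ Jo Th (x, w) v)) * f x w) :
    DifferentiableAt ℂ (f x) w ∧ Tup_45.HolK J c k f x w := by
  have h1 := hol_gen h hx (w := w) (f := f) (fun i => k * lam (c x i) w) hd ?_
  · exact ⟨h1.1, fun j => h1.2 j⟩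
  · intro v
    have h2 := hR v
    rw [aL_JZ h hx hdic, JZ_dict h hx hdic] at h2
    rw [h2]
    have e : ∀ X : EuclideanSpace ℝ (Fin n), lin (fun i => k * lam (c x i) w) X =
        k * bet' c x w X := by
      intro X
      unfold lin bet'
      rw [Finset.mul_sum]
      exact Finset.sum_congr rfl fun i _ => by ring
    rw [e, e]; ring

end Dict

end Crest.Agent.R260.TwPen_389
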