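import Crest.Agent.R260.MainG_803
import Crest.Agent.R260.MainT_803
import Crest.Agent.R272.Kod8_410

/-!
# Row 260 (S0398), MAIN (helper803): `Geo` from the twistor space, Newlander-Nirenberg, `L`,
Kodaira's embedding theorem and the bridge
-/

set_option autoImplicit false
set_option linter.unusedSectionVars false

open Set Filter Topology Complex
open scoped ContDiff Matrix Manifold
open Crest.GeometryTopology.CoordMetric Crest.GeometryTopology.ChartRiem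
open Crest.Agent.R270.BM_360 Crest.Agent.R260.Lin_678 Crest.Agent.R260.TwPen_389
open Crest.Agent.R260.Tw_979 Crest.Agent.R260.Out_516 Crest.Agent.R260.Tup_45
open Crest.Agent.R260.ACM_580 Crest.Agent.R260.NNB_580 Crest.Agent.R260.BrDefs_592
open Crest.Agent.R260.BrIf_592 Crest.Agent.R275 Crest.Agent.R275.Geo Crest.Agent.R275.Core144
open Crest.Agent.R260.Nn_254 Crest.Agent.R273.SerA_945 Crest.Agent.R273.Defs_333
open Crest.Agent.R260.Ga_323 (OneForm Contact)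

noncomputable section

namespace Crest.Agent.R260.MainC_803

/-- **(NN)** (900) -/
def NNP : Prop := ∀ m : ℕ, 2 ≤ m → NNat (EuclideanSpace ℝ (Fin (4 * m)) × ℂ) (2 * m + 1)

/-- **(TW)** (979, 847) -/
def TwP : Prop :=
  ∀ (m : ℕ), 2 ≤ m → ∀ (M : Type) [TopologicalSpace M] [T2Space M] [CompactSpace M]
    [ConnectedSpace M] [ChartedSpace (EuclideanSpace ℝ (Fin (4 * m))) M]
    [IsManifold 𝓘(ℝ, EuclideanSpace ℝ (Fin (4 * m))) ∞ M] (G : ChartMetric (4 * m) M)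
    (Q : QuaternionicStructure (4 * m) M G),
    (∀ e ∈ atlas (EuclideanSpace ℝ (Fin (4 * m))) M, ∀ x ∈ e.target, 0 < scalarCurv (G.g e) x) →
    ∀ hn : 4 * m ≠ 0, Nonempty (TwCD Q hn)

/-- **(CX)** (254): the complex structure, the line bundle, the contact form, the metric -/
def CxP : Prop :=
  ∀ (V Z : Type) [NormedAddCommGroup V] [NormedSpace ℝ V] [FiniteDimensional ℝ V]
    [TopologicalSpace Z] [CompactSpace Z] [T2Space Z] (d : ℕ) (C : ACM V Z), C.Int →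
    ∀ cd : CD C, NNat V d → ∃ (A : Atl d Z) (L : LB A) (θ : OneForm L) (h : HM L)
      (K : FLink C A L cd.lam cd.α), Finite A.ι ∧ Nonempty (Part A) ∧ Cp C A ∧ Contact θ ∧ h.Pos ∧
      ∀ a i x, x ∈ (A.e a).source → x ∈ (C.e i).source → ∀ v, cd.θ i (C.e i x) v =
        K.κ a i (C.e i x) * θ.app a x (fderiv ℝ (fun y => A.e a ((C.e i).symm y)) (C.e i x) v)

/-- **Geo** -/
theorem geo_of (hNN : NNP) (hTW : TwP) (hCX : CxP) (hBR : Bridge) : Geo := by
  intro m hm M _ _ _ _ _ _ G Q hpos e he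
  have hn : 4 * m ≠ 0 := by omega
  obtain ⟨T⟩ := hTW m hm M G Q hpos hn
  obtain ⟨A, L, θ, h, K, hfin, hPart, hCp, hcon, hp, hTh⟩ :=
    hCX (EuclideanSpace ℝ (Fin (4 * m)) × ℂ) (coc Q hn).Z (2 * m + 1) (acm Q hn) T.int T.cd
      (hNN m hm)
  obtain ⟨PA⟩ := hPart
  obtain ⟨k, hk, P, hP⟩ := Crest.Agent.R272.Kod8_410.exists_projD PA hp
  obtain ⟨k0, hk0⟩ := hBR m (coc Q hn).Z A ⟨PA⟩ L h hp P θ hcon
  obtain ⟨S, hS, ⟨O⟩⟩ := hk0 k0 le_rfl
  have hqh : QH (G.g e) (Q.J e) (Qk4_151.cf (G.g e) (Q.J e)) e.target :=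
    qh_of (Qk4_151.qkOn G Q he)
  obtain ⟨F, hF⟩ := geoOut_of T.cd hCp K hTh O (twCh Q hn he T) hqh
    (fun y hy => qt_Jop (Qk4_151.qkOn G Q he) hy) (fun x hx w => T.th1 ⟨e, he, true⟩ x hx w)
  exact ⟨Fin 2, inferInstance, S.J, inferInstance, O.D, F, 1, Fintype.card_fin 2, O.hm, hF⟩

end Crest.Agent.R260.MainC_803
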