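import Crest.Agent.R260.TwR_847
import Crest.Agent.R260.MainH_803

/-!
Row 260, helper847: the named input `TwP` of the assembly (helper803).
-/

set_option autoImplicit false

namespace Crest.Agent.R260.TwL_847

/-- **the twistor space of a positive quaternion-Kähler manifold** -/
theorem twp : MainC_803.TwP := by
  intro m hm M _ _ _ _ _ _ G Q hpos hn
  exact twCD Q hn hm rfl hpos

end Crest.Agent.R260.TwL_847
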