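import Crest.Agent.R260.MainZ_803
import Crest.Agent.R260.MainN_803
import Crest.Agent.R260.MainX_803
import Crest.Agent.R260.TwP_847
import Crest.Agent.R260.Ga6_323

/-!
# Row 260 (S0398), MAIN (helper803): the analytic side is complete; S0398 from `AGCore`
-/

set_option autoImplicit false

open scoped Manifold ContDiff
open Crest.GeometryTopology.CoordMetric Crest.GeometryTopology.ChartRiem

namespace Crest.Agent.R260.MainC_803

/-- **the geometric side** -/
theorem geo : Geo := geo_of nnp TwL_847.twp cxp Ga_323.bridge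

/-- **S0398** from the algebraic core -/
theorem s0398_of_ag (hAG : AGCore)
    (m : ℕ) (hm : 2 ≤ m) (M : Type) [TopologicalSpace M] [T2Space M] [CompactSpace M]
    [ConnectedSpace M] [ChartedSpace (EuclideanSpace ℝ (Fin (4 * m))) M]
    [IsManifold 𝓘(ℝ, EuclideanSpace ℝ (Fin (4 * m))) ∞ M] (G : ChartMetric (4 * m) M)
    (Q : QuaternionicStructure (4 * m) M G)
    (hpos : ∀ e ∈ atlas (EuclideanSpace ℝ (Fin (4 * m))) M, ∀ x ∈ e.target,
      0 < scalarCurv (G.g e) x) :
    ∀ e ∈ atlas (EuclideanSpace ℝ (Fin (4 * m))) M, ∀ x ∈ e.target,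
      ∀ a l i j k : Fin (4 * m), covDerivRiemann (G.g e) x a l i j k = 0 :=
  main_of datAll geo hAG outT m hm M G Q hpos

end Crest.Agent.R260.MainC_803
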