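import Mathlib
import Crest.Agent.R260.Om1_997

/-!
Row 260 (S0398), helper997: the pairing `dθ(s, t)`, part 2: weight and integrality.
-/

set_option autoImplicit false

namespace Crest.Agent.R260.Om_997

open Crest.Agent.R270.BM_360 Crest.Agent.R260.Lin_678

universe u

variable {I : Type} {J : I → Type} [Fintype I] [∀ i, Fintype (J i)]

section scale

variable {k : Type u} [Field k] {K : Type u} [Field K] [Algebra k K]

/-- scaling of the blocks -/
theorem scale_aeval {q : MvPolynomial (Σ i, J i) k} {e : I → ℕ} {D : I → ℤ}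
    (hq : ∀ m ∈ q.support, ∀ i, ((∑ a, m ⟨i, a⟩ : ℕ) : ℤ) + e i = D i) {l : I → K}
    (hl : ∀ i, l i ≠ 0) (v : ∀ i, J i → K) :
    (∏ i, l i ^ e i) * MvPolynomial.aeval (fun y : Σ i, J i => l y.1 * v y.1 y.2) q =
      (∏ i, l i ^ D i) * MvPolynomial.aeval (fun y : Σ i, J i => v y.1 y.2) q := by
  classical
  have hsum : ∑ m ∈ q.support, MvPolynomial.monomial m (q.coeff m) = q :=
    q.support_sum_monomial_coeff
  have h1 : ∀ m ∈ q.support, (∏ i, l i ^ e i) * MvPolynomial.aeval
      (fun y : Σ i, J i => l y.1 * v y.1 y.2) (MvPolynomial.monomial m (q.coeff m)) =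
      (∏ i, l i ^ D i) * MvPolynomial.aeval (fun y : Σ i, J i => v y.1 y.2)
        (MvPolynomial.monomial m (q.coeff m)) := by
    intro m hm
    rw [MvPolynomial.aeval_monomial, MvPolynomial.aeval_monomial,
      Finsupp.prod_fintype _ _ (fun _ => pow_zero _), Finsupp.prod_fintype _ _ (fun _ => pow_zero _)]
    simp only [mul_pow]
    rw [Finset.prod_mul_distrib]
    have h2 : (∏ i, l i ^ e i) * ∏ y : Σ i, J i, l y.1 ^ m y = ∏ i, l i ^ D i := by
      rw [Fintype.prod_sigma, ← Finset.prod_mul_distrib]
      refine Finset.prod_congr rfl fun i _ => ?_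
      simp only
      rw [Finset.prod_pow_eq_pow_sum, ← hq m hm i, zpow_add₀ (hl i), zpow_natCast, zpow_natCast,
        mul_comm]
    rw [← h2]
    ring
  conv_lhs => rw [← hsum]
  conv_rhs => rw [← hsum]
  rw [map_sum, map_sum, Finset.mul_sum, Finset.mul_sum]
  exact Finset.sum_congr rfl h1

variable {E : Set (MvPolynomial (Σ i, J i) k)} {w : I → ℤ} (th : CForm E w)

theorem prod_single [DecidableEq I] (l : I → K) (j : I) :
    ∏ i, l i ^ (if j = i then 1 else 0) = l j := by
  rw [Finset.prod_eq_single j]
  · rw [if_pos rfl, pow_one]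
  · intro b _ hb
    rw [if_neg (Ne.symm hb), pow_zero]
  · intro h
    exact absurd (Finset.mem_univ j) h

/-- `λ · v` -/
def scl (l : I → K) (v : ∀ i, J i → K) : ∀ i, J i → K := fun i a => l i * v i a

theorem scale_p {l : I → K} (hl : ∀ i, l i ≠ 0) (v : ∀ i, J i → K) (c : ∀ i, J i) (x : Σ i, J i) :
    l x.1 * MvPolynomial.aeval (fun y : Σ i, J i => scl l v y.1 y.2) (th.p c x) =
      (∏ i, l i ^ ((th.N : ℤ) + w i)) *
        MvPolynomial.aeval (fun y : Σ i, J i => v y.1 y.2) (th.p c x) := by
  classical
  have h1 := scale_aeval (q := th.p c x) (e := fun i => if x.1 = i then 1 else 0)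
    (D := fun i => (th.N : ℤ) + w i) (fun m hm i => by
      have := th.hom c x m hm i
      rw [← this]
      congr 1
      split_ifs <;> simp) hl v
  rw [prod_single] at h1
  exact h1

theorem scale_dp {l : I → K} (hl : ∀ i, l i ≠ 0) (v : ∀ i, J i → K) (c : ∀ i, J i)
    (x y : Σ i, J i) :
    l x.1 * l y.1 * MvPolynomial.aeval (fun y : Σ i, J i => scl l v y.1 y.2)
      (MvPolynomial.pderiv y (th.p c x)) = (∏ i, l i ^ ((th.N : ℤ) + w i)) *
        MvPolynomial.aeval (fun y : Σ i, J i => v y.1 y.2) (MvPolynomial.pderiv y (th.p c x)) := by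
  classical
  have h1 := scale_aeval (q := MvPolynomial.pderiv y (th.p c x))
    (e := fun i => (if x.1 = i then 1 else 0) + (if y.1 = i then 1 else 0))
    (D := fun i => (th.N : ℤ) + w i) (fun m hm i => by
      have h2 : (m + Finsupp.single y 1) ∈ (th.p c x).support := by
        rw [MvPolynomial.mem_support_iff] at hm ⊢
        intro h0
        apply hm
        rw [MvPolynomial.coeff_pderiv, h0, zero_mul]
      have h3 := th.hom c x _ h2 i
      have h4 : ∑ a, (m + Finsupp.single y 1 : (Σ i, J i) →₀ ℕ) ⟨i, a⟩ =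
          (∑ a, m ⟨i, a⟩) + (if y.1 = i then 1 else 0) := by
        simp only [Finsupp.add_apply, Finset.sum_add_distrib]
        congr 1
        by_cases hyi : y.1 = i
        · subst hyi
          rw [if_pos rfl, Finset.sum_eq_single y.2]
          · exact Finsupp.single_eq_same
          · intro b _ hb
            refine Finsupp.single_eq_of_ne ?_
            intro h
            apply hb
            have := congrArg (fun z : Σ i, J i => z) h
            rcases y with ⟨y1, y2⟩
            simpa using h
          · intro h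
            exact absurd (Finset.mem_univ _) h
        · rw [if_neg hyi]
          refine Finset.sum_eq_zero fun b _ => Finsupp.single_eq_of_ne ?_
          intro h
          apply hyi
          rw [← h]
      rw [h4] at h3
      rw [← h3]
      push_cast
      split_ifs <;> ring) hl v
  have h5 : ∏ i, l i ^ ((if x.1 = i then 1 else 0) + (if y.1 = i then 1 else 0)) =
      l x.1 * l y.1 := by
    simp only [pow_add]
    rw [Finset.prod_mul_distrib, prod_single, prod_single]
  rw [h5] at h1
  exact h1

theorem scale_form {l : I → K} (hl : ∀ i, l i ≠ 0) (v t : ∀ i, J i → K) (c : ∀ i, J i) :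
    form (th.p c) (scl l v) (scl l t) = (∏ i, l i ^ ((th.N : ℤ) + w i)) * form (th.p c) v t := by
  unfold form
  rw [Finset.mul_sum]
  refine Finset.sum_congr rfl fun x _ => ?_
  rw [← mul_assoc, ← scale_p th hl v c x]
  unfold scl
  ring

theorem scale_dform {l : I → K} (hl : ∀ i, l i ≠ 0) (v s t : ∀ i, J i → K) (c : ∀ i, J i) :
    dform (th.p c) (scl l v) (scl l s) (scl l t) =
      (∏ i, l i ^ ((th.N : ℤ) + w i)) * dform (th.p c) v s t := by
  unfold dform
  rw [Finset.mul_sum]
  refine Finset.sum_congr rfl fun x _ => ?_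
  rw [Finset.mul_sum]
  refine Finset.sum_congr rfl fun y _ => ?_
  rw [← mul_assoc, ← scale_dp th hl v c x y]
  unfold scl
  ring

omit [∀ i, Fintype (J i)] in
theorem scale_den (l : I → K) (v : ∀ i, J i → K) (c : ∀ i, J i) :
    den c (scl l v) = (∏ i, l i) * den c v := by
  unfold den scl
  rw [Finset.prod_mul_distrib]

omit [∀ i, Fintype (J i)] in
theorem scale_dden [DecidableEq I] (l : I → K) (v s : ∀ i, J i → K) (c : ∀ i, J i) :
    dden c (scl l v) (scl l s) = (∏ i, l i) * dden c v s := by
  unfold dden scl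
  rw [Finset.mul_sum]
  refine Finset.sum_congr rfl fun i _ => ?_
  rw [Finset.prod_mul_distrib, ← Finset.mul_prod_erase Finset.univ l (Finset.mem_univ i)]
  ring

/-- **weight** -/
theorem scale_num [DecidableEq I] {l : I → K} (hl : ∀ i, l i ≠ 0) (v s t : ∀ i, J i → K)
    (c : ∀ i, J i) :
    num th.N (th.p c) c (scl l v) (scl l s) (scl l t) =
      (∏ i, l i) * (∏ i, l i ^ ((th.N : ℤ) + w i)) * num th.N (th.p c) c v s t := by
  unfold num
  rw [scale_den, scale_dform th hl, scale_form th hl, scale_form th hl, scale_dden, scale_dden]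
  ring

end scale

section bil

variable {k : Type u} [Field k] {A : Type*} [CommRing A] [Algebra k A]
  (p : (Σ i, J i) → MvPolynomial (Σ i, J i) k)

theorem form_add (v s t : ∀ i, J i → A) :
    form p v (fun i a => s i a + t i a) = form p v s + form p v t := by
  unfold form
  rw [← Finset.sum_add_distrib]
  exact Finset.sum_congr rfl fun x _ => by ring

theorem form_smul (r : A) (v t : ∀ i, J i → A) :
    form p v (fun i a => r * t i a) = r * form p v t := by
  unfold form
  rw [Finset.mul_sum]
  exact Finset.sum_congr rfl fun x _ => by ring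

theorem num_add [DecidableEq I] (N : ℕ) (c : ∀ i, J i) (v s s' t : ∀ i, J i → A) :
    num N p c v (fun i a => s i a + s' i a) t = num N p c v s t + num N p c v s' t := by
  have h1 : dform p v (fun i a => s i a + s' i a) t = dform p v s t + dform p v s' t := by
    unfold dform
    simp only [← Finset.sum_add_distrib]
    exact Finset.sum_congr rfl fun x _ => Finset.sum_congr rfl fun y _ => by ring
  have h2 : dden c v (fun i a => s i a + s' i a) = dden c v s + dden c v s' := by
    unfold dden
    rw [← Finset.sum_add_distrib]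
    exact Finset.sum_congr rfl fun i _ => by ring
  unfold num
  rw [h1, h2, form_add]
  ring

theorem num_smul [DecidableEq I] (N : ℕ) (c : ∀ i, J i) (r : A) (v s t : ∀ i, J i → A) :
    num N p c v (fun i a => r * s i a) t = r * num N p c v s t := by
  have h1 : dform p v (fun i a => r * s i a) t = r * dform p v s t := by
    unfold dform
    simp only [Finset.mul_sum]
    exact Finset.sum_congr rfl fun x _ => Finset.sum_congr rfl fun y _ => by ring
  have h2 : dden c v (fun i a => r * s i a) = r * dden c v s := by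
    unfold dden
    rw [Finset.mul_sum]
    exact Finset.sum_congr rfl fun i _ => by ring
  unfold num
  rw [h1, h2, form_smul]
  ring

end bil

section int

variable {k : Type u} [Field k] {K : Type u} [Field K] [Algebra k K] (O : ValuationSubring K)

omit [Fintype I] [∀ i, Fintype (J i)] in
theorem aeval_int {σ : Type*} (hO : ∀ c : k, algebraMap k K c ∈ O) {v : σ → K}
    (hv : ∀ x, v x ∈ O) (q : MvPolynomial σ k) : MvPolynomial.aeval v q ∈ O := by
  induction q using MvPolynomial.induction_on with
  | C a => rw [MvPolynomial.aeval_C]; exact hO a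
  | add p q hp hq => rw [map_add]; exact add_mem hp hq
  | mul_X p n hp => rw [map_mul, MvPolynomial.aeval_X]; exact mul_mem hp (hv n)

theorem val_form_le (hO : ∀ c : k, algebraMap k K c ∈ O) (p : (Σ i, J i) → MvPolynomial (Σ i, J i) k)
    {v t : ∀ i, J i → K} (hv : ∀ i a, v i a ∈ O) {g : O.ValueGroup}
    (ht : ∀ i a, O.valuation (t i a) ≤ g) : O.valuation (form p v t) ≤ g := by
  refine Valuation.map_sum_le _ fun x _ => ?_
  rw [map_mul]
  have h1 := (O.valuation_le_one_iff _).mpr
    (aeval_int O hO (fun y : Σ i, J i => hv y.1 y.2) (p x))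
  exact (mul_le_mul' h1 (ht x.1 x.2)).trans (one_mul g).le

theorem val_dform_le (hO : ∀ c : k, algebraMap k K c ∈ O)
    (p : (Σ i, J i) → MvPolynomial (Σ i, J i) k)
    {v s t : ∀ i, J i → K} (hv : ∀ i a, v i a ∈ O) {g h : O.ValueGroup}
    (hs : ∀ i a, O.valuation (s i a) ≤ g) (ht : ∀ i a, O.valuation (t i a) ≤ h) :
    O.valuation (dform p v s t) ≤ g * h := by
  refine Valuation.map_sum_le _ fun x _ => Valuation.map_sum_le _ fun y _ => ?_
  rw [map_mul]
  have h1 : O.valuation (s y.1 y.2 * t x.1 x.2 - t y.1 y.2 * s x.1 x.2) ≤ g * h := by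
    refine (Valuation.map_sub _ _ _).trans (max_le ?_ ?_)
    · rw [map_mul]
      exact mul_le_mul' (hs _ _) (ht _ _)
    · rw [map_mul, mul_comm g h]
      exact mul_le_mul' (ht _ _) (hs _ _)
  have h2 := (O.valuation_le_one_iff _).mpr
    (aeval_int O hO (fun y : Σ i, J i => hv y.1 y.2) (MvPolynomial.pderiv y (p x)))
  exact (mul_le_mul' h2 h1).trans (one_mul _).le

omit [∀ i, Fintype (J i)] in
theorem val_dden_le [DecidableEq I] (c : ∀ i, J i) {v s : ∀ i, J i → K} (hv : ∀ i a, v i a ∈ O)
    {g : O.ValueGroup} (hs : ∀ i a, O.valuation (s i a) ≤ g) : O.valuation (dden c v s) ≤ g := by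
  refine Valuation.map_sum_le _ fun i _ => ?_
  rw [map_mul]
  have h1 := (O.valuation_le_one_iff _).mpr
    (prod_mem (S := O.toSubring) (t := Finset.univ.erase i) (f := fun j => v j (c j))
      fun j _ => hv j (c j))
  exact (mul_le_mul' h1 (hs _ _)).trans (one_mul g).le

/-- **integrality** -/
theorem val_num_le [DecidableEq I] (hO : ∀ c : k, algebraMap k K c ∈ O) (N : ℕ)
    (p : (Σ i, J i) → MvPolynomial (Σ i, J i) k) (c : ∀ i, J i)
    {v s t : ∀ i, J i → K} (hv : ∀ i a, v i a ∈ O) {g h : O.ValueGroup}
    (hs : ∀ i a, O.valuation (s i a) ≤ g) (ht : ∀ i a, O.valuation (t i a) ≤ h) :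
    O.valuation (num N p c v s t) ≤ g * h := by
  unfold num
  refine (Valuation.map_sub _ _ _).trans (max_le ?_ ?_)
  · rw [map_mul]
    have h1 : O.valuation (den c v) ≤ 1 := (O.valuation_le_one_iff _).mpr
      (prod_mem (S := O.toSubring) (t := Finset.univ) (f := fun j => v j (c j))
        fun j _ => hv j (c j))
    exact (mul_le_mul' h1 (val_dform_le O hO p hv hs ht)).trans (one_mul _).le
  · rw [map_mul]
    have h1 : O.valuation ((N : ℕ) : K) ≤ 1 := by
      have : ((N : ℕ) : K) = ((N : ℕ) : O) := by push_cast; rfl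
      rw [this]
      exact O.valuation_le_one _
    have h2 : O.valuation (dden c v s * form p v t - dden c v t * form p v s) ≤ g * h := by
      refine (Valuation.map_sub _ _ _).trans (max_le ?_ ?_)
      · rw [map_mul]
        exact mul_le_mul' (val_dden_le O c hv hs) (val_form_le O hO p hv ht)
      · rw [map_mul, mul_comm g h]
        exact mul_le_mul' (val_dden_le O c hv ht) (val_form_le O hO p hv hs)
    exact (mul_le_mul' h1 h2).trans (one_mul _).le

end int

end Crest.Agent.R260.Om_997
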