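import Mathlib
import Crest.Agent.R260.Om2_997
import Crest.Agent.R270.Fr3_928

/-!
Row 260 (S0398), helper997: the pairing `dθ(s, t)`, part 3: the pairing of the variation of the end
point of a family of maps with the tangent vector at the end point; forms consumed by helper365.
-/

set_option autoImplicit false

namespace Crest.Agent.R260.Om_997

open Polynomial Crest.Agent.R270.BM_360 Crest.Agent.R260.Lin_678

universe u

variable {I : Type} {J : I → Type} [Fintype I] [∀ i, Fintype (J i)]

section eval

variable {k : Type u} [Field k] {A B : Type*} [CommRing A] [Algebra k A] [CommRing B] [Algebra k B]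
  (φ : A →ₐ[k] B)

omit [Fintype I] [∀ i, Fintype (J i)] in
theorem map_aeval' {σ : Type*} (v : σ → A) (q : MvPolynomial σ k) :
    φ (MvPolynomial.aeval v q) = MvPolynomial.aeval (fun x => φ (v x)) q := by
  rw [← MvPolynomial.comp_aeval_apply]

theorem map_form (p : (Σ i, J i) → MvPolynomial (Σ i, J i) k) (v t : ∀ i, J i → A) :
    φ (form p v t) = form p (fun i a => φ (v i a)) (fun i a => φ (t i a)) := by
  unfold form
  rw [map_sum]
  exact Finset.sum_congr rfl fun x _ => by rw [map_mul, map_aeval']

theorem map_dform (p : (Σ i, J i) → MvPolynomial (Σ i, J i) k) (v s t : ∀ i, J i → A) :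
    φ (dform p v s t) =
      dform p (fun i a => φ (v i a)) (fun i a => φ (s i a)) (fun i a => φ (t i a)) := by
  unfold dform
  rw [map_sum]
  refine Finset.sum_congr rfl fun x _ => ?_
  rw [map_sum]
  exact Finset.sum_congr rfl fun y _ => by rw [map_mul, map_aeval', map_sub, map_mul, map_mul]

omit [∀ i, Fintype (J i)] in
theorem map_den' (c : ∀ i, J i) (v : ∀ i, J i → A) :
    φ (den c v) = den c (fun i a => φ (v i a)) := by
  unfold den
  rw [map_prod]

omit [∀ i, Fintype (J i)] in
theorem map_dden [DecidableEq I] (c : ∀ i, J i) (v s : ∀ i, J i → A) :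
    φ (dden c v s) = dden c (fun i a => φ (v i a)) (fun i a => φ (s i a)) := by
  unfold dden
  rw [map_sum]
  exact Finset.sum_congr rfl fun i _ => by rw [map_mul, map_prod]

theorem map_num [DecidableEq I] (N : ℕ) (p : (Σ i, J i) → MvPolynomial (Σ i, J i) k)
    (c : ∀ i, J i) (v s t : ∀ i, J i → A) :
    φ (num N p c v s t) =
      num N p c (fun i a => φ (v i a)) (fun i a => φ (s i a)) (fun i a => φ (t i a)) := by
  unfold num
  rw [map_sub, map_mul, map_mul, map_sub, map_mul, map_mul, map_natCast, map_den', map_dform,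
    map_dden, map_dden, map_form, map_form]

end eval

section der

open Crest.Agent.R270.Fr_928 (dX coeff_dX)

variable {k : Type u} [Field k] {K : Type u} [Field K] [Algebra k K]

/-- evaluation at `0` -/
noncomputable def ev0 : K[X] →ₐ[k] K := (aeval (R := K) (0 : K)).restrictScalars k

theorem ev0_apply (p : K[X]) : ev0 (k := k) p = p.coeff 0 := by
  unfold ev0
  rw [AlgHom.restrictScalars_apply, coe_aeval_eq_eval, coeff_zero_eq_eval_zero]

/-- `d/dz` as a derivation over `k` -/
noncomputable def dz : Derivation k K[X] K[X] := (derivative' (R := K)).restrictScalars k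

theorem dz_apply (p : K[X]) : dz (k := k) p = derivative p := rfl

theorem dX_dz (δ : Derivation k K K) (p : K[X]) :
    dX δ (dz (k := k) p) = dz (k := k) (dX δ p) := by
  ext n
  rw [coeff_dX, dz_apply, dz_apply, coeff_derivative, coeff_derivative, coeff_dX]
  have h1 : p.coeff (n + 1) * ((n : K) + 1) = (n + 1) • p.coeff (n + 1) := by
    rw [nsmul_eq_mul]
    push_cast
    ring
  rw [h1, map_nsmul, nsmul_eq_mul]
  push_cast
  ring

variable {E : Set (MvPolynomial (Σ i, J i) k)} {w : I → ℤ} (th : CForm E w)
  {F : ∀ i, J i → K[X]}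

omit [∀ i, Fintype (J i)] in
theorem exists_chart_bot (hF : IsMap E F) : ∃ c : ∀ i, J i, den c (fun i x => (F i x).coeff 0) ≠ 0 := by
  have h1 : ∀ i, ∃ x, (F i x).coeff 0 ≠ 0 := by
    intro i
    by_contra hcon
    push Not at hcon
    have h2 : Ideal.span (Set.range (F i)) ≤ RingHom.ker (evalRingHom (0 : K)) := by
      rw [Ideal.span_le]
      rintro _ ⟨x, rfl⟩
      show eval 0 (F i x) = 0
      rw [← coeff_zero_eq_eval_zero]
      exact hcon x
    have h3 : Ideal.span (Set.range (F i)) = ⊤ := hF.cop i
    rw [h3, top_le_iff] at h2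
    exact RingHom.ker_ne_top _ h2
  choose c hc using h1
  exact ⟨c, Finset.prod_ne_zero_iff.mpr fun i _ => hc i⟩

/-- **(P)** the pairing of the variation of the end point with the tangent vector. -/
theorem exists_P [DecidableEq I] (hF : IsMap E F) (δ : Derivation k K K) :
    ∃ P : K, ∀ c : ∀ i, J i,
      den c (fun i x => (F i x).coeff 0) ^ (th.N + 1) * P =
        num th.N (th.p c) c (fun i x => (F i x).coeff 0) (fun i x => δ ((F i x).coeff 0))
          (fun i x => (F i x).coeff 1) := by
  obtain ⟨c₀, hc₀⟩ := exists_chart_bot hF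
  have hcomm : dv (dX δ) (dv (dz (k := k)) F) = dv (dz (k := k)) (dv (dX δ) F) := by
    funext i a
    exact dX_dz δ (F i a)
  have key : ∀ c : ∀ i, J i,
      den c₀ (fun i x => (F i x).coeff 0) ^ (th.N + 1) *
        num th.N (th.p c) c (fun i x => (F i x).coeff 0) (fun i x => δ ((F i x).coeff 0))
          (fun i x => (F i x).coeff 1) =
      den c (fun i x => (F i x).coeff 0) ^ (th.N + 1) *
        num th.N (th.p c₀) c₀ (fun i x => (F i x).coeff 0) (fun i x => δ ((F i x).coeff 0))
          (fun i x => (F i x).coeff 1) := by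
    intro c
    have h1 := congrArg (ev0 (k := k)) (num_agree th (dX δ) (dz (k := k)) hF.on hcomm c c₀)
    rw [map_mul, map_mul, map_pow, map_pow, map_num, map_num, map_den', map_den'] at h1
    have e1 : (fun i a => ev0 (k := k) (F i a)) = fun i x => (F i x).coeff 0 := by
      funext i a
      exact ev0_apply _
    have e2 : (fun i a => ev0 (k := k) (dv (dX δ) F i a)) = fun i x => δ ((F i x).coeff 0) := by
      funext i a
      rw [ev0_apply]
      exact coeff_dX δ (F i a) 0
    have e3 : (fun i a => ev0 (k := k) (dv (dz (k := k)) F i a)) = fun i x => (F i x).coeff 1 := by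
      funext i a
      rw [ev0_apply]
      show (dz (k := k) (F i a)).coeff 0 = _
      rw [dz_apply, coeff_derivative]
      simp
    rw [e1, e2, e3] at h1
    exact h1
  refine ⟨num th.N (th.p c₀) c₀ (fun i x => (F i x).coeff 0) (fun i x => δ ((F i x).coeff 0))
    (fun i x => (F i x).coeff 1) / den c₀ (fun i x => (F i x).coeff 0) ^ (th.N + 1), fun c => ?_⟩
  rw [mul_div_assoc', div_eq_iff (pow_ne_zero _ hc₀), ← key c]
  ring

/-- **(E)** the pairing of the Euler fields with the tangent vector. -/
theorem num_eul_bot [DecidableEq I] (hF : IsMap E F) (a : I → K) (c : ∀ i, J i) :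
    num th.N (th.p c) c (fun i x => (F i x).coeff 0) (fun i x => a i * (F i x).coeff 0)
        (fun i x => (F i x).coeff 1) =
      (∑ i, a i * (w i : K)) * (den c (fun i x => (F i x).coeff 0) *
        form (th.p c) (fun i x => (F i x).coeff 0) (fun i x => (F i x).coeff 1)) := by
  have h1 := congrArg (ev0 (k := k)) (num_eul th (dz (k := k)) hF.on c (fun i => C (a i)))
  rw [map_num, map_mul, map_mul, map_sum, map_den', map_form] at h1
  have e1 : (fun i a => ev0 (k := k) (F i a)) = fun i x => (F i x).coeff 0 := by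
    funext i a
    exact ev0_apply _
  have e2 : (fun i b => ev0 (k := k) (eul (fun i => C (a i)) F i b)) =
      fun i x => a i * (F i x).coeff 0 := by
    funext i b
    rw [ev0_apply]
    unfold eul
    rw [coeff_C_mul]
  have e3 : (fun i a => ev0 (k := k) (dv (dz (k := k)) F i a)) = fun i x => (F i x).coeff 1 := by
    funext i a
    rw [ev0_apply]
    show (dz (k := k) (F i a)).coeff 0 = _
    rw [dz_apply, coeff_derivative]
    simp
  have e4 : ∑ i, ev0 (k := k) (C (a i) * (w i : K[X])) = ∑ i, a i * (w i : K) := by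
    refine Finset.sum_congr rfl fun i _ => ?_
    rw [map_mul, map_intCast, ev0_apply, coeff_C_zero]
  rw [e1, e2, e3, e4] at h1
  exact h1

/-- the value of `θ` at the end point -/
theorem val_bot {c₀ : K} (hc : th.Val F (fun i a => derivative (F i a)) (C c₀)) (c : ∀ i, J i) :
    den c (fun i x => (F i x).coeff 0) ^ th.N * c₀ =
      form (th.p c) (fun i x => (F i x).coeff 0) (fun i x => (F i x).coeff 1) := by
  have h1 := congrArg (ev0 (k := k)) (hc c)
  rw [map_mul, map_pow, map_den', map_form, ev0_apply (C c₀), coeff_C_zero] at h1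
  have e1 : (fun i a => ev0 (k := k) (F i a)) = fun i x => (F i x).coeff 0 := by
    funext i a
    exact ev0_apply _
  have e3 : (fun i a => ev0 (k := k) (derivative (F i a))) = fun i x => (F i x).coeff 1 := by
    funext i a
    rw [ev0_apply, coeff_derivative]
    simp
  rw [e1, e3] at h1
  exact h1

/-- **(E)** with the contact constant. -/
theorem num_eul_val [DecidableEq I] (hF : IsMap E F) {c₀ : K}
    (hc : th.Val F (fun i a => derivative (F i a)) (C c₀)) (a : I → K) (c : ∀ i, J i) :
    num th.N (th.p c) c (fun i x => (F i x).coeff 0) (fun i x => a i * (F i x).coeff 0)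
        (fun i x => (F i x).coeff 1) =
      (∑ i, a i * (w i : K)) * (den c (fun i x => (F i x).coeff 0) ^ (th.N + 1) * c₀) := by
  rw [num_eul_bot th hF, ← val_bot th hc]
  ring

end der

section forms

variable {k : Type u} [Field k] {K : Type u} [Field K] [Algebra k K]
  {E : Set (MvPolynomial (Σ i, J i) k)} {w : I → ℤ} (th : CForm E w)

/-- **(S)** -/
theorem scale_num' [DecidableEq I] {l : I → K} (hl : ∀ i, l i ≠ 0) (v s t : ∀ i, J i → K)
    (c : ∀ i, J i) :
    num th.N (th.p c) c (fun i a => l i * v i a) (fun i a => l i * s i a)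
        (fun i a => l i * t i a) =
      (∏ i, l i ^ w i) * (∏ i, l i) ^ (th.N + 1) * num th.N (th.p c) c v s t := by
  have h1 := scale_num th hl v s t c
  have h2 : (∏ i, l i) * (∏ i, l i ^ ((th.N : ℤ) + w i)) =
      (∏ i, l i ^ w i) * (∏ i, l i) ^ (th.N + 1) := by
    rw [← Finset.prod_pow, ← Finset.prod_mul_distrib, ← Finset.prod_mul_distrib]
    refine Finset.prod_congr rfl fun i _ => ?_
    rw [zpow_add₀ (hl i), zpow_natCast, pow_succ]
    ring
  rw [h2] at h1
  exact h1

theorem scale_form' {l : I → K} (hl : ∀ i, l i ≠ 0) (v t : ∀ i, J i → K) (c : ∀ i, J i) :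
    form (th.p c) (fun i a => l i * v i a) (fun i a => l i * t i a) =
      (∏ i, l i ^ w i) * (∏ i, l i) ^ th.N * form (th.p c) v t := by
  have h1 := scale_form th hl v t c
  have h2 : (∏ i, l i ^ ((th.N : ℤ) + w i)) = (∏ i, l i ^ w i) * (∏ i, l i) ^ th.N := by
    rw [← Finset.prod_pow, ← Finset.prod_mul_distrib]
    refine Finset.prod_congr rfl fun i _ => ?_
    rw [zpow_add₀ (hl i), zpow_natCast]
    ring
  rw [h2] at h1
  exact h1

theorem num_swap [DecidableEq I] {A : Type*} [CommRing A] [Algebra k A] (N : ℕ)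
    (p : (Σ i, J i) → MvPolynomial (Σ i, J i) k) (c : ∀ i, J i) (v s t : ∀ i, J i → A) :
    num N p c v t s = - num N p c v s t := by
  have h1 : dform p v t s = - dform p v s t := by
    unfold dform
    simp only [← Finset.sum_neg_distrib]
    exact Finset.sum_congr rfl fun x _ => Finset.sum_congr rfl fun y _ => by ring
  unfold num
  rw [h1]
  ring

theorem num_add_right [DecidableEq I] {A : Type*} [CommRing A] [Algebra k A] (N : ℕ)
    (p : (Σ i, J i) → MvPolynomial (Σ i, J i) k) (c : ∀ i, J i) (v s t t' : ∀ i, J i → A) :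
    num N p c v s (fun i a => t i a + t' i a) = num N p c v s t + num N p c v s t' := by
  rw [← neg_neg (num N p c v s (fun i a => t i a + t' i a)), ← num_swap, num_add, num_swap,
    num_swap N p c v s t']
  ring

theorem num_smul_right [DecidableEq I] {A : Type*} [CommRing A] [Algebra k A] (N : ℕ)
    (p : (Σ i, J i) → MvPolynomial (Σ i, J i) k) (c : ∀ i, J i) (r : A) (v s t : ∀ i, J i → A) :
    num N p c v s (fun i a => r * t i a) = r * num N p c v s t := by
  rw [← neg_neg (num N p c v s (fun i a => r * t i a)), ← num_swap, num_smul, num_swap]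
  ring

/-- **(I)** -/
theorem form_mem (O : ValuationSubring K) (hO : ∀ c : k, algebraMap k K c ∈ O)
    (p : (Σ i, J i) → MvPolynomial (Σ i, J i) k) {v t : ∀ i, J i → K} (hv : ∀ i a, v i a ∈ O)
    (ht : ∀ i a, t i a ∈ O) : form p v t ∈ O := by
  rw [← O.valuation_le_one_iff]
  exact val_form_le O hO p hv fun i a => (O.valuation_le_one_iff _).mpr (ht i a)

/-- **(I)** -/
theorem num_mem [DecidableEq I] (O : ValuationSubring K) (hO : ∀ c : k, algebraMap k K c ∈ O)
    (N : ℕ) (p : (Σ i, J i) → MvPolynomial (Σ i, J i) k) (c : ∀ i, J i) {v s t : ∀ i, J i → K}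
    (hv : ∀ i a, v i a ∈ O) (hs : ∀ i a, s i a ∈ O) (ht : ∀ i a, t i a ∈ O) :
    num N p c v s t ∈ O := by
  rw [← O.valuation_le_one_iff]
  have h1 := val_num_le O hO N p c hv (fun i a => (O.valuation_le_one_iff _).mpr (hs i a))
    (fun i a => (O.valuation_le_one_iff _).mpr (ht i a))
  rwa [one_mul] at h1

end forms

end Crest.Agent.R260.Om_997
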