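import Mathlib
import Crest.Agent.R260.Om3_997
import Crest.Agent.R260.Ga6a_186

/-!
Row 260 (S0398), helper997: chart independence of `dθ` for arbitrary tangent pairs, part 1:
the calculus for two derivations that need not commute, and the Cramer fields.
-/

set_option autoImplicit false

namespace Crest.Agent.R260.Om_997

open Crest.Agent.R270.BM_360 Crest.Agent.R260.Lin_678 Crest.Agent.R260.Rk_406

universe u

variable {I : Type} {J : I → Type} [Fintype I] [∀ i, Fintype (J i)]

section clc

variable {k : Type u} [Field k] {A : Type*} [CommRing A] [Algebra k A]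

theorem dform_eq_lie (d₁ d₂ : Derivation k A A) (p : (Σ i, J i) → MvPolynomial (Σ i, J i) k)
    (F : ∀ i, J i → A) :
    dform p F (dv d₁ F) (dv d₂ F) = d₁ (form p F (dv d₂ F)) - d₂ (form p F (dv d₁ F)) -
      form p F (dv ⁅d₁, d₂⁆ F) := by
  have h3 : form p F (dv ⁅d₁, d₂⁆ F) =
      form p F (dv d₁ (dv d₂ F)) - form p F (dv d₂ (dv d₁ F)) := by
    unfold form dv
    rw [← Finset.sum_sub_distrib]
    refine Finset.sum_congr rfl fun x _ => ?_
    rw [Derivation.commutator_apply]
    ring
  have h4 : dform p F (dv d₁ F) (dv d₂ F) =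
      (∑ x : Σ i, J i, ∑ y : Σ i, J i,
      MvPolynomial.aeval (fun y : Σ i, J i => F y.1 y.2) (MvPolynomial.pderiv y (p x)) *
        (dv d₁ F y.1 y.2 * dv d₂ F x.1 x.2)) -
      (∑ x : Σ i, J i, ∑ y : Σ i, J i,
      MvPolynomial.aeval (fun y : Σ i, J i => F y.1 y.2) (MvPolynomial.pderiv y (p x)) *
        (dv d₂ F y.1 y.2 * dv d₁ F x.1 x.2)) := by
    unfold dform
    rw [← Finset.sum_sub_distrib]
    refine Finset.sum_congr rfl fun x _ => ?_
    rw [← Finset.sum_sub_distrib]
    refine Finset.sum_congr rfl fun y _ => ?_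
    ring
  rw [der_form, der_form, h3, h4]
  ring

/-- **chart independence** of `dθ` for two derivations. -/
theorem num_agree_lie [DecidableEq I] {A : Type u} [CommRing A] [IsReduced A] [Algebra k A]
    {E : Set (MvPolynomial (Σ i, J i) k)} {w : I → ℤ} (th : CForm E w)
    (d₁ d₂ : Derivation k A A) {F : ∀ i, J i → A} (hF : OnX E F) (c c' : ∀ i, J i) :
    den c' F ^ (th.N + 1) * num th.N (th.p c) c F (dv d₁ F) (dv d₂ F) =
      den c F ^ (th.N + 1) * num th.N (th.p c') c' F (dv d₁ F) (dv d₂ F) := by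
  have a1 := th.agree A F (dv d₁ F) hF (tan_dv hF d₁) c c'
  have a2 := th.agree A F (dv d₂ F) hF (tan_dv hF d₂) c c'
  have a3 := th.agree A F (dv ⁅d₁, d₂⁆ F) hF (tan_dv hF ⁅d₁, d₂⁆) c c'
  have b1 := congrArg d₂ a1
  have b2 := congrArg d₁ a2
  rw [Derivation.leibniz, Derivation.leibniz] at b1 b2
  simp only [smul_eq_mul] at b1 b2
  have e1 := mul_der_pow d₁ (den c F) th.N
  have e2 := mul_der_pow d₂ (den c F) th.N
  have e1' := mul_der_pow d₁ (den c' F) th.N
  have e2' := mul_der_pow d₂ (den c' F) th.N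
  have f1 := dform_eq_lie d₁ d₂ (th.p c) F
  have f2 := dform_eq_lie d₁ d₂ (th.p c') F
  unfold num
  rw [f1, f2, ← der_den, ← der_den, ← der_den, ← der_den]
  generalize form (th.p c) F (dv d₁ F) = α₁ at *
  generalize form (th.p c) F (dv d₂ F) = α₂ at *
  generalize form (th.p c') F (dv d₁ F) = β₁ at *
  generalize form (th.p c') F (dv d₂ F) = β₂ at *
  generalize form (th.p c) F (dv ⁅d₁, d₂⁆ F) = α₃ at *
  generalize form (th.p c') F (dv ⁅d₁, d₂⁆ F) = β₃ at *
  generalize den c F = x at *
  generalize den c' F = y at *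
  generalize th.N = N at *
  generalize hX1 : d₁ (x ^ N) = X1 at *
  generalize hX2 : d₂ (x ^ N) = X2 at *
  generalize hY1 : d₁ (y ^ N) = Y1 at *
  generalize hY2 : d₂ (y ^ N) = Y2 at *
  generalize d₁ x = x1 at *
  generalize d₂ x = x2 at *
  generalize d₁ y = y1 at *
  generalize d₂ y = y2 at *
  generalize d₁ α₂ = dα2 at *
  generalize d₂ α₁ = dα1 at *
  generalize d₁ β₂ = dβ2 at *
  generalize d₂ β₁ = dβ1 at *
  rw [pow_succ, pow_succ]
  linear_combination (-(x * y)) * b2 + (x * y) * b1 + (x * y) * a3 + (y * β₂) * e1 -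
    (y * β₁) * e2 - (x * α₂) * e1' + (x * α₁) * e2' + (N : A) * y * x1 * a2 -
    (N : A) * y * x2 * a1 + (N : A) * x * y1 * a2 - (N : A) * x * y2 * a1

end clc

/-! ### derivations of the coordinate ring -/

section coord

variable {k : Type u} [Field k]

/-- the coordinate ring of the multicone -/
abbrev CR (E : Set (MvPolynomial (Σ i, J i) k)) : Type u := MvPolynomial (Σ i, J i) k ⧸ Ideal.span E

/-- the generic point of the multicone with entries in the coordinate ring -/
noncomputable def gv (E : Set (MvPolynomial (Σ i, J i) k)) : ∀ i, J i → CR E :=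
  fun i a => Ideal.Quotient.mk (Ideal.span E) (MvPolynomial.X ⟨i, a⟩)

omit [Fintype I] [∀ i, Fintype (J i)] in
theorem aeval_gv (E : Set (MvPolynomial (Σ i, J i) k)) (p : MvPolynomial (Σ i, J i) k) :
    MvPolynomial.aeval (fun x : Σ i, J i => gv E x.1 x.2) p =
      Ideal.Quotient.mk (Ideal.span E) p := by
  have h : MvPolynomial.aeval (fun x : Σ i, J i => gv E x.1 x.2) =
      Ideal.Quotient.mkₐ k (Ideal.span E) := by
    ext x
    rw [MvPolynomial.aeval_X]
    rfl
  rw [h]
  rfl

omit [Fintype I] [∀ i, Fintype (J i)] in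
theorem onX_gv (E : Set (MvPolynomial (Σ i, J i) k)) : OnX E (gv E) := by
  intro p hp
  change MvPolynomial.aeval (fun x : Σ i, J i => gv E x.1 x.2) p = 0
  rw [aeval_gv, Ideal.Quotient.eq_zero_iff_mem]
  exact Ideal.subset_span hp

/-- every tangent vector at the generic point is given by a derivation -/
theorem exists_der_gv (E : Set (MvPolynomial (Σ i, J i) k)) {S : ∀ i, J i → CR E}
    (hS : Tan E (gv E) S) : ∃ d : Derivation k (CR E) (CR E), dv d (gv E) = S := by
  classical
  have hsurj : Function.Surjective (Ideal.Quotient.mkₐ k (Ideal.span E)) :=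
    Ideal.Quotient.mkₐ_surjective k _
  choose g hg using fun x : Σ i, J i => hsurj (S x.1 x.2)
  set D : Derivation k (MvPolynomial (Σ i, J i) k) (MvPolynomial (Σ i, J i) k) :=
    MvPolynomial.mkDerivation k g with hD
  have hDp : ∀ p, Ideal.Quotient.mkₐ k (Ideal.span E) (D p) = ∑ x : Σ i, J i,
      MvPolynomial.aeval (fun y : Σ i, J i => gv E y.1 y.2) (MvPolynomial.pderiv x p) *
        S x.1 x.2 := by
    intro p
    have h1 := der_aeval D (fun x : Σ i, J i => (MvPolynomial.X x : MvPolynomial (Σ i, J i) k)) p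
    rw [MvPolynomial.aeval_X_left_apply] at h1
    rw [h1, map_sum]
    refine Finset.sum_congr rfl fun x _ => ?_
    rw [map_mul, MvPolynomial.aeval_X_left_apply, hD, MvPolynomial.mkDerivation_X, hg, aeval_gv]
    rfl
  have hker : ∀ p, Ideal.Quotient.mkₐ k (Ideal.span E) p = 0 →
      Ideal.Quotient.mkₐ k (Ideal.span E) (D p) = 0 := by
    intro p hp
    have hp' : p ∈ Ideal.span E := Ideal.Quotient.eq_zero_iff_mem.mp hp
    induction hp' using Submodule.span_induction with
    | mem q hq => rw [hDp]; exact hS q hq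
    | zero => rw [map_zero, map_zero]
    | add q r hq hr h1 h2 =>
      rw [map_add, map_add, h1 (Ideal.Quotient.eq_zero_iff_mem.mpr hq),
        h2 (Ideal.Quotient.eq_zero_iff_mem.mpr hr), add_zero]
    | smul a q hq h1 =>
      have hq0 : Ideal.Quotient.mkₐ k (Ideal.span E) q = 0 := Ideal.Quotient.eq_zero_iff_mem.mpr hq
      rw [smul_eq_mul, Derivation.leibniz, map_add, smul_eq_mul, smul_eq_mul, map_mul, map_mul,
        h1 hq0, hq0, mul_zero, zero_mul, add_zero]
  refine ⟨Derivation.liftOfSurjective hsurj hker, ?_⟩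
  funext i a
  have h2 := Derivation.liftOfSurjective_apply hsurj hker (MvPolynomial.X ⟨i, a⟩)
  have h3 : D (MvPolynomial.X ⟨i, a⟩) = g ⟨i, a⟩ := MvPolynomial.mkDerivation_X k g ⟨i, a⟩
  rw [h3, hg] at h2
  exact h2

end coord

end Crest.Agent.R260.Om_997
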