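import Mathlib
import Crest.Agent.R260.Da1_997

/-!
Row 260 (S0398), helper997: **`DthAgree`** (789): `dθ` does not depend on the chart, for arbitrary
tangent pairs at arbitrary points over fields.
-/

set_option autoImplicit false

namespace Crest.Agent.R260.Om_997

open Crest.Agent.R270.BM_360 Crest.Agent.R260.Lin_678 Crest.Agent.R260.Rk_406
open Module

universe u

/-! ### Cramer's rule in families -/

section cramer

variable {R : Type*} [CommRing R] {A b : Type*} [Fintype b] [DecidableEq b] {r : ℕ}

/-- the Cramer vector `M e_x - ∑_j (adj · col_x)_j e_(g j)` -/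
noncomputable def cram (N : A → b → R) (f : Fin r → A) (g : Fin r → b) (x : b) : b → R :=
  fun y => (Matrix.of fun i j => N (f i) (g j)).det * (if y = x then 1 else 0) -
    ∑ j, if y = g j then
      ((Matrix.of fun i j => N (f i) (g j)).adjugate.mulVec fun i => N (f i) x) j else 0

theorem sum_cram (N : A → b → R) (f : Fin r → A) (g : Fin r → b) (x : b) (u : b → R) :
    ∑ y, u y * cram N f g x y = (Matrix.of fun i j => N (f i) (g j)).det * u x -
      ∑ j, u (g j) *
        ((Matrix.of fun i j => N (f i) (g j)).adjugate.mulVec fun i => N (f i) x) j := by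
  unfold cram
  simp only [mul_sub, Finset.sum_sub_distrib]
  congr 1
  · rw [Finset.sum_eq_single x]
    · rw [if_pos rfl]; ring
    · intro y _ hy
      rw [if_neg hy]; ring
    · intro h
      exact absurd (Finset.mem_univ x) h
  · simp only [Finset.mul_sum]
    rw [Finset.sum_comm]
    refine Finset.sum_congr rfl fun j _ => ?_
    rw [Finset.sum_eq_single (g j)]
    · rw [if_pos rfl]
    · intro y _ hy
      rw [if_neg hy, mul_zero]
    · intro h
      exact absurd (Finset.mem_univ _) h

theorem cram_row (N : A → b → R) (f : Fin r → A) (g : Fin r → b) (x : b) (l : Fin r) :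
    ∑ y, N (f l) y * cram N f g x y = 0 := by
  rw [sum_cram]
  set Mx : Matrix (Fin r) (Fin r) R := Matrix.of fun i j => N (f i) (g j) with hM
  have h1 : ∑ j, N (f l) (g j) * (Mx.adjugate.mulVec fun i => N (f i) x) j =
      (Mx.mulVec (Mx.adjugate.mulVec fun i => N (f i) x)) l := rfl
  rw [h1, Matrix.mulVec_mulVec, Matrix.mul_adjugate, Matrix.smul_mulVec, Matrix.one_mulVec,
    Pi.smul_apply, smul_eq_mul, sub_self]

theorem cram_comb (N : A → b → R) (f : Fin r → A) (g : Fin r → b) {t : b → R}
    (ht : ∀ l, ∑ y, N (f l) y * t y = 0) (y : b) :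
    ∑ x, t x * cram N f g x y = (Matrix.of fun i j => N (f i) (g j)).det * t y := by
  unfold cram
  set Mx : Matrix (Fin r) (Fin r) R := Matrix.of fun i j => N (f i) (g j) with hM
  simp only [mul_sub, Finset.sum_sub_distrib]
  have h1 : ∑ x, t x * (Mx.det * if y = x then 1 else 0) = Mx.det * t y := by
    rw [Finset.sum_eq_single y]
    · rw [if_pos rfl]; ring
    · intro x _ hx
      rw [if_neg (Ne.symm hx)]; ring
    · intro h
      exact absurd (Finset.mem_univ y) h
  have h2 : ∑ x, t x * ∑ j, (if y = g j then (Mx.adjugate.mulVec fun i => N (f i) x) j else 0) =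
      0 := by
    simp only [Finset.mul_sum]
    rw [Finset.sum_comm]
    refine Finset.sum_eq_zero fun j _ => ?_
    by_cases hj : y = g j
    · simp only [if_pos hj]
      have h3 : ∑ x, t x * (Mx.adjugate.mulVec fun i => N (f i) x) j =
          ∑ i, Mx.adjugate j i * ∑ x, N (f i) x * t x := by
        simp only [Matrix.mulVec, dotProduct, Finset.mul_sum]
        rw [Finset.sum_comm]
        refine Finset.sum_congr rfl fun i _ => Finset.sum_congr rfl fun x _ => ?_
        ring
      rw [h3]
      exact Finset.sum_eq_zero fun i _ => by rw [ht, mul_zero]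
    · simp only [if_neg hj, mul_zero, Finset.sum_const_zero]
  rw [h1, h2, sub_zero]

omit [Fintype b] in
theorem map_cram {R' : Type*} [CommRing R'] (φ : R →+* R') (N : A → b → R) (f : Fin r → A)
    (g : Fin r → b) (x y : b) :
    φ (cram N f g x y) = cram (fun a y => φ (N a y)) f g x y := by
  unfold cram
  have h1 : φ.mapMatrix (Matrix.of fun i j => N (f i) (g j)) =
      Matrix.of fun i j => φ (N (f i) (g j)) := by
    ext i j
    rfl
  rw [map_sub, map_mul, RingHom.map_det, h1, map_sum]
  congr 1
  · congr 1
    split_ifs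
    · exact map_one φ
    · exact map_zero φ
  · refine Finset.sum_congr rfl fun j _ => ?_
    split_ifs
    · rw [← h1, ← RingHom.map_adjugate]
      simp only [Matrix.mulVec, dotProduct, map_sum, map_mul]
      rfl
    · exact map_zero φ

end cramer

/-- lifting of kernel vectors along a specialisation that does not lower the rank. -/
theorem exists_lift {R : Type*} [CommRing R] [IsDomain R] {κ : Type*} [Field κ] (φ : R →+* κ)
    {A b : Type*} [Fintype b] (N : A → b → R)
    (hr : finrank (FractionRing R) (Row fun a y => algebraMap R (FractionRing R) (N a y)) ≤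
      finrank κ (Row fun a y => φ (N a y))) {t : b → κ}
    (ht : ∀ a, ∑ y, φ (N a y) * t y = 0) :
    ∃ (S : b → b → R) (a : b → κ), (∀ x l, ∑ y, N l y * S x y = 0) ∧
      ∀ y, t y = ∑ x, a x * φ (S x y) := by
  classical
  obtain ⟨f, g, hd⟩ := (le_row_iff (fun a y => φ (N a y)) _).1 (le_refl _)
  set L := FractionRing R
  set ι : R →+* L := algebraMap R L with hι
  have hφd : (Matrix.of fun i j => φ (N (f i) (g j))).det =
      φ (Matrix.of fun i j => N (f i) (g j)).det := by
    rw [RingHom.map_det]; rfl
  have hιd : (Matrix.of fun i j => ι (N (f i) (g j))).det =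
      ι (Matrix.of fun i j => N (f i) (g j)).det := by
    rw [RingHom.map_det]; rfl
  have hM : (Matrix.of fun i j => N (f i) (g j)).det ≠ 0 := by
    intro h0
    rw [hφd, h0, map_zero] at hd
    exact hd rfl
  have hdL : (Matrix.of fun i j => ι (N (f i) (g j))).det ≠ 0 := by
    rw [hιd]
    intro h0
    exact hM ((IsFractionRing.injective R L) (by rw [h0, map_zero]))
  -- the rows `f i` span all rows over `L`
  have hli : LinearIndependent L (fun i => (fun y => ι (N (f i) y))) := by
    have h5 : IsUnit (Matrix.of fun i j => ι (N (f i) (g j))) := by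
      rw [Matrix.isUnit_iff_isUnit_det]; exact isUnit_iff_ne_zero.2 hdL
    have h4 := Matrix.linearIndependent_rows_iff_isUnit.2 h5
    let π : (b → L) →ₗ[L] (Fin _ → L) := LinearMap.funLeft L L g
    have : LinearIndependent L (π ∘ (fun i => (fun y => ι (N (f i) y)))) := h4
    exact LinearIndependent.of_comp π this
  have hspan : Submodule.span L (Set.range fun i => (fun y => ι (N (f i) y))) =
      Row fun a y => ι (N a y) := by
    refine Submodule.eq_of_le_of_finrank_le ?_ ?_
    · rw [Submodule.span_le]
      rintro _ ⟨i, rfl⟩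
      exact Submodule.subset_span ⟨f i, rfl⟩
    · rw [finrank_span_eq_card hli, Fintype.card_fin]
      exact hr
  refine ⟨cram N f g, fun x => t x / (Matrix.of fun i j => φ (N (f i) (g j))).det, ?_, ?_⟩
  · intro x l
    apply IsFractionRing.injective R L
    rw [map_zero, map_sum]
    change ∑ y, ι (N l y * cram N f g x y) = 0
    simp only [map_mul, map_cram]
    have hl : (fun y => ι (N l y)) ∈
        Submodule.span L (Set.range fun i => (fun y => ι (N (f i) y))) := by
      rw [hspan]
      exact Submodule.subset_span ⟨l, rfl⟩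
    have key : ∀ u ∈ Submodule.span L (Set.range fun i => (fun y => ι (N (f i) y))),
        ∑ y, u y * cram (fun a y => ι (N a y)) f g x y = 0 := by
      intro u hu
      induction hu using Submodule.span_induction with
      | mem u hu =>
        obtain ⟨i, rfl⟩ := hu
        exact cram_row (fun a y => ι (N a y)) f g x i
      | zero => simp
      | add u v _ _ hu hv =>
        simp only [Pi.add_apply, add_mul, Finset.sum_add_distrib, hu, hv, add_zero]
      | smul a u _ hu =>
        simp only [Pi.smul_apply, smul_eq_mul, mul_assoc, ← Finset.mul_sum, hu, mul_zero]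
    exact key _ hl
  · intro y
    have h1 := cram_comb (fun a y => φ (N a y)) f g (t := t) (fun l => ht (f l)) y
    simp only [map_cram]
    have h2 : ∀ x, t x / (Matrix.of fun i j => φ (N (f i) (g j))).det *
        cram (fun a y => φ (N a y)) f g x y =
        (t x * cram (fun a y => φ (N a y)) f g x y) /
          (Matrix.of fun i j => φ (N (f i) (g j))).det := fun x => by ring
    simp only [h2]
    rw [← Finset.sum_div, h1, mul_div_cancel_left₀ _ hd]

/-! ### `DthAgree` -/

section main

variable {I : Type} {J : I → Type} [Fintype I] [∀ i, Fintype (J i)] {k : Type u} [Field k]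

/-- every tangent vector at a point over a field is a combination of values of tangent vectors at
the generic point (with entries in the coordinate ring). -/
theorem tan_lift (D : CData k I J) (hP : (Ideal.span D.E).IsPrime) {κ : Type u} [Field κ]
    [Algebra k κ] {v t : ∀ i, J i → κ} (hv : OnX D.E v) (hv0 : ∀ i, v i ≠ 0) (ht : Tan D.E v t)
    (φ : CR D.E →ₐ[k] κ) (hφ : ∀ i a, φ (gv D.E i a) = v i a) :
    ∃ (S : (Σ i, J i) → ∀ i, J i → CR D.E) (a : (Σ i, J i) → κ),
      (∀ x, Tan D.E (gv D.E) (S x)) ∧ ∀ i j, t i j = ∑ x, a x * φ (S x i j) := by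
  classical
  have : IsDomain (CR D.E) := (Ideal.Quotient.isDomain_iff_prime _).2 hP
  set L := FractionRing (CR D.E)
  set ι : CR D.E →ₐ[k] L := IsScalarTower.toAlgHom k (CR D.E) L with hι
  have hιinj : Function.Injective ι := IsFractionRing.injective (CR D.E) L
  set vL : ∀ i, J i → L := fun i a => ι (gv D.E i a) with hvL
  have hvL' : OnX D.E vL := by
    intro p hp
    have h1 := congrArg ι (onX_gv D.E p hp)
    rw [map_zero, map_aeval'] at h1
    exact h1
  have hvL0 : ∀ i, vL i ≠ 0 := by
    intro i h0
    obtain ⟨a, ha⟩ := Function.ne_iff.1 (hv0 i)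
    have h1 : ι (gv D.E i a) = 0 := congrFun h0 a
    have h2 : gv D.E i a = 0 := hιinj (by rw [h1, map_zero])
    apply ha
    rw [← hφ, h2, map_zero]
    rfl
  have r1 := row_add_ker (ev (Jm D.E) (unc vL))
  have r2 := row_add_ker (ev (Jm D.E) (unc v))
  rw [← Ga6a_186.finrank_TanSp, D.tan_dim L vL hvL' hvL0] at r1
  rw [← Ga6a_186.finrank_TanSp, D.tan_dim κ v hv hv0] at r2
  set N : D.E → (Σ i, J i) → CR D.E := fun p x =>
    Ideal.Quotient.mk (Ideal.span D.E) (MvPolynomial.pderiv x p.1) with hN
  have e1 : (fun a y => algebraMap (CR D.E) (FractionRing (CR D.E)) (N a y)) =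
      ev (Jm D.E) (unc vL) := by
    funext a y
    simp only [hN, ev, Jm]
    rw [← aeval_gv]
    exact map_aeval' ι _ _
  have e2 : (fun a y => φ.toRingHom (N a y)) = ev (Jm D.E) (unc v) := by
    funext a y
    simp only [hN, ev, Jm]
    rw [← aeval_gv]
    have h1 := map_aeval' φ (fun x : Σ i, J i => gv D.E x.1 x.2) (MvPolynomial.pderiv y a.1)
    simp only [hφ] at h1
    exact h1
  obtain ⟨S, a, hS, hS2⟩ := exists_lift φ.toRingHom N
    (by
      rw [e1, e2]
      change finrank L (Row (ev (Jm D.E) (unc vL))) ≤ finrank κ (Row (ev (Jm D.E) (unc v)))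
      omega) (t := unc t)
    (fun p => by
      have h1 := ht p.1 p.2
      have h2 : ∀ y, φ.toRingHom (N p y) = ev (Jm D.E) (unc v) p y := fun y =>
        congrFun (congrFun e2 p) y
      simp only [h2]
      exact h1)
  refine ⟨fun x => cur (S x), a, ?_, fun i j => hS2 ⟨i, j⟩⟩
  intro x p hp
  have h1 := hS x ⟨p, hp⟩
  simp only [hN] at h1
  simp only [aeval_gv]
  exact h1

/-- **`DthAgree`.** -/
theorem dth_agree [DecidableEq I] (D : CData k I J) (hP : (Ideal.span D.E).IsPrime) (κ : Type u)
    [Field κ] [Algebra k κ] (v s t : ∀ i, J i → κ) (hv : OnX D.E v) (hv0 : ∀ i, v i ≠ 0)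
    (hs : Tan D.E v s) (ht : Tan D.E v t) (c c' : ∀ i, J i) :
    den c' v ^ (D.th.N + 1) * num D.th.N (D.th.p c) c v s t =
      den c v ^ (D.th.N + 1) * num D.th.N (D.th.p c') c' v s t := by
  have : IsDomain (CR D.E) := (Ideal.Quotient.isDomain_iff_prime _).2 hP
  -- the specialisation
  set φ : CR D.E →ₐ[k] κ := Ideal.Quotient.liftₐ (Ideal.span D.E)
    (MvPolynomial.aeval (fun x : Σ i, J i => v x.1 x.2)) (by
      intro p hp
      have h1 : Ideal.span D.E ≤ RingHom.ker (MvPolynomial.aeval
          (fun x : Σ i, J i => v x.1 x.2) : MvPolynomial (Σ i, J i) k →ₐ[k] κ) :=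
        Ideal.span_le.2 fun q hq => hv q hq
      exact h1 hp) with hφd
  have hφ : ∀ i a, φ (gv D.E i a) = v i a := by
    intro i a
    have h1 : φ (gv D.E i a) = MvPolynomial.aeval (fun x : Σ i, J i => v x.1 x.2)
        (MvPolynomial.X ⟨i, a⟩) := rfl
    rw [h1, MvPolynomial.aeval_X]
  obtain ⟨S, a, hS, hs2⟩ := tan_lift D hP hv hv0 hs φ hφ
  obtain ⟨T, b, hT, ht2⟩ := tan_lift D hP hv hv0 ht φ hφ
  have key : ∀ x y, den c' v ^ (D.th.N + 1) * num D.th.N (D.th.p c) c v
        (fun i j => φ (S x i j)) (fun i j => φ (T y i j)) =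
      den c v ^ (D.th.N + 1) * num D.th.N (D.th.p c') c' v
        (fun i j => φ (S x i j)) (fun i j => φ (T y i j)) := by
    intro x y
    obtain ⟨d₁, h1⟩ := exists_der_gv D.E (hS x)
    obtain ⟨d₂, h2⟩ := exists_der_gv D.E (hT y)
    have h3 := num_agree_lie D.th d₁ d₂ (onX_gv D.E) c c'
    rw [h1, h2] at h3
    have h4 := congrArg φ h3
    rw [map_mul, map_mul, map_pow, map_pow, map_den', map_den', map_num, map_num] at h4
    simp only [hφ] at h4
    exact h4
  have sum_left : ∀ (q : (Σ i, J i) → MvPolynomial (Σ i, J i) k) (e : ∀ i, J i)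
      (u : (Σ i, J i) → ∀ i, J i → κ) (r : (Σ i, J i) → κ) (z : ∀ i, J i → κ)
      (F : Finset (Σ i, J i)),
      num D.th.N q e v (fun i j => ∑ x ∈ F, r x * u x i j) z =
        ∑ x ∈ F, r x * num D.th.N q e v (u x) z := by
    classical
    intro q e u r z F
    induction F using Finset.induction_on with
    | empty =>
      have h0 := num_smul (p := q) D.th.N e 0 v (fun i j => (0 : κ)) z
      simp only [zero_mul] at h0
      simp only [Finset.sum_empty]
      exact h0
    | insert x F hx ih =>
      simp only [Finset.sum_insert hx]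
      rw [num_add, num_smul, ih]
  have sum_right : ∀ (q : (Σ i, J i) → MvPolynomial (Σ i, J i) k) (e : ∀ i, J i)
      (u : (Σ i, J i) → ∀ i, J i → κ) (r : (Σ i, J i) → κ) (z : ∀ i, J i → κ),
      num D.th.N q e v z (fun i j => ∑ x, r x * u x i j) =
        ∑ x, r x * num D.th.N q e v z (u x) := by
    intro q e u r z
    rw [← neg_neg (num D.th.N q e v z (fun i j => ∑ x, r x * u x i j)), ← num_swap,
      sum_left, ← Finset.sum_neg_distrib]
    refine Finset.sum_congr rfl fun x _ => ?_
    rw [num_swap D.th.N q e v z (u x)]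
    ring
  have hs3 : s = fun i j => ∑ x, a x * φ (S x i j) := by
    funext i j
    exact hs2 i j
  have ht3 : t = fun i j => ∑ x, b x * φ (T x i j) := by
    funext i j
    exact ht2 i j
  rw [hs3, ht3, sum_left _ c (fun x i j => φ (S x i j)),
    sum_left _ c' (fun x i j => φ (S x i j)), Finset.mul_sum, Finset.mul_sum]
  refine Finset.sum_congr rfl fun x _ => ?_
  rw [sum_right _ c (fun x i j => φ (T x i j)), sum_right _ c' (fun x i j => φ (T x i j)),
    Finset.mul_sum, Finset.mul_sum, Finset.mul_sum, Finset.mul_sum]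
  refine Finset.sum_congr rfl fun y _ => ?_
  linear_combination (a x * b y) * key x y

end main

end Crest.Agent.R260.Om_997
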