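import Mathlib
import Crest.Agent.R260.Da2_997

/-!
Row 260 (S0398), helper997: `NumEulP` (789): contraction of `dθ` with the Euler fields, for an
arbitrary tangent vector at an arbitrary point over a field; `DthAgree` and `NumEulP` as Props.
-/

set_option autoImplicit false

namespace Crest.Agent.R260.Om_997

open Crest.Agent.R270.BM_360 Crest.Agent.R260.Lin_678
open Module

universe u

variable {I : Type} {J : I → Type} [Fintype I] [∀ i, Fintype (J i)] {k : Type u} [Field k]

theorem num_sum [DecidableEq I] {A : Type*} [CommRing A] [Algebra k A] (N : ℕ)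
    (p : (Σ i, J i) → MvPolynomial (Σ i, J i) k) (c : ∀ i, J i) {ι : Type*}
    (v : ∀ i, J i → A) (u : ι → ∀ i, J i → A) (r : ι → A) (t : ∀ i, J i → A) (F : Finset ι) :
    num N p c v (fun i j => ∑ x ∈ F, r x * u x i j) t =
      ∑ x ∈ F, r x * num N p c v (u x) t := by
  classical
  induction F using Finset.induction_on with
  | empty =>
    have h0 := num_smul (p := p) N c 0 v (fun i j => (0 : A)) t
    simp only [zero_mul] at h0
    simp only [Finset.sum_empty]
    exact h0
  | insert x F hx ih =>
    simp only [Finset.sum_insert hx]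
    rw [num_add, num_smul, ih]

theorem num_sum_right [DecidableEq I] {A : Type*} [CommRing A] [Algebra k A] (N : ℕ)
    (p : (Σ i, J i) → MvPolynomial (Σ i, J i) k) (c : ∀ i, J i) {ι : Type*}
    (v s : ∀ i, J i → A) (u : ι → ∀ i, J i → A) (r : ι → A) (F : Finset ι) :
    num N p c v s (fun i j => ∑ x ∈ F, r x * u x i j) =
      ∑ x ∈ F, r x * num N p c v s (u x) := by
  rw [← neg_neg (num N p c v s (fun i j => ∑ x ∈ F, r x * u x i j)), ← num_swap, num_sum,
    ← Finset.sum_neg_distrib]
  refine Finset.sum_congr rfl fun x _ => ?_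
  rw [num_swap N p c v s (u x)]
  ring

theorem form_sum (p : (Σ i, J i) → MvPolynomial (Σ i, J i) k) {A : Type*} [CommRing A]
    [Algebra k A] {ι : Type*} (v : ∀ i, J i → A) (u : ι → ∀ i, J i → A) (r : ι → A)
    (F : Finset ι) :
    form p v (fun i j => ∑ x ∈ F, r x * u x i j) = ∑ x ∈ F, r x * form p v (u x) := by
  unfold form
  simp only [Finset.mul_sum]
  rw [Finset.sum_comm]
  refine Finset.sum_congr rfl fun x _ => Finset.sum_congr rfl fun y _ => ?_
  ring

omit [Fintype I] [∀ i, Fintype (J i)] in
/-- the specialisation of the coordinate ring at a point. -/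
theorem exists_spec {E : Set (MvPolynomial (Σ i, J i) k)} {κ : Type*} [Field κ] [Algebra k κ]
    {v : ∀ i, J i → κ} (hv : OnX E v) :
    ∃ φ : CR E →ₐ[k] κ, ∀ i a, φ (gv E i a) = v i a := by
  refine ⟨Ideal.Quotient.liftₐ (Ideal.span E)
    (MvPolynomial.aeval (fun x : Σ i, J i => v x.1 x.2)) (by
      intro p hp
      have h1 : Ideal.span E ≤ RingHom.ker (MvPolynomial.aeval
          (fun x : Σ i, J i => v x.1 x.2) : MvPolynomial (Σ i, J i) k →ₐ[k] κ) :=
        Ideal.span_le.2 fun q hq => hv q hq
      exact h1 hp), fun i a => ?_⟩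
  exact MvPolynomial.aeval_X _ _

/-- **`NumEulP`.** -/
theorem num_eulP [DecidableEq I] (D : CData k I J) (hP : (Ideal.span D.E).IsPrime) (κ : Type u)
    [Field κ] [Algebra k κ] (v t : ∀ i, J i → κ) (hv : OnX D.E v) (hv0 : ∀ i, v i ≠ 0)
    (ht : Tan D.E v t) (c : ∀ i, J i) (a : I → κ) :
    num D.th.N (D.th.p c) c v (eul a v) t =
      (∑ i, a i * (D.w i : κ)) * (den c v * form (D.th.p c) v t) := by
  have : IsDomain (CR D.E) := (Ideal.Quotient.isDomain_iff_prime _).2 hP
  obtain ⟨φ, hφ⟩ := exists_spec hv
  obtain ⟨T, b, hT, ht2⟩ := tan_lift D hP hv hv0 ht φ hφ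
  have ht3 : t = fun i j => ∑ x, b x * φ (T x i j) := by
    funext i j
    exact ht2 i j
  have key : ∀ (i : I) x, num D.th.N (D.th.p c) c v (eul (Pi.single i (1 : κ)) v)
        (fun i j => φ (T x i j)) =
      (D.w i : κ) * (den c v * form (D.th.p c) v (fun i j => φ (T x i j))) := by
    intro i x
    obtain ⟨d, h1⟩ := exists_der_gv D.E (hT x)
    have h3 := num_eul D.th d (onX_gv D.E) c (Pi.single i (1 : CR D.E))
    rw [h1] at h3
    have h4 := congrArg φ h3
    rw [map_num, map_mul, map_mul, map_den', map_form] at h4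
    have h5 : (fun i' j => φ (eul (Pi.single i (1 : CR D.E)) (gv D.E) i' j)) =
        eul (Pi.single i (1 : κ)) v := by
      funext i' j
      unfold eul
      rw [map_mul, hφ]
      by_cases h : i' = i
      · subst h
        rw [Pi.single_eq_same, Pi.single_eq_same, map_one]
      · rw [Pi.single_eq_of_ne h, Pi.single_eq_of_ne h, map_zero]
    have h6 : φ (∑ i', Pi.single (M := fun _ => CR D.E) i (1 : CR D.E) i' * (D.w i' : CR D.E)) =
        (D.w i : κ) := by
      rw [Finset.sum_eq_single i]
      · rw [Pi.single_eq_same, one_mul, map_intCast]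
      · intro j _ hj
        rw [Pi.single_eq_of_ne hj, zero_mul]
      · intro h
        exact absurd (Finset.mem_univ i) h
    rw [h5, h6] at h4
    simp only [hφ] at h4
    exact h4
  have heul : eul a v = fun i' j => ∑ i, a i * eul (Pi.single i (1 : κ)) v i' j := by
    funext i' j
    unfold eul
    rw [Finset.sum_eq_single i']
    · rw [Pi.single_eq_same, one_mul]
    · intro i _ hi
      rw [Pi.single_eq_of_ne (Ne.symm hi), zero_mul, mul_zero]
    · intro h
      exact absurd (Finset.mem_univ i') h
  rw [heul, num_sum, ht3, Finset.sum_mul]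
  refine Finset.sum_congr rfl fun i _ => ?_
  rw [num_sum_right (u := fun x i j => φ (T x i j)), form_sum (u := fun x i j => φ (T x i j)),
    Finset.mul_sum, Finset.mul_sum, Finset.mul_sum]
  refine Finset.sum_congr rfl fun x _ => ?_
  rw [key i x]
  ring

end Crest.Agent.R260.Om_997
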