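import Mathlib
import Crest.Agent.R260.Num2_789

/-!
Row 260 (S0398), AG-NUM (helper789), part 3: scaling of the Jacobian and of the two-form.
-/

set_option autoImplicit false

namespace Crest.Agent.R260.Num_789

open Polynomial Matrix Crest.Agent.R270.BM_360 Crest.Agent.R270.DimN_282

universe u

variable {k : Type u} [Field k] {I : Type} {J : I → Type} [Fintype I] [∀ i, Fintype (J i)]

omit [Fintype I] [∀ i, Fintype (J i)] in
open Classical in
/-- a variable of block degree zero does not occur. -/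
theorem pderiv_eq_zero_of {p : MvPolynomial (Σ i, J i) k} {δ : I → ℕ}
    (hp : MvPolynomial.IsWeightedHomogeneous (fun x : Σ i, J i => (Pi.single x.1 1 : I → ℕ)) p δ)
    (x : Σ i, J i) (hx : δ x.1 = 0) : MvPolynomial.pderiv x p = 0 := by
  apply MvPolynomial.pderiv_eq_zero_of_notMem_vars
  intro hmem
  obtain ⟨s, hs, hxs⟩ := (MvPolynomial.mem_vars_iff_mem_support x).mp hmem
  have h2 := hp (MvPolynomial.mem_support_iff.mp hs)
  have h3 : δ x.1 = ∑ y ∈ s.support, s y * (if x.1 = y.1 then 1 else 0) := by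
    rw [← h2, Finsupp.weight_apply, Finsupp.sum, Finset.sum_apply]
    exact Finset.sum_congr rfl fun y _ => by simp [Pi.single_apply]
  rw [hx] at h3
  have h4 := (Finset.sum_eq_zero_iff.mp h3.symm) x hxs
  simp only [if_true, mul_one] at h4
  exact (Finsupp.mem_support_iff.mp hxs) h4

section scale

variable {A : Type*} [CommRing A] [Algebra k A]

omit [∀ i, Fintype (J i)] in
open Classical in
theorem pd_scale {p : MvPolynomial (Σ i, J i) k} {δ : I → ℕ}
    (hp : MvPolynomial.IsWeightedHomogeneous (fun x : Σ i, J i => (Pi.single x.1 1 : I → ℕ)) p δ)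
    (x : Σ i, J i) (c : I → A) (v : ∀ i, J i → A) :
    c x.1 * jacE (fun i a => c i * v i a) p x = (∏ i, c i ^ δ i) * jacE v p x := by
  by_cases hx : δ x.1 = 0
  · simp only [jacE, pderiv_eq_zero_of hp x hx, map_zero, mul_zero]
  · let d' : I → ℕ := δ - Pi.single x.1 1
    have hd' : d' + Pi.single x.1 1 = δ := by
      funext i
      by_cases hi : i = x.1
      · subst hi
        simp only [d', Pi.add_apply, Pi.sub_apply, Pi.single_eq_same]
        omega
      · simp [d', hi]
    have hq : MvPolynomial.IsWeightedHomogeneous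
        (fun x : Σ i, J i => (Pi.single x.1 1 : I → ℕ)) (MvPolynomial.pderiv x p) d' :=
      MvPolynomial.IsWeightedHomogeneous.pderiv hp hd'
    have h1 := aeval_scale hq v c
    have h2 : ∏ i, c i ^ δ i = c x.1 * ∏ i, c i ^ d' i := by
      rw [← hd']
      simp only [Pi.add_apply, pow_add, Finset.prod_mul_distrib]
      rw [mul_comm]
      congr 1
      rw [Finset.prod_eq_single x.1]
      · simp
      · intro j _ hj; simp [hj]
      · simp
    show c x.1 * MvPolynomial.aeval (fun y : Σ i, J i => c y.1 * v y.1 y.2)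
      (MvPolynomial.pderiv x p) = _
    rw [h1, h2]
    unfold jacE
    ring

open Classical in
theorem jac_scale {E : Set (MvPolynomial (Σ i, J i) k)} (p : E) {δ : I → ℕ}
    (hp : MvPolynomial.IsWeightedHomogeneous (fun x : Σ i, J i => (Pi.single x.1 1 : I → ℕ)) p.1 δ)
    (c : I → A) (v : ∀ i, J i → A) (t : (Σ i, J i) → A) :
    jac E (fun i a => c i * v i a) (fun x => c x.1 * t x) p = (∏ i, c i ^ δ i) * jac E v t p := by
  rw [jac_apply, jac_apply, Finset.mul_sum]
  refine Finset.sum_congr rfl fun x _ => ?_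
  rw [← mul_assoc, mul_comm _ (c x.1), pd_scale hp x c v, mul_assoc]

theorem jac_scale_eq_zero {E : Set (MvPolynomial (Σ i, J i) k)} (hE : MHom E)
    (c : I → A) (v : ∀ i, J i → A) (t : (Σ i, J i) → A) (h : jac E v t = 0) :
    jac E (fun i a => c i * v i a) (fun x => c x.1 * t x) = 0 := by
  classical
  funext p
  obtain ⟨δ, hδ⟩ := hE p.1 p.2
  rw [jac_scale p (by convert hδ) c v t, h, Pi.zero_apply, mul_zero]

omit [∀ i, Fintype (J i)] in
theorem onX_scale {E : Set (MvPolynomial (Σ i, J i) k)} (hE : MHom E)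
    (c : I → A) (v : ∀ i, J i → A) (h : OnX E v) : OnX E (fun i a => c i * v i a) := by
  classical
  intro p hp
  obtain ⟨δ, hδ⟩ := hE p hp
  rw [aeval_scale (by convert hδ) v c, h p hp, mul_zero]

omit [Fintype I] [∀ i, Fintype (J i)] in
theorem eul_scale (u : I → k) (c : I → A) (v : ∀ i, J i → A) :
    eul u (fun i a => c i * v i a) = fun x => c x.1 * eul u v x := by
  funext x
  unfold eul
  ring

theorem jac_smul_eq_zero {E : Set (MvPolynomial (Σ i, J i) k)} (v : ∀ i, J i → A)
    (t : (Σ i, J i) → A) (a : A) (h : jac E v t = 0) : jac E v (fun x => a * t x) = 0 := by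
  have : (fun x => a * t x) = a • t := rfl
  rw [this, map_smul, h, smul_zero]

theorem bf_smul_smul (q : (Σ i, J i) → (Σ i, J i) → MvPolynomial (Σ i, J i) k)
    (v : ∀ i, J i → A) (a b : A) (t t' : (Σ i, J i) → A) :
    bf q v (fun x => a * t x) (fun x => b * t' x) = a * b * bf q v t t' := by
  have h1 : (fun x => a * t x) = a • t := rfl
  have h2 : (fun x => b * t' x) = b • t' := rfl
  unfold bf
  rw [h1, h2, mulVec_smul, smul_dotProduct, dotProduct_smul, smul_eq_mul, smul_eq_mul, mul_assoc]

end scale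

section field

variable {K : Type*} [Field K] [Algebra k K]

omit [∀ i, Fintype (J i)] in
open Classical in
theorem evp_scale {g : MvPolynomial (Σ i, J i) k} {δ : I → ℕ}
    (hg : MvPolynomial.IsWeightedHomogeneous (fun x : Σ i, J i => (Pi.single x.1 1 : I → ℕ)) g δ)
    (c : I → K) (v : ∀ i, J i → K) :
    evp (fun i a => c i * v i a) g = (∏ i, c i ^ δ i) * evp v g :=
  aeval_scale hg v c

theorem TwoForm.bf_scale {E : Set (MvPolynomial (Σ i, J i) k)} {w : I → ℤ} {S : Type}
    [Fintype S] {u : S → I → k} (W : TwoForm E w u) (m : W.C) (c : I → K) (hc : ∀ i, c i ≠ 0) (v : ∀ i, J i → K)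
    (t t' : (Σ i, J i) → K) :
    bf (W.q m) (fun i a => c i * v i a) (fun x => c x.1 * t x) (fun x => c x.1 * t' x) =
      (∏ i, c i ^ ((W.dg m i : ℤ) + w i)) * bf (W.q m) v t t' := by
  classical
  unfold bf dotProduct mulVec dotProduct
  rw [Finset.mul_sum]
  refine Finset.sum_congr rfl fun x _ => ?_
  rw [Finset.mul_sum, Finset.mul_sum, Finset.mul_sum]
  refine Finset.sum_congr rfl fun y _ => ?_
  show c x.1 * t x * (evp (fun i a => c i * v i a) (W.q m x y) * (c y.1 * t' y)) =
    (∏ i, c i ^ ((W.dg m i : ℤ) + w i)) * (t x * (evp v (W.q m x y) * t' y))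
  by_cases h0 : W.q m x y = 0
  · rw [h0]
    simp [evp]
  · rw [evp_scale (by convert W.hq m x y) c v]
    have h1 : ∏ i, c i ^ ((W.dg m i : ℤ) + w i) =
        (∏ i, c i ^ W.dq m x y i) * c x.1 * c y.1 := by
      have h2 : ∀ i, c i ^ ((W.dg m i : ℤ) + w i) =
          c i ^ W.dq m x y i * c i ^ ((Pi.single x.1 1 : I → ℤ) i) *
            c i ^ ((Pi.single y.1 1 : I → ℤ) i) := by
        intro i
        have h3 := W.hw m x y i h0
        have h4 : (W.dg m i : ℤ) + w i =
          (W.dq m x y i : ℤ) + (Pi.single x.1 1 : I → ℤ) i + (Pi.single y.1 1 : I → ℤ) i := by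
          rw [← h3]
        rw [h4, zpow_add₀ (hc i), zpow_add₀ (hc i), zpow_natCast]
      have h5 : ∀ z : I, ∏ i, c i ^ ((Pi.single z 1 : I → ℤ) i) = c z := by
        intro z
        rw [Finset.prod_eq_single z]
        · simp
        · intro j _ hj; simp [hj]
        · simp
      rw [Finset.prod_congr rfl fun i _ => h2 i, Finset.prod_mul_distrib,
        Finset.prod_mul_distrib, h5, h5]
    rw [h1]
    ring

end field

end Crest.Agent.R260.Num_789
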