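import Mathlib
import Crest.Agent.R260.Num3_789

/-!
Row 260 (S0398), AG-NUM (helper789), part 4: places of the projective line.
-/

set_option autoImplicit false

namespace Crest.Agent.R260.Num_789

open Module Polynomial Matrix WithZero Crest.Agent.R270.BM_360 Crest.Agent.R270.DimN_282
open Crest.Agent.R013.RR2_948

universe u

section ratfunc

variable {κ : Type u} [Field κ]

theorem mul_num_eq {f : RatFunc κ} {g a : κ[X]}
    (h : algebraMap κ[X] (RatFunc κ) g * f = algebraMap κ[X] (RatFunc κ) a) :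
    g * f.num = a * f.denom := by
  have h8 : algebraMap κ[X] (RatFunc κ) f.denom ≠ 0 :=
    RatFunc.algebraMap_ne_zero (RatFunc.denom_ne_zero _)
  have h9 : f = algebraMap κ[X] (RatFunc κ) f.num / algebraMap κ[X] (RatFunc κ) f.denom :=
    (RatFunc.num_div_denom _).symm
  apply IsFractionRing.injective κ[X] (RatFunc κ)
  rw [map_mul, map_mul, ← h]
  have h10 : algebraMap κ[X] (RatFunc κ) f.num = f * algebraMap κ[X] (RatFunc κ) f.denom := by
    rw [eq_comm, ← eq_div_iff h8]; exact h9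
  rw [h10]; ring

theorem not_dvd_denom {p : κ[X]} (hp : Irreducible p) {f : RatFunc κ} {g a : κ[X]} (hg : ¬ p ∣ g)
    (h : algebraMap κ[X] (RatFunc κ) g * f = algebraMap κ[X] (RatFunc κ) a) : ¬ p ∣ f.denom := by
  intro hd
  have h1 := mul_num_eq h
  have h2 : p ∣ g * f.num := by rw [h1]; exact Dvd.dvd.mul_left hd _
  rcases hp.prime.dvd_or_dvd h2 with h3 | h3
  · exact hg h3
  · exact hp.not_isUnit ((RatFunc.isCoprime_num_denom f).isUnit_of_dvd' h3 hd)

theorem not_dvd_num {p : κ[X]} (hp : Irreducible p) {f : RatFunc κ} {g a : κ[X]} (ha : ¬ p ∣ a)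
    (h : algebraMap κ[X] (RatFunc κ) g * f = algebraMap κ[X] (RatFunc κ) a) : ¬ p ∣ f.num := by
  intro hd
  have h1 := mul_num_eq h
  have h2 : p ∣ a * f.denom := by rw [← h1]; exact Dvd.dvd.mul_left hd _
  rcases hp.prime.dvd_or_dvd h2 with h3 | h3
  · exact ha h3
  · exact hp.not_isUnit ((RatFunc.isCoprime_num_denom f).isUnit_of_dvd' hd h3)

theorem isUnit_of_not_dvd {f : κ[X]} (hf : f ≠ 0) (h : ∀ p : κ[X], Irreducible p → ¬ p ∣ f) :
    IsUnit f := by
  by_contra hu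
  obtain ⟨p, hp, hpf⟩ := WfDvdMonoid.exists_irreducible_factor hu hf
  exact h p hp hpf

/-- regular at all finite places. -/
theorem exists_poly_of {f : RatFunc κ} (h : ∀ p : κ[X], Irreducible p → ∃ g a : κ[X], ¬ p ∣ g ∧
    algebraMap κ[X] (RatFunc κ) g * f = algebraMap κ[X] (RatFunc κ) a) :
    ∃ q : κ[X], algebraMap κ[X] (RatFunc κ) q = f := by
  have hu : IsUnit f.denom := isUnit_of_not_dvd (RatFunc.denom_ne_zero _) fun p hp => by
    obtain ⟨g, a, hg, ha⟩ := h p hp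
    exact not_dvd_denom hp hg ha
  obtain ⟨v, hv⟩ := hu
  refine ⟨f.num * (↑v⁻¹ : κ[X]), ?_⟩
  have h8 : algebraMap κ[X] (RatFunc κ) f.denom ≠ 0 :=
    RatFunc.algebraMap_ne_zero (RatFunc.denom_ne_zero _)
  rw [eq_comm]
  conv_lhs => rw [← RatFunc.num_div_denom f]
  rw [div_eq_iff h8, ← map_mul, ← hv, mul_assoc, Units.inv_mul, mul_one]

/-- unit at all finite places. -/
theorem exists_C_of {f : RatFunc κ} (h : ∀ p : κ[X], Irreducible p → ∃ g a : κ[X], ¬ p ∣ g ∧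
    algebraMap κ[X] (RatFunc κ) g * f = algebraMap κ[X] (RatFunc κ) a)
    (h' : ∀ p : κ[X], Irreducible p → ∃ g a : κ[X], ¬ p ∣ a ∧
    algebraMap κ[X] (RatFunc κ) g * f = algebraMap κ[X] (RatFunc κ) a) (hf : f ≠ 0) :
    ∃ c : κ, c ≠ 0 ∧ algebraMap κ[X] (RatFunc κ) (C c) = f := by
  obtain ⟨q, hq⟩ := exists_poly_of h
  have hq0 : q ≠ 0 := by
    rintro rfl
    rw [map_zero] at hq
    exact hf hq.symm
  have hu : IsUnit q := isUnit_of_not_dvd hq0 fun p hp hd => by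
    obtain ⟨g, a, ha, hga⟩ := h' p hp
    rw [← hq, ← map_mul] at hga
    have h1 := IsFractionRing.injective κ[X] (RatFunc κ) hga
    exact ha (by rw [← h1]; exact Dvd.dvd.mul_left hd _)
  obtain ⟨c, hc, rfl⟩ := Polynomial.isUnit_iff.mp hu
  exact ⟨c, hc.ne_zero, hq⟩

end ratfunc

variable {k : Type u} [Field k] {I : Type} {J : I → Type} [Fintype I] [∀ i, Fintype (J i)]
  {E : Set (MvPolynomial (Σ i, J i) k)} {w : I → ℤ} {S : Type} [Fintype S] [DecidableEq S]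
  {u : S → I → k}

/-- the determinant identity with constant `h`. -/
def HasH {K : Type*} [Field K] {ι : Type*} [Fintype ι] [DecidableEq ι] (G : Matrix ι ι K)
    (e : Matrix ι S K) (h : K) : Prop :=
  ∀ g : K, g ≠ 0 → ∀ Y Z : Matrix S ι K, (g • G + Yᵀ * Z).det =
    g ^ Fintype.card ι * g⁻¹ ^ Fintype.card S * h * (Y * e).det * (Z * e).det

theorem TwoForm.place (W : TwoForm E w u) {r : ℕ} (h7 : D7r E r) {A : Type u} [CommRing A]
    [Algebra k A] {κ' : Type u} [Field κ'] [Algebra k κ'] (φ : A →ₐ[k] κ')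
    (hφ : Function.Surjective φ) {K : Type u} [Field K]
    [Algebra k K] (ψ : A →ₐ[k] K) (hψ : Function.Injective ψ) {ι : Type} [Fintype ι]
    [DecidableEq ι] (hι : Fintype.card ι = r) (v : ∀ i, J i → A) (hv : OnX E v)
    (hv0 : ∀ i, ∃ a, φ (v i a) ≠ 0) (t : ι → (Σ i, J i) → A) (ht : ∀ j, jac E v (t j) = 0)
    (hli : LinearIndependent κ' fun j x => φ (t j x)) (e : Matrix ι S A)
    (he : ∀ σ, ∑ j, e j σ • t j = eul (u σ) v) (G : Matrix ι ι K)
    (hG : ∀ c j l, evp (fun i a => ψ (v i a)) (W.g c) * G j l =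
      bf (W.q c) (fun i a => ψ (v i a)) (fun x => ψ (t j x)) (fun x => ψ (t l x)))
    (h : K) (hh : HasH G (e.map ψ) h) :
    (∃ Y : Matrix S ι A, φ (Y * e).det ≠ 0) ∧
      (∃ g : A, φ g ≠ 0 ∧ ∀ j l, ∃ a, ψ g * G j l = ψ a) ∧
      (∃ g a : A, φ g ≠ 0 ∧ φ a ≠ 0 ∧ ψ g * h = ψ a) := by
  obtain ⟨Y, hY, ⟨c, hc⟩, hP⟩ := W.local h7 φ hφ hι v hv hv0 t ht hli e he
  have hPc := hP c hc
  set g : A := evp v (W.g c) with hg
  set P : Matrix ι ι A := Matrix.of fun j l => bf (W.q c) v (t j) (t l) with hPdef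
  have h1 : ∀ j l, ψ (P j l) = ψ g * G j l := by
    intro j l
    have h2 := hG c j l
    rw [evp_map, bf_map] at h2
    exact h2.symm
  have h3 : P.map ψ = ψ g • G := by
    ext j l
    rw [Matrix.map_apply, h1]
    rfl
  have hg0 : g ≠ 0 := by rintro h0; rw [h0, map_zero] at hc; exact hc rfl
  have hψg : ψ g ≠ 0 := fun h0 => hg0 (hψ (by rw [h0, map_zero]))
  have h4 : ψ (P + Yᵀ * Y).det = (ψ g • G + (Y.map ψ)ᵀ * Y.map ψ).det := by
    have h5 : ψ (P + Yᵀ * Y).det = ((P + Yᵀ * Y).map ψ).det :=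
      RingHom.map_det (ψ : A →+* K) (P + Yᵀ * Y)
    have h6 : (P + Yᵀ * Y).map ψ = P.map ψ + (Y.map ψ)ᵀ * Y.map ψ := by
      rw [← Matrix.transpose_map, ← Matrix.map_mul]
      ext a b
      exact map_add ψ _ _
    rw [h5, h6, h3]
  have h7 : (Y.map ψ * e.map ψ).det = ψ (Y * e).det := by
    rw [← Matrix.map_mul]
    exact (RingHom.map_det (ψ : A →+* K) (Y * e)).symm
  rw [hh (ψ g) hψg, h7] at h4
  refine ⟨⟨Y, hY⟩, ⟨g, hc, fun j l => ⟨P j l, (h1 j l).symm⟩⟩,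
    ⟨g ^ Fintype.card ι * ((Y * e).det * (Y * e).det), g ^ Fintype.card S * (P + Yᵀ * Y).det,
      ?_, ?_, ?_⟩⟩
  · rw [map_mul, map_mul, map_pow]
    exact mul_ne_zero (pow_ne_zero _ hc) (mul_ne_zero hY hY)
  · rw [map_mul, map_pow]
    exact mul_ne_zero (pow_ne_zero _ hc) hPc
  · rw [map_mul, map_mul, map_mul, map_pow, map_pow, h4]
    have h8 : ψ g ^ Fintype.card S * (ψ g)⁻¹ ^ Fintype.card S = 1 := by
      rw [← mul_pow, mul_inv_cancel₀ hψg, one_pow]
    calc _ = (ψ g ^ Fintype.card S * (ψ g)⁻¹ ^ Fintype.card S) * (ψ g ^ Fintype.card ι * h *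
          ψ (Y * e).det * ψ (Y * e).det) := by rw [h8]; ring
      _ = _ := by ring

end Crest.Agent.R260.Num_789
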