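import Mathlib
import Crest.Agent.R260.Num4_789

/-!
Row 260 (S0398), AG-NUM (helper789), part 5: finite places and infinity for a splitting basis.
-/

set_option autoImplicit false

namespace Crest.Agent.R260.Num_789

open Module Polynomial Matrix WithZero Crest.Agent.R270.BM_360 Crest.Agent.R270.DimN_282
open Crest.Agent.R013.RR2_948

universe u

variable {k : Type u} [Field k] {I : Type} {J : I → Type} [Fintype I] [∀ i, Fintype (J i)]
  {E : Set (MvPolynomial (Σ i, J i) k)} {w : I → ℤ} {S : Type} [Fintype S]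
  {u : S → I → k} {κ : Type u} [Field κ] [Algebra k κ] {F : ∀ i, J i → κ[X]}

/-- the contact degree. -/
noncomputable def wdeg (w : I → ℤ) (F : ∀ i, J i → κ[X]) : ℤ := ∑ i, w i * (cls F i : ℤ)

/-- the classes as a twist. -/
noncomputable def tw (F : ∀ i, J i → κ[X]) : (Σ i, J i) → ℤ := fun x => (cls F x.1 : ℤ)

/-- `κ[X] → κ(X)` over `k`. -/
noncomputable def ψX (k : Type u) [Field k] (κ : Type u) [Field κ] [Algebra k κ] :
    κ[X] →ₐ[k] RatFunc κ := IsScalarTower.toAlgHom k κ[X] (RatFunc κ)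

theorem ψX_apply (q : κ[X]) : ψX k κ q = algebraMap κ[X] (RatFunc κ) q := rfl

theorem ψX_inj : Function.Injective (ψX k κ) := IsFractionRing.injective κ[X] (RatFunc κ)

omit [Fintype I] [∀ i, Fintype (J i)] in
theorem onX_toR (hF : IsMap E F) : OnX E (toR F) := onX_map (ψX k κ) hF.on

omit [Fintype I] [∀ i, Fintype (J i)] in
theorem toR_ne_zero (hF : IsMap E F) (i : I) : toR F i ≠ 0 := by
  intro h
  have h1 : (1 : κ[X]) ∈ Ideal.span (Set.range (F i)) := by
    have := hF.cop i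
    rw [Cop] at this
    rw [this]; trivial
  have h2 : Ideal.span (Set.range (F i)) ≤ ⊥ := by
    rw [Ideal.span_le]
    rintro _ ⟨b, rfl⟩
    exact ψX_inj (k := k) (κ := κ) (by
      have := congrFun h b
      rw [map_zero]
      exact this)
  exact one_ne_zero ((Submodule.mem_bot _).mp (h2 h1))

variable {ι : Type} [Fintype ι]

omit [Fintype ι] in
/-- polynomial coordinates of a splitting basis. -/
theorem exists_t {b : Basis ι (RatFunc κ) (TK E F)} {e : (Σ i, J i) → ℤ} {d : ι → ℤ}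
    (hs : Split (TK E F).subtype e b d) :
    ∃ t : ι → (Σ i, J i) → κ[X], ∀ j x, ψX k κ (t j x) = (b j : (Σ i, J i) → RatFunc κ) x := by
  classical
  have h : ∀ j x, ∃ q : κ[X], ψX k κ q = (b j : (Σ i, J i) → RatFunc κ) x := by
    intro j x
    have h2 := (hs.poly (b j)).mpr (fun l => by
      rw [b.repr_self, Finsupp.single_apply]
      split_ifs
      · exact (mem_polyS κ).mpr ⟨1, by simp⟩
      · exact Submodule.zero_mem _) x
    exact (mem_polyS κ).mp h2
  choose t ht using h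
  exact ⟨t, ht⟩

omit [Fintype ι] in
theorem jac_t {b : Basis ι (RatFunc κ) (TK E F)} {t : ι → (Σ i, J i) → κ[X]}
    (ht : ∀ j x, ψX k κ (t j x) = (b j : (Σ i, J i) → RatFunc κ) x) (j : ι) :
    jac E F (t j) = 0 := by
  have h1 := jac_map E (ψX k κ) F (t j)
  funext p
  apply ψX_inj (k := k)
  rw [← h1 p]
  have h2 : (fun x => ψX k κ (t j x)) = (b j : (Σ i, J i) → RatFunc κ) := funext (ht j)
  have h3 : jac E (toR F) (b j : (Σ i, J i) → RatFunc κ) = 0 := (b j).2
  rw [h2]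
  have h4 := congrFun h3 p
  rw [Pi.zero_apply, map_zero]
  exact h4

/-- reductions of a splitting basis at a finite place are independent. -/
theorem fin_li {b : Basis ι (RatFunc κ) (TK E F)} {e : (Σ i, J i) → ℤ} {d : ι → ℤ}
    (hs : Split (TK E F).subtype e b d) {t : ι → (Σ i, J i) → κ[X]}
    (ht : ∀ j x, ψX k κ (t j x) = (b j : (Σ i, J i) → RatFunc κ) x) {p : κ[X]} (hp : p ≠ 0)
    (y : ι → κ[X]) (hy : ∀ x, p ∣ ∑ j, y j * t j x) (j : ι) : p ∣ y j := by
  have hp' : ψX k κ p ≠ 0 := by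
    intro h
    exact hp (ψX_inj (by rw [h, map_zero]))
  set z : TK E F := ∑ j, ((ψX k κ p)⁻¹ * ψX k κ (y j)) • b j with hz
  have h1 : ∀ x, (TK E F).subtype z x = (ψX k κ p)⁻¹ * ψX k κ (∑ j, y j * t j x) := by
    intro x
    rw [hz, map_sum, Finset.sum_apply, map_sum, Finset.mul_sum]
    refine Finset.sum_congr rfl fun j _ => ?_
    rw [map_smul, Pi.smul_apply, smul_eq_mul, map_mul, ht]
    show _ * (b j : (Σ i, J i) → RatFunc κ) x = _
    ring
  have h2 := (hs.poly z).mp (fun x => by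
    rw [h1 x, mem_polyS]
    obtain ⟨q, hq⟩ := hy x
    refine ⟨q, ?_⟩
    rw [hq, map_mul, ← mul_assoc, inv_mul_cancel₀ hp', one_mul]
    rfl) j
  rw [hz, b.repr_sum_self] at h2
  obtain ⟨q, hq⟩ := (mem_polyS κ).mp h2
  refine ⟨q, ψX_inj (k := k) ?_⟩
  rw [map_mul]
  have h3 : ψX k κ q = (ψX k κ p)⁻¹ * ψX k κ (y j) := hq
  rw [h3, ← mul_assoc, mul_inv_cancel₀ hp', one_mul]

/-- coordinates of the Euler vectors. -/
theorem exists_e1 (W : TwoForm E w u) (hF : IsMap E F) {b : Basis ι (RatFunc κ) (TK E F)}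
    {d : ι → ℤ} (hs : Split (TK E F).subtype (tw F) b d) {t : ι → (Σ i, J i) → κ[X]}
    (ht : ∀ j x, ψX k κ (t j x) = (b j : (Σ i, J i) → RatFunc κ) x) (σ : S) :
    ∃ e : ι → κ[X], ∑ j, e j • t j = eul (u σ) F ∧ ∀ j, vinf κ (ψX k κ (e j)) ≤ exp (d j) := by
  have hmem : eul (u σ) (toR F) ∈ TK E F := W.eul_tan (RatFunc κ) (toR F) (onX_toR hF) σ
  have heq : eul (u σ) (toR F) = fun x => ψX k κ (eul (u σ) F x) := eul_map (ψX k κ) (u σ) F
  have h1 := (hs.poly ⟨eul (u σ) (toR F), hmem⟩).mp (fun x => by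
    rw [mem_polyS]
    refine ⟨eul (u σ) F x, ?_⟩
    show _ = eul (u σ) (toR F) x
    rw [heq]
    rfl)
  have h2 := (hs.inf ⟨eul (u σ) (toR F), hmem⟩).mp (fun x => by
    show vinf κ (eul (u σ) (toR F) x) ≤ exp (tw F x)
    rw [heq]
    show vinf κ (algebraMap κ[X] (RatFunc κ) (eul (u σ) F x)) ≤ exp ((cls F x.1 : ℕ) : ℤ)
    rw [vinf_le_iff]
    unfold eul
    refine (natDegree_mul_le).trans ?_
    have h3 : (algebraMap k κ[X] (u σ x.1)).natDegree = 0 := natDegree_C _
    rw [h3, zero_add]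
    exact natDegree_le_cls' F x.1 x.2)
  choose e he using fun j => (mem_polyS κ).mp (h1 j)
  refine ⟨e, ?_, fun j => ?_⟩
  · funext x
    apply ψX_inj (k := k)
    have h3 : (∑ j, e j • t j) x = ∑ j, e j * t j x := by
      rw [Finset.sum_apply]
      rfl
    have h4 : eul (u σ) (toR F) x = ψX k κ (eul (u σ) F x) := congrFun heq x
    rw [h3, map_sum, ← h4]
    have h5 := congrArg (fun z : TK E F => (z : (Σ i, J i) → RatFunc κ) x)
      (b.sum_repr ⟨eul (u σ) (toR F), hmem⟩)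
    refine Eq.trans ?_ h5
    simp only [Submodule.coe_sum, Submodule.coe_smul, Finset.sum_apply, Pi.smul_apply, smul_eq_mul]
    refine Finset.sum_congr rfl fun j _ => ?_
    rw [map_mul, ht]
    congr 1
    exact he j
  · have h3 : ψX k κ (e j) = b.repr ⟨eul (u σ) (toR F), hmem⟩ j := he j
    rw [h3]
    exact h2 j

/-- coordinates of the Euler vectors. -/
theorem exists_e (W : TwoForm E w u) (hF : IsMap E F) {b : Basis ι (RatFunc κ) (TK E F)}
    {d : ι → ℤ} (hs : Split (TK E F).subtype (tw F) b d) {t : ι → (Σ i, J i) → κ[X]}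
    (ht : ∀ j x, ψX k κ (t j x) = (b j : (Σ i, J i) → RatFunc κ) x) :
    ∃ e : Matrix ι S κ[X], (∀ σ, ∑ j, e j σ • t j = eul (u σ) F) ∧
      ∀ j σ, vinf κ (ψX k κ (e j σ)) ≤ exp (d j) := by
  choose e he hd using exists_e1 W hF hs ht
  exact ⟨Matrix.of fun j σ => e σ j, he, fun j σ => hd σ j⟩

end Crest.Agent.R260.Num_789
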