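import Mathlib
import Crest.Agent.R260.Num5_789

/-!
Row 260 (S0398), AG-NUM (helper789), part 6: the Gram matrix of the two-form in a splitting basis.
-/

set_option autoImplicit false

namespace Crest.Agent.R260.Num_789

open Module Polynomial Matrix WithZero Crest.Agent.R270.BM_360 Crest.Agent.R270.DimN_282
open Crest.Agent.R013.RR2_948

universe u

variable {k : Type u} [Field k] {I : Type} {J : I → Type} [Fintype I] [∀ i, Fintype (J i)]
  {E : Set (MvPolynomial (Σ i, J i) k)} {w : I → ℤ} {S : Type} [Fintype S] [DecidableEq S]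
  {u : S → I → k} {κ : Type u} [Field κ]
  [Algebra k κ] {F : ∀ i, J i → κ[X]} {ι : Type} [Fintype ι] [DecidableEq ι]

/-- finite places. -/
theorem TwoForm.fin_place (W : TwoForm E w u) {r : ℕ} (h7 : D7r E r) (hF : IsMap E F)
    (hι : Fintype.card ι = r) {b : Basis ι (RatFunc κ) (TK E F)}
    {d : ι → ℤ} (hs : Split (TK E F).subtype (tw F) b d) {t : ι → (Σ i, J i) → κ[X]}
    (ht : ∀ j x, ψX k κ (t j x) = (b j : (Σ i, J i) → RatFunc κ) x) {e : Matrix ι S κ[X]}
    (he : ∀ σ, ∑ j, e j σ • t j = eul (u σ) F) (G : Matrix ι ι (RatFunc κ))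
    (hG : ∀ c j l, evp (toR F) (W.g c) * G j l =
      bf (W.q c) (toR F) (b j : (Σ i, J i) → RatFunc κ) (b l : (Σ i, J i) → RatFunc κ))
    (h : RatFunc κ) (hh : HasH G (e.map (ψX k κ)) h)
    {p : κ[X]} (hp : Irreducible p) :
    (∃ Y : Matrix S ι κ[X], ¬ p ∣ (Y * e).det) ∧
      (∃ g : κ[X], ¬ p ∣ g ∧ ∀ j l, ∃ a, ψX k κ g * G j l = ψX k κ a) ∧
      (∃ g a : κ[X], ¬ p ∣ g ∧ ¬ p ∣ a ∧ ψX k κ g * h = ψX k κ a) := by
  have hm : (Ideal.span {p}).IsMaximal :=
    PrincipalIdealRing.isMaximal_of_irreducible hp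
  let _ : Field (κ[X] ⧸ Ideal.span {p}) := Ideal.Quotient.field _
  let φ : κ[X] →ₐ[k] (κ[X] ⧸ Ideal.span {p}) := Ideal.Quotient.mkₐ k (Ideal.span {p})
  have hφ : ∀ a : κ[X], φ a = 0 ↔ p ∣ a := by
    intro a
    show (Ideal.Quotient.mk (Ideal.span {p})) a = 0 ↔ _
    rw [Ideal.Quotient.eq_zero_iff_mem, Ideal.mem_span_singleton]
  have hφ' : ∀ a : κ[X], φ a ≠ 0 ↔ ¬ p ∣ a := fun a => not_congr (hφ a)
  have h0 : ∀ i, ∃ a, φ (F i a) ≠ 0 := by
    intro i
    by_contra hcon
    push Not at hcon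
    have h1 : (1 : κ[X]) ∈ Ideal.span (Set.range (F i)) := by
      have := hF.cop i
      rw [Cop] at this
      rw [this]; trivial
    have h2 : Ideal.span (Set.range (F i)) ≤ Ideal.span {p} := by
      rw [Ideal.span_le]
      rintro _ ⟨a, rfl⟩
      exact Ideal.mem_span_singleton.mpr ((hφ _).mp (hcon a))
    exact hm.ne_top ((Ideal.eq_top_iff_one _).mpr (h2 h1))
  have hli : LinearIndependent (κ[X] ⧸ Ideal.span {p}) fun j x => φ (t j x) := by
    rw [Fintype.linearIndependent_iff]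
    intro x hx j
    choose y hy using fun j => Ideal.Quotient.mk_surjective (I := Ideal.span {p}) (x j)
    have h1 : ∀ s, p ∣ ∑ j, y j * t j s := by
      intro s
      rw [← hφ, map_sum]
      have h2 := congrFun hx s
      rw [Finset.sum_apply, Pi.zero_apply] at h2
      rw [← h2]
      refine Finset.sum_congr rfl fun j _ => ?_
      rw [map_mul, Pi.smul_apply, smul_eq_mul, ← hy j]
      rfl
    have h2 := fin_li hs ht hp.ne_zero y h1 j
    rw [← hy j]
    exact (hφ _).mpr h2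
  have hv : (fun i a => ψX k κ (F i a)) = toR F := rfl
  have htb : ∀ j, (fun x => ψX k κ (t j x)) = (b j : (Σ i, J i) → RatFunc κ) :=
    fun j => funext (ht j)
  have := W.place h7 φ (Ideal.Quotient.mkₐ_surjective k _) (ψX k κ) ψX_inj hι F hF.on h0 t
    (jac_t ht) hli e he G (fun c j l => by
    rw [hv, htb, htb]
    exact hG c j l) h hh
  simp only [hφ'] at this
  exact this

omit [Fintype S] [DecidableEq S] [Fintype ι] [DecidableEq ι] in
/-- the classes at infinity. -/
theorem exists_vinf_one (hF : IsMap E F) (i : I) : ∃ a, vinf κ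
    ((RatFunc.X : RatFunc κ) ^ (-(cls F i : ℤ)) * toR F i a) = 1 := by
  have h1 := evI_ne_zero hF i
  obtain ⟨a, ha⟩ := Function.ne_iff.mp h1
  refine ⟨a, ?_⟩
  have ha' : (F i a).coeff (cls F i) ≠ 0 := ha
  have h2 : (F i a).natDegree = cls F i :=
    le_antisymm (natDegree_le_cls' F i a) (le_natDegree_of_ne_zero ha')
  have h3 : F i a ≠ 0 := by rintro h; rw [h, coeff_zero] at ha'; exact ha' rfl
  rw [map_mul, vinf_X_zpow]
  show _ * vinf κ (algebraMap κ[X] (RatFunc κ) (F i a)) = 1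
  rw [vinf_poly κ h3, ← exp_add, h2]
  simp

end Crest.Agent.R260.Num_789
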