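import Mathlib
import Crest.Agent.R260.Num6_789

/-!
Row 260 (S0398), AG-NUM (helper789), part 7: infinity.
-/

set_option autoImplicit false

namespace Crest.Agent.R260.Num_789

open Module Polynomial Matrix WithZero Crest.Agent.R270.BM_360 Crest.Agent.R270.DimN_282
open Crest.Agent.R013.RR2_948

universe u

section alg

variable (k : Type u) [Field k] (κ : Type u) [Field κ] [Algebra k κ]

theorem mem_Rinf_algebraMap (a : k) : algebraMap k (RatFunc κ) a ∈ Rinf κ := by
  rw [mem_Rinf]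
  have h1 : algebraMap k (RatFunc κ) a = RatFunc.C (algebraMap k κ a) := by
    rw [← algebraMap_eq_C]
    exact IsScalarTower.algebraMap_apply k κ (RatFunc κ) a
  rw [h1]
  exact vinf_C_le κ _

/-- the local ring at infinity as a `k`-algebra. -/
@[reducible] noncomputable def algRinf : Algebra k (Rinf κ) :=
  ((algebraMap k (RatFunc κ)).codRestrict (Rinf κ) (mem_Rinf_algebraMap k κ)).toAlgebra

end alg

variable {k : Type u} [Field k] {I : Type} {J : I → Type} [Fintype I] [∀ i, Fintype (J i)]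
  {E : Set (MvPolynomial (Σ i, J i) k)} {κ : Type u} [Field κ]
  [Algebra k κ] {F : ∀ i, J i → κ[X]} {ι : Type} [Fintype ι] [DecidableEq ι]

theorem isUnit_Rinf_iff (a : Rinf κ) : IsUnit a ↔ vinf κ (a : RatFunc κ) = 1 := by
  constructor
  · rintro ⟨v, rfl⟩
    have h1 : vinf κ ((v : Rinf κ) : RatFunc κ) ≤ 1 := (v : Rinf κ).2
    have h2 : vinf κ (((v⁻¹ : (Rinf κ)ˣ) : Rinf κ) : RatFunc κ) ≤ 1 := ((v⁻¹ : (Rinf κ)ˣ) : Rinf κ).2
    have h3 : ((v : Rinf κ) : RatFunc κ) * (((v⁻¹ : (Rinf κ)ˣ) : Rinf κ) : RatFunc κ) = 1 := by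
      have h4 := v.mul_inv
      have h5 := congrArg (Subtype.val : Rinf κ → RatFunc κ) h4
      exact h5
    have h6 := congrArg (vinf κ) h3
    rw [map_mul, map_one] at h6
    refine le_antisymm h1 ?_
    rw [← h6]
    exact mul_le_of_le_one_right' h2
  · intro h
    have h0 : (a : RatFunc κ) ≠ 0 := by
      intro h0
      rw [h0, map_zero] at h
      exact zero_ne_one h
    refine IsUnit.of_mul_eq_one ⟨(a : RatFunc κ)⁻¹, ?_⟩ ?_
    · rw [mem_Rinf, map_inv₀, h, inv_one]
    · apply Subtype.ext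
      exact mul_inv_cancel₀ h0

omit [Fintype ι] in
theorem zpow_prod (s : Finset ι) (d : ι → ℤ) :
    ∏ j ∈ s, (RatFunc.X : RatFunc κ) ^ d j = RatFunc.X ^ (∑ j ∈ s, d j) := by
  have hX : (RatFunc.X : RatFunc κ) ≠ 0 := RatFunc.X_ne_zero
  induction s using Finset.induction_on with
  | empty => simp
  | insert a s ha ih => rw [Finset.prod_insert ha, Finset.sum_insert ha, zpow_add₀ hX, ih]

/-- rescaling in the determinant identity. -/
theorem hasH_scale {S : Type} [Fintype S] [DecidableEq S] {G : Matrix ι ι (RatFunc κ)}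
    {e : Matrix ι S (RatFunc κ)} {h : RatFunc κ} (hh : HasH G e h) (m : ℤ) (d : ι → ℤ) :
    HasH (Matrix.of fun j l => (RatFunc.X : RatFunc κ) ^ (-m) *
      ((RatFunc.X : RatFunc κ) ^ d j * (RatFunc.X : RatFunc κ) ^ d l * G j l))
      (Matrix.of fun j σ => (RatFunc.X : RatFunc κ) ^ (-d j) * e j σ)
      ((RatFunc.X : RatFunc κ) ^ (2 * ∑ j, d j - m * ((Fintype.card ι : ℤ) - Fintype.card S)) *
        h) := by
  have hX : (RatFunc.X : RatFunc κ) ≠ 0 := RatFunc.X_ne_zero
  intro g hg Y Z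
  set x : RatFunc κ := (RatFunc.X : RatFunc κ) ^ (-m) with hx
  have hx0 : x ≠ 0 := zpow_ne_zero _ hX
  set D : ι → RatFunc κ := fun j => (RatFunc.X : RatFunc κ) ^ d j with hD
  set D' : ι → RatFunc κ := fun j => (RatFunc.X : RatFunc κ) ^ (-d j) with hD'
  have hDD : ∀ j, D' j * D j = 1 := by
    intro j
    rw [hD, hD']
    simp only
    rw [← zpow_add₀ hX]
    simp
  have h1 : g • (Matrix.of fun j l => x *
      ((RatFunc.X : RatFunc κ) ^ d j * (RatFunc.X : RatFunc κ) ^ d l * G j l)) + Yᵀ * Z =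
      diagonal D * ((g * x) • G + (Y * diagonal D')ᵀ * (Z * diagonal D')) * diagonal D := by
    ext a b
    rw [mul_diagonal, diagonal_mul, Matrix.add_apply, Matrix.add_apply, Matrix.smul_apply,
      Matrix.smul_apply, of_apply, smul_eq_mul, smul_eq_mul, Matrix.mul_apply, Matrix.mul_apply]
    simp only [transpose_apply, mul_diagonal]
    have h2 : D a * (∑ σ, Y σ a * D' a * (Z σ b * D' b)) * D b = ∑ σ, Y σ a * Z σ b := by
      rw [Finset.mul_sum, Finset.sum_mul]
      refine Finset.sum_congr rfl fun σ _ => ?_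
      calc _ = Y σ a * Z σ b * (D' a * D a) * (D' b * D b) := by ring
        _ = _ := by rw [hDD, hDD, mul_one, mul_one]
    rw [mul_add, add_mul, h2]
    congr 1
    rw [hD]
    ring
  have h3 : (Y * Matrix.of fun j σ => (RatFunc.X : RatFunc κ) ^ (-d j) * e j σ) =
      Y * diagonal D' * e := by
    rw [Matrix.mul_assoc]
    congr 1
    ext a b
    rw [diagonal_mul]
    rfl
  have h3' : (Z * Matrix.of fun j σ => (RatFunc.X : RatFunc κ) ^ (-d j) * e j σ) =
      Z * diagonal D' * e := by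
    rw [Matrix.mul_assoc]
    congr 1
    ext a b
    rw [diagonal_mul]
    rfl
  rw [h1, det_mul, det_mul, det_diagonal, hh (g * x) (mul_ne_zero hg hx0), h3, h3']
  have h4 : ∏ j, D j = (RatFunc.X : RatFunc κ) ^ (∑ j, d j) := zpow_prod _ _
  have h5 : (RatFunc.X : RatFunc κ) ^ (2 * ∑ j, d j -
      m * ((Fintype.card ι : ℤ) - Fintype.card S)) =
      (RatFunc.X : RatFunc κ) ^ (∑ j, d j) * (RatFunc.X : RatFunc κ) ^ (∑ j, d j) *
        (x ^ Fintype.card ι * x⁻¹ ^ Fintype.card S) := by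
    rw [hx, ← zpow_natCast, ← zpow_natCast, ← _root_.zpow_neg, ← _root_.zpow_mul, ← _root_.zpow_mul,
      ← zpow_add₀ hX, ← zpow_add₀ hX, ← zpow_add₀ hX]
    congr 1
    ring
  rw [h4, h5, mul_inv, mul_pow, mul_pow]
  ring

theorem vinf_mul_zpow_le {f : RatFunc κ} {m n : ℤ} :
    vinf κ ((RatFunc.X : RatFunc κ) ^ m * f) ≤ exp n ↔ vinf κ f ≤ exp (n - m) := by
  rw [map_mul, vinf_X_zpow]
  constructor
  · intro h
    calc vinf κ f = exp (-m) * (exp m * vinf κ f) := by rw [← mul_assoc, ← exp_add]; simp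
      _ ≤ exp (-m) * exp n := mul_le_mul_right h _
      _ = _ := by rw [← exp_add]; congr 1; ring
  · intro h
    calc _ ≤ exp m * exp (n - m) := mul_le_mul_right h _
      _ = _ := by rw [← exp_add]; congr 1; ring

omit [DecidableEq ι] in
/-- reductions of a splitting basis at infinity are independent. -/
theorem inf_li {b : Basis ι (RatFunc κ) (TK E F)} {d : ι → ℤ}
    (hs : Split (TK E F).subtype (tw F) b d) (y : ι → RatFunc κ)
    (hy : ∀ x, vinf κ (∑ j, y j * ((RatFunc.X : RatFunc κ) ^ d j *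
      ((RatFunc.X : RatFunc κ) ^ (-(cls F x.1 : ℤ)) * (b j : (Σ i, J i) → RatFunc κ) x))) < 1)
    (j : ι) : vinf κ (y j) < 1 := by
  have hX : (RatFunc.X : RatFunc κ) ≠ 0 := RatFunc.X_ne_zero
  set z : TK E F := ∑ j, ((RatFunc.X : RatFunc κ) ^ (d j + 1) * y j) • b j with hz
  have h1 : ∀ x, (TK E F).subtype z x = (RatFunc.X : RatFunc κ) ^ ((cls F x.1 : ℤ) + 1) *
      ∑ j, y j * ((RatFunc.X : RatFunc κ) ^ d j *
        ((RatFunc.X : RatFunc κ) ^ (-(cls F x.1 : ℤ)) * (b j : (Σ i, J i) → RatFunc κ) x)) := by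
    intro x
    rw [hz, map_sum, Finset.sum_apply, Finset.mul_sum]
    refine Finset.sum_congr rfl fun j _ => ?_
    rw [map_smul, Pi.smul_apply, smul_eq_mul]
    show _ * (b j : (Σ i, J i) → RatFunc κ) x = _
    have h3 : (RatFunc.X : RatFunc κ) ^ ((cls F x.1 : ℤ) + 1) *
        (RatFunc.X : RatFunc κ) ^ (-(cls F x.1 : ℤ)) = RatFunc.X := by
      rw [← zpow_add₀ hX]
      have : (cls F x.1 : ℤ) + 1 + -(cls F x.1 : ℤ) = 1 := by ring
      rw [this, zpow_one]
    rw [zpow_add₀ hX, zpow_one]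
    calc _ = (RatFunc.X : RatFunc κ) * (y j * (RatFunc.X ^ d j *
          (b j : (Σ i, J i) → RatFunc κ) x)) := by ring
      _ = ((RatFunc.X : RatFunc κ) ^ ((cls F x.1 : ℤ) + 1) *
        (RatFunc.X : RatFunc κ) ^ (-(cls F x.1 : ℤ))) * (y j * (RatFunc.X ^ d j *
          (b j : (Σ i, J i) → RatFunc κ) x)) := by rw [h3]
      _ = _ := by ring
  have h2 := (hs.inf z).mp (fun x => by
    rw [h1 x, vinf_mul_zpow_le]
    have h4 := hy x
    rw [lt_one_iff] at h4
    refine h4.trans ?_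
    rw [exp_le_exp]
    unfold tw
    omega) j
  rw [hz, b.repr_sum_self, vinf_mul_zpow_le] at h2
  rw [lt_one_iff]
  refine h2.trans ?_
  rw [exp_le_exp]
  omega

end Crest.Agent.R260.Num_789
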