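import Mathlib
import Crest.Agent.R260.Num7_789

/-!
Row 260 (S0398), AG-NUM (helper789), part 8: the place at infinity; the Gram matrix theorem.
-/

set_option autoImplicit false

namespace Crest.Agent.R260.Num_789

open Module Polynomial Matrix WithZero Crest.Agent.R270.BM_360 Crest.Agent.R270.DimN_282
open Crest.Agent.R013.RR2_948

universe u

variable {k : Type u} [Field k] {I : Type} {J : I → Type} [Fintype I] [∀ i, Fintype (J i)]
  {E : Set (MvPolynomial (Σ i, J i) k)} {w : I → ℤ} {S : Type} [Fintype S] [DecidableEq S]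
  {u : S → I → k} {κ : Type u} [Field κ] [Algebra k κ] {F : ∀ i, J i → κ[X]} {ι : Type} [Fintype ι] [DecidableEq ι]

theorem TwoForm.inf_place (W : TwoForm E w u) {r : ℕ} (h7 : D7r E r) (hE : MHom E)
    (hF : IsMap E F) (hι : Fintype.card ι = r) {b : Basis ι (RatFunc κ) (TK E F)}
    {d : ι → ℤ} (hs : Split (TK E F).subtype (tw F) b d) {t : ι → (Σ i, J i) → κ[X]}
    (ht : ∀ j x, ψX k κ (t j x) = (b j : (Σ i, J i) → RatFunc κ) x) {e : Matrix ι S κ[X]}
    (he : ∀ σ, ∑ j, e j σ • t j = eul (u σ) F) (hed : ∀ j σ, vinf κ (ψX k κ (e j σ)) ≤ exp (d j))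
    (G : Matrix ι ι (RatFunc κ))
    (hG : ∀ c j l, evp (toR F) (W.g c) * G j l =
      bf (W.q c) (toR F) (b j : (Σ i, J i) → RatFunc κ) (b l : (Σ i, J i) → RatFunc κ))
    (h : RatFunc κ) (hh : HasH G (e.map (ψX k κ)) h)
    (hv : vinf κ h = 1) :
    (∃ Y : Matrix S ι (RatFunc κ), (∀ σ j, vinf κ (Y σ j) ≤ 1) ∧ vinf κ (Y * Matrix.of fun j σ =>
        (RatFunc.X : RatFunc κ) ^ (-d j) * ψX k κ (e j σ)).det = 1) ∧
      (∀ j l, vinf κ (G j l) ≤ exp (wdeg w F - d j - d l)) ∧
      2 * ∑ j, d j = ((Fintype.card ι : ℤ) - Fintype.card S) * wdeg w F := by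
  have hX : (RatFunc.X : RatFunc κ) ≠ 0 := RatFunc.X_ne_zero
  let _ : Algebra k (Rinf κ) := algRinf k κ
  let ψ : Rinf κ →ₐ[k] RatFunc κ := { (Rinf κ).subtype with commutes' := fun _ => rfl }
  let φ : Rinf κ →ₐ[k] IsLocalRing.ResidueField (Rinf κ) :=
    { IsLocalRing.residue (Rinf κ) with commutes' := fun _ => rfl }
  have hψ : ∀ a : Rinf κ, ψ a = (a : RatFunc κ) := fun _ => rfl
  have hψi : Function.Injective ψ := Subtype.val_injective
  have hφ : ∀ a : Rinf κ, φ a ≠ 0 ↔ vinf κ (a : RatFunc κ) = 1 := by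
    intro a
    rw [← isUnit_Rinf_iff]
    exact IsLocalRing.residue_ne_zero_iff_isUnit a
  have hφ0 : ∀ a : Rinf κ, φ a = 0 ↔ vinf κ (a : RatFunc κ) < 1 := by
    intro a
    have h1 : vinf κ (a : RatFunc κ) ≤ 1 := a.2
    rw [← not_iff_not, ← ne_eq, hφ, not_lt]
    exact ⟨fun h => h.ge, fun h => le_antisymm h1 h⟩
  -- the scaled point
  set c : I → RatFunc κ := fun i => (RatFunc.X : RatFunc κ) ^ (-(cls F i : ℤ)) with hc
  have hc0 : ∀ i, c i ≠ 0 := fun i => zpow_ne_zero _ hX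
  let vt : ∀ i, J i → Rinf κ := fun i a => ⟨c i * toR F i a, by
    rw [mem_Rinf, ← exp_zero, hc]
    simp only
    rw [vinf_mul_zpow_le]
    have h1 : (0 : ℤ) - -(cls F i : ℤ) = ((cls F i : ℕ) : ℤ) := by ring
    rw [h1]
    exact vinf_le_iff.mpr (natDegree_le_cls' F i a)⟩
  have hvt : (fun i a => ψ (vt i a)) = fun i a => c i * toR F i a := rfl
  have hon : OnX E vt := by
    intro p hp
    apply hψi
    rw [map_zero]
    have h1 := onX_scale hE c (toR F) (onX_toR hF) p hp
    rw [← h1]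
    exact (evp_map ψ vt p).symm
  have h0 : ∀ i, ∃ a, φ (vt i a) ≠ 0 := by
    intro i
    obtain ⟨a, ha⟩ := exists_vinf_one hF i
    exact ⟨a, (hφ _).mpr ha⟩
  -- the scaled basis
  have hb1 : ∀ j x, vinf κ ((RatFunc.X : RatFunc κ) ^ d j * (b j : (Σ i, J i) → RatFunc κ) x) ≤
      exp (tw F x) := by
    intro j x
    have h1 := (hs.inf ((RatFunc.X : RatFunc κ) ^ d j • b j)).mpr (fun l => by
      rw [map_smul, b.repr_self, Finsupp.smul_apply, Finsupp.single_apply, smul_eq_mul]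
      split_ifs with hjl
      · rw [mul_one, vinf_X_zpow, hjl]
      · rw [mul_zero, map_zero]
        exact zero_le) x
    rw [map_smul, Pi.smul_apply, smul_eq_mul] at h1
    exact h1
  let tt : ι → (Σ i, J i) → Rinf κ := fun j x =>
    ⟨(RatFunc.X : RatFunc κ) ^ d j * (c x.1 * (b j : (Σ i, J i) → RatFunc κ) x), by
      rw [mem_Rinf, ← exp_zero]
      have h1 : (RatFunc.X : RatFunc κ) ^ d j * (c x.1 * (b j : (Σ i, J i) → RatFunc κ) x) =
        (RatFunc.X : RatFunc κ) ^ (-(cls F x.1 : ℤ)) *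
          ((RatFunc.X : RatFunc κ) ^ d j * (b j : (Σ i, J i) → RatFunc κ) x) := by
        rw [hc]; ring
      rw [h1, vinf_mul_zpow_le]
      have h2 : (0 : ℤ) - -(cls F x.1 : ℤ) = tw F x := by unfold tw; ring
      rw [h2]
      exact hb1 j x⟩
  have htt : ∀ j, (fun x => ψ (tt j x)) = fun x => (RatFunc.X : RatFunc κ) ^ d j *
    ((fun x => c x.1 * (b j : (Σ i, J i) → RatFunc κ) x) x) := fun j => rfl
  have hjt : ∀ j, jac E vt (tt j) = 0 := by
    intro j
    have h1 : jac E (toR F) (b j : (Σ i, J i) → RatFunc κ) = 0 := (b j).2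
    have h2 := jac_smul_eq_zero _ _ ((RatFunc.X : RatFunc κ) ^ d j)
      (jac_scale_eq_zero hE c (toR F) _ h1)
    funext p
    apply hψi
    rw [← jac_map E ψ vt (tt j), Pi.zero_apply, map_zero]
    exact congrFun h2 p
  have hli : LinearIndependent (IsLocalRing.ResidueField (Rinf κ)) fun j x => φ (tt j x) := by
    rw [Fintype.linearIndependent_iff]
    intro x hx j
    choose y hy using fun j => IsLocalRing.residue_surjective (R := Rinf κ) (x j)
    have h2 := inf_li hs (fun j => (y j : RatFunc κ)) (fun s => by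
      have h3 : φ (∑ j, y j * tt j s) = 0 := by
        rw [map_sum]
        have h4 := congrFun hx s
        rw [Finset.sum_apply, Pi.zero_apply] at h4
        rw [← h4]
        refine Finset.sum_congr rfl fun j _ => ?_
        rw [map_mul, Pi.smul_apply, smul_eq_mul, ← hy j]
        rfl
      rw [hφ0] at h3
      have h5 : ((∑ j, y j * tt j s : Rinf κ) : RatFunc κ) = ∑ j, (y j : RatFunc κ) *
        ((RatFunc.X : RatFunc κ) ^ d j * ((RatFunc.X : RatFunc κ) ^ (-(cls F s.1 : ℤ)) *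
          (b j : (Σ i, J i) → RatFunc κ) s)) := by
        have h6 := map_sum ψ (fun j => y j * tt j s) Finset.univ
        simp only [map_mul] at h6
        exact h6
      rw [h5] at h3
      exact h3) j
    rw [← hy j]
    exact (hφ0 (y j)).mpr h2
  -- the scaled Euler coordinates
  let et : Matrix ι S (Rinf κ) := Matrix.of fun j σ =>
    ⟨(RatFunc.X : RatFunc κ) ^ (-d j) * ψX k κ (e j σ), by
      rw [mem_Rinf, ← exp_zero, vinf_mul_zpow_le]
      have h1 : (0 : ℤ) - -d j = d j := by ring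
      rw [h1]
      exact hed j σ⟩
  have het : ∀ σ, ∑ j, et j σ • tt j = eul (u σ) vt := by
    intro σ
    funext x
    apply hψi
    have h1 : ψ ((∑ j, et j σ • tt j) x) = ∑ j, ψ (et j σ) * ψ (tt j x) := by
      rw [Finset.sum_apply, map_sum]
      exact Finset.sum_congr rfl fun j _ => by rw [Pi.smul_apply, smul_eq_mul, map_mul]
    have h2 : ψ (eul (u σ) vt x) = c x.1 * eul (u σ) (toR F) x := by
      have h3 := congrFun (eul_map ψ (u σ) vt) x
      rw [← h3, hvt, eul_scale]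
    have h4 : eul (u σ) (toR F) x =
        ∑ j, ψX k κ (e j σ) * (b j : (Σ i, J i) → RatFunc κ) x := by
      have h5 := congrFun (eul_map (ψX k κ) (u σ) F) x
      have h6 : eul (u σ) (toR F) x = ψX k κ (eul (u σ) F x) := h5
      rw [h6, ← he, Finset.sum_apply, map_sum]
      exact Finset.sum_congr rfl fun j _ => by rw [Pi.smul_apply, smul_eq_mul, map_mul, ht]
    rw [h1, h2, h4, Finset.mul_sum]
    refine Finset.sum_congr rfl fun j _ => ?_
    show (RatFunc.X : RatFunc κ) ^ (-d j) * ψX k κ (e j σ) * ((RatFunc.X : RatFunc κ) ^ d j *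
      (c x.1 * (b j : (Σ i, J i) → RatFunc κ) x)) = _
    have h7 : (RatFunc.X : RatFunc κ) ^ (-d j) * (RatFunc.X : RatFunc κ) ^ d j = 1 := by
      rw [← zpow_add₀ hX]; simp
    calc _ = ((RatFunc.X : RatFunc κ) ^ (-d j) * (RatFunc.X : RatFunc κ) ^ d j) *
          (c x.1 * (ψX k κ (e j σ) * (b j : (Σ i, J i) → RatFunc κ) x)) := by ring
      _ = _ := by rw [h7, one_mul]
  -- the scaled Gram matrix
  set Gt : Matrix ι ι (RatFunc κ) := Matrix.of fun j l => (RatFunc.X : RatFunc κ) ^ (-wdeg w F) *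
      ((RatFunc.X : RatFunc κ) ^ d j * (RatFunc.X : RatFunc κ) ^ d l * G j l) with hGt
  have hGt' : ∀ m j l, evp (fun i a => ψ (vt i a)) (W.g m) * Gt j l =
      bf (W.q m) (fun i a => ψ (vt i a)) (fun x => ψ (tt j x)) (fun x => ψ (tt l x)) := by
    classical
    intro m j l
    rw [hvt, htt, htt, bf_smul_smul, W.bf_scale m c hc0, ← hG, evp_scale (by convert W.hg m) c]
    have h1 : ∏ i, c i ^ ((W.dg m i : ℤ) + w i) = (∏ i, c i ^ W.dg m i) *
        (RatFunc.X : RatFunc κ) ^ (-wdeg w F) := by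
      have h2 : ∀ i, c i ^ ((W.dg m i : ℤ) + w i) = c i ^ W.dg m i *
          (RatFunc.X : RatFunc κ) ^ (-(w i * (cls F i : ℤ))) := by
        intro i
        rw [zpow_add₀ (hc0 i), zpow_natCast, hc]
        simp only
        rw [← _root_.zpow_mul]
        congr 2
        ring
      rw [Finset.prod_congr rfl fun i _ => h2 i, Finset.prod_mul_distrib]
      congr 1
      have h3 : ∀ s : Finset I, ∏ i ∈ s, (RatFunc.X : RatFunc κ) ^ (-(w i * (cls F i : ℤ))) =
          (RatFunc.X : RatFunc κ) ^ (-∑ i ∈ s, w i * (cls F i : ℤ)) := by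
        intro s
        induction s using Finset.induction_on with
        | empty => simp
        | insert a s ha ih =>
          rw [Finset.prod_insert ha, Finset.sum_insert ha, ih, ← zpow_add₀ hX]
          congr 1
          ring
      exact h3 _
    rw [h1, hGt, of_apply]
    ring
  have hadj : HasH Gt (et.map ψ) ((RatFunc.X : RatFunc κ) ^
      (2 * ∑ j, d j - wdeg w F * ((Fintype.card ι : ℤ) - Fintype.card S)) * h) :=
    hasH_scale hh (wdeg w F) d
  have hφs : Function.Surjective φ := IsLocalRing.residue_surjective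
  obtain ⟨⟨Y, hY⟩, ⟨g, hg, hgG⟩, ⟨g1, a1, hg1, ha1, hga1⟩⟩ :=
    W.place h7 φ hφs ψ hψi hι vt hon h0 tt hjt hli et het Gt hGt' _ hadj
  refine ⟨⟨Y.map ψ, fun σ j => (Y σ j).2, ?_⟩, ?_, ?_⟩
  · have h1 : vinf κ (((Y * et).det : Rinf κ) : RatFunc κ) = 1 := (hφ _).mp hY
    have h2 : ψ (Y * et).det = ((Y * et).map ψ).det := RingHom.map_det (ψ : Rinf κ →+* RatFunc κ) (Y * et)
    rw [← hψ, h2] at h1
    have h3 : (Y * et).map ψ = Y.map ψ * et.map ψ := by rw [← Matrix.map_mul]
    rw [h3] at h1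
    exact h1
  · intro j l
    obtain ⟨a, ha⟩ := hgG j l
    have h1 := congrArg (vinf κ) ha
    rw [map_mul, hψ, (hφ g).mp hg, one_mul, hψ] at h1
    have h2 : vinf κ (Gt j l) ≤ exp 0 := by rw [h1, exp_zero]; exact a.2
    rw [hGt, of_apply] at h2
    have h3 : (RatFunc.X : RatFunc κ) ^ (-wdeg w F) * ((RatFunc.X : RatFunc κ) ^ d j *
        (RatFunc.X : RatFunc κ) ^ d l * G j l) =
        (RatFunc.X : RatFunc κ) ^ (-wdeg w F + d j + d l) * G j l := by
      rw [zpow_add₀ hX, zpow_add₀ hX]; ring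
    rw [h3, vinf_mul_zpow_le] at h2
    refine h2.trans ?_
    rw [exp_le_exp]
    omega
  · have h1 := congrArg (vinf κ) hga1
    rw [map_mul, hψ, (hφ g1).mp hg1, one_mul, hψ, (hφ a1).mp ha1, map_mul, vinf_X_zpow, hv,
      mul_one, ← exp_zero, exp_inj] at h1
    linarith

end Crest.Agent.R260.Num_789
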