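import Mathlib
import Crest.Agent.R260.Num8_789

/-!
Row 260 (S0398), AG-NUM (helper789), part 9: the Gram matrix theorem, the degree of the tangent
bundle of the multicone, duality of the splitting type.
-/

set_option autoImplicit false

namespace Crest.Agent.R260.Num_789

open Module Polynomial Matrix WithZero Crest.Agent.R270.BM_360 Crest.Agent.R270.DimN_282
open Crest.Agent.R013.RR2_948

universe u

variable {k : Type u} [Field k] {I : Type} {J : I → Type} [Fintype I] [∀ i, Fintype (J i)]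
  {E : Set (MvPolynomial (Σ i, J i) k)} {w : I → ℤ} {S : Type} [Fintype S] [DecidableEq S]
  {u : S → I → k} {κ : Type u} [Field κ] [Algebra k κ] {F : ∀ i, J i → κ[X]}

variable {ι : Type} [Fintype ι]

omit [Fintype S] [DecidableEq S] in
theorem card_eq {r : ℕ} (h7 : D7r E r) (hF : IsMap E F) (b : Basis ι (RatFunc κ) (TK E F)) :
    Fintype.card ι = r := by
  rw [← Module.finrank_eq_card_basis b]
  exact h7 (RatFunc κ) (toR F) (onX_toR hF) (toR_ne_zero hF)

/-- the conclusions of the Gram matrix theorem. -/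
structure Gram [DecidableEq ι] (W : TwoForm E w u) (F : ∀ i, J i → κ[X])
    (b : Basis ι (RatFunc κ) (TK E F)) (d : ι → ℤ) (t : ι → (Σ i, J i) → κ[X])
    (e : Matrix ι S κ[X]) (G : Matrix ι ι κ[X]) : Prop where
  ht : ∀ j x, ψX k κ (t j x) = (b j : (Σ i, J i) → RatFunc κ) x
  he : ∀ σ, ∑ j, e j σ • t j = eul (u σ) F
  hG : ∀ c j l, evp F (W.g c) * G j l = bf (W.q c) F (t j) (t l)
  skew : ∀ j l, G j l = - G l j
  fin : ∀ p : κ[X], Irreducible p → ∃ Y : Matrix S ι κ[X], ¬ p ∣ (Y * e).det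
  Gdeg : ∀ j l, vinf κ (ψX k κ (G j l)) ≤ exp (wdeg w F - d j - d l)
  sum : 2 * ∑ j, d j = ((Fintype.card ι : ℤ) - Fintype.card S) * wdeg w F
  dual : ∀ j, d j ≤ 0 ∨ ∃ l, G j l ≠ 0

/-- **Gram matrix theorem**. -/
theorem TwoForm.gram [DecidableEq ι] (W : TwoForm E w u) {r : ℕ} (h7 : D7r E r) (hE : MHom E)
    (hF : IsMap E F) {b : Basis ι (RatFunc κ) (TK E F)}
    {d : ι → ℤ} (hs : Split (TK E F).subtype (tw F) b d) :
    ∃ (t : ι → (Σ i, J i) → κ[X]) (e : Matrix ι S κ[X]) (G : Matrix ι ι κ[X]),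
      Gram W F b d t e G := by
  have hX : (RatFunc.X : RatFunc κ) ≠ 0 := RatFunc.X_ne_zero
  have hι := card_eq h7 hF b
  obtain ⟨t, ht⟩ := exists_t hs
  obtain ⟨e, he, hed⟩ := exists_e W hF hs ht
  have hon := onX_toR (k := k) hF
  have hne := toR_ne_zero (k := k) hF
  have hb : ∀ j, jac E (toR F) (b j : (Σ i, J i) → RatFunc κ) = 0 := fun j => (b j).2
  obtain ⟨c₀, hc₀⟩ := W.cov (RatFunc κ) (toR F) hon hne
  set G : Matrix ι ι (RatFunc κ) := Matrix.of fun j l =>
    (evp (toR F) (W.g c₀))⁻¹ * bf (W.q c₀) (toR F) (b j : (Σ i, J i) → RatFunc κ)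
      (b l : (Σ i, J i) → RatFunc κ) with hGdef
  have hG : ∀ c j l, evp (toR F) (W.g c) * G j l =
      bf (W.q c) (toR F) (b j : (Σ i, J i) → RatFunc κ) (b l : (Σ i, J i) → RatFunc κ) := by
    intro c j l
    have h1 := W.compat (RatFunc κ) (toR F) (b j : (Σ i, J i) → RatFunc κ)
      (b l : (Σ i, J i) → RatFunc κ) hon hne (hb j) (hb l) c₀ c
    rw [hGdef, of_apply]
    calc _ = (evp (toR F) (W.g c₀))⁻¹ * (evp (toR F) (W.g c) * bf (W.q c₀) (toR F)
            (b j : (Σ i, J i) → RatFunc κ) (b l : (Σ i, J i) → RatFunc κ)) := by ring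
      _ = _ := by rw [← h1, ← mul_assoc, inv_mul_cancel₀ hc₀, one_mul]
  have hskew : ∀ j l, G j l = - G l j := by
    intro j l
    rw [hGdef, of_apply, of_apply, bf_skew (W.skew c₀)]
    ring
  have heK : ∀ σ, ∑ j, ψX k κ (e j σ) • (b j : (Σ i, J i) → RatFunc κ) = eul (u σ) (toR F) := by
    intro σ
    funext x
    have h5 : eul (u σ) (toR F) x = ψX k κ (eul (u σ) F x) := congrFun (eul_map (ψX k κ) (u σ) F) x
    rw [h5, ← he, Finset.sum_apply, Finset.sum_apply, map_sum]
    exact Finset.sum_congr rfl fun j _ => by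
      rw [Pi.smul_apply, Pi.smul_apply, smul_eq_mul, smul_eq_mul, map_mul, ht]
  set eK : Matrix ι S (RatFunc κ) := e.map (ψX k κ) with heKdef
  have hkerK : G * eK = 0 := by
    ext j σ
    rw [Matrix.mul_apply, Matrix.zero_apply]
    have h1 : ∑ l, G j l * eK l σ = (evp (toR F) (W.g c₀))⁻¹ *
        bf (W.q c₀) (toR F) (b j : (Σ i, J i) → RatFunc κ)
          (∑ l, ψX k κ (e l σ) • (b l : (Σ i, J i) → RatFunc κ)) := by
      rw [bf_sum, Finset.mul_sum]
      exact Finset.sum_congr rfl fun l _ => by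
        rw [hGdef, of_apply, heKdef, Matrix.map_apply]; ring
    rw [h1, heK, bf_skew (W.skew c₀), W.eul_rad _ _ _ hon hne (hb j), neg_zero, mul_zero]
  have hGt : Gᵀ = -G := by
    ext j l
    rw [transpose_apply, neg_apply, hskew l j]
  have hker' : eKᵀ * G = 0 := by
    have h1 := congrArg Matrix.transpose hkerK
    rw [transpose_mul, hGt, Matrix.mul_neg, transpose_zero, neg_eq_zero] at h1
    exact h1
  have hcomb : ∀ x : S → RatFunc κ, ∑ σ, x σ • eul (u σ) (toR F) =
      ∑ j, (eK *ᵥ x) j • (b j : (Σ i, J i) → RatFunc κ) := by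
    intro x
    simp only [← heK, Finset.smul_sum, smul_smul, mulVec, dotProduct, Finset.sum_smul,
      heKdef, Matrix.map_apply]
    rw [Finset.sum_comm]
    refine Finset.sum_congr rfl fun j _ => Finset.sum_congr rfl fun σ _ => ?_
    rw [mul_comm]
  have heinj : ∀ x : S → RatFunc κ, eK *ᵥ x = 0 → x = 0 := by
    intro x hx
    apply W.eul_li hne
    rw [hcomb, hx]
    exact Finset.sum_eq_zero fun j _ => by rw [Pi.zero_apply, zero_smul]
  obtain ⟨Y0, hY0⟩ := exists_left_inv eK heinj
  obtain ⟨h, hh⟩ := exists_h G eK Y0 hY0 hkerK hker'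
  have hfin := fun (p : κ[X]) (hp : Irreducible p) =>
    W.fin_place h7 hF hι hs ht he G hG h hh hp
  have hh0 : h ≠ 0 := by
    rintro rfl
    obtain ⟨-, -, g, a, -, ha, hga⟩ := hfin X Polynomial.irreducible_X
    rw [mul_zero] at hga
    exact ha (by
      have : a = 0 := ψX_inj (k := k) (by rw [← hga, map_zero])
      rw [this]; exact dvd_zero _)
  obtain ⟨h', hh'0, hh'⟩ := exists_C_of (f := h)
    (fun p hp => by
      obtain ⟨g, a, hg, -, hga⟩ := (hfin p hp).2.2
      exact ⟨g, a, hg, hga⟩)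
    (fun p hp => by
      obtain ⟨g, a, -, ha, hga⟩ := (hfin p hp).2.2
      exact ⟨g, a, ha, hga⟩) hh0
  have hv : vinf κ h = 1 := by
    rw [← hh', vinf_poly κ (by rwa [Ne, C_eq_zero]), natDegree_C]
    simp
  obtain ⟨hinf, hdeg, hsum⟩ := W.inf_place h7 hE hF hι hs ht he hed G hG h hh hv
  have hpoly : ∀ j l, ∃ q : κ[X], ψX k κ q = G j l := fun j l => exists_poly_of fun p hp => by
    obtain ⟨-, ⟨g, hg, hgG⟩, -⟩ := hfin p hp
    obtain ⟨a, ha⟩ := hgG j l
    exact ⟨g, a, hg, ha⟩
  choose Gp hGp using hpoly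
  refine ⟨t, e, Matrix.of Gp, ht, he, ?_, ?_, fun p hp => (hfin p hp).1, ?_, hsum, ?_⟩
  · intro c j l
    apply ψX_inj (k := k)
    have h1 := hG c j l
    have h2 : evp (toR F) (W.g c) = ψX k κ (evp F (W.g c)) := evp_map (ψX k κ) F (W.g c)
    have h3 : bf (W.q c) (toR F) (b j : (Σ i, J i) → RatFunc κ) (b l : (Σ i, J i) → RatFunc κ) =
        ψX k κ (bf (W.q c) F (t j) (t l)) := by
      rw [← bf_map]
      congr 1
      · exact (funext (ht j)).symm
      · exact (funext (ht l)).symm
    rw [map_mul, of_apply, hGp, ← h2, h1, h3]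
  · intro j l
    apply ψX_inj (k := k)
    rw [map_neg, of_apply, of_apply, hGp, hGp]
    exact hskew j l
  · intro j l
    rw [of_apply, hGp]
    exact hdeg j l
  · -- duality
    intro j
    by_contra hcon
    push Not at hcon
    obtain ⟨hdj, hGj⟩ := hcon
    have hG0 : ∀ l, G j l = 0 := by
      intro l
      rw [← hGp, ← of_apply Gp, hGj, map_zero]
    -- `b j` is in the radical
    have hrad : ∀ t', jac E (toR F) t' = 0 →
        bf (W.q c₀) (toR F) (b j : (Σ i, J i) → RatFunc κ) t' = 0 := by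
      intro t' ht'
      have h1 : t' = ∑ l, b.repr ⟨t', ht'⟩ l • (b l : (Σ i, J i) → RatFunc κ) := by
        have h2 := congrArg (fun z : TK E F => (z : (Σ i, J i) → RatFunc κ))
          (b.sum_repr ⟨t', ht'⟩)
        simp only [Submodule.coe_sum, Submodule.coe_smul] at h2
        exact h2.symm
      rw [h1, bf_sum]
      refine Finset.sum_eq_zero fun l _ => ?_
      rw [← hG c₀, hG0, mul_zero, mul_zero]
    obtain ⟨a, ha⟩ := W.rad (RatFunc κ) (toR F) _ hon hne (hb j) c₀ hc₀ hrad
    have hδ : eK *ᵥ a = Pi.single j 1 := by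
      rw [hcomb] at ha
      have h1 : b j = ∑ l, (eK *ᵥ a) l • b l := by
        apply Subtype.ext
        simp only [Submodule.coe_sum, Submodule.coe_smul]
        exact ha
      funext l
      have h2 := congrArg (fun z => b.repr z l) h1
      simp only [b.repr_self, b.repr_sum_self] at h2
      rw [← h2, Finsupp.single_apply, Pi.single_apply]
      simp only [eq_comm]
    -- regular at the finite places
    have hapoly : ∀ σ, ∃ q : κ[X], ψX k κ q = a σ := fun σ => exists_poly_of fun p hp => by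
      obtain ⟨Y, hY⟩ := (hfin p hp).1
      have h1 : (Y.map (ψX k κ) * eK) *ᵥ a = fun τ => ψX k κ (Y τ j) := by
        rw [← mulVec_mulVec, hδ]
        funext τ
        rw [mulVec_single_one]
        rfl
      have h2 : (Y.map (ψX k κ) * eK) = (Y * e).map (ψX k κ) := by
        rw [Matrix.map_mul]
      have h3 := congrArg (fun z => (Y.map (ψX k κ) * eK).adjugate *ᵥ z) h1
      simp only [mulVec_mulVec, adjugate_mul, smul_mulVec, one_mulVec] at h3
      have h4 := congrFun h3 σ
      rw [Pi.smul_apply, smul_eq_mul, h2] at h4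
      have h5 : ((Y * e).map (ψX k κ)).det = ψX k κ (Y * e).det :=
        (RingHom.map_det ((ψX k κ) : κ[X] →+* RatFunc κ) (Y * e)).symm
      have h6 : ((Y * e).map (ψX k κ)).adjugate = (Y * e).adjugate.map (ψX k κ) :=
        (RingHom.map_adjugate ((ψX k κ) : κ[X] →+* RatFunc κ) (Y * e)).symm
      refine ⟨(Y * e).det, ∑ τ, (Y * e).adjugate σ τ * Y τ j, hY, ?_⟩
      have h7 : ψX k κ (Y * e).det * a σ = ψX k κ (∑ τ, (Y * e).adjugate σ τ * Y τ j) := by
        rw [← h5, h4, h6, map_sum]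
        simp only [mulVec, dotProduct, Matrix.map_apply, map_mul]
      exact h7
    -- bounded at infinity
    obtain ⟨Y, hY1, hY2⟩ := hinf
    set et : Matrix ι S (RatFunc κ) :=
      Matrix.of fun j σ => (RatFunc.X : RatFunc κ) ^ (-d j) * ψX k κ (e j σ) with het
    have h1 : et *ᵥ a = (RatFunc.X : RatFunc κ) ^ (-d j) • Pi.single j 1 := by
      funext l
      have h2 : (et *ᵥ a) l = (RatFunc.X : RatFunc κ) ^ (-d l) * (eK *ᵥ a) l := by
        simp only [mulVec, dotProduct, Finset.mul_sum, het, of_apply, heKdef, Matrix.map_apply,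
          mul_assoc]
      rw [h2, hδ, Pi.smul_apply, smul_eq_mul, Pi.single_apply]
      split_ifs with hl
      · rw [hl]
      · rw [mul_zero, mul_zero]
    have h2 : (Y * et) *ᵥ a = (RatFunc.X : RatFunc κ) ^ (-d j) • fun τ => Y τ j := by
      rw [← mulVec_mulVec, h1, mulVec_smul]
      congr 1
      funext τ
      rw [mulVec_single_one]
      rfl
    have h3 := congrArg (fun z => (Y * et).adjugate *ᵥ z) h2
    simp only [mulVec_mulVec, adjugate_mul, smul_mulVec, one_mulVec, mulVec_smul] at h3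
    have hetint : ∀ l σ, vinf κ (et l σ) ≤ 1 := by
      intro l σ
      rw [het, of_apply, ← exp_zero, vinf_mul_zpow_le]
      have : (0 : ℤ) - -d l = d l := by ring
      rw [this]
      exact hed l σ
    have hYe : ∀ σ τ, vinf κ ((Y * et) σ τ) ≤ 1 := by
      intro σ τ
      rw [Matrix.mul_apply]
      refine Valuation.map_sum_le _ fun l _ => ?_
      rw [map_mul]
      exact mul_le_one' (hY1 _ _) (hetint _ _)
    have hadj : ∀ σ τ, vinf κ ((Y * et).adjugate σ τ) ≤ 1 := by
      intro σ τ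
      rw [adjugate_apply]
      apply det_le_one
      intro i j
      rw [updateRow_apply]
      split_ifs
      · rw [Pi.single_apply]
        split_ifs
        · rw [map_one]
        · rw [map_zero]; exact zero_le
      · exact hYe _ _
    have ha1 : ∀ σ, vinf κ (a σ) ≤ exp (-d j) := by
      intro σ
      have h4 := congrArg (vinf κ) (congrFun h3 σ)
      rw [Pi.smul_apply, Pi.smul_apply, smul_eq_mul, smul_eq_mul, map_mul, map_mul, hY2, one_mul,
        vinf_X_zpow] at h4
      rw [h4]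
      have h5 : vinf κ (((Y * et).adjugate *ᵥ fun τ => Y τ j) σ) ≤ 1 := by
        simp only [mulVec, dotProduct]
        refine Valuation.map_sum_le _ fun τ _ => ?_
        rw [map_mul]
        exact mul_le_one' (hadj _ _) (hY1 _ _)
      calc _ ≤ exp (-d j) * 1 := mul_le_mul_right h5 _
        _ = _ := mul_one _
    have ha0 : a ≠ 0 := by
      rintro rfl
      rw [mulVec_zero] at hδ
      have h4 := congrFun hδ j
      rw [Pi.zero_apply, Pi.single_eq_same] at h4
      exact zero_ne_one h4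
    obtain ⟨σ, hσ⟩ := Function.ne_iff.mp ha0
    rw [Pi.zero_apply] at hσ
    obtain ⟨q, hq⟩ := hapoly σ
    have hq0 : q ≠ 0 := by
      rintro rfl
      rw [map_zero] at hq
      exact hσ hq.symm
    have h4 := ha1 σ
    rw [← hq] at h4
    have h5 : (1 : ℤᵐ⁰) ≤ exp (-d j) := (vinf_poly_one_le κ hq0).trans h4
    rw [← exp_zero, exp_le_exp] at h5
    omega

end Crest.Agent.R260.Num_789
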