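import Mathlib
import Crest.Agent.R260.Num9_789
import Crest.Agent.R260.Frm3_428

/-!
Row 260 (S0398), AG-NUM (helper789), part 11: reduced bases (helper428) are splitting bases
(helper282).
-/

set_option autoImplicit false

namespace Crest.Agent.R260.Num_789

open Module Polynomial WithZero Crest.Agent.R270.BM_360 Crest.Agent.R270.DimN_282
open Crest.Agent.R013.RR2_948
open Crest.Agent.R260.Frm1_428 Crest.Agent.R260.Frm2_428 Crest.Agent.R260.Frm3_428

universe u

section dle

variable {κ : Type u} [Field κ]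

theorem dle_iff {A : ℤ} {p : κ[X]} :
    DLe A p ↔ vinf κ (algebraMap κ[X] (RatFunc κ) p) ≤ exp A := by
  by_cases h0 : p = 0
  · subst h0
    rw [map_zero, map_zero]
    exact ⟨fun _ => zero_le, fun _ m _ => by rw [cz_zero]⟩
  · rw [vinf_poly κ h0, exp_le_exp]
    constructor
    · intro h
      by_contra hlt
      rw [not_le] at hlt
      have h1 := h _ hlt
      rw [cz_nat, coeff_natDegree] at h1
      exact h0 (leadingCoeff_eq_zero.mp h1)
    · intro h m hm
      have h1 : (0 : ℤ) ≤ m := by omega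
      obtain ⟨n, rfl⟩ := Int.eq_ofNat_of_zero_le h1
      rw [cz_nat]
      apply coeff_eq_zero_of_natDegree_lt
      omega

end dle

variable {k : Type u} [Field k] {I : Type} {J : I → Type} [Fintype I] [∀ i, Fintype (J i)]
  {E : Set (MvPolynomial (Σ i, J i) k)} {κ : Type u} [Field κ] [Algebra k κ]
  {F : ∀ i, J i → κ[X]} {n : ℕ}

theorem aeval_X_eq (p : κ[X]) :
    aeval (RatFunc.X : RatFunc κ) p = algebraMap κ[X] (RatFunc κ) p := by
  rw [← RatFunc.algebraMap_X, aeval_algebraMap_apply, aeval_X_left_apply]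

theorem mem_TK_iff (x : (Σ i, J i) → RatFunc κ) :
    x ∈ TK E F ↔ x ∈ KerAt (JacF E F) (RatFunc.X : RatFunc κ) := by
  rw [TK, LinearMap.mem_ker, mem_KerAt]
  constructor
  · intro h p
    have h1 := congrFun h p
    rw [jac_apply, Pi.zero_apply] at h1
    rw [← h1]
    refine Finset.sum_congr rfl fun y _ => ?_
    rw [jacE_toR, aeval_X_eq]
    rfl
  · intro h
    funext p
    rw [jac_apply, Pi.zero_apply, ← h p]
    refine Finset.sum_congr rfl fun y _ => ?_
    rw [jacE_toR, aeval_X_eq]
    rfl

theorem mem_TanM_of {P : (Σ i, J i) → κ[X]}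
    (h : (fun x => algebraMap κ[X] (RatFunc κ) (P x)) ∈ TK E F) : P ∈ TanM E F := by
  rw [mem_TK_iff, mem_KerAt] at h
  intro p
  have h1 := h p
  apply IsFractionRing.injective κ[X] (RatFunc κ)
  rw [map_sum, map_zero, ← h1]
  refine Finset.sum_congr rfl fun y _ => ?_
  rw [map_mul, aeval_X_eq]

theorem mem_TK_of {P : (Σ i, J i) → κ[X]} (h : P ∈ TanM E F) :
    (fun x => algebraMap κ[X] (RatFunc κ) (P x)) ∈ TK E F := by
  rw [mem_TK_iff]
  have h1 := ev_mem (Jac := JacF E F) (RatFunc.X : RatFunc κ) h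
  have h2 : ev (RatFunc.X : RatFunc κ) P = fun x => algebraMap κ[X] (RatFunc κ) (P x) := by
    funext x
    exact aeval_X_eq _
  rw [h2] at h1
  exact h1

/-- the members of a reduced basis, over the function field. -/
noncomputable def rvec (B : RBasis (tw F) (TanM E F) n) (j : Fin n) : TK E F :=
  ⟨fun x => algebraMap κ[X] (RatFunc κ) (B.e j x), mem_TK_of (B.mem j)⟩

theorem rvec_ev (B : RBasis (tw F) (TanM E F) n) (j : Fin n) :
    (rvec B j : (Σ i, J i) → RatFunc κ) = ev (RatFunc.X : RatFunc κ) (B.e j) := by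
  funext x
  exact (aeval_X_eq _).symm

theorem rvec_li (B : RBasis (tw F) (TanM E F) n) : LinearIndependent (RatFunc κ) (rvec B) := by
  have h1 := ev_li (Jac := JacF E F) B (RatFunc.X : RatFunc κ)
  apply LinearIndependent.of_comp (TK E F).subtype
  have h2 : (TK E F).subtype ∘ rvec B = fun j => ev (RatFunc.X : RatFunc κ) (B.e j) :=
    funext (rvec_ev B)
  rw [h2]
  exact h1

theorem rvec_span (B : RBasis (tw F) (TanM E F) n) :
    ⊤ ≤ Submodule.span (RatFunc κ) (Set.range (rvec B)) := by
  rintro ⟨x, hx⟩ -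
  obtain ⟨w, hw⟩ := span_generic (Jac := JacF E F) B ((mem_TK_iff x).mp hx)
  rw [Submodule.mem_span_range_iff_exists_fun]
  refine ⟨w, ?_⟩
  apply Subtype.ext
  simp only [Submodule.coe_sum, Submodule.coe_smul, rvec_ev]
  exact hw.symm

/-- the basis of `TK E F` attached to a reduced basis. -/
noncomputable def rbas (B : RBasis (tw F) (TanM E F) n) : Basis (Fin n) (RatFunc κ) (TK E F) :=
  Basis.mk (rvec_li B) (rvec_span B)

theorem rbas_apply (B : RBasis (tw F) (TanM E F) n) (j : Fin n) : rbas B j = rvec B j :=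
  Basis.mk_apply _ _ _

theorem repr_of_coord (B : RBasis (tw F) (TanM E F) n) (x : TK E F) (P : (Σ i, J i) → κ[X])
    (q : RatFunc κ) (hP : ∀ y, algebraMap κ[X] (RatFunc κ) (P y) = q * (x : _ → RatFunc κ) y)
    (p : Fin n → κ[X]) (hp : P = ∑ j, p j • B.e j) (j : Fin n) :
    q * (rbas B).repr x j = algebraMap κ[X] (RatFunc κ) (p j) := by
  have h1 : q • x = ∑ j, algebraMap κ[X] (RatFunc κ) (p j) • rbas B j := by
    apply Subtype.ext
    funext y
    simp only [Submodule.coe_sum, Submodule.coe_smul, Finset.sum_apply, Pi.smul_apply,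
      smul_eq_mul, rbas_apply]
    rw [← hP y, hp, Finset.sum_apply, map_sum]
    refine Finset.sum_congr rfl fun j _ => ?_
    rw [Pi.smul_apply, smul_eq_mul, map_mul]
    rfl
  have h2 := congrArg (fun z => (rbas B).repr z j) h1
  simp only [map_smul, Finsupp.smul_apply, smul_eq_mul, Basis.repr_sum_self] at h2
  exact h2

/-- **reduced bases are splitting bases.** -/
theorem split_of_rbasis (B : RBasis (tw F) (TanM E F) n) :
    Split (TK E F).subtype (tw F) (rbas B) B.a := by
  have hsum : ∀ (x : TK E F) (y : Σ i, J i), (x : (Σ i, J i) → RatFunc κ) y =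
      ∑ j, (rbas B).repr x j * algebraMap κ[X] (RatFunc κ) (B.e j y) := by
    intro x y
    have h1 := congrArg (fun z : TK E F => (z : (Σ i, J i) → RatFunc κ) y)
      ((rbas B).sum_repr x)
    refine Eq.trans h1.symm ?_
    simp only [Submodule.coe_sum, Submodule.coe_smul, Finset.sum_apply, Pi.smul_apply,
      smul_eq_mul, rbas_apply]
    rfl
  refine ⟨fun x => ⟨fun h j => ?_, fun h y => ?_⟩, fun x => ⟨fun h j => ?_, fun h y => ?_⟩⟩
  · choose P hP using fun y => (mem_polyS κ).mp (h y)
    have hmem : P ∈ TanM E F := by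
      apply mem_TanM_of
      have : (fun y => algebraMap κ[X] (RatFunc κ) (P y)) = (x : (Σ i, J i) → RatFunc κ) :=
        funext hP
      rw [this]
      exact x.2
    obtain ⟨p, hp⟩ := B.exists_coord hmem
    have h1 := repr_of_coord B x P 1 (fun y => by rw [one_mul]; exact hP y) p hp j
    rw [one_mul] at h1
    rw [mem_polyS]
    exact ⟨p j, h1.symm⟩
  · rw [Submodule.subtype_apply, hsum x y, mem_polyS]
    choose q hq using fun j => (mem_polyS κ).mp (h j)
    refine ⟨∑ j, q j * B.e j y, ?_⟩
    rw [map_sum]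
    exact Finset.sum_congr rfl fun j _ => by rw [map_mul, hq j]
  · obtain ⟨⟨q, hq⟩, hqx⟩ := IsLocalization.exist_integer_multiples_of_finite
      (nonZeroDivisors κ[X]) (x : (Σ i, J i) → RatFunc κ)
    have hq0 : q ≠ 0 := nonZeroDivisors.ne_zero hq
    have hq0' : algebraMap κ[X] (RatFunc κ) q ≠ 0 := RatFunc.algebraMap_ne_zero hq0
    choose P hP using hqx
    have hP' : ∀ y, algebraMap κ[X] (RatFunc κ) (P y) =
        algebraMap κ[X] (RatFunc κ) q * (x : (Σ i, J i) → RatFunc κ) y := by
      intro y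
      rw [hP y, Algebra.smul_def]
    have hmem : P ∈ TanM E F := by
      apply mem_TanM_of
      have h1 : (fun y => algebraMap κ[X] (RatFunc κ) (P y)) =
          algebraMap κ[X] (RatFunc κ) q • (x : (Σ i, J i) → RatFunc κ) := by
        funext y
        rw [hP' y]
        rfl
      rw [h1]
      exact (TK E F).smul_mem _ x.2
    obtain ⟨p, hp⟩ := B.exists_coord hmem
    have hV : VLe (tw F) (-(q.natDegree : ℤ)) (∑ j, p j • B.e j) := by
      rw [← hp]
      intro y
      rw [dle_iff, hP' y, map_mul, vinf_poly κ hq0]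
      have h2 : tw F y - -(q.natDegree : ℤ) = q.natDegree + tw F y := by ring
      rw [h2, exp_add]
      exact mul_le_mul_right (h y) _
    have h3 := B.coord_deg hV j
    rw [dle_iff, ← repr_of_coord B x P _ hP' p hp j, map_mul, vinf_poly κ hq0] at h3
    have h4 : B.a j - -(q.natDegree : ℤ) = q.natDegree + B.a j := by ring
    rw [h4, exp_add] at h3
    calc vinf κ ((rbas B).repr x j) = exp (-(q.natDegree : ℤ)) *
          (exp (q.natDegree : ℤ) * vinf κ ((rbas B).repr x j)) := by
            rw [← mul_assoc, ← exp_add]; simp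
      _ ≤ exp (-(q.natDegree : ℤ)) * (exp (q.natDegree : ℤ) * exp (B.a j)) :=
          mul_le_mul_right h3 _
      _ = _ := by rw [← mul_assoc, ← exp_add]; simp
  · rw [Submodule.subtype_apply, hsum x y]
    refine Valuation.map_sum_le _ fun j _ => ?_
    rw [map_mul]
    have h1 := B.deg j y
    rw [dle_iff] at h1
    calc _ ≤ exp (B.a j) * exp (tw F y - B.a j) := mul_le_mul' (h j) h1
      _ = _ := by rw [← exp_add]; congr 1; ring

end Crest.Agent.R260.Num_789
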