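import Mathlib
import Crest.Agent.R260.Num2_789
import Crest.Agent.R260.Om2_997
import Crest.Agent.R260.QuadDefs_517

/-!
Row 260 (S0398), AG-NUM (helper789), part 12: integer multidegrees; the polynomial coefficients of
`dθ` in a chart.
-/

set_option autoImplicit false

namespace Crest.Agent.R260.Num_789

open Crest.Agent.R270.BM_360 Crest.Agent.R270.DimN_282 Crest.Agent.R260.Lin_678

universe u

section zh

variable {k : Type u} [Field k] {I : Type} {J : I → Type} [Fintype I] [∀ i, Fintype (J i)]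

/-- multihomogeneous of integer multidegree `δ`. -/
def ZH (q : MvPolynomial (Σ i, J i) k) (δ : I → ℤ) : Prop :=
  ∀ m ∈ q.support, ∀ i, ((∑ a, m ⟨i, a⟩ : ℕ) : ℤ) = δ i

omit [Fintype I] in
theorem ZH.congr {q : MvPolynomial (Σ i, J i) k} {δ δ' : I → ℤ} (h : ZH q δ)
    (he : ∀ i, δ i = δ' i) : ZH q δ' := fun m hm i => by rw [← he i]; exact h m hm i

omit [Fintype I] in
theorem zh_zero (δ : I → ℤ) : ZH (0 : MvPolynomial (Σ i, J i) k) δ := by
  intro m hm
  rw [MvPolynomial.support_zero] at hm
  exact absurd hm (Finset.notMem_empty _)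

omit [Fintype I] in
theorem ZH.add {p q : MvPolynomial (Σ i, J i) k} {δ : I → ℤ} (hp : ZH p δ) (hq : ZH q δ) :
    ZH (p + q) δ := by
  classical
  intro m hm i
  rcases Finset.mem_union.mp (MvPolynomial.support_add hm) with h | h
  · exact hp m h i
  · exact hq m h i

omit [Fintype I] in
theorem ZH.neg {p : MvPolynomial (Σ i, J i) k} {δ : I → ℤ} (hp : ZH p δ) : ZH (-p) δ := by
  intro m hm i
  rw [MvPolynomial.support_neg] at hm
  exact hp m hm i

omit [Fintype I] in
theorem ZH.sub {p q : MvPolynomial (Σ i, J i) k} {δ : I → ℤ} (hp : ZH p δ) (hq : ZH q δ) :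
    ZH (p - q) δ := by
  rw [sub_eq_add_neg]
  exact hp.add hq.neg

omit [Fintype I] in
theorem ZH.mul {p q : MvPolynomial (Σ i, J i) k} {δ δ' : I → ℤ} (hp : ZH p δ) (hq : ZH q δ') :
    ZH (p * q) (fun i => δ i + δ' i) := by
  classical
  intro m hm i
  obtain ⟨a, ha, b, hb, rfl⟩ := Finset.mem_add.mp (MvPolynomial.support_mul p q hm)
  have h1 := hp a ha i
  have h2 := hq b hb i
  show _ = δ i + δ' i
  rw [← h1, ← h2]
  push_cast
  rw [← Finset.sum_add_distrib]
  exact Finset.sum_congr rfl fun x _ => by rw [Pi.add_apply]; push_cast; ring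

omit [Fintype I] in
theorem zh_C (a : k) : ZH (MvPolynomial.C a : MvPolynomial (Σ i, J i) k) (fun _ => 0) := by
  classical
  intro m hm i
  rw [MvPolynomial.mem_support_iff, MvPolynomial.coeff_C] at hm
  split_ifs at hm with h0
  · rw [← h0]; simp
  · exact absurd rfl hm

omit [Fintype I] in
theorem zh_natCast (n : ℕ) : ZH (n : MvPolynomial (Σ i, J i) k) (fun _ => 0) := by
  have : (n : MvPolynomial (Σ i, J i) k) = MvPolynomial.C (n : k) := by simp
  rw [this]
  exact zh_C _

omit [Fintype I] in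
open Classical in
theorem zh_X (x : Σ i, J i) : ZH (MvPolynomial.X x : MvPolynomial (Σ i, J i) k)
    (fun i => if x.1 = i then 1 else 0) := by
  intro m hm i
  rw [MvPolynomial.support_X, Finset.mem_singleton] at hm
  subst hm
  obtain ⟨j, b⟩ := x
  by_cases h : j = i
  · subst h
    show _ = (if j = j then (1 : ℤ) else 0)
    rw [if_pos rfl]
    have : ∀ a : J j, (Finsupp.single (⟨j, b⟩ : Σ i, J i) 1 : (Σ i, J i) →₀ ℕ) ⟨j, a⟩ =
        if b = a then 1 else 0 := by
      intro a
      rw [Finsupp.single_apply]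
      simp
    simp only [this]
    simp
  · show _ = (if j = i then (1 : ℤ) else 0)
    rw [if_neg h]
    have : ∀ a : J i, (Finsupp.single (⟨j, b⟩ : Σ i, J i) 1 : (Σ i, J i) →₀ ℕ) ⟨i, a⟩ = 0 := by
      intro a
      rw [Finsupp.single_apply, if_neg]
      intro h1
      exact h (congrArg Sigma.fst h1)
    simp only [this]
    simp

omit [Fintype I] in
open Classical in
theorem ZH.pderiv {p : MvPolynomial (Σ i, J i) k} {δ : I → ℤ} (hp : ZH p δ) (x : Σ i, J i) :
    ZH (MvPolynomial.pderiv x p) (fun i => δ i - if x.1 = i then 1 else 0) := by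
  intro m hm i
  have h1 : m + Finsupp.single x 1 ∈ p.support := by
    rw [MvPolynomial.mem_support_iff] at hm ⊢
    intro h0
    apply hm
    rw [MvPolynomial.coeff_pderiv, h0, zero_mul]
  have h2 := hp _ h1 i
  have h3 := zh_X (k := k) x (Finsupp.single x 1) (by simp [MvPolynomial.support_X]) i
  simp only at h3
  show _ = δ i - (if x.1 = i then (1 : ℤ) else 0)
  rw [← h2, ← h3]
  push_cast
  rw [← Finset.sum_sub_distrib]
  exact Finset.sum_congr rfl fun a _ => by rw [Pi.add_apply]; push_cast; ring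

omit [Fintype I] in
theorem ZH.prod {T : Type*} (s : Finset T) (f : T → MvPolynomial (Σ i, J i) k) (δ : T → I → ℤ)
    (h : ∀ t ∈ s, ZH (f t) (δ t)) : ZH (∏ t ∈ s, f t) (fun i => ∑ t ∈ s, δ t i) := by
  classical
  induction s using Finset.induction_on with
  | empty =>
    rw [Finset.prod_empty]
    have : (1 : MvPolynomial (Σ i, J i) k) = MvPolynomial.C 1 := by simp
    rw [this]
    exact zh_C 1
  | insert a s ha ih =>
    rw [Finset.prod_insert ha]
    refine ((h a (Finset.mem_insert_self a s)).mul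
      (ih fun t ht => h t (Finset.mem_insert_of_mem ht))).congr fun i => ?_
    rw [Finset.sum_insert ha]

omit [Fintype I] in
theorem ZH.pow {p : MvPolynomial (Σ i, J i) k} {δ : I → ℤ} (hp : ZH p δ) (n : ℕ) :
    ZH (p ^ n) (fun i => n * δ i) := by
  have h := ZH.prod (Finset.range n) (fun _ => p) (fun _ => δ) fun _ _ => hp
  rw [Finset.prod_const, Finset.card_range] at h
  exact h.congr fun i => by rw [Finset.sum_const, Finset.card_range, nsmul_eq_mul]

omit [Fintype I] in
theorem ZH.toNat_eq {q : MvPolynomial (Σ i, J i) k} {δ : I → ℤ} (h : ZH q δ) (h0 : q ≠ 0) (i : I) :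
    ((δ i).toNat : ℤ) = δ i := by
  obtain ⟨m, hm⟩ := MvPolynomial.support_nonempty.mpr h0
  have := h m hm i
  omega

open Classical in
theorem ZH.isWeightedHomogeneous {q : MvPolynomial (Σ i, J i) k} {δ : I → ℤ} (h : ZH q δ) :
    MvPolynomial.IsWeightedHomogeneous (fun x : Σ i, J i => (Pi.single x.1 1 : I → ℕ)) q
      (fun i => (δ i).toNat) := by
  intro m hm
  funext i
  have h1 := h m (MvPolynomial.mem_support_iff.mpr hm) i
  rw [Finsupp.weight_apply, Finsupp.sum, Finset.sum_apply]
  have h2 : ∑ x ∈ m.support, (m x • (Pi.single x.1 1 : I → ℕ)) i =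
      ∑ x : Σ i, J i, m x * (if i = x.1 then 1 else 0) := by
    rw [← Finset.sum_subset (Finset.subset_univ m.support)]
    · refine Finset.sum_congr rfl fun x _ => ?_
      rw [Pi.smul_apply, smul_eq_mul, Pi.single_apply]
    · intro x _ hx
      rw [Finsupp.notMem_support_iff.mp hx, zero_mul]
  rw [h2, Fintype.sum_sigma, Finset.sum_eq_single i]
  · have h3 : ∑ a, m ⟨i, a⟩ * (if i = i then 1 else 0) = ∑ a, m ⟨i, a⟩ :=
      Finset.sum_congr rfl fun a _ => by rw [if_pos rfl, mul_one]
    rw [h3]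
    omega
  · intro j _ hj
    exact Finset.sum_eq_zero fun a _ => by rw [if_neg (Ne.symm hj), mul_zero]
  · intro h; exact absurd (Finset.mem_univ i) h

end zh

end Crest.Agent.R260.Num_789
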