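import Mathlib
import Crest.Agent.R260.Num12_789

/-!
Row 260 (S0398), AG-NUM (helper789), part 13: `dθ` of `CData` as a two-form on the multicone.
-/

set_option autoImplicit false

namespace Crest.Agent.R260.Num_789

open Matrix Crest.Agent.R270.BM_360 Crest.Agent.R270.DimN_282 Crest.Agent.R260.Lin_678
open Crest.Agent.R260.Om_997 (num dden)

universe u

section coef

variable {k : Type u} [Field k] {I : Type} {J : I → Type} [Fintype I] [∀ i, Fintype (J i)]
  [DecidableEq I]

/-- currying. -/
def cur {A : Type*} (s : (Σ i, J i) → A) : ∀ i, J i → A := fun i a => s ⟨i, a⟩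

/-- the denominator of the chart. -/
noncomputable def denP (k : Type u) [Field k] (c : ∀ i, J i) : MvPolynomial (Σ i, J i) k :=
  ∏ i, MvPolynomial.X ⟨i, c i⟩

open Classical in
/-- the partial derivatives of the denominator. -/
noncomputable def dP (k : Type u) [Field k] (c : ∀ i, J i) (x : Σ i, J i) :
    MvPolynomial (Σ i, J i) k :=
  if x.2 = c x.1 then ∏ j ∈ Finset.univ.erase x.1, MvPolynomial.X ⟨j, c j⟩ else 0

/-- the coefficients of `dθ` in the chart `c`. -/
noncomputable def qP (N : ℕ) (p : (Σ i, J i) → MvPolynomial (Σ i, J i) k) (c : ∀ i, J i)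
    (x y : Σ i, J i) : MvPolynomial (Σ i, J i) k :=
  denP k c * (MvPolynomial.pderiv x (p y) - MvPolynomial.pderiv y (p x)) -
    N * (dP k c x * p y - dP k c y * p x)

variable {A : Type*} [CommRing A] [Algebra k A]

omit [∀ i, Fintype (J i)] [DecidableEq I] in
theorem evp_denP (c : ∀ i, J i) (v : ∀ i, J i → A) : evp v (denP k c) = den c v := by
  unfold evp denP den
  rw [map_prod]
  exact Finset.prod_congr rfl fun i _ => by rw [MvPolynomial.aeval_X]

omit [∀ i, Fintype (J i)] in
open Classical in
theorem evp_dP (c : ∀ i, J i) (v : ∀ i, J i → A) (x : Σ i, J i) :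
    evp v (dP k c x) = if x.2 = c x.1 then ∏ j ∈ Finset.univ.erase x.1, v j (c j) else 0 := by
  unfold evp dP
  split_ifs with h
  · rw [map_prod]
    exact Finset.prod_congr rfl fun i _ => by rw [MvPolynomial.aeval_X]
  · rw [map_zero]

theorem dden_eq (c : ∀ i, J i) (v : ∀ i, J i → A) (s : (Σ i, J i) → A) :
    dden c v (cur s) = ∑ x, evp v (dP k c x) * s x := by
  classical
  unfold dden
  rw [Fintype.sum_sigma]
  refine Finset.sum_congr rfl fun i _ => ?_
  rw [Finset.sum_eq_single (c i)]
  · rw [evp_dP, if_pos rfl]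
    rfl
  · intro b _ hb
    rw [evp_dP, if_neg hb, zero_mul]
  · intro h; exact absurd (Finset.mem_univ _) h

omit [DecidableEq I] in
theorem form_eq (p : (Σ i, J i) → MvPolynomial (Σ i, J i) k) (v : ∀ i, J i → A)
    (s : (Σ i, J i) → A) : form p v (cur s) = ∑ x, evp v (p x) * s x := rfl

omit [DecidableEq I] in
theorem dform_eq2 (p : (Σ i, J i) → MvPolynomial (Σ i, J i) k) (v : ∀ i, J i → A)
    (s t : (Σ i, J i) → A) : dform p v (cur s) (cur t) =
      ∑ x, ∑ y, (evp v (MvPolynomial.pderiv x (p y)) - evp v (MvPolynomial.pderiv y (p x))) *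
        (s x * t y) := by
  have h1 : dform p v (cur s) (cur t) =
      ∑ x, ∑ y, evp v (MvPolynomial.pderiv y (p x)) * (s y * t x) -
        ∑ x, ∑ y, evp v (MvPolynomial.pderiv y (p x)) * (s x * t y) := by
    unfold dform cur
    rw [← Finset.sum_sub_distrib]
    refine Finset.sum_congr rfl fun x _ => ?_
    rw [← Finset.sum_sub_distrib]
    refine Finset.sum_congr rfl fun y _ => ?_
    unfold evp
    ring
  rw [h1, Finset.sum_comm, ← Finset.sum_sub_distrib]
  refine Finset.sum_congr rfl fun x _ => ?_
  rw [← Finset.sum_sub_distrib]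
  exact Finset.sum_congr rfl fun y _ => by ring

/-- the two-form with the coefficients `qP` is `num`. -/
theorem bf_qP (N : ℕ) (p : (Σ i, J i) → MvPolynomial (Σ i, J i) k) (c : ∀ i, J i)
    (v : ∀ i, J i → A) (s t : (Σ i, J i) → A) :
    bf (qP N p c) v s t = num N p c v (cur s) (cur t) := by
  have e1 : dden c v (cur s) * form p v (cur t) = ∑ x, ∑ y,
      evp v (dP k c x) * evp v (p y) * (s x * t y) := by
    rw [dden_eq (k := k), form_eq, Finset.sum_mul]
    refine Finset.sum_congr rfl fun x _ => ?_
    rw [Finset.mul_sum]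
    exact Finset.sum_congr rfl fun y _ => by ring
  have e2 : dden c v (cur t) * form p v (cur s) = ∑ x, ∑ y,
      evp v (dP k c y) * evp v (p x) * (s x * t y) := by
    rw [mul_comm, dden_eq (k := k), form_eq, Finset.sum_mul]
    refine Finset.sum_congr rfl fun x _ => ?_
    rw [Finset.mul_sum]
    exact Finset.sum_congr rfl fun y _ => by ring
  unfold num
  rw [e1, e2, dform_eq2, ← Finset.sum_sub_distrib, Finset.mul_sum, Finset.mul_sum,
    ← Finset.sum_sub_distrib]
  unfold bf dotProduct mulVec dotProduct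
  refine Finset.sum_congr rfl fun x _ => ?_
  rw [← Finset.sum_sub_distrib, Finset.mul_sum, Finset.mul_sum, Finset.mul_sum,
    ← Finset.sum_sub_distrib]
  refine Finset.sum_congr rfl fun y _ => ?_
  have e3 : mat (qP N p c) v x y = den c v * (evp v (MvPolynomial.pderiv x (p y)) -
      evp v (MvPolynomial.pderiv y (p x))) -
      N * (evp v (dP k c x) * evp v (p y) - evp v (dP k c y) * evp v (p x)) := by
    rw [← evp_denP (k := k)]
    show evp v (qP N p c x y) = _
    unfold qP evp
    simp only [map_sub, map_mul, map_natCast]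
  show s x * (mat (qP N p c) v x y * t y) = _
  rw [e3]
  ring

omit [∀ i, Fintype (J i)] in
theorem qP_skew (N : ℕ) (p : (Σ i, J i) → MvPolynomial (Σ i, J i) k) (c : ∀ i, J i)
    (x y : Σ i, J i) : qP N p c x y = - qP N p c y x := by
  unfold qP
  ring

omit [DecidableEq I] in
open Classical in
theorem zh_denP (c : ∀ i, J i) : ZH (denP k c) (fun _ => 1) := by
  refine (ZH.prod Finset.univ (fun i => MvPolynomial.X (⟨i, c i⟩ : Σ i, J i)) _
    (fun i _ => zh_X (k := k) ⟨i, c i⟩)).congr fun i => ?_
  rw [Finset.sum_eq_single i]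
  · rw [if_pos rfl]
  · intro j _ hj; rw [if_neg hj]
  · intro h; exact absurd (Finset.mem_univ i) h

open Classical in
theorem zh_dP (c : ∀ i, J i) (x : Σ i, J i) :
    ZH (dP k c x) (fun i => 1 - if x.1 = i then 1 else 0) := by
  unfold dP
  split_ifs with h
  · refine (ZH.prod (Finset.univ.erase x.1) (fun i => MvPolynomial.X (⟨i, c i⟩ : Σ i, J i)) _
      (fun i _ => zh_X (k := k) ⟨i, c i⟩)).congr fun i => ?_
    by_cases hi : x.1 = i
    · rw [if_pos hi]
      refine (Finset.sum_eq_zero fun j hj => ?_).trans (by norm_num)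
      rw [if_neg]
      rintro rfl
      exact Finset.ne_of_mem_erase hj hi.symm
    · rw [if_neg hi, Finset.sum_eq_single i]
      · rw [if_pos rfl]; norm_num
      · intro j _ hj; rw [if_neg hj]
      · intro h
        exact absurd (Finset.mem_erase.mpr ⟨Ne.symm hi, Finset.mem_univ i⟩) h
  · exact zh_zero _

open Classical in
theorem zh_qP {E : Set (MvPolynomial (Σ i, J i) k)} {w : I → ℤ} (th : CForm E w) (c : ∀ i, J i)
    (x y : Σ i, J i) : ZH (qP th.N (th.p c) c x y) (fun i =>
      (th.N : ℤ) + 1 + w i - (if x.1 = i then 1 else 0) - (if y.1 = i then 1 else 0)) := by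
  have hp : ∀ x, ZH (th.p c x) (fun i => (th.N : ℤ) + w i - if x.1 = i then 1 else 0) := by
    intro x m hm i
    have h1 := th.hom c x m hm i
    simp only
    rw [← h1]
    ring_nf
  unfold qP
  refine ZH.sub ?_ ?_
  · refine ((zh_denP c).mul (ZH.sub (((hp y).pderiv x).congr fun i => ?_)
      ((hp x).pderiv y))).congr fun i => ?_
    · ring
    · ring
  · refine ((zh_natCast th.N).mul (ZH.sub (((zh_dP c x).mul (hp y)).congr fun i => ?_)
      ((zh_dP c y).mul (hp x)))).congr fun i => ?_
    · ring
    · ring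

end coef

end Crest.Agent.R260.Num_789
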