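import Mathlib
import Crest.Agent.R260.Num13_789
import Crest.Agent.R260.Num9_789
import Crest.Agent.R260.Num11_789
import Crest.Agent.R260.Da3_997

/-!
Row 260 (S0398), AG-NUM (helper789), part 14: `NumP`.
-/

set_option autoImplicit false

namespace Crest.Agent.R260.Num_789

open Crest.Agent.R270.BM_360 Crest.Agent.R270.DimN_282 Crest.Agent.R260.Lin_678
open Crest.Agent.R260.Om_997 (num dden)
open Crest.Agent.R260.Frm1_428 Crest.Agent.R260.Frm3_428

universe u

variable {k : Type u} [Field k] {I : Type} {J : I → Type} [Fintype I] [∀ i, Fintype (J i)]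

section tan

variable {E : Set (MvPolynomial (Σ i, J i) k)}

theorem tan_cur {A : Type*} [CommRing A] [Algebra k A] (v : ∀ i, J i → A) (t : (Σ i, J i) → A) :
    jac E v t = 0 ↔ Tan E v (cur t) := by
  constructor
  · intro h p hp
    have h1 := congrFun h ⟨p, hp⟩
    rw [jac_apply, Pi.zero_apply] at h1
    exact h1
  · intro h
    funext p
    rw [jac_apply, Pi.zero_apply]
    exact h p.1 p.2

theorem sum_of_hom {p : MvPolynomial (Σ i, J i) k} {δ : I → ℕ}
    (h : open Classical in MvPolynomial.IsWeightedHomogeneous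
      (fun x : Σ i, J i => (Pi.single x.1 1 : I → ℕ)) p δ) :
    ∀ m ∈ p.support, ∀ i, ∑ a, m ⟨i, a⟩ = δ i := by
  classical
  intro m hm i
  have h1 := h (MvPolynomial.mem_support_iff.mp hm)
  rw [← h1, Finsupp.weight_apply, Finsupp.sum, Finset.sum_apply]
  have h2 : ∑ x ∈ m.support, (m x • (Pi.single x.1 1 : I → ℕ)) i =
      ∑ x : Σ i, J i, m x * (if i = x.1 then 1 else 0) := by
    rw [← Finset.sum_subset (Finset.subset_univ m.support)]
    · refine Finset.sum_congr rfl fun x _ => ?_
      rw [Pi.smul_apply, smul_eq_mul, Pi.single_apply]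
    · intro x _ hx
      rw [Finsupp.notMem_support_iff.mp hx, zero_mul]
  have h3 : ∑ x : Σ i, J i, m x * (if i = x.1 then 1 else 0) = ∑ a, m ⟨i, a⟩ := by
    rw [Fintype.sum_sigma, Finset.sum_eq_single i]
    · exact Finset.sum_congr rfl fun a _ => by rw [if_pos rfl, mul_one]
    · intro j _ hj
      exact Finset.sum_eq_zero fun a _ => by rw [if_neg (Ne.symm hj), mul_zero]
    · intro h; exact absurd (Finset.mem_univ i) h
  rw [← h3, ← h2]

/-- Euler vectors are tangent. -/
theorem tan_eul (hE : MHom E) {A : Type*} [CommRing A] [Algebra k A] {v : ∀ i, J i → A}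
    (hv : OnX E v) (a : I → A) : Tan E v (Crest.Agent.R260.Om_997.eul a v) := by
  intro p hp
  obtain ⟨δ, hδ⟩ := hE p hp
  rw [Fintype.sum_sigma]
  refine Finset.sum_eq_zero fun i _ => ?_
  have h1 := Crest.Agent.R260.Om_997.euler_block (A := A) i (δ i)
    (fun m hm => sum_of_hom hδ m hm i) (fun y : Σ i, J i => v y.1 y.2)
  rw [hv p hp, mul_zero] at h1
  have h2 : ∑ b, MvPolynomial.aeval (fun y : Σ i, J i => v y.1 y.2)
      (MvPolynomial.pderiv (⟨i, b⟩ : Σ i, J i) p) * Crest.Agent.R260.Om_997.eul a v i b =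
      a i * ∑ b, MvPolynomial.aeval (fun y : Σ i, J i => v y.1 y.2)
        (MvPolynomial.pderiv (⟨i, b⟩ : Σ i, J i) p) * v i b := by
    rw [Finset.mul_sum]
    refine Finset.sum_congr rfl fun b _ => ?_
    unfold Crest.Agent.R260.Om_997.eul
    ring
  rw [h2, h1, mul_zero]

/-- the two forms of the tangent space. -/
def tanEquiv {κ : Type u} [Field κ] [Algebra k κ] (v : ∀ i, J i → κ) :
    LinearMap.ker (jac E v) ≃ₗ[κ] TanSp E v where
  toFun t := ⟨cur t.1, (tan_cur v t.1).mp t.2⟩
  invFun t := ⟨fun x => t.1 x.1 x.2, (tan_cur v _).mpr t.2⟩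
  left_inv _ := rfl
  right_inv _ := rfl
  map_add' _ _ := rfl
  map_smul' _ _ := rfl

end tan

theorem d7r (D : CData k I J) : D7r D.E (2 * D.m + 1 + Fintype.card I) := by
  intro κ _ _ v hv hv0
  rw [(tanEquiv v).finrank_eq]
  exact D.tan_dim κ v hv hv0

variable [DecidableEq I]

/-- the basis of `{u | ∑ w_i u_i = 0}`. -/
def uE (D : CData k I J) (i0 : I) (σ : {i : I // i ≠ i0}) : I → k :=
  fun i => if i = σ.1 then (D.w i0 : k) else if i = i0 then -(D.w σ.1 : k) else 0

omit [DecidableEq I] in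
theorem exists_i0 (D : CData k I J) : ∃ i0, (D.w i0 : k) ≠ 0 := by
  by_contra hcon
  push Not at hcon
  have h1 := congrArg (Int.cast : ℤ → k) D.wβ
  push_cast at h1
  rw [Finset.sum_eq_zero fun i _ => by rw [hcon i, zero_mul]] at h1
  exact zero_ne_one h1

omit [DecidableEq I] in
theorem wcast_ne {D : CData k I J} {i0 : I} (h : (D.w i0 : k) ≠ 0) (κ : Type u) [Field κ]
    [Algebra k κ] : (D.w i0 : κ) ≠ 0 := by
  intro h0
  apply h
  apply (algebraMap k κ).injective
  rw [map_intCast, map_zero, h0]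

theorem uE_w {D : CData k I J} {i0 : I} (κ : Type u) [Field κ] [Algebra k κ]
    (σ : {i : I // i ≠ i0}) : ∑ i, algebraMap k κ (uE D i0 σ i) * (D.w i : κ) = 0 := by
  rw [Fintype.sum_eq_add_sum_subtype_ne _ i0, Finset.sum_eq_single σ]
  · unfold uE
    rw [if_neg (Ne.symm σ.2), if_pos rfl, if_pos rfl, map_neg, map_intCast, map_intCast]
    ring
  · intro τ _ hτ
    unfold uE
    rw [if_neg (fun h => hτ (Subtype.ext h)), if_neg τ.2, map_zero, zero_mul]
  · intro h; exact absurd (Finset.mem_univ _) h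

theorem uE_comb {D : CData k I J} {i0 : I} (h : (D.w i0 : k) ≠ 0) (κ : Type u) [Field κ]
    [Algebra k κ] (a : I → κ) (ha : ∑ i, a i * (D.w i : κ) = 0) (i : I) :
    ∑ σ : {i : I // i ≠ i0}, a σ.1 / (D.w i0 : κ) * algebraMap k κ (uE D i0 σ i) = a i := by
  have hw := wcast_ne h κ
  by_cases hi : i = i0
  · subst hi
    have h1 : ∀ σ : {j : I // j ≠ i}, a σ.1 / (D.w i : κ) * algebraMap k κ (uE D i σ i) =
        -(a σ.1 * (D.w σ.1 : κ)) / (D.w i : κ) := by
      intro σ
      unfold uE
      rw [if_neg (Ne.symm σ.2), if_pos rfl, map_neg, map_intCast]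
      ring
    rw [Finset.sum_congr rfl fun σ _ => h1 σ, ← Finset.sum_div, Finset.sum_neg_distrib]
    rw [Fintype.sum_eq_add_sum_subtype_ne _ i] at ha
    rw [div_eq_iff hw]
    linear_combination -ha
  · rw [Finset.sum_eq_single (⟨i, hi⟩ : {j : I // j ≠ i0})]
    · unfold uE
      rw [if_pos rfl, map_intCast]
      field_simp
    · intro τ _ hτ
      unfold uE
      rw [if_neg (fun h => hτ (Subtype.ext h.symm)), if_neg hi, map_zero, mul_zero]
    · intro h; exact absurd (Finset.mem_univ _) h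

theorem cur_eul {κ : Type u} [Field κ] [Algebra k κ] (u : I → k) (v : ∀ i, J i → κ) :
    cur (eul u v) = Crest.Agent.R260.Om_997.eul (fun i => algebraMap k κ (u i)) v := rfl

theorem num_skew {A : Type*} [CommRing A] [Algebra k A] (N : ℕ)
    (p : (Σ i, J i) → MvPolynomial (Σ i, J i) k) (c : ∀ i, J i) (v s t : ∀ i, J i → A) :
    num N p c v s t = - num N p c v t s := by
  have h1 := bf_skew (qP_skew N p c) v (fun x => s x.1 x.2) (fun x => t x.1 x.2)
  rw [bf_qP, bf_qP] at h1
  exact h1

/-- **`dθ` as a two-form on the multicone.** -/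
noncomputable def ofCData (D : CData k I J) (hP : (Ideal.span D.E).IsPrime) {i0 : I}
    (h0 : (D.w i0 : k) ≠ 0) : TwoForm D.E D.w (uE D i0) where
  C := ∀ i, J i
  g c := denP k c ^ (D.th.N + 1)
  q c := qP D.th.N (D.th.p c) c
  dg _ i := D.th.N + 1
  dq c x y i := (open Classical in (D.th.N : ℤ) + 1 + D.w i - (if x.1 = i then 1 else 0) -
    (if y.1 = i then 1 else 0)).toNat
  hg c := by
    have h1 := ((zh_denP (k := k) c).pow (D.th.N + 1)).isWeightedHomogeneous
    convert h1 using 1
    funext i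
    simp
  hq c x y := (zh_qP D.th c x y).isWeightedHomogeneous
  hw c x y i hq := by
    have h1 := (zh_qP D.th c x y).toNat_eq hq i
    have h2 : ((D.th.N : ℤ) + 1 + D.w i - (if x.1 = i then 1 else 0) -
        (if y.1 = i then 1 else 0)) + (Pi.single x.1 1 : I → ℤ) i +
        (Pi.single y.1 1 : I → ℤ) i = ((D.th.N + 1 : ℕ) : ℤ) + D.w i := by
      rw [Pi.single_apply, Pi.single_apply]
      simp only [eq_comm (a := i)]
      push_cast
      ring
    rw [← h2, ← h1]
    congr!
  skew c x y := qP_skew _ _ _ _ _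
  cov κ _ _ v hv hv0 := by
    choose c hc using fun i => Function.ne_iff.mp (hv0 i)
    refine ⟨c, ?_⟩
    have h1 : evp v (denP k c ^ (D.th.N + 1)) = den c v ^ (D.th.N + 1) := by
      rw [← evp_denP (k := k)]
      exact map_pow _ _ _
    rw [h1]
    exact pow_ne_zero _ (Finset.prod_ne_zero_iff.mpr fun i _ => hc i)
  compat κ _ _ v t t' hv hv0 ht ht' c c' := by
    have h1 : ∀ c : ∀ i, J i, evp v (denP k c ^ (D.th.N + 1)) = den c v ^ (D.th.N + 1) := by
      intro c
      rw [← evp_denP (k := k)]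
      exact map_pow _ _ _
    rw [h1, h1, bf_qP, bf_qP]
    exact Crest.Agent.R260.Om_997.dth_agree D hP κ v (cur t) (cur t') hv hv0
      ((tan_cur v t).mp ht) ((tan_cur v t').mp ht') c' c
  hu κ _ _ a ha := by
    funext σ
    have h1 := ha σ.1
    rw [Finset.sum_eq_single σ] at h1
    · unfold uE at h1
      rw [if_pos rfl, map_intCast] at h1
      exact (mul_eq_zero.mp h1).resolve_right (wcast_ne h0 κ)
    · intro τ _ hτ
      unfold uE
      rw [if_neg (fun h => hτ (Subtype.ext h.symm)), if_neg σ.2, map_zero, mul_zero]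
    · intro h; exact absurd (Finset.mem_univ _) h
  rad κ _ _ v t hv hv0 ht c hc hrad := by
    have h1 : evp v (denP k c ^ (D.th.N + 1)) = den c v ^ (D.th.N + 1) := by
      rw [← evp_denP (k := k)]
      exact map_pow _ _ _
    rw [h1] at hc
    have hden : den c v ≠ 0 := fun h => hc (by rw [h, zero_pow (Nat.succ_ne_zero _)])
    have hcv : ∀ i, v i (c i) ≠ 0 := fun i => Finset.prod_ne_zero_iff.mp hden i (Finset.mem_univ i)
    have htan := (tan_cur v t).mp ht
    have hnum : ∀ t' : ∀ i, J i → κ, Tan D.E v t' →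
        num D.th.N (D.th.p c) c v (cur t) t' = 0 := by
      intro t' ht'
      have h2 := hrad (fun x => t' x.1 x.2) ((tan_cur v _).mpr ht')
      rw [bf_qP] at h2
      exact h2
    -- `θ(t) = 0`
    have hform : form (D.th.p c) v (cur t) = 0 := by
      have h2 := Crest.Agent.R260.Om_997.num_eulP D hP κ v (cur t) hv hv0 htan c
        (Pi.single i0 1)
      rw [num_skew, hnum _ (tan_eul D.hom hv _), neg_zero] at h2
      have h3 : ∑ i, (Pi.single i0 1 : I → κ) i * (D.w i : κ) = (D.w i0 : κ) := by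
        rw [Finset.sum_eq_single i0]
        · rw [Pi.single_eq_same, one_mul]
        · intro j _ hj; rw [Pi.single_eq_of_ne hj, zero_mul]
        · intro h; exact absurd (Finset.mem_univ _) h
      rw [h3] at h2
      rcases mul_eq_zero.mp h2.symm with h4 | h4
      · exact absurd h4 (wcast_ne h0 κ)
      · exact (mul_eq_zero.mp h4).resolve_left hden
    obtain ⟨a, ha⟩ := D.nondeg κ v c hv hcv (cur t) htan hform (by
      intro t' ht' hf'
      have h2 := hnum t' ht'
      unfold num at h2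
      rw [hform, hf', mul_zero, mul_zero, sub_zero, mul_zero, sub_zero] at h2
      exact (mul_eq_zero.mp h2).resolve_left hden)
    have hta : cur t = Crest.Agent.R260.Om_997.eul a v := by
      funext i j
      exact ha i j
    obtain ⟨t1, ht1, hf1⟩ := D.th_ne κ v c hv hcv
    have haw : ∑ i, a i * (D.w i : κ) = 0 := by
      have h2 := Crest.Agent.R260.Om_997.num_eulP D hP κ v t1 hv hv0 ht1 c a
      rw [← hta, hnum t1 ht1] at h2
      rcases mul_eq_zero.mp h2.symm with h4 | h4
      · exact h4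
      · exact absurd h4 (mul_ne_zero hden hf1)
    refine ⟨fun σ => a σ.1 / (D.w i0 : κ), ?_⟩
    funext x
    obtain ⟨i, j⟩ := x
    have h2 : t ⟨i, j⟩ = a i * v i j := ha i j
    rw [h2, Finset.sum_apply, ← uE_comb h0 κ a haw i, Finset.sum_mul]
    refine Finset.sum_congr rfl fun σ _ => ?_
    rw [Pi.smul_apply, smul_eq_mul]
    unfold eul
    ring
  eul_tan κ _ _ v hv σ := by
    rw [tan_cur, cur_eul]
    exact tan_eul D.hom hv _
  eul_rad κ _ _ v t hv hv0 ht c σ := by
    rw [bf_qP, cur_eul, Crest.Agent.R260.Om_997.num_eulP D hP κ v (cur t) hv hv0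
      ((tan_cur v t).mp ht) c, uE_w, zero_mul]

end Crest.Agent.R260.Num_789
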