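import Mathlib
import Crest.Agent.R260.Num14_789
import Crest.Agent.R260.Gp5_169

/-!
Row 260 (S0398), AG-NUM (helper789), part 15: `NumP`, the numbers of the tangent bundle of the
multicone along any map from the projective line.
-/

set_option autoImplicit false

namespace Crest.Agent.R260.Num_789

open Polynomial WithZero Crest.Agent.R270.BM_360 Crest.Agent.R270.DimN_282
open Crest.Agent.R013.RR2_948 Crest.Agent.R260.Lin_678
open Crest.Agent.R260.Frm1_428 Crest.Agent.R260.Frm3_428

universe u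

variable {k : Type u} [Field k] {I : Type} {J : I → Type} [Fintype I] [∀ i, Fintype (J i)]

/-- the numbers: `n`, the sum of the `a_j`, the duality. -/
def NumP (D : CData k I J) : Prop :=
  ∀ (κ : Type u) [Field κ] [Algebra k κ] (F : ∀ i, J i → κ[X]) (e n : ℕ), IsMap D.E F →
    cls F = e • D.β → ∀ B : RBasis (fun x : Σ i, J i => (cls F x.1 : ℤ)) (TanM D.E F) n,
      n = 2 * D.m + 1 + Fintype.card I ∧ ∑ j, B.a j = ((D.m + 1) * e : ℕ) ∧
        ∀ j, B.a j ≤ 0 ∨ ∃ l, B.a j + B.a l ≤ e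

/-- **`NumP`**. -/
theorem numP (D : CData k I J) (hP : (Ideal.span D.E).IsPrime) : NumP D := by
  classical
  intro κ _ _ F e n hF hcl B
  obtain ⟨i0, h0⟩ := exists_i0 D
  have hs : Split (TK D.E F).subtype (tw F) (rbas B) B.a := split_of_rbasis B
  have hn : n = 2 * D.m + 1 + Fintype.card I := by
    have := card_eq (d7r D) hF (rbas B)
    rwa [Fintype.card_fin] at this
  obtain ⟨t, ee, G, hG⟩ := (ofCData D hP h0).gram (d7r D) D.hom hF hs
  have hw : wdeg D.w F = e := by
    unfold wdeg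
    have h1 : ∀ i, D.w i * (cls F i : ℤ) = e * (D.w i * (D.β i : ℤ)) := by
      intro i
      rw [hcl]
      simp only [Pi.smul_apply, smul_eq_mul]
      push_cast
      ring
    rw [Finset.sum_congr rfl fun i _ => h1 i, ← Finset.mul_sum, D.wβ, mul_one]
  have hcS : Fintype.card {i : I // i ≠ i0} = Fintype.card I - 1 := by
    rw [Fintype.card_subtype_compl, Fintype.card_subtype_eq]
  have hI : 1 ≤ Fintype.card I := Fintype.card_pos_iff.mpr ⟨i0⟩
  refine ⟨hn, ?_, ?_⟩
  · have h1 := hG.sum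
    rw [Fintype.card_fin, hcS, hw] at h1
    push_cast [hI] at h1 ⊢
    have hn' : (n : ℤ) = 2 * D.m + 1 + Fintype.card I := by exact_mod_cast hn
    have h2 : 2 * ∑ j, B.a j = 2 * (((D.m : ℤ) + 1) * e) := by
      rw [h1, hn']
      ring
    exact mul_left_cancel₀ two_ne_zero h2
  · intro j
    rcases hG.dual j with h1 | ⟨l, hl⟩
    · exact Or.inl h1
    · refine Or.inr ⟨l, ?_⟩
      have h2 := hG.Gdeg j l
      rw [hw] at h2
      have h3 : (1 : ℤᵐ⁰) ≤ exp ((e : ℤ) - B.a j - B.a l) := (vinf_poly_one_le κ hl).trans h2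
      rw [← exp_zero, exp_le_exp] at h3
      omega

/-- `NumAt` of helper703. -/
theorem numAt (D : CData k I J) (hP : (Ideal.span D.E).IsPrime) {κ : Type u} [Field κ]
    [Algebra k κ] {F : ∀ i, J i → κ[X]} {e : ℕ} (hF : IsMap D.E F) (hcl : cls F = e • D.β) :
    Crest.Agent.R260.Cf_703.NumAt D F e := fun n b =>
  (numP D hP κ F e n hF hcl b).2.1

/-- `NumConP` of helper169. -/
theorem numConP (D : CData k I J) (hP : (Ideal.span D.E).IsPrime) :
    Crest.Agent.R260.Gp_169.NumConP D := fun _ _ _ _ _ hF hcl => numAt D hP hF hcl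

/-- the geometric degree of a map along any reduced basis, lines: all `a_j ≥ 0` implies
`a_j ∈ {0, 1}`. -/
theorem le_one_of_nonneg (D : CData k I J) (hP : (Ideal.span D.E).IsPrime) {κ : Type u} [Field κ]
    [Algebra k κ] {F : ∀ i, J i → κ[X]} {n : ℕ} (hF : IsMap D.E F) (hcl : cls F = D.β)
    (B : RBasis (fun x : Σ i, J i => (cls F x.1 : ℤ)) (TanM D.E F) n) (h : ∀ j, 0 ≤ B.a j)
    (j : Fin n) : B.a j ≤ 1 := by
  rcases (numP D hP κ F 1 n hF (by rw [hcl, one_smul]) B).2.2 j with h1 | ⟨l, hl⟩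
  · omega
  · have := h l
    push_cast at hl
    omega

end Crest.Agent.R260.Num_789
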