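import Mathlib
import Crest.Agent.R260.QuadDefs_517
import Crest.Agent.R260.Irr2_33

/-!
# Row 260, (SCAL) (helper661): generic scalars

The literal leaf `ScalP` of `QuadDefs_517`.
-/

set_option autoImplicit false

namespace Crest.Agent.R260.Scal_661

open Crest.Agent.R270.BM_360 Crest.Agent.R260.QuadDefs_517

universe u

/-- an independent family of `r` elements can be extended by `n` elements if there are `r + n`
independent elements. -/
theorem exists_extend {F K : Type u} [Field F] [Field K] [Algebra F K] {r n : ℕ} {w : Fin r → K}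
    (hw : AlgebraicIndependent F w) {w' : Fin (r + n) → K} (hw' : AlgebraicIndependent F w') :
    ∃ μ : Fin n → K, AlgebraicIndependent F (Fin.append w μ) := by
  classical
  obtain ⟨t, hst, ht⟩ := exists_isTranscendenceBasis_superset (R := F) (s := Set.range w)
    hw.to_subtype_range
  have h1 := hw'.lift_cardinalMk_le_trdeg
  rw [← ht.cardinalMk_eq_trdeg, Cardinal.mk_fintype, Fintype.card_fin, Cardinal.lift_natCast,
    Cardinal.lift_id'] at h1
  have h2 : Cardinal.mk (Set.range w) = (r : Cardinal.{u}) := by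
    have := Cardinal.mk_range_eq_of_injective hw.injective
    rw [Cardinal.mk_fin, Cardinal.lift_natCast, Cardinal.lift_id'] at this
    exact this
  have h3 := Cardinal.mk_sdiff_add_mk hst
  rw [h2] at h3
  have h4 : (n : Cardinal.{u}) ≤ Cardinal.mk (t \ Set.range w : Set K) := by
    by_contra hlt
    push Not at hlt
    obtain ⟨d, hd⟩ := Cardinal.lt_aleph0.1 (hlt.trans (Cardinal.natCast_lt_aleph0 (n := n)))
    rw [hd] at hlt h3
    rw [← h3] at h1
    have h5 : r + n ≤ d + r := by exact_mod_cast h1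
    have h6 : d < n := by exact_mod_cast hlt
    omega
  have h5 : Cardinal.lift.{u} (Cardinal.mk (Fin n)) ≤
      Cardinal.lift.{0} (Cardinal.mk (t \ Set.range w : Set K)) := by
    rw [Cardinal.mk_fintype, Fintype.card_fin, Cardinal.lift_natCast, Cardinal.lift_id'.{0, u}]
    exact h4
  obtain ⟨μ⟩ := Cardinal.lift_mk_le'.1 h5
  refine ⟨fun j => (μ j : K), ?_⟩
  let e : Fin (r + n) → t := Fin.append (fun j => ⟨w j, hst ⟨j, rfl⟩⟩)
    (fun j => ⟨(μ j : K), (μ j).2.1⟩)
  have he : Function.Injective e := by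
    rw [Fin.append_injective_iff]
    refine ⟨fun i j h => hw.injective (congrArg Subtype.val h),
      fun i j h => μ.injective (Subtype.ext (Subtype.mk.inj h)), fun i j h => ?_⟩
    exact (μ j).2.2 ⟨i, congrArg Subtype.val h⟩
  have h6 : (fun j => ((e j : t) : K)) = Fin.append w fun j => (μ j : K) := by
    funext j
    refine Fin.addCases (fun j => ?_) (fun j => ?_) j
    · simp [e]
    · simp [e]
  rw [← h6]
  exact ht.1.comp e he

variable {I : Type} {J : I → Type} [Fintype I] [∀ i, Fintype (J i)]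

omit [Fintype I] [∀ i, Fintype (J i)] in
theorem exists_ne {A : Type u} [Field A] {q : ∀ i, J i → A} (hq : ∀ i, q i ≠ 0) :
    ∃ b : ∀ i, J i, ∀ i, q i (b i) ≠ 0 := by
  have h : ∀ i, ∃ b, q i b ≠ 0 := fun i => by
    by_contra h
    push Not at h
    exact hq i (funext h)
  choose b hb using h
  exact ⟨b, hb⟩

/-- **(SCAL)** of `QuadDefs_517`. -/
theorem scalP : ScalP.{u} I J := by
  intro F₀ k' _ _ _ _ _ q r hq hr hn
  obtain ⟨w, hw, hwi⟩ := hr
  obtain ⟨w', _, hwi'⟩ := hn
  obtain ⟨μ, hμ⟩ := exists_extend hwi hwi'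
  obtain ⟨b, hb⟩ := exists_ne hq
  let e := Fintype.equivFin I
  have hμ0 : ∀ j, μ j ≠ 0 := fun j => by
    have := hμ.ne_zero (Fin.natAdd r j)
    rwa [Fin.append_right] at this
  let lam : I → k' := fun i => μ (e i) / q i (b i)
  have hlam : ∀ i, lam i ≠ 0 := fun i => div_ne_zero (hμ0 _) (hb i)
  refine ⟨lam, hlam, Fin.append w μ, fun j => ?_, hμ⟩
  refine Fin.addCases (fun j => ?_) (fun j => ?_) j
  · rw [Fin.append_left]
    have hsub : rat q ⊆ IntermediateField.adjoin F₀ (ent fun i j => lam i * q i j) := by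
      rintro c ⟨i, a, b', hb', rfl⟩
      have h1 : q i a / q i b' = (lam i * q i a) / (lam i * q i b') :=
        (mul_div_mul_left _ _ (hlam i)).symm
      rw [h1]
      exact div_mem (IntermediateField.subset_adjoin _ _ ⟨i, a, rfl⟩)
        (IntermediateField.subset_adjoin _ _ ⟨i, b', rfl⟩)
    exact IntermediateField.adjoin_le_iff.2 hsub (hw j)
  · rw [Fin.append_right]
    refine IntermediateField.subset_adjoin _ _ ⟨e.symm j, b _, ?_⟩
    simp only [lam, Equiv.apply_symm_apply]
    exact div_mul_cancel₀ _ (hb _)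

end Crest.Agent.R260.Scal_661
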