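import Mathlib
import Crest.Agent.R260.Scal1_661

/-!
# Row 260, (EXM) (helper661): exact vectors with the same multihomogeneous relations

The literal leaf `ExmP` of `QuadDefs_517`: two exact vectors (all scalars generic) with the same
multihomogeneous relations have the same relations.
-/

set_option autoImplicit false

namespace Crest.Agent.R260.Scal_661

open Crest.Agent.R270.BM_360 Crest.Agent.R260.QuadDefs_517
open MvPolynomial (weightedHomogeneousComponent)

universe u

variable {I : Type} {J : I → Type} [Fintype I] [∀ i, Fintype (J i)]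

open Classical in
/-- the weights -/
noncomputable def wt (J : I → Type) : (Σ i, J i) → (I → ℕ) := fun x => Pi.single x.1 1

/-- the degree in the block `i` of a monomial -/
def bdeg (m : (Σ i, J i) →₀ ℕ) (i : I) : ℕ := ∑ a, m ⟨i, a⟩

theorem weight_wt (m : (Σ i, J i) →₀ ℕ) : Finsupp.weight (wt J) m = bdeg m := by
  classical
  funext i
  rw [Finsupp.weight_apply, Finsupp.sum_fintype _ _ (by simp), Finset.sum_apply,
    Fintype.sum_sigma, Finset.sum_eq_single i]
  · unfold bdeg wt
    refine Finset.sum_congr rfl fun a _ => ?_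
    simp
  · intro j _ hj
    refine Finset.sum_eq_zero fun a _ => ?_
    simp [wt, Pi.single_eq_of_ne hj.symm]
  · simp

section hom

variable {F : Type u} [Field F]

open Classical in
/-- multihomogenisation -/
noncomputable def hmz (b : ∀ i, J i) (N : ℕ) (p : MvPolynomial (Σ i, J i) F) :
    MvPolynomial (Σ i, J i) F :=
  ∑ m ∈ p.support, MvPolynomial.monomial
    (m + ∑ i, Finsupp.single (⟨i, b i⟩ : Σ i, J i) (N - bdeg m i)) (p.coeff m)

theorem bdeg_le (p : MvPolynomial (Σ i, J i) F) :
    ∃ N : ℕ, ∀ m ∈ p.support, ∀ i, bdeg m i ≤ N := by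
  classical
  refine ⟨p.support.sup fun m => Finset.univ.sup fun i => bdeg m i, fun m hm i => ?_⟩
  exact (Finset.le_sup (f := fun i => bdeg m i) (Finset.mem_univ i)).trans
    (Finset.le_sup (f := fun m => Finset.univ.sup fun i => bdeg m i) hm)

theorem mhm_hmz {b : ∀ i, J i} {N : ℕ} {p : MvPolynomial (Σ i, J i) F}
    (hN : ∀ m ∈ p.support, ∀ i, bdeg m i ≤ N) : MHm (hmz b N p) := by
  classical
  refine ⟨fun _ => N, ?_⟩
  have h0 : (fun x : Σ i, J i => (Pi.single x.1 1 : I → ℕ)) = wt J := by
    funext x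
    unfold wt
    congr
  rw [h0]
  unfold hmz
  refine MvPolynomial.IsWeightedHomogeneous.sum _ _ _ fun m hm => ?_
  refine MvPolynomial.isWeightedHomogeneous_monomial _ _ _ ?_
  rw [weight_wt]
  funext i
  change ∑ a, (m + ∑ j, Finsupp.single (⟨j, b j⟩ : Σ i, J i) (N - bdeg m j)) ⟨i, a⟩ = N
  have h1 : ∀ a, (m + ∑ j, Finsupp.single (⟨j, b j⟩ : Σ i, J i) (N - bdeg m j)) ⟨i, a⟩ =
      m ⟨i, a⟩ + if a = b i then N - bdeg m i else 0 := fun a => by
    rw [Finsupp.add_apply, Finsupp.finsetSum_apply, Finset.sum_eq_single i]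
    · congr 1
      rw [Finsupp.single_apply]
      by_cases h : a = b i
      · rw [if_pos h, if_pos (by rw [h])]
      · rw [if_neg h, if_neg]
        intro h2
        exact h (eq_of_heq (Sigma.mk.inj h2).2).symm
    · intro j _ hj
      rw [Finsupp.single_apply, if_neg]
      intro h2
      exact hj (Sigma.mk.inj h2).1
    · simp
  rw [Finset.sum_congr rfl fun a _ => h1 a, Finset.sum_add_distrib, Finset.sum_ite_eq']
  simp only [Finset.mem_univ, if_true]
  have := hN m hm i
  unfold bdeg at *
  exact Nat.add_sub_cancel' this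

/-- value of a monomial at a scaled vector. -/
theorem prod_scale {A : Type u} [Field A] (l : I → A) (v : ∀ i, J i → A) (m : (Σ i, J i) →₀ ℕ) :
    ∏ x : Σ i, J i, (l x.1 * v x.1 x.2) ^ m x =
      (∏ i, l i ^ bdeg m i) * ∏ x : Σ i, J i, v x.1 x.2 ^ m x := by
  simp only [mul_pow]
  rw [Finset.prod_mul_distrib]
  congr 1
  rw [Fintype.prod_sigma]
  refine Finset.prod_congr rfl fun i _ => ?_
  change ∏ a, l i ^ m ⟨i, a⟩ = l i ^ ∑ a, m ⟨i, a⟩
  rw [Finset.prod_pow_eq_pow_sum]

theorem evv_eq {A : Type u} [Field A] [Algebra F A] (v : ∀ i, J i → A)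
    (p : MvPolynomial (Σ i, J i) F) :
    evv v p = ∑ m ∈ p.support, algebraMap F A (p.coeff m) * ∏ x : Σ i, J i, v x.1 x.2 ^ m x := by
  classical
  unfold evv
  rw [MvPolynomial.aeval_def, MvPolynomial.eval₂_eq']

theorem evv_hmz {A : Type u} [Field A] [Algebra F A] {b : ∀ i, J i} {N : ℕ}
    {p : MvPolynomial (Σ i, J i) F} (hN : ∀ m ∈ p.support, ∀ i, bdeg m i ≤ N) {l : I → A}
    {v : ∀ i, J i → A} (hv : ∀ i, v i (b i) = 1) :
    evv (fun i j => l i * v i j) (hmz b N p) = (∏ i, l i ^ N) * evv v p := by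
  classical
  unfold hmz
  have h0 : evv (fun i j => l i * v i j) (∑ m ∈ p.support, MvPolynomial.monomial
      (m + ∑ i, Finsupp.single (⟨i, b i⟩ : Σ i, J i) (N - bdeg m i)) (p.coeff m)) =
      ∑ m ∈ p.support, evv (fun i j => l i * v i j) (MvPolynomial.monomial
      (m + ∑ i, Finsupp.single (⟨i, b i⟩ : Σ i, J i) (N - bdeg m i)) (p.coeff m)) := by
    unfold evv
    rw [map_sum]
  rw [h0, evv_eq v p, Finset.mul_sum]
  refine Finset.sum_congr rfl fun m hm => ?_
  have h1 : evv (fun i j => l i * v i j) (MvPolynomial.monomial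
      (m + ∑ i, Finsupp.single (⟨i, b i⟩ : Σ i, J i) (N - bdeg m i)) (p.coeff m)) =
      algebraMap F A (p.coeff m) * ((∏ x : Σ i, J i, (l x.1 * v x.1 x.2) ^ m x) *
        ∏ i, (l i * v i (b i)) ^ (N - bdeg m i)) := by
    unfold evv
    rw [MvPolynomial.aeval_monomial, Finsupp.prod_add_index' (by simp) (by intros; rw [pow_add]),
      Finsupp.prod_fintype _ _ (by simp)]
    congr 2
    rw [← Finsupp.prod_finsetSum_index (by simp) (by intros; rw [pow_add])]
    refine Finset.prod_congr rfl fun i _ => ?_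
    rw [Finsupp.prod_single_index (by simp)]
  rw [h1, prod_scale]
  have h2 : ∏ i, (l i * v i (b i)) ^ (N - bdeg m i) = ∏ i, l i ^ (N - bdeg m i) :=
    Finset.prod_congr rfl fun i _ => by rw [hv, mul_one]
  have h3 : (∏ i, l i ^ bdeg m i) * ∏ i, l i ^ (N - bdeg m i) = ∏ i, l i ^ N := by
    rw [← Finset.prod_mul_distrib]
    refine Finset.prod_congr rfl fun i _ => ?_
    rw [← pow_add, Nat.add_sub_cancel' (hN m hm i)]
  rw [h2, ← h3]
  ring

/-- scaling of a multihomogeneous polynomial. -/
theorem evv_scale {A : Type u} [Field A] [Algebra F A] {p : MvPolynomial (Σ i, J i) F} {d : I → ℕ}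
    (hp : MvPolynomial.IsWeightedHomogeneous (wt J) p d) (l : I → A) (v : ∀ i, J i → A) :
    evv (fun i j => l i * v i j) p = (∏ i, l i ^ d i) * evv v p := by
  rw [evv_eq, evv_eq v p, Finset.mul_sum]
  refine Finset.sum_congr rfl fun m hm => ?_
  have h1 := hp (MvPolynomial.mem_support_iff.1 hm)
  rw [weight_wt] at h1
  rw [prod_scale, h1]
  ring

end hom

/-! ### the scalars are generic -/

section scal

variable {F A : Type u} [Field F] [Field A] [Algebra F A]

omit [∀ i, Fintype (J i)] in
theorem indep_scal {q : ∀ i, J i → A} {r : ℕ} {b : ∀ i, J i} (hb : ∀ i, q i (b i) ≠ 0)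
    (h1 : ¬ TrGe F (rat q) (r + 1)) (h2 : TrGe F (ent q) (r + Fintype.card I)) :
    AlgebraicIndependent (IntermediateField.adjoin F (rat q)) fun i => q i (b i) := by
  classical
  set K := IntermediateField.adjoin F (rat q) with hK
  let μ : I → A := fun i => q i (b i)
  let L := IntermediateField.adjoin K (Set.range μ)
  let μ' : I → L := fun i => ⟨μ i, IntermediateField.subset_adjoin K _ ⟨i, rfl⟩⟩
  -- `L` is algebraic over `K[μ']`
  have himg : L.val '' (Set.range μ') = Set.range μ := by
    rw [← Set.range_comp]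
    rfl
  have hmap : (Algebra.adjoin K (Set.range μ')).map L.val = Algebra.adjoin K (Set.range μ) := by
    rw [AlgHom.map_adjoin, himg]
  have halg : Algebra.IsAlgebraic (Algebra.adjoin K (Set.range μ')) L := by
    constructor
    intro x
    obtain ⟨r, hr, s, hs, hx⟩ := IntermediateField.mem_adjoin_iff_div.1 x.2
    rw [← hmap] at hr hs
    obtain ⟨r', hr', rfl⟩ := hr
    obtain ⟨s', hs', rfl⟩ := hs
    have hx' : x = r' * s'⁻¹ := by
      apply Subtype.ext
      rw [hx, div_eq_mul_inv]
      rfl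
    rw [hx']
    exact (isAlgebraic_algebraMap (⟨r', hr'⟩ : Algebra.adjoin K (Set.range μ'))).mul
      (isAlgebraic_algebraMap (⟨s', hs'⟩ : Algebra.adjoin K (Set.range μ'))).inv
  -- transcendence degrees
  have hKr : Algebra.trdeg F K ≤ (r : Cardinal.{u}) := by
    by_contra hlt
    push Not at hlt
    obtain ⟨t, ht⟩ := exists_isTranscendenceBasis F K
    rw [← ht.cardinalMk_eq_trdeg] at hlt
    have h3 : ((r + 1 : ℕ) : Cardinal.{u}) ≤ Cardinal.mk t := by
      by_contra h
      push Not at h
      obtain ⟨d, hd⟩ := Cardinal.lt_aleph0.1 (h.trans Cardinal.natCast_lt_aleph0)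
      rw [hd] at h hlt
      have h5 : r < d := by exact_mod_cast hlt
      have h6 : d < r + 1 := by exact_mod_cast h
      omega
    have h5 : Cardinal.lift.{u} (Cardinal.mk (Fin (r + 1))) ≤
        Cardinal.lift.{0} (Cardinal.mk t) := by
      rw [Cardinal.mk_fin, Cardinal.lift_natCast, Cardinal.lift_id'.{0, u}]
      exact h3
    obtain ⟨e⟩ := Cardinal.lift_mk_le'.1 h5
    refine h1 ⟨fun j => ((e j : K) : A), fun j => (e j : K).2, ?_⟩
    have h6 : AlgebraicIndependent F fun j => (e j : K) := ht.1.comp e e.injective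
    exact h6.map' (f := K.val) Subtype.val_injective
  have hLn : ((r + Fintype.card I : ℕ) : Cardinal.{u}) ≤ Algebra.trdeg F L := by
    obtain ⟨w, hw, hwi⟩ := h2
    have hsub : (IntermediateField.adjoin F (ent q) : Set A) ⊆ (L : Set A) := by
      have h3 : IntermediateField.adjoin F (ent q) ≤ L.restrictScalars F := by
        rw [IntermediateField.adjoin_le_iff]
        rintro c ⟨i, a, rfl⟩
        have h4 : q i a = (q i a / q i (b i)) * μ i := by
          change q i a = (q i a / q i (b i)) * q i (b i)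
          rw [div_mul_cancel₀ _ (hb i)]
        rw [h4]
        have h5 : q i a / q i (b i) ∈ K :=
          IntermediateField.subset_adjoin _ _ ⟨i, a, b i, hb i, rfl⟩
        have h6 : q i a / q i (b i) ∈ L := L.algebraMap_mem ⟨_, h5⟩
        exact mul_mem h6 (μ' i).2
      exact h3
    let w' : Fin (r + Fintype.card I) → L := fun j => ⟨w j, hsub (hw j)⟩
    have hw' : AlgebraicIndependent F w' :=
      AlgebraicIndependent.of_comp (L.restrictScalars F).val hwi
    have h3 := hw'.lift_cardinalMk_le_trdeg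
    rw [Cardinal.mk_fin, Cardinal.lift_natCast, Cardinal.lift_id'] at h3
    exact h3
  have hKL : FaithfulSMul K L :=
    (faithfulSMul_iff_algebraMap_injective K L).2 (algebraMap K L).injective
  have hadd : Algebra.trdeg F K + Algebra.trdeg K L = Algebra.trdeg F L :=
    trdeg_add_eq F K (A := L)
  have hle : ((Fintype.card I : ℕ) : Cardinal.{u}) ≤ Algebra.trdeg K L := by
    by_contra hlt
    push Not at hlt
    obtain ⟨d, hd⟩ := Cardinal.lt_aleph0.1 (hlt.trans (Cardinal.natCast_lt_aleph0))
    obtain ⟨c, hc⟩ := Cardinal.lt_aleph0.1 (hKr.trans_lt (Cardinal.natCast_lt_aleph0))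
    rw [hd] at hlt hadd
    rw [hc] at hadd hKr
    rw [← hadd] at hLn
    have h5 : r + Fintype.card I ≤ c + d := by exact_mod_cast hLn
    have h6 : d < Fintype.card I := by exact_mod_cast hlt
    have h7 : c ≤ r := by exact_mod_cast hKr
    omega
  have hbas : IsTranscendenceBasis K μ' := by
    refine Algebra.IsAlgebraic.isTranscendenceBasis_of_lift_le_trdeg_of_finite K μ' ?_
    rw [Cardinal.mk_fintype, Cardinal.lift_natCast, Cardinal.lift_id']
    exact hle
  exact hbas.1.map' (f := L.val) Subtype.val_injective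

/-- the multihomogeneous components of a relation of an exact vector are relations. -/
theorem evv_comp {q : ∀ i, J i → A} {r : ℕ} (hq : ∀ i, q i ≠ 0)
    (h1 : ¬ TrGe F (rat q) (r + 1)) (h2 : TrGe F (ent q) (r + Fintype.card I))
    {p : MvPolynomial (Σ i, J i) F} (hp : evv q p = 0) (d : I → ℕ) :
    evv q (weightedHomogeneousComponent (wt J) d p) = 0 := by
  classical
  obtain ⟨b, hb⟩ := exists_ne hq
  have hind := indep_scal hb h1 h2
  set K := IntermediateField.adjoin F (rat q) with hK
  have hfin : (Function.support fun e => weightedHomogeneousComponent (wt J) e p).Finite :=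
    MvPolynomial.weightedHomogeneousComponent_finsupp (w := wt J) (φ := p)
  by_cases hd : d ∈ hfin.toFinset
  swap
  · rw [Set.Finite.mem_toFinset, Function.mem_support, not_not] at hd
    rw [hd]
    unfold evv
    rw [map_zero]
  have hsum : p = ∑ e ∈ hfin.toFinset, weightedHomogeneousComponent (wt J) e p := by
    have h3 := MvPolynomial.sum_weightedHomogeneousComponent (wt J) p
    rw [finsum_eq_sum _ hfin] at h3
    exact h3.symm
  let v : ∀ i, J i → K := fun i j =>
    ⟨q i j / q i (b i), IntermediateField.subset_adjoin _ _ ⟨i, j, b i, hb i, rfl⟩⟩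
  have hv : ∀ P : MvPolynomial (Σ i, J i) F,
      evv (fun i j => q i j / q i (b i)) P = algebraMap K A (evv v P) := by
    intro P
    unfold evv
    rw [← IsScalarTower.toAlgHom_apply F K A, ← AlgHom.comp_apply, MvPolynomial.comp_aeval]
    rfl
  have hq' : (fun i j => q i (b i) * (q i j / q i (b i))) = q := by
    funext i j
    rw [mul_div_cancel₀ _ (hb i)]
  have hsc : ∀ e : I → ℕ, evv q (weightedHomogeneousComponent (wt J) e p) =
      (∏ i, q i (b i) ^ e i) * algebraMap K A (evv v (weightedHomogeneousComponent (wt J) e p)) :=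
    fun e => by
    have h3 := evv_scale (MvPolynomial.weightedHomogeneousComponent_isWeightedHomogeneous
      (w := wt J) (n := e) (φ := p)) (fun i => q i (b i)) (fun i j => q i j / q i (b i))
    rw [hq', hv] at h3
    exact h3
  let P : MvPolynomial I K := ∑ e ∈ hfin.toFinset,
    MvPolynomial.monomial (Finsupp.equivFunOnFinite.symm e)
      (evv v (weightedHomogeneousComponent (wt J) e p))
  have hP : MvPolynomial.aeval (fun i => q i (b i)) P = 0 := by
    rw [← hp]
    conv_rhs => rw [hsum]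
    have h3 : evv q (∑ e ∈ hfin.toFinset, weightedHomogeneousComponent (wt J) e p) =
        ∑ e ∈ hfin.toFinset, evv q (weightedHomogeneousComponent (wt J) e p) := by
      unfold evv
      rw [map_sum]
    rw [h3]
    simp only [P, map_sum]
    refine Finset.sum_congr rfl fun e _ => ?_
    rw [hsc, MvPolynomial.aeval_monomial, mul_comm, Finsupp.prod_fintype _ _ (by simp)]
    rfl
  have hP0 : P = 0 := (algebraicIndependent_iff.1 hind) P hP
  have h4 := congrArg (MvPolynomial.coeff (Finsupp.equivFunOnFinite.symm d)) hP0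
  rw [MvPolynomial.coeff_zero] at h4
  simp only [P, MvPolynomial.coeff_sum, MvPolynomial.coeff_monomial, EmbeddingLike.apply_eq_iff_eq]
    at h4
  rw [Finset.sum_ite_eq', if_pos hd] at h4
  rw [hsc, h4, map_zero, mul_zero]

variable {B : Type u} [Field B] [Algebra F B]

/-- dehomogenised vectors have the same relations. -/
theorem evv_dehom {q : ∀ i, J i → A} {q' : ∀ i, J i → B} {b : ∀ i, J i}
    (hb : ∀ i, q i (b i) ≠ 0) (hb' : ∀ i, q' i (b i) ≠ 0)
    (h : ∀ p : MvPolynomial (Σ i, J i) F, MHm p → (evv q p = 0 ↔ evv q' p = 0))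
    (p : MvPolynomial (Σ i, J i) F) :
    evv (fun i j => q i j / q i (b i)) p = 0 ↔ evv (fun i j => q' i j / q' i (b i)) p = 0 := by
  obtain ⟨N, hN⟩ := bdeg_le p
  have e1 := evv_hmz (b := b) hN (l := fun i => q i (b i))
    (v := fun i j => q i j / q i (b i)) fun i => div_self (hb i)
  have e2 := evv_hmz (b := b) hN (l := fun i => q' i (b i))
    (v := fun i j => q' i j / q' i (b i)) fun i => div_self (hb' i)
  have h1 : (fun i j => q i (b i) * (q i j / q i (b i))) = q := by
    funext i j
    rw [mul_div_cancel₀ _ (hb i)]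
  have h2 : (fun i j => q' i (b i) * (q' i j / q' i (b i))) = q' := by
    funext i j
    rw [mul_div_cancel₀ _ (hb' i)]
  rw [h1] at e1
  rw [h2] at e2
  have n1 : (∏ i, q i (b i) ^ N) ≠ 0 :=
    Finset.prod_ne_zero_iff.2 fun i _ => pow_ne_zero _ (hb i)
  have n2 : (∏ i, q' i (b i) ^ N) ≠ 0 :=
    Finset.prod_ne_zero_iff.2 fun i _ => pow_ne_zero _ (hb' i)
  have h3 := h _ (mhm_hmz (b := b) hN)
  rw [e1, e2, mul_eq_zero_iff_left n1, mul_eq_zero_iff_left n2] at h3
  exact h3

/-- transcendence degree of the ratios. -/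
theorem trge_rat {q : ∀ i, J i → A} {q' : ∀ i, J i → B} {b : ∀ i, J i}
    (hb : ∀ i, q i (b i) ≠ 0) (hb' : ∀ i, q' i (b i) ≠ 0)
    (h : ∀ p : MvPolynomial (Σ i, J i) F, evv (fun i j => q i j / q i (b i)) p = 0 →
      evv (fun i j => q' i j / q' i (b i)) p = 0) {m : ℕ} (hm : TrGe F (rat q') m) :
    TrGe F (rat q) m := by
  have h1 : TrGe F (Set.range fun x : Σ i, J i => q' x.1 x.2 / q' x.1 (b x.1)) m := by
    obtain ⟨w, hw, hwi⟩ := hm
    refine ⟨w, fun j => ?_, hwi⟩
    have hsub : rat q' ⊆ IntermediateField.adjoin F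
        (Set.range fun x : Σ i, J i => q' x.1 x.2 / q' x.1 (b x.1)) := by
      rintro c ⟨i, a, b', hb2, rfl⟩
      have h2 : q' i a / q' i b' = (q' i a / q' i (b i)) / (q' i b' / q' i (b i)) :=
        (div_div_div_cancel_right₀ (hb' i) _ _).symm
      rw [h2]
      exact div_mem (IntermediateField.subset_adjoin _ _ ⟨⟨i, a⟩, rfl⟩)
        (IntermediateField.subset_adjoin _ _ ⟨⟨i, b'⟩, rfl⟩)
    exact IntermediateField.adjoin_le_iff.2 hsub (hw j)
  obtain ⟨x, hx⟩ := Irr_33.exists_sub h1
  refine Irr_33.trge_of_sub (w := fun j => q (x j).1 (x j).2 / q (x j).1 (b (x j).1))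
    (fun j => ⟨(x j).1, (x j).2, b (x j).1, hb _, rfl⟩) ?_
  rw [algebraicIndependent_iff] at hx ⊢
  intro P hP
  refine hx P ?_
  have e1 : MvPolynomial.aeval (fun j => q (x j).1 (x j).2 / q (x j).1 (b (x j).1)) P =
      evv (fun i j => q i j / q i (b i)) (MvPolynomial.rename x P) := by
    unfold evv
    rw [MvPolynomial.aeval_rename]
    rfl
  have e2 : MvPolynomial.aeval (fun j => q' (x j).1 (x j).2 / q' (x j).1 (b (x j).1)) P =
      evv (fun i j => q' i j / q' i (b i)) (MvPolynomial.rename x P) := by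
    unfold evv
    rw [MvPolynomial.aeval_rename]
    rfl
  rw [e2]
  rw [e1] at hP
  exact h _ hP

/-- one direction of (EXM). -/
theorem exm_one {q : ∀ i, J i → A} {q' : ∀ i, J i → B} {r : ℕ} (hq : ∀ i, q i ≠ 0)
    (h1 : ¬ TrGe F (rat q) (r + 1)) (h2 : TrGe F (ent q) (r + Fintype.card I))
    (h : ∀ p : MvPolynomial (Σ i, J i) F, MHm p → evv q p = 0 → evv q' p = 0)
    {p : MvPolynomial (Σ i, J i) F} (hp : evv q p = 0) : evv q' p = 0 := by
  classical
  have hfin : (Function.support fun e => weightedHomogeneousComponent (wt J) e p).Finite :=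
    MvPolynomial.weightedHomogeneousComponent_finsupp (w := wt J) (φ := p)
  have hsum : p = ∑ e ∈ hfin.toFinset, weightedHomogeneousComponent (wt J) e p := by
    have h3 := MvPolynomial.sum_weightedHomogeneousComponent (wt J) p
    rw [finsum_eq_sum _ hfin] at h3
    exact h3.symm
  have h3 : evv q' (∑ e ∈ hfin.toFinset, weightedHomogeneousComponent (wt J) e p) =
      ∑ e ∈ hfin.toFinset, evv q' (weightedHomogeneousComponent (wt J) e p) := by
    unfold evv
    rw [map_sum]
  rw [hsum, h3]
  refine Finset.sum_eq_zero fun e _ => h _ ⟨e, ?_⟩ (evv_comp hq h1 h2 hp e)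
  exact MvPolynomial.weightedHomogeneousComponent_isWeightedHomogeneous (w := wt J) (n := e)
    (φ := p)

end scal

/-- **(EXM)** of `QuadDefs_517`. -/
theorem exmP : ExmP.{u} I J := by
  intro F₀ A B _ _ _ _ _ _ q q' r hq hq' h1 h2 h3 h p
  obtain ⟨b, hb⟩ := exists_ne hq
  have hb' : ∀ i, q' i (b i) ≠ 0 := fun i hi => by
    classical
    have h4 : MHm (MvPolynomial.X (⟨i, b i⟩ : Σ i, J i) : MvPolynomial (Σ i, J i) F₀) :=
      ⟨_, MvPolynomial.isWeightedHomogeneous_X F₀ (fun x : Σ i, J i => (Pi.single x.1 1 : I → ℕ))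
        ⟨i, b i⟩⟩
    have h5 := (h _ h4).2 (by unfold evv; rw [MvPolynomial.aeval_X]; exact hi)
    unfold evv at h5
    rw [MvPolynomial.aeval_X] at h5
    exact hb i h5
  have h4 : ¬ TrGe F₀ (rat q') (r + 1) := fun hcon =>
    h1 (trge_rat hb hb' (fun p hp => (evv_dehom hb hb' h p).1 hp) hcon)
  exact ⟨fun hp => exm_one hq h1 h2 (fun p hm => (h p hm).1) hp,
    fun hp => exm_one hq' h4 h3 (fun p hm => (h p hm).2) hp⟩

end Crest.Agent.R260.Scal_661
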