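import Crest.Agent.R260.Fin12_600
import Crest.Agent.R260.Fm3_323
import Crest.Agent.R260.Gtr3_516
import Crest.Agent.R260.Num15_789
import Crest.Agent.R260.Div_749
import Crest.Agent.R260.QuadE_517
import Crest.Agent.R260.Loc_33
import Crest.Agent.R260.Lp_678
import Crest.Agent.R260.Kp2_997
import Crest.Agent.R260.Irr4_33
import Crest.Agent.R260.Alg5_661
import Crest.Agent.R260.Scal1_661
import Crest.Agent.R260.Scal2_661
import Crest.Agent.R260.Lf_475
import Crest.Agent.R260.MainY_803

/-!
# Row 260 (S0398), MAIN (helper803): all the leaves of QUAD for a family; AGCore from QUAD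
-/

set_option autoImplicit false
set_option linter.unusedSectionVars false

namespace Crest.Agent.R260.Asm_803

open Polynomial Crest.Agent.R270.BM_360 Crest.Agent.R260.Lin_678
open Crest.Agent.R260.QuadDefs_517 Crest.Agent.R260.Fam_919 Crest.Agent.R260.Gp_169

universe u

variable {I : Type} {J : I → Type} [Fintype I] [∀ i, Fintype (J i)]

section

variable {k : Type u} [Field k] [IsAlgClosed k] [CharZero k] (D : CData k I J)
  {P : Ideal (MvPolynomial (Cx J (fun i => 2 * D.β i)) k)}

theorem numLineP (hE : (Ideal.span D.E).IsPrime) : Lf_475.NumLineP D :=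
  fun _ _ _ _ _ hF hcl => Num_789.numAt D hE hF (by rw [hcl, one_smul])

theorem genMap (hF : Fam D P) : GenMapP D P := Fm3_323.gen_map hF

theorem genTr (hF : Fam D P) (hE : (Ideal.span D.E).IsPrime) : GenTrP D P :=
  Gtr_516.genTrP hF hE

theorem conFrame (hF : Fam D P) (hE : (Ideal.span D.E).IsPrime) : ConFrameP D (VC _ P) :=
  conFrameP_fam hF hE (Num_789.numConP D hE) (genMap D hF)

theorem gen1 (hF : Fam D P) (hE : (Ideal.span D.E).IsPrime) : Gen1P D (VC _ P) :=
  gen1P_fam hF hE (Num_789.numConP D hE) (genMap D hF)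

theorem gen2 (hF : Fam D P) (hE : (Ideal.span D.E).IsPrime) : Gen2P D (VC _ P) :=
  gen2P_fam hF hE (Num_789.numConP D hE) (genMap D hF)

theorem div (hm : 0 < D.m) (hF : Fam D P) (hE : (Ideal.span D.E).IsPrime) : DivP D (VC _ P) :=
  Cnt_749.divP hm hF hE (Num_789.numConP D hE) (genMap D hF)

theorem lineFrame (hE : (Ideal.span D.E).IsPrime) : LineFrameP D :=
  Lf_475.lineFrameP (numLineP D hE)

end

/-- local rings of codimension one (517's form). -/
theorem locP : Quad_517.LocP := by
  intro F K κ _ _ _ _ _ _ σ _ E v q N h1 h2 h3 _ h5 _ h7 b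
  exact Loc_33.loc_val h1 h2 h3 h5.le h7 b

/-- **AGCore** from QUAD for all families. -/
theorem agCore_of_quad
    (hQ : ∀ (I : Type) [Fintype I] (Jt : I → Type) [∀ i, Fintype (Jt i)] (D : CData ℂ I Jt),
      Fintype.card I = 2 → 2 ≤ D.m → (Ideal.span D.E).IsPrime →
      ∀ P : Ideal (MvPolynomial (Cx Jt (fun i => 2 * D.β i)) ℂ), Fam D P →
        QUAD D (VC _ P)) : MainC_803.AGCore :=
  Fin12_600.agCore_of fun I _ Jt _ D hI hm hE P hP =>
    ⟨hQ I Jt D hI hm hE P hP, gen1 D hP hE, genMap D hP, genTr D hP hE⟩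

end Crest.Agent.R260.Asm_803
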