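import Crest.Agent.R260.BrDefs_592
import Crest.Agent.R273.HolF_578

/-!
# R260 (S0398), AG-BRIDGE, part 1 (helper592): existence of the systems `MSys`

* `exists_mul_all` : `H⁰(L^k) ⊗ H⁰(L^j) → H⁰(L^(k+j))` is onto for all large `k`, `j`;
* `exists_complete`: a projective embedding by a complete linear system;
* `exists_msys`    : `ExistsMSys A`.
-/

set_option autoImplicit false
set_option linter.unusedSectionVars false

open Set Filter Topology Complex
open scoped ContDiff Matrix ComplexConjugate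

namespace Crest.Agent.R260.Br1_592

open Crest.Agent.R275 Crest.Agent.R275.Geo Crest.Agent.R275.Core144
open Crest.Agent.R273.LamN127 Crest.Agent.R273.KosAb_619 Crest.Agent.R273.SerA_945
open Crest.Agent.R273.SerB_945 Crest.Agent.R273.SerC_945 Crest.Agent.R273.KosGen_313
open Crest.Agent.R273.Defs_333 Crest.Agent.R273.FS_333
open Crest.Agent.R273.TD3_733 Crest.Agent.R273.SerE_945 Crest.Agent.R273.Chow_313
open Crest.Agent.R270.BM_360 Crest.Agent.R260.BrDefs_592

noncomputable section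

variable {n : ℕ} {M : Type} [TopologicalSpace M] {A : Atl n M}

/-! ### products of sections -/

/-- products of a section of `L^k` and a section of `L^j` -/
def prodSet (L : LB A) (k j : ℕ) : Set (Fn A) :=
  {u | ∃ s s', IsHS (L ^ k) univ s ∧ IsHS (L ^ j) univ s' ∧ u = s * s'}

/-- the multiplication `H⁰(L^k) ⊗ H⁰(L^j) → H⁰(L^(k+j))` is onto -/
def Mul (L : LB A) (k j : ℕ) : Prop :=
  ∀ t, IsHS (L ^ (k + j)) univ t → t ∈ Submodule.span ℂ (prodSet L k j)

theorem Mul.comp {L : LB A} {k1 k2 j : ℕ} (h1 : Mul L k1 (k2 + j)) (h2 : Mul L k2 j) :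
    Mul L (k1 + k2) j := by
  intro t ht
  have h3 := h1 t (by rwa [← add_assoc])
  refine Submodule.span_induction (p := fun x _ => x ∈ Submodule.span ℂ (prodSet L (k1 + k2) j))
    ?_ (Submodule.zero_mem _) (fun x y _ _ hx hy => Submodule.add_mem _ hx hy)
    (fun c x _ hx => Submodule.smul_mem _ c hx) h3
  rintro u ⟨s, s', hs, hs', rfl⟩
  have h4 := h2 s' hs'
  refine Submodule.span_induction
    (p := fun x _ => s * x ∈ Submodule.span ℂ (prodSet L (k1 + k2) j)) ?_ ?_ ?_ ?_ h4
  · rintro u ⟨a, b, ha, hb, rfl⟩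
    exact Submodule.subset_span ⟨s * a, b, by rw [pow_add]; exact hs.mul ha, hb,
      (mul_assoc _ _ _).symm⟩
  · rw [mul_zero]
    exact Submodule.zero_mem _
  · intro x y _ _ hx hy
    rw [mul_add]
    exact Submodule.add_mem _ hx hy
  · intro c x _ hx
    rw [mul_smul_comm]
    exact Submodule.smul_mem _ c hx

theorem residue {L O : LB A} {k0 : ℕ} (hk : 1 ≤ k0) (h : O = L ^ k0) {Q : LB A → Prop}
    (H : ∀ L' : LB A, ∃ m0 : ℕ, ∀ m, m0 ≤ m → Q (L' * O ^ m)) :
    ∃ m1 : ℕ, ∀ N, m1 ≤ N → Q (L ^ N) := by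
  choose m0 hm0 using fun r : ℕ => H (L ^ r)
  refine ⟨k0 * (∑ r ∈ Finset.range k0, m0 r + 1), fun N hN => ?_⟩
  have h1 : N % k0 < k0 := Nat.mod_lt _ hk
  have h2 : m0 (N % k0) ≤ N / k0 := by
    have h3 : m0 (N % k0) ≤ ∑ r ∈ Finset.range k0, m0 r :=
      Finset.single_le_sum (f := m0) (fun _ _ => Nat.zero_le _) (Finset.mem_range.2 h1)
    have h4 : k0 * (∑ r ∈ Finset.range k0, m0 r) ≤ N :=
      le_trans (Nat.mul_le_mul_left _ (Nat.le_succ _)) hN
    refine h3.trans ((Nat.le_div_iff_mul_le hk).2 ?_)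
    rw [mul_comm]
    exact h4
  have h5 := hm0 (N % k0) (N / k0) h2
  rwa [h, ← pow_mul, ← pow_add, Nat.mod_add_div] at h5

section Main

variable [T2Space M]

theorem mul_of_ggen {L : LB A} {m1 : ℕ} (hV : ∀ N, m1 ≤ N → ∀ q, 1 ≤ q → Solv (L ^ N) q) {k j : ℕ}
    (hg : GGen (L ^ k)) (hj : m1 + n * k ≤ j) : Mul L k j := by
  intro t ht
  obtain ⟨r, ℓ, hℓ, hne⟩ := hg
  have hN : ∀ p : ℕ, (L ^ (k + j) * (L ^ k)⁻¹ ^ (p + 1)) * L ^ k = L ^ (k + j) * (L ^ k)⁻¹ ^ p := by
    intro p
    rw [pow_succ (L ^ k)⁻¹, ← mul_assoc, inv_mul_cancel_right]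
  have hNq : ∀ q : ℕ, q * k ≤ k + j → L ^ (k + j) * (L ^ k)⁻¹ ^ q = L ^ (k + j - q * k) := by
    intro q hq
    have e1 : L ^ (k + j) = L ^ (k + j - q * k) * (L ^ k) ^ q := by
      rw [← pow_mul, ← pow_add, mul_comm k q, Nat.sub_add_cancel hq]
    rw [e1, mul_assoc, inv_pow, mul_inv_cancel, mul_one]
  have h1 : IsHS ((fun p : ℕ => L ^ (k + j) * (L ^ k)⁻¹ ^ p) 0) univ t := by
    show IsHS (L ^ (k + j) * (L ^ k)⁻¹ ^ 0) univ _
    rw [hNq 0 (by rw [zero_mul]; exact Nat.zero_le _), zero_mul, Nat.sub_zero]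
    exact ht
  obtain ⟨w, hw, hs⟩ := kosgen (L ^ k) (fun p => L ^ (k + j) * (L ^ k)⁻¹ ^ p) hN ℓ hℓ hne
    (fun q hq hqn => by
      show Solv (L ^ (k + j) * (L ^ k)⁻¹ ^ (q + 1)) q
      have h1 : q * k ≤ n * k := Nat.mul_le_mul_right _ hqn
      have h2 : (q + 1) * k = q * k + k := by ring
      rw [hNq (q + 1) (by omega)]
      exact hV _ (by omega) q hq) h1
  rw [hs]
  refine Submodule.sum_mem _ fun a _ => Submodule.subset_span ⟨ℓ a, w a, hℓ a, ?_, rfl⟩
  have h2 : IsHS (L ^ (k + j) * (L ^ k)⁻¹ ^ 1) univ (w a) := hw a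
  rw [hNq 1 (by omega)] at h2
  rwa [one_mul, Nat.add_sub_cancel_left] at h2

variable [ConnectedSpace M] [CompactSpace M] [Finite A.ι]

/-- **the multiplication of sections is onto for large exponents** -/
theorem exists_mul_all (PA : Part A) (hD : D2 A) {L : LB A} {Pr : ProjD A} {k0 : ℕ} (hk0 : 1 ≤ k0)
    (h : lb Pr = L ^ k0) : ∃ K : ℕ, ∀ k, K ≤ k → ∀ j, K ≤ j → Mul L k j := by
  obtain ⟨m1, hm1⟩ := residue (Q := fun N => ∀ q, 1 ≤ q → Solv N q) hk0 h
    fun L' => by
      obtain ⟨m0, hm0⟩ := solv_large PA hD (fs_pos Pr) L'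
      exact ⟨m0, fun m hm q hq => hm0 m hm q hq⟩
  obtain ⟨m2, hm2⟩ := residue (Q := fun N => GGen N) hk0 h fun L' => ggen_proj PA hD Pr L'
  set K0 : ℕ := m2 + 1 with hK0
  set J0 : ℕ := m1 + n * (2 * K0) with hJ0
  have key : ∀ k, K0 ≤ k → ∀ j, J0 ≤ j → Mul L k j := by
    intro k
    induction k using Nat.strong_induction_on with
    | _ k ih =>
      intro hk j hj
      by_cases hlt : k < 2 * K0
      · refine mul_of_ggen hm1 (hm2 k (by omega)) ?_
        have h1 : n * k ≤ n * (2 * K0) := Nat.mul_le_mul_left _ hlt.le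
        omega
      · have h1 : Mul L K0 ((k - K0) + j) := by
          refine mul_of_ggen hm1 (hm2 K0 (by omega)) ?_
          have h1 : n * K0 ≤ n * (2 * K0) := Nat.mul_le_mul_left _ (by omega)
          omega
        have h2 : Mul L (k - K0) j := ih (k - K0) (by omega) (by omega) j hj
        have h3 := Mul.comp h1 h2
        rwa [Nat.add_sub_cancel' (by omega : K0 ≤ k)] at h3
  exact ⟨K0 + J0, fun k hk j hj => key k (by omega) j (by omega)⟩

end Main

/-! ### complete linear systems -/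

section Complete

variable (P : ProjD A) {r : ℕ} (b : Fin r → Fn A) (hb : ∀ a, IsHS (lb P) univ (b a))

/-- the index equivalence -/
def ex (N r : ℕ) : Fin (N + r + 1) ≃ Fin (N + 1) ⊕ Fin r :=
  (finCongr (by omega : N + r + 1 = N + 1 + r)).trans finSumFinEquiv.symm

/-- the enlarged family -/
def big (a : Fin (P.N + r + 1)) : Fn A := Sum.elim (fun k => sec P k) b (ex P.N r a)

include hb

theorem isHS_big (a : Fin (P.N + r + 1)) : IsHS (lb P) univ (big P b a) := by
  unfold big
  rcases ex P.N r a with k | k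
  · exact isHS_sec P k
  · exact hb k

omit hb in
theorem big_inl (k : Fin (P.N + 1)) {i : A.ι} {x : M} (hx : x ∈ (A.e i).source) :
    big P b ((ex P.N r).symm (Sum.inl k)) i x = P.F i x k := by
  unfold big
  rw [Equiv.apply_symm_apply, Sum.elim_inl, sec_eq P hx]

omit hb in
theorem big_inr (k : Fin r) (i : A.ι) (x : M) :
    big P b ((ex P.N r).symm (Sum.inr k)) i x = b k i x := by
  unfold big
  rw [Equiv.apply_symm_apply, Sum.elim_inr]

/-- the enlarged embedding -/
def bigP : ProjD A where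
  N := P.N + r
  F i x a := big P b a i x
  hol i a := (isHS_big P b hb a).hol i
  ne i x hx h := by
    refine P.ne i x hx (funext fun k => ?_)
    have h1 := congrFun h ((ex P.N r).symm (Sum.inl k))
    rwa [big_inl P b k hx] at h1
  tr i j x hx := ⟨(lb P).g i j x, funext fun a => (isHS_big P b hb a).tr i j x hx (mem_univ x)⟩
  inj i j x hx y hy := by
    rintro ⟨c, hc⟩
    refine P.inj i j x hx y hy ⟨c, funext fun k => ?_⟩
    have h1 := congrFun hc ((ex P.N r).symm (Sum.inl k))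
    rw [Pi.smul_apply, big_inl P b k hx, big_inl P b k hy] at h1
    exact h1
  imm i z hz v := by
    rintro ⟨c, hc⟩
    refine P.imm i z hz v ⟨c, ?_⟩
    have hd : DifferentiableAt ℂ (fun w => fun a => big P b a i ((A.e i).symm w)) z := by
      rw [differentiableAt_pi]
      intro a
      have h1 := ((isHS_big P b hb a).hol i).diffAt isOpen_univ ((A.e i).map_target hz) (mem_univ _)
      rwa [(A.e i).right_inv hz] at h1
    let π : (Fin (P.N + r + 1) → ℂ) →L[ℂ] (Fin (P.N + 1) → ℂ) :=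
      ContinuousLinearMap.pi fun k => ContinuousLinearMap.proj ((ex P.N r).symm (Sum.inl k))
    have h1 : (fun w => P.F i ((A.e i).symm w)) =ᶠ[𝓝 z]
        fun w => π (fun a => big P b a i ((A.e i).symm w)) := by
      filter_upwards [(A.e i).open_target.mem_nhds hz] with w hw
      funext k
      exact (big_inl P b k ((A.e i).map_target hw)).symm
    have h2 : fderiv ℂ (fun w => π (fun a => big P b a i ((A.e i).symm w))) z =
        π.comp (fderiv ℂ (fun w => fun a => big P b a i ((A.e i).symm w)) z) :=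
      (π.hasFDerivAt.comp z hd.hasFDerivAt).fderiv
    rw [h1.fderiv_eq, h2, ContinuousLinearMap.comp_apply, hc, map_smul]
    congr 1
    funext k
    exact big_inl P b k ((A.e i).map_target hz)

theorem lb_bigP : lb (bigP P b hb) = lb P :=
  lb_eq_of fun i j x hx => funext fun a => (isHS_big P b hb a).tr i j x hx (mem_univ x)

end Complete

/-- the sections `F_a` span -/
def Complete (P : ProjD A) : Prop := ∀ t : Fn A, IsHS (lb P) univ t → ∃ c : Fin (P.N + 1) → ℂ,
  ∀ i, ∀ x ∈ (A.e i).source, t i x = ∑ a, c a * P.F i x a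

theorem exists_complete [T2Space M] [CompactSpace M] [Finite A.ι] (PA : Part A) (P : ProjD A) :
    ∃ P' : ProjD A, lb P' = lb P ∧ Complete P' := by
  have := fd_HS PA (lb P)
  let b := Module.finBasis ℂ (HS (lb P) univ)
  have hb : ∀ a, IsHS (lb P) univ (b a : Fn A) := fun a => (b a).2
  refine ⟨bigP P (fun a => (b a : Fn A)) hb, lb_bigP P _ hb, fun t ht => ?_⟩
  rw [lb_bigP] at ht
  refine ⟨fun a => Sum.elim (fun _ => 0) (fun k => b.repr ⟨t, ht⟩ k) (ex P.N _ a), fun i x hx => ?_⟩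
  have h3 := congrArg Subtype.val (b.sum_repr ⟨t, ht⟩)
  rw [AddSubmonoidClass.coe_finsetSum] at h3
  have h4 := congrFun (congrFun h3 i) x
  rw [Finset.sum_apply, Finset.sum_apply] at h4
  refine (show t i x = _ from h4.symm).trans ?_
  show _ = ∑ a : Fin (P.N + _ + 1), Sum.elim (fun _ => (0 : ℂ)) (fun k => b.repr ⟨t, ht⟩ k)
    (ex P.N _ a) * big P (fun a => (b a : Fn A)) a i x
  rw [← Equiv.sum_comp (ex P.N _).symm, Fintype.sum_sum_type]
  simp only [Equiv.apply_symm_apply, Sum.elim_inl, Sum.elim_inr, zero_mul, Finset.sum_const_zero,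
    zero_add, big_inr]
  rfl

/-! ### representation by polynomials -/

section Rep

variable {I : Type} [Fintype I] (P : I → ProjD A)

/-- `t` is the value of a multihomogeneous polynomial of multidegree `d` -/
def Rep (d : I → ℕ) (t : Fn A) : Prop :=
  ∃ p : MvPolynomial (Σ i, Fin ((P i).N + 1)) ℂ, MHd p d ∧ ∀ c, ∀ x ∈ (A.e c).source,
    t c x = MvPolynomial.eval (fun y : Σ i, Fin ((P i).N + 1) => (P y.1).F c x y.2) p

variable {P}

theorem Rep.zero (d : I → ℕ) : Rep P d (0 : Fn A) := by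
  classical
  exact ⟨0, MvPolynomial.isWeightedHomogeneous_zero _ _ _, fun c x _ => by rw [map_zero]; rfl⟩

theorem Rep.add {d : I → ℕ} {t t' : Fn A} (h : Rep P d t) (h' : Rep P d t') : Rep P d (t + t') := by
  obtain ⟨p, hp, hp'⟩ := h
  obtain ⟨q, hq, hq'⟩ := h'
  exact ⟨p + q, MvPolynomial.IsWeightedHomogeneous.add hp hq, fun c x hx => by
    rw [map_add, ← hp' c x hx, ← hq' c x hx]; rfl⟩

theorem Rep.smul {d : I → ℕ} {t : Fn A} (a : ℂ) (h : Rep P d t) : Rep P d (a • t) := by
  classical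
  obtain ⟨p, hp, hp'⟩ := h
  refine ⟨MvPolynomial.C a * p, ?_, fun c x hx => ?_⟩
  · have := (MvPolynomial.isWeightedHomogeneous_C
      (fun x : Σ i, Fin ((P i).N + 1) => (Pi.single x.1 1 : I → ℕ)) a).mul hp
    rw [zero_add] at this
    unfold MHd
    convert this
  · rw [map_mul, MvPolynomial.eval_C, ← hp' c x hx]; rfl

theorem Rep.mul {d d' : I → ℕ} {t t' : Fn A} (h : Rep P d t) (h' : Rep P d' t') :
    Rep P (d + d') (t * t') := by
  obtain ⟨p, hp, hp'⟩ := h
  obtain ⟨q, hq, hq'⟩ := h'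
  exact ⟨p * q, MvPolynomial.IsWeightedHomogeneous.mul hp hq, fun c x hx => by
    rw [map_mul, ← hp' c x hx, ← hq' c x hx]; rfl⟩

theorem Rep.of_span {d : I → ℕ} {S : Set (Fn A)} (hS : ∀ u ∈ S, Rep P d u) {t : Fn A}
    (ht : t ∈ Submodule.span ℂ S) : Rep P d t :=
  Submodule.span_induction (p := fun x _ => Rep P d x) hS (Rep.zero d)
    (fun _ _ _ _ hx hy => hx.add hy) (fun c _ _ hx => hx.smul c) ht

open Classical in
theorem Rep.of_complete {L : LB A} {i : I} {β : ℕ} (hb : lb (P i) = L ^ β) (hc : Complete (P i))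
    {t : Fn A} (ht : IsHS (L ^ β) univ t) : Rep P (Pi.single i 1) t := by
  rw [← hb] at ht
  obtain ⟨c, hc⟩ := hc t ht
  refine ⟨∑ a, MvPolynomial.C (c a) * MvPolynomial.X ⟨i, a⟩, ?_, fun j x hx => ?_⟩
  · unfold MHd
    refine MvPolynomial.IsWeightedHomogeneous.sum _ _ _ fun a _ => ?_
    have := (MvPolynomial.isWeightedHomogeneous_C
      (fun x : Σ i, Fin ((P i).N + 1) => (Pi.single x.1 1 : I → ℕ)) (c a)).mul
      (MvPolynomial.isWeightedHomogeneous_X ℂ
        (fun x : Σ i, Fin ((P i).N + 1) => (Pi.single x.1 1 : I → ℕ)) ⟨i, a⟩)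
    rw [zero_add] at this
    exact this
  · rw [hc j x hx, map_sum]
    refine Finset.sum_congr rfl fun a _ => ?_
    rw [map_mul, MvPolynomial.eval_C, MvPolynomial.eval_X]

end Rep

/-! ### existence -/

section Exists

variable [T2Space M] [ConnectedSpace M] [CompactSpace M] [Finite A.ι]

theorem rep_all {L : LB A} {K : ℕ} (hK : ∀ k, K ≤ k → ∀ j, K ≤ j → Mul L k j) {I : Type} [Fintype I]
    {P : I → ProjD A} {β : I → ℕ} (hβ : ∀ i, K ≤ β i) (hb : ∀ i, lb (P i) = L ^ β i)
    (hc : ∀ i, Complete (P i)) (D : ℕ) : ∀ d : I → ℕ, ∑ i, d i = D → ∀ t : Fn A,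
      IsHS (L ^ (∑ i, β i * d i)) univ t → Rep P d t := by
  classical
  induction D with
  | zero =>
    intro d hd t ht
    have h0 : d = 0 := funext fun i => by
      have := Finset.sum_eq_zero_iff.1 hd i (Finset.mem_univ i)
      simpa using this
    subst h0
    have h1 : ∑ i, β i * (0 : I → ℕ) i = 0 := Finset.sum_eq_zero fun i _ => by simp
    rw [h1, pow_zero] at ht
    obtain ⟨a, ha⟩ := Crest.Agent.R273.HolF_578.isHS_one_const ht
    refine ⟨MvPolynomial.C a, ?_, fun c x hx => by rw [MvPolynomial.eval_C, ha c x hx]⟩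
    have := MvPolynomial.isWeightedHomogeneous_C
      (fun x : Σ i, Fin ((P i).N + 1) => (Pi.single x.1 1 : I → ℕ)) a
    unfold MHd
    convert this
  | succ D ih =>
    intro d hd t ht
    obtain ⟨i, hi⟩ : ∃ i, 1 ≤ d i := by
      by_contra h
      push Not at h
      have : ∑ i, d i = 0 := Finset.sum_eq_zero fun i _ => by have := h i; omega
      omega
    obtain ⟨d', hd'⟩ : ∃ d' : I → ℕ, d = Pi.single i 1 + d' := by
      refine ⟨fun j => d j - (Pi.single i 1 : I → ℕ) j, funext fun j => ?_⟩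
      by_cases hj : j = i
      · subst hj
        simp only [Pi.add_apply, Pi.single_eq_same]
        omega
      · simp [Pi.add_apply, Pi.single_eq_of_ne hj]
    have hs : ∑ j, β j * d j = β i + ∑ j, β j * d' j := by
      rw [hd']
      simp only [Pi.add_apply, mul_add, Finset.sum_add_distrib]
      congr 1
      rw [Finset.sum_eq_single i (fun j _ hj => by rw [Pi.single_eq_of_ne hj, mul_zero])
        (fun h => absurd (Finset.mem_univ i) h), Pi.single_eq_same, mul_one]
    have hD' : ∑ j, d' j = D := by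
      have h1 : ∑ j, d j = 1 + ∑ j, d' j := by
        rw [hd']
        simp only [Pi.add_apply, Finset.sum_add_distrib]
        congr 1
        rw [Finset.sum_eq_single i (fun j _ hj => Pi.single_eq_of_ne hj _)
          (fun h => absurd (Finset.mem_univ i) h), Pi.single_eq_same]
      omega
    by_cases h0 : d' = 0
    · subst h0
      rw [add_zero] at hd'
      subst hd'
      refine Rep.of_complete (hb i) (hc i) ?_
      have h1 : ∑ j, β j * (0 : I → ℕ) j = 0 := Finset.sum_eq_zero fun i _ => by simp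
      rwa [hs, h1, add_zero] at ht
    · obtain ⟨j, hj⟩ : ∃ j, d' j ≠ 0 := Function.ne_iff.1 h0
      have h1 : K ≤ ∑ j, β j * d' j := by
        have h2 : β j * d' j ≤ ∑ j, β j * d' j :=
          Finset.single_le_sum (f := fun j => β j * d' j) (fun _ _ => Nat.zero_le _)
            (Finset.mem_univ j)
        have h3 : β j ≤ β j * d' j := Nat.le_mul_of_pos_right _ (Nat.pos_of_ne_zero hj)
        exact (hβ j).trans (h3.trans h2)
      rw [hs] at ht
      have h2 := hK (β i) (hβ i) _ h1 t ht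
      rw [hd']
      refine Rep.of_span ?_ h2
      rintro u ⟨s, s', hs1, hs2, rfl⟩
      exact (Rep.of_complete (hb i) (hc i) hs1).mul (ih d' hD' s' hs2)

/-- **existence of the systems** -/
theorem exists_msys (PA : Part A) (hD : D2 A) : ExistsMSys A := by
  intro L Pr k0 hk0 h I _
  obtain ⟨K, hK⟩ := exists_mul_all PA hD hk0 h
  obtain ⟨K', hK'⟩ := residue (Q := fun N => ∃ P' : ProjD A, lb P' = N) hk0 h
    fun L' => proj_proj PA hD Pr L'
  refine ⟨K + K' + 1, fun β hβ => ?_⟩
  have h1 : ∀ i, ∃ P' : ProjD A, lb P' = L ^ β i ∧ Complete P' := by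
    intro i
    obtain ⟨P', hP'⟩ := hK' (β i) (by have := hβ i; omega)
    obtain ⟨P'', h1, h2⟩ := exists_complete PA P'
    exact ⟨P'', h1.trans hP', h2⟩
  choose P hP hc using h1
  exact ⟨⟨β, fun i => by have := hβ i; omega, P, hP, fun d t ht =>
    rep_all hK (fun i => by have := hβ i; omega) hP hc _ d rfl t ht⟩, rfl⟩

end Exists

end

end Crest.Agent.R260.Br1_592
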