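import Crest.Agent.R260.Br2_592
import Mathlib.Algebra.MvPolynomial.Funext

/-!
# R260 (S0398), AG-BRIDGE, part 3 (helper592): the ideal of `M` is prime

* `comp p d`      : the component of multidegree `d`;
* `mem_span_iff_comp` : `p ∈ span E` iff all components vanish on `M`;
* `prime_E`       : `PrimeE S`.
-/

set_option autoImplicit false
set_option linter.unusedSectionVars false

open Set Filter Topology Complex
open scoped ContDiff Matrix ComplexConjugate

namespace Crest.Agent.R260.Br3_592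

open Crest.Agent.R275 Crest.Agent.R275.Geo Crest.Agent.R275.Core144
open Crest.Agent.R273.LamN127 Crest.Agent.R273.KosAb_619 Crest.Agent.R273.SerA_945
open Crest.Agent.R273.SerB_945 Crest.Agent.R273.SerC_945 Crest.Agent.R273.KosGen_313
open Crest.Agent.R273.Defs_333 Crest.Agent.R273.FS_333
open Crest.Agent.R273.TD3_733 Crest.Agent.R273.SerE_945 Crest.Agent.R273.Chow_313
open Crest.Agent.R270.BM_360 Crest.Agent.R260.BrDefs_592 Crest.Agent.R260.Br1_592
open Crest.Agent.R260.Br2_592

noncomputable section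

/-! ### components -/

section Comp

variable {k : Type*} [CommSemiring k] {I : Type} {J : I → Type}

open Classical in
/-- the component of multidegree `d` -/
def comp (p : MvPolynomial (Σ i, J i) k) (d : I → ℕ) : MvPolynomial (Σ i, J i) k :=
  MvPolynomial.weightedHomogeneousComponent (fun x : Σ i, J i => (Pi.single x.1 1 : I → ℕ)) d p

theorem comp_MHd (p : MvPolynomial (Σ i, J i) k) (d : I → ℕ) : MHd (comp p d) d := by
  unfold MHd comp
  exact MvPolynomial.weightedHomogeneousComponent_isWeightedHomogeneous _ _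

theorem sum_comp (p : MvPolynomial (Σ i, J i) k) :
    ∃ s : Finset (I → ℕ), p = ∑ d ∈ s, comp p d := by
  classical
  have h1 := MvPolynomial.sum_weightedHomogeneousComponent
    (fun x : Σ i, J i => (Pi.single x.1 1 : I → ℕ)) p
  have h2 := MvPolynomial.weightedHomogeneousComponent_finsupp
    (w := fun x : Σ i, J i => (Pi.single x.1 1 : I → ℕ)) p
  rw [finsum_eq_sum _ h2] at h1
  exact ⟨_, h1.symm⟩

open Classical in
theorem MHd_monomial (m : (Σ i, J i) →₀ ℕ) (a : k) : MHd (MvPolynomial.monomial m a)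
    (Finsupp.weight (fun x : Σ i, J i => (Pi.single x.1 1 : I → ℕ)) m) :=
  MvPolynomial.isWeightedHomogeneous_monomial _ _ _ rfl

theorem prod_X_pow [Fintype I] (e : I → ℕ) :
    (∏ i, (MvPolynomial.X i : MvPolynomial I k) ^ e i) =
      MvPolynomial.monomial (Finsupp.equivFunOnFinite.symm e) 1 := by
  rw [MvPolynomial.monomial_eq, Finsupp.prod_fintype _ _ fun i => pow_zero _, map_one, one_mul]
  rfl

/-- the coefficients of `p (l · v)` as a polynomial in `l` -/
theorem coeff_scale {k : Type*} [CommRing k] [Fintype I] (v : ∀ i, J i → k)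
    (p : MvPolynomial (Σ i, J i) k) (d : I → ℕ) :
    MvPolynomial.coeff (Finsupp.equivFunOnFinite.symm d)
      (MvPolynomial.aeval (fun y : Σ i, J i => (MvPolynomial.X y.1 : MvPolynomial I k) *
        MvPolynomial.C (v y.1 y.2)) p) =
      MvPolynomial.eval (fun y : Σ i, J i => v y.1 y.2) (comp p d) := by
  classical
  induction p using MvPolynomial.induction_on' with
  | add p q hp hq =>
    rw [map_add, MvPolynomial.coeff_add, hp, hq]
    unfold comp
    rw [map_add, map_add]
  | monomial m a =>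
    have h1 := eval_scale (MHd_monomial (J := J) m a) (B := MvPolynomial I k)
      (fun i => (MvPolynomial.X i : MvPolynomial I k)) (fun i a => MvPolynomial.C (v i a))
    rw [h1, prod_X_pow]
    have h2 : MvPolynomial.aeval (fun y : Σ i, J i => (MvPolynomial.C (v y.1 y.2) : MvPolynomial I k))
        (MvPolynomial.monomial m a) =
        MvPolynomial.C (MvPolynomial.eval (fun y : Σ i, J i => v y.1 y.2)
          (MvPolynomial.monomial m a)) := by
      rw [MvPolynomial.aeval_monomial, MvPolynomial.eval_monomial, map_mul]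
      congr 1
      rw [Finsupp.prod, Finsupp.prod, map_prod]
      exact Finset.prod_congr rfl fun y _ => by rw [map_pow]
    rw [h2, mul_comm, MvPolynomial.coeff_C_mul, MvPolynomial.coeff_monomial]
    unfold comp
    by_cases hd : Finsupp.weight (fun x : Σ i, J i => (Pi.single x.1 1 : I → ℕ)) m = d
    · subst hd
      rw [if_pos rfl, mul_one, (MHd_monomial m a).weightedHomogeneousComponent_same]
    · rw [if_neg (fun h => hd (by
          have := congrArg Finsupp.equivFunOnFinite h
          simpa using this)), mul_zero,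
        (MHd_monomial m a).weightedHomogeneousComponent_ne _ (Ne.symm hd), map_zero]

end Comp

variable {n : ℕ} {M : Type} [TopologicalSpace M] {A : Atl n M} {L : LB A} {I : Type} [Fintype I]
  (S : MSys A L I)

/-- multiplication of the blocks by scalars -/
def scl (c : A.ι) (x : M) (l : I → ℂ) : (Σ i, S.J i) → ℂ := fun y => l y.1 * S.pt c x y.1 y.2

/-- the polynomial in `l` -/
def Ph (c : A.ι) (x : M) : MvPolynomial (Σ i, S.J i) ℂ →ₐ[ℂ] MvPolynomial I ℂ :=
  MvPolynomial.aeval fun y : Σ i, S.J i => (MvPolynomial.X y.1 : MvPolynomial I ℂ) *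
    MvPolynomial.C (S.pt c x y.1 y.2)

theorem eval_Ph (c : A.ι) (x : M) (l : I → ℂ) (p : MvPolynomial (Σ i, S.J i) ℂ) :
    MvPolynomial.eval l (Ph S c x p) = MvPolynomial.eval (scl S c x l) p := by
  rw [← aeval_eq, ← aeval_eq]
  unfold Ph
  rw [MvPolynomial.comp_aeval_apply]
  congr 2
  funext y
  rw [map_mul, MvPolynomial.aeval_X, scl, ← MvPolynomial.algebraMap_eq, AlgHom.commutes]
  rfl

theorem Ph_zero_iff {c : A.ι} {x : M} {p : MvPolynomial (Σ i, S.J i) ℂ} :
    Ph S c x p = 0 ↔ ∀ d, S.ev c x (comp p d) = 0 := by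
  constructor
  · intro h d
    have h1 := coeff_scale (S.pt c x) p d
    unfold Ph at h
    rw [h, MvPolynomial.coeff_zero] at h1
    exact h1.symm
  · intro h
    ext m
    have h1 := coeff_scale (S.pt c x) p (Finsupp.equivFunOnFinite m)
    rw [Equiv.symm_apply_apply] at h1
    rw [MvPolynomial.coeff_zero]
    exact h1.trans (h _)

theorem comp_mem {p : MvPolynomial (Σ i, S.J i) ℂ}
    (h : ∀ c, ∀ x ∈ (A.e c).source, ∀ d, S.ev c x (comp p d) = 0) : p ∈ Ideal.span S.E := by
  obtain ⟨s, hs⟩ := sum_comp p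
  rw [hs]
  exact Ideal.sum_mem _ fun d _ => Ideal.subset_span ⟨⟨d, comp_MHd p d⟩, fun c x hx => h c x hx d⟩

theorem span_vanish {p : MvPolynomial (Σ i, S.J i) ℂ} (hp : p ∈ Ideal.span S.E) {c : A.ι} {x : M}
    (hx : x ∈ (A.e c).source) (l : I → ℂ) : MvPolynomial.eval (scl S c x l) p = 0 := by
  have h1 : Ideal.span S.E ≤ RingHom.ker (MvPolynomial.eval (scl S c x l)) := by
    rw [Ideal.span_le]
    intro q hq
    have h2 := S.onX hx l q hq
    rw [aeval_eq] at h2
    exact h2
  exact h1 hp

/-- **membership in the ideal** -/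
theorem mem_span_iff (p : MvPolynomial (Σ i, S.J i) ℂ) : p ∈ Ideal.span S.E ↔
    ∀ c, ∀ x ∈ (A.e c).source, ∀ l : I → ℂ, MvPolynomial.eval (scl S c x l) p = 0 := by
  refine ⟨fun h c x hx l => span_vanish S h hx l, fun h => comp_mem S fun c x hx => ?_⟩
  rw [← Ph_zero_iff]
  refine MvPolynomial.funext fun l => ?_
  rw [eval_Ph, h c x hx l, map_zero]

theorem mem_span_iff_comp (p : MvPolynomial (Σ i, S.J i) ℂ) : p ∈ Ideal.span S.E ↔
    ∀ c, ∀ x ∈ (A.e c).source, ∀ d, S.ev c x (comp p d) = 0 := by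
  refine ⟨fun h c x hx => ?_, comp_mem S⟩
  rw [← Ph_zero_iff]
  refine MvPolynomial.funext fun l => ?_
  rw [eval_Ph, (mem_span_iff S p).1 h c x hx l, map_zero]

theorem mem_span_iff_Ph (p : MvPolynomial (Σ i, S.J i) ℂ) : p ∈ Ideal.span S.E ↔
    ∀ c, ∀ x ∈ (A.e c).source, Ph S c x p = 0 := by
  rw [mem_span_iff_comp]
  simp only [Ph_zero_iff]

/-- a multihomogeneous polynomial in the ideal is an equation -/
theorem mem_E_of_span {p : MvPolynomial (Σ i, S.J i) ℂ} {d : I → ℕ} (hd : MHd p d)
    (hp : p ∈ Ideal.span S.E) : p ∈ S.E :=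
  ⟨⟨d, hd⟩, fun c x hx => by
    have h1 := (mem_span_iff S p).1 hp c x hx (fun _ => 1)
    unfold scl at h1
    simp only [one_mul] at h1
    exact h1⟩

/-! ### the sections given by polynomials -/

open Classical in
/-- the section of `L ^ (∑ i, β i * d i)` given by a polynomial -/
def sct (p : MvPolynomial (Σ i, S.J i) ℂ) : Fn A := fun c x =>
  if x ∈ (A.e c).source then S.ev c x p else 0

theorem sct_apply (p : MvPolynomial (Σ i, S.J i) ℂ) {c : A.ι} {x : M} (hx : x ∈ (A.e c).source) :
    sct S p c x = S.ev c x p := if_pos hx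

theorem holAt_ev (p : MvPolynomial (Σ i, S.J i) ℂ) (c : A.ι) :
    HolAt A c univ fun x => S.ev c x p := by
  unfold MSys.ev
  induction p using MvPolynomial.induction_on with
  | C a =>
    refine (holAt_const a).congr fun x _ _ => ?_
    rw [MvPolynomial.eval_C]
  | add p q hp hq =>
    refine (hp.add hq).congr fun x _ _ => ?_
    rw [map_add]
  | mul_X p y hp =>
    refine (hp.mul ((S.P y.1).hol c y.2)).congr fun x _ _ => ?_
    rw [map_mul, MvPolynomial.eval_X]
    rfl

theorem ev_chg {p : MvPolynomial (Σ i, S.J i) ℂ} {d : I → ℕ} (hd : MHd p d) {c c' : A.ι} {x : M}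
    (hx : x ∈ (A.e c).source ∩ (A.e c').source) :
    S.ev c x p = L.g c c' x ^ (∑ i, S.β i * d i) * S.ev c' x p := by
  have h1 := eval_scale hd (fun i => L.g c c' x ^ S.β i) (S.pt c' x)
  rw [aeval_eq, aeval_eq] at h1
  have h2 : (fun y : Σ i, S.J i => L.g c c' x ^ S.β y.1 * S.pt c' x y.1 y.2) =
      fun y : Σ i, S.J i => S.pt c x y.1 y.2 := by
    funext y
    exact (S.pt_chg hx y.1 y.2).symm
  rw [h2] at h1
  unfold MSys.ev
  rw [h1]
  congr 1
  rw [← Finset.prod_pow_eq_pow_sum]
  exact Finset.prod_congr rfl fun i _ => by rw [pow_mul]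

theorem isHS_sct {p : MvPolynomial (Σ i, S.J i) ℂ} {d : I → ℕ} (hd : MHd p d) :
    IsHS (L ^ (∑ i, S.β i * d i)) univ (sct S p) where
  hol c := (holAt_ev S p c).congr fun x hx _ => (sct_apply S p hx).symm
  off c x hx := if_neg hx
  tr c c' x hx _ := by
    rw [sct_apply S p hx.1, sct_apply S p hx.2, pow_g, ev_chg S hd hx]

/-! ### prime -/

/-- **the ideal of `M` is prime** -/
theorem prime_span [ConnectedSpace M] : (Ideal.span S.E).IsPrime := by
  refine ⟨fun h => ?_, fun {p q} hpq => ?_⟩
  · obtain ⟨x⟩ := (inferInstance : Nonempty M)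
    obtain ⟨c, hc⟩ := A.cover x
    have h1 := (mem_span_iff S 1).1 (by rw [h]; trivial) c x hc (fun _ => 1)
    rw [map_one] at h1
    exact one_ne_zero h1
  · by_contra hne
    push Not at hne
    obtain ⟨hp, hq⟩ := hne
    rw [mem_span_iff_comp] at hp hq
    push Not at hp hq
    obtain ⟨c1, x1, hx1, d1, h1⟩ := hp
    obtain ⟨c2, x2, hx2, d2, h2⟩ := hq
    have h3 : ∀ c, ∀ x ∈ (A.e c).source, sct S (comp p d1) c x * sct S (comp q d2) c x = 0 := by
      intro c x hx
      rw [sct_apply S _ hx, sct_apply S _ hx]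
      have h4 := (mem_span_iff_Ph S (p * q)).1 hpq c x hx
      rw [map_mul, mul_eq_zero] at h4
      rcases h4 with h4 | h4
      · rw [(Ph_zero_iff S).1 h4 d1, zero_mul]
      · rw [(Ph_zero_iff S).1 h4 d2, mul_zero]
    have h5 := eq_zero_of_mul (isHS_sct S (comp_MHd p d1)) (isHS_sct S (comp_MHd q d2))
      ⟨c2, x2, by rw [sct_apply S _ hx2]; exact h2⟩ h3 c1 x1
    rw [sct_apply S _ hx1] at h5
    exact h1 h5

theorem prime_E [T2Space M] [ConnectedSpace M] [CompactSpace M] [Finite A.ι] : PrimeE S :=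
  ⟨prime_span S, fun p => mem_span_iff S p⟩

end

end Crest.Agent.R260.Br3_592
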