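import Crest.Agent.R260.Br3_592

/-!
# R260 (S0398), AG-BRIDGE, part 4 (helper592): the classes of maps from the projective line

* `exists_conv`      : a polynomial of another multidegree representing the same section;
* `natDegree_aeval_le`;
* `cls_prop`         : `ClsProp S`;
* `cls_eq`           : `cls F = e • β` if `∑ w i * β i = 1`;
* `exists_conv_pair` : no common zeros of the converted family, over every domain.
-/

set_option autoImplicit false
set_option linter.unusedSectionVars false

open Set Filter Topology Complex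
open scoped ContDiff Matrix ComplexConjugate

namespace Crest.Agent.R260.Br4_592

open Crest.Agent.R275 Crest.Agent.R275.Geo Crest.Agent.R275.Core144
open Crest.Agent.R273.SerA_945
open Crest.Agent.R270.BM_360 Crest.Agent.R260.BrDefs_592 Crest.Agent.R260.Br1_592
open Crest.Agent.R260.Br2_592 Crest.Agent.R260.Br3_592

noncomputable section

/-! ### degrees -/

section Deg

variable {k κ : Type*} [CommSemiring k] [Field κ] [Algebra k κ] {I : Type} [Fintype I]
  {J : I → Type} [∀ i, Fintype (J i)]

open Polynomial in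
theorem natDegree_aeval_le {p : MvPolynomial (Σ i, J i) k} {d : I → ℕ} (hp : MHd p d)
    (F : ∀ i, J i → κ[X]) :
    (MvPolynomial.aeval (fun y : Σ i, J i => F y.1 y.2) p).natDegree ≤ ∑ i, d i * cls F i := by
  classical
  rw [MvPolynomial.aeval_def, MvPolynomial.eval₂_eq]
  refine Polynomial.natDegree_sum_le_of_forall_le _ _ fun m hm => ?_
  have hc := hp (MvPolynomial.mem_support_iff.1 hm)
  have h1 : ∀ i, d i = ∑ y ∈ m.support, if y.1 = i then m y else 0 := by
    intro i
    rw [← hc, Finsupp.weight_apply, Finsupp.sum, Finset.sum_apply]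
    refine Finset.sum_congr rfl fun y _ => ?_
    by_cases hy : y.1 = i
    · subst hy
      simp [Pi.smul_apply, smul_eq_mul]
    · rw [if_neg hy, Pi.smul_apply, Pi.single_eq_of_ne (Ne.symm hy), smul_zero]
  have h2 : ∑ i, d i * cls F i = ∑ y ∈ m.support, m y * cls F y.1 := by
    have h3 : ∀ i, d i * cls F i = ∑ y ∈ m.support, if y.1 = i then m y * cls F i else 0 := by
      intro i
      rw [h1 i, Finset.sum_mul]
      refine Finset.sum_congr rfl fun y _ => ?_
      split_ifs
      · rfl
      · rw [zero_mul]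
    rw [Finset.sum_congr rfl fun i _ => h3 i, Finset.sum_comm]
    refine Finset.sum_congr rfl fun y _ => ?_
    rw [Finset.sum_ite_eq Finset.univ y.1 fun i => m y * cls F i, if_pos (Finset.mem_univ _)]
  rw [h2]
  refine (Polynomial.natDegree_mul_le).trans ?_
  have h4 : ((algebraMap k κ[X]) (MvPolynomial.coeff m p)).natDegree = 0 := by
    rw [IsScalarTower.algebraMap_apply k κ κ[X]]
    exact Polynomial.natDegree_C _
  rw [h4, zero_add]
  refine (Polynomial.natDegree_prod_le _ _).trans (Finset.sum_le_sum fun y _ => ?_)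
  refine (Polynomial.natDegree_pow_le).trans (Nat.mul_le_mul_left _ ?_)
  exact Finset.le_sup (f := fun a => (F y.1 a).natDegree) (Finset.mem_univ y.2)

end Deg

variable {n : ℕ} {M : Type} [TopologicalSpace M] {A : Atl n M} {L : LB A} {I : Type} [Fintype I]
  (S : MSys A L I)

/-- a polynomial of another multidegree representing the same section -/
theorem exists_conv {p : MvPolynomial (Σ i, S.J i) ℂ} {d d' : I → ℕ} (hp : MHd p d)
    (h : ∑ i, S.β i * d i = ∑ i, S.β i * d' i) :
    ∃ q : MvPolynomial (Σ i, S.J i) ℂ, MHd q d' ∧ ∀ c, ∀ x ∈ (A.e c).source,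
      S.ev c x q = S.ev c x p := by
  have h1 := isHS_sct S hp
  rw [h] at h1
  obtain ⟨q, hq, h2⟩ := S.gen d' _ h1
  refine ⟨q, hq, fun c x hx => ?_⟩
  have h3 := h2 c x hx
  rw [sct_apply S p hx] at h3
  exact h3.symm

/-- equal values on `M` imply equal values on all points of the multicone -/
theorem aeval_eq_of_ev {p q : MvPolynomial (Σ i, S.J i) ℂ} {d : I → ℕ} (hp : MHd p d) (hq : MHd q d)
    (h : ∀ c, ∀ x ∈ (A.e c).source, S.ev c x p = S.ev c x q) {B : Type*} [CommRing B] [Algebra ℂ B]
    {v : ∀ i, S.J i → B} (hv : OnX S.E v) :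
    MvPolynomial.aeval (fun y : Σ i, S.J i => v y.1 y.2) p =
      MvPolynomial.aeval (fun y : Σ i, S.J i => v y.1 y.2) q := by
  have h1 : p - q ∈ S.E := by
    refine ⟨⟨d, ?_⟩, fun c x hx => ?_⟩
    · unfold MHd at *
      exact Submodule.sub_mem (MvPolynomial.weightedHomogeneousSubmodule ℂ _ d) hp hq
    · have h2 := h c x hx
      unfold MSys.ev at *
      rw [map_sub, h2, sub_self]
  have h3 := hv _ h1
  rw [map_sub, sub_eq_zero] at h3
  exact h3

open Classical in
theorem MHd_X_pow {k : Type*} [CommSemiring k] {I : Type} {J : I → Type} (i : I) (a : J i) (e : ℕ) :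
    MHd (MvPolynomial.X ⟨i, a⟩ ^ e : MvPolynomial (Σ i, J i) k) (Pi.single i e) := by
  have h1 := (MvPolynomial.isWeightedHomogeneous_X k
    (fun x : Σ i, J i => (Pi.single x.1 1 : I → ℕ)) ⟨i, a⟩).pow e
  have h2 : e • (Pi.single i 1 : I → ℕ) = Pi.single i e := by
    rw [← Pi.single_smul, smul_eq_mul, mul_one]
  unfold MHd
  rw [← h2]
  exact h1

open Classical in
theorem sum_single (β : I → ℕ) (i : I) (e : ℕ) :
    ∑ j, β j * (Pi.single i e : I → ℕ) j = β i * e := by
  rw [Finset.sum_eq_single i (fun j _ hj => by rw [Pi.single_eq_of_ne hj, mul_zero])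
    (fun h => absurd (Finset.mem_univ i) h), Pi.single_eq_same]

/-- the power `F_{i,b} ^ β_j` as a form of degree `β_i` in the block `j` -/
theorem exists_q (i j : I) : ∃ q : S.J i → MvPolynomial (Σ i, S.J i) ℂ,
    (open Classical in ∀ b, MHd (q b) (Pi.single j (S.β i))) ∧
    ∀ b c, ∀ x ∈ (A.e c).source, S.ev c x (q b) = S.ev c x (MvPolynomial.X ⟨i, b⟩ ^ S.β j) := by
  classical
  have h1 : ∀ b, ∃ q : MvPolynomial (Σ i, S.J i) ℂ, MHd q (Pi.single j (S.β i)) ∧
      ∀ c, ∀ x ∈ (A.e c).source, S.ev c x q = S.ev c x (MvPolynomial.X ⟨i, b⟩ ^ S.β j) := by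
    intro b
    refine exists_conv S (MHd_X_pow i b (S.β j)) ?_
    rw [sum_single, sum_single, mul_comm]
  choose q hq1 hq2 using h1
  exact ⟨q, fun b => hq1 b, fun b => hq2 b⟩

open Polynomial in
/-- one inequality -/
theorem cls_le {κ : Type} [Field κ] [Algebra ℂ κ] {F : ∀ i, S.J i → κ[X]} (hF : IsMap S.E F)
    (i j : I) : S.β j * cls F i ≤ S.β i * cls F j := by
  classical
  obtain ⟨q, hq1, hq2⟩ := exists_q S i j
  obtain ⟨q', hq1', hq2'⟩ := exists_q S j i
  set Q : S.J i → κ[X] := fun b => MvPolynomial.aeval (fun y : Σ i, S.J i => F y.1 y.2) (q b)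
    with hQ
  set Q' : S.J j → κ[X] := fun b => MvPolynomial.aeval (fun y : Σ i, S.J i => F y.1 y.2) (q' b)
    with hQ'
  -- proportionality
  have h1 : ∀ b c, F i b ^ S.β j * Q c = F i c ^ S.β j * Q b := by
    intro b c
    have h2 := aeval_eq_of_ev S (MvPolynomial.IsWeightedHomogeneous.mul (MHd_X_pow i b (S.β j))
      (hq1 c)) (MvPolynomial.IsWeightedHomogeneous.mul (MHd_X_pow i c (S.β j)) (hq1 b))
      (fun e x hx => by
        have h3 := hq2 b e x hx
        have h4 := hq2 c e x hx
        unfold MSys.ev at *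
        rw [map_mul, map_mul, h3, h4, mul_comm]) hF.on
    rw [map_mul, map_mul, map_pow, map_pow, MvPolynomial.aeval_X, MvPolynomial.aeval_X] at h2
    exact h2
  -- the products
  have h5 : ∀ b c, Q b * Q' c = F i b ^ S.β j * F j c ^ S.β i := by
    intro b c
    have hd : (Pi.single j (S.β i) + Pi.single i (S.β j) : I → ℕ) =
        Pi.single i (S.β j) + Pi.single j (S.β i) := add_comm _ _
    have h6 := MvPolynomial.IsWeightedHomogeneous.mul (hq1 b) (hq1' c)
    rw [hd] at h6
    have h2 := aeval_eq_of_ev S h6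
      (MvPolynomial.IsWeightedHomogeneous.mul (MHd_X_pow i b (S.β j)) (MHd_X_pow j c (S.β i)))
      (fun e x hx => by
        have h3 := hq2 b e x hx
        have h4 := hq2' c e x hx
        unfold MSys.ev at *
        rw [map_mul, map_mul, h3, h4]) hF.on
    rw [map_mul, map_mul, map_pow, map_pow, MvPolynomial.aeval_X, MvPolynomial.aeval_X] at h2
    exact h2
  -- coprime powers
  have hcop : Ideal.span (Set.range fun b => F i b ^ S.β j) = ⊤ := by
    have h6 := Ideal.span_pow_eq_top _ (hF.cop i) (S.β j)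
    rw [← Set.range_comp] at h6
    exact h6
  have hne : ∀ l : I, ∃ b, F l b ≠ 0 := by
    intro l
    by_contra h
    push Not at h
    have h6 : Ideal.span (Set.range (F l)) = ⊤ := hF.cop l
    have h7 : Set.range (F l) ⊆ {0} := by
      rintro _ ⟨b, rfl⟩
      exact h b
    have h8 : (⊤ : Ideal κ[X]) ≤ Ideal.span {0} := h6 ▸ Ideal.span_mono h7
    rw [Ideal.span_singleton_zero] at h8
    exact top_ne_bot (le_bot_iff.1 h8)
  obtain ⟨u, hu⟩ : ∃ u : S.J i → κ[X], ∑ b, u b * F i b ^ S.β j = 1 := by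
    have h6 : (1 : κ[X]) ∈ Ideal.span (Set.range fun b => F i b ^ S.β j) := by
      rw [hcop]; trivial
    rw [Ideal.mem_span_range_iff_exists_fun] at h6
    obtain ⟨u, hu⟩ := h6
    exact ⟨u, hu⟩
  set g : κ[X] := ∑ b, u b * Q b with hg
  have hQg : ∀ c, Q c = F i c ^ S.β j * g := by
    intro c
    calc Q c = (∑ b, u b * F i b ^ S.β j) * Q c := by rw [hu, one_mul]
      _ = ∑ b, u b * (F i b ^ S.β j * Q c) := by
        rw [Finset.sum_mul]; exact Finset.sum_congr rfl fun b _ => by ring
      _ = ∑ b, u b * (F i c ^ S.β j * Q b) := by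
        exact Finset.sum_congr rfl fun b _ => by rw [h1 b c]
      _ = F i c ^ S.β j * g := by
        rw [hg, Finset.mul_sum]; exact Finset.sum_congr rfl fun b _ => by ring
  have hg0 : g ≠ 0 := by
    intro h0
    obtain ⟨b, hb⟩ := hne i
    obtain ⟨c, hc⟩ := hne j
    have h6 := h5 b c
    rw [hQg b, h0, mul_zero, zero_mul] at h6
    exact mul_ne_zero (pow_ne_zero _ hb) (pow_ne_zero _ hc) h6.symm
  -- degrees
  obtain ⟨b, hb⟩ : ∃ b, (F i b).natDegree = cls F i := by
    have hne' : (Finset.univ : Finset (S.J i)).Nonempty := by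
      obtain ⟨b, -⟩ := hne i
      exact ⟨b, Finset.mem_univ b⟩
    obtain ⟨b, -, hb⟩ := Finset.exists_mem_eq_sup _ hne' fun a => (F i a).natDegree
    exact ⟨b, hb.symm⟩
  by_cases hFb : F i b = 0
  · have : cls F i = 0 := by rw [← hb, hFb, Polynomial.natDegree_zero]
    rw [this, mul_zero]
    exact Nat.zero_le _
  have h7 : (Q b).natDegree = S.β j * cls F i + g.natDegree := by
    rw [hQg b, Polynomial.natDegree_mul (pow_ne_zero _ hFb) hg0, Polynomial.natDegree_pow, hb]
  have h8 : (Q b).natDegree ≤ S.β i * cls F j := by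
    refine (natDegree_aeval_le (hq1 b) F).trans ?_
    rw [Finset.sum_eq_single j (fun l _ hl => by rw [Pi.single_eq_of_ne hl, zero_mul])
      (fun h => absurd (Finset.mem_univ j) h), Pi.single_eq_same]
  omega

theorem cls_prop : ClsProp S := fun _ _ _ _ hF i j =>
  le_antisymm (cls_le S hF i j) (cls_le S hF j i)

/-- every map has an `L`-degree -/
theorem cls_eq {w : I → ℤ} (hw : ∑ i, w i * (S.β i : ℤ) = 1) {κ : Type} [Field κ] [Algebra ℂ κ]
    {F : ∀ i, S.J i → Polynomial κ} (hF : IsMap S.E F) : ∃ e : ℕ, cls F = e • S.β := by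
  have h1 : ∀ j, (cls F j : ℤ) = (∑ i, w i * (cls F i : ℤ)) * S.β j := by
    intro j
    calc (cls F j : ℤ) = (∑ i, w i * (S.β i : ℤ)) * cls F j := by rw [hw, one_mul]
      _ = (∑ i, w i * (cls F i : ℤ)) * S.β j := by
        rw [Finset.sum_mul, Finset.sum_mul]
        refine Finset.sum_congr rfl fun i _ => ?_
        have h2 : (S.β j : ℤ) * cls F i = S.β i * cls F j := by exact_mod_cast cls_prop S κ F hF i j
        linear_combination - w i * h2
  have h0 : Nonempty I := by
    by_contra h
    rw [not_nonempty_iff] at h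
    rw [Finset.univ_eq_empty, Finset.sum_empty] at hw
    exact zero_ne_one hw
  obtain ⟨i0⟩ := h0
  have h2 : 0 ≤ ∑ i, w i * (cls F i : ℤ) := by
    by_contra hneg
    push Not at hneg
    have h3 := h1 i0
    have h4 : (0 : ℤ) < S.β i0 := by exact_mod_cast S.pos i0
    have h5 : (∑ i, w i * (cls F i : ℤ)) * S.β i0 < 0 := mul_neg_of_neg_of_pos hneg h4
    have h6 : (0 : ℤ) ≤ cls F i0 := by positivity
    omega
  refine ⟨(∑ i, w i * (cls F i : ℤ)).toNat, funext fun j => ?_⟩
  have h3 := h1 j
  rw [← Int.toNat_of_nonneg h2] at h3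
  rw [Pi.smul_apply, smul_eq_mul]
  exact_mod_cast h3

end

end Crest.Agent.R260.Br4_592
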