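import Crest.Agent.R270.BmDefs_360
import Crest.Agent.R273.ChowQ_313
import Crest.Agent.R273.D13_505

/-!
# R260 (S0398), AG-BRIDGE (helper592): from compact complex manifolds to the tuple language

`M` compact connected, `A : Atl n M`, `L : LB A` a holomorphic line bundle, some power of which is
`lb Pr`, `Pr : ProjD A`.

* `MHd p d`      : `p` is multihomogeneous of multidegree `d`;
* `MSys A L I`   : embeddings `P i` of `M` by `L ^ β i` (`i : I`) such that every section of
                   `L ^ (∑ i, β i * d i)` is a multihomogeneous polynomial of multidegree `d` in the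
                   homogeneous coordinates (the section ring is the coordinate ring);
* `S.pt c x`     : the coordinates of the point `x` read in the chart `c`;
* `S.E`          : all multihomogeneous relations; `S.hom : MHom S.E`; `S.onX`.
* Statements (proved in the other files `Br*_592`): `ExistsMSys`, `ExistsPt`, `PrimeE`, `ClsProp`.
-/

set_option autoImplicit false
set_option linter.unusedSectionVars false

open Set Filter Topology Complex
open scoped ContDiff Matrix ComplexConjugate

namespace Crest.Agent.R260.BrDefs_592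

open Crest.Agent.R275 Crest.Agent.R275.Geo Crest.Agent.R275.Core144
open Crest.Agent.R273.LamN127 Crest.Agent.R273.KosAb_619 Crest.Agent.R273.SerA_945
open Crest.Agent.R273.SerB_945 Crest.Agent.R273.SerC_945 Crest.Agent.R273.KosGen_313
open Crest.Agent.R273.Defs_333 Crest.Agent.R273.FS_333
open Crest.Agent.R273.TD3_733 Crest.Agent.R273.SerE_945 Crest.Agent.R273.Chow_313
open Crest.Agent.R270.BM_360

noncomputable section

open Classical in
/-- `p` is multihomogeneous of multidegree `d` -/
def MHd {k : Type*} [CommSemiring k] {I : Type} {J : I → Type} (p : MvPolynomial (Σ i, J i) k)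
    (d : I → ℕ) : Prop :=
  MvPolynomial.IsWeightedHomogeneous (fun x : Σ i, J i => (Pi.single x.1 1 : I → ℕ)) p d

variable {n : ℕ} {M : Type} [TopologicalSpace M] {A : Atl n M}

/-- embeddings of `M` by the powers `L ^ β i`, projectively normal in the multihomogeneous sense -/
structure MSys (A : Atl n M) (L : LB A) (I : Type) [Fintype I] where
  β : I → ℕ
  pos : ∀ i, 1 ≤ β i
  P : I → ProjD A
  hb : ∀ i, lb (P i) = L ^ β i
  gen : ∀ (d : I → ℕ) (t : Fn A), IsHS (L ^ (∑ i, β i * d i)) univ t →
    ∃ p : MvPolynomial (Σ i, Fin ((P i).N + 1)) ℂ, MHd p d ∧ ∀ c, ∀ x ∈ (A.e c).source,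
      t c x = MvPolynomial.eval (fun y : Σ i, Fin ((P i).N + 1) => (P y.1).F c x y.2) p

namespace MSys

variable {L : LB A} {I : Type} [Fintype I] (S : MSys A L I)

/-- the index types of the blocks of coordinates -/
abbrev J (i : I) : Type := Fin ((S.P i).N + 1)

/-- the coordinates of the point `x` in the chart `c` -/
def pt (c : A.ι) (x : M) : ∀ i, S.J i → ℂ := fun i a => (S.P i).F c x a

/-- the value of a polynomial at the point `x` in the chart `c` -/
def ev (c : A.ι) (x : M) (p : MvPolynomial (Σ i, S.J i) ℂ) : ℂ :=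
  MvPolynomial.eval (fun y : Σ i, S.J i => S.pt c x y.1 y.2) p

/-- the equations of `M`: all multihomogeneous relations -/
def E : Set (MvPolynomial (Σ i, S.J i) ℂ) :=
  {p | (∃ d, MHd p d) ∧ ∀ c, ∀ x ∈ (A.e c).source, S.ev c x p = 0}

theorem hom : MHom S.E := fun _ hp => hp.1

/-- the vectors of the chart `c` are non-zero -/
theorem pt_ne {c : A.ι} {x : M} (hx : x ∈ (A.e c).source) (i : I) : S.pt c x i ≠ 0 :=
  (S.P i).ne c x hx

/-- change of chart -/
theorem pt_chg {c c' : A.ι} {x : M} (hx : x ∈ (A.e c).source ∩ (A.e c').source) (i : I) (a : S.J i) :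
    S.pt c x i a = L.g c c' x ^ S.β i * S.pt c' x i a := by
  have h1 := congrFun (gij_spec (S.P i) hx) a
  have h2 : gij (S.P i) c c' x = L.g c c' x ^ S.β i := by
    have h3 : (lb (S.P i)).g c c' x = (L ^ S.β i).g c c' x := by rw [S.hb i]
    rw [pow_g] at h3
    exact h3
  rw [h2] at h1
  exact h1

end MSys

theorem aeval_eq {σ : Type*} (v : σ → ℂ) (p : MvPolynomial σ ℂ) :
    MvPolynomial.aeval v p = MvPolynomial.eval v p := by
  rw [MvPolynomial.aeval_def, Algebra.algebraMap_self]
  rfl

/-- every scaled polynomial -/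
theorem eval_scale {k : Type*} [CommSemiring k] {I : Type} [Fintype I] {J : I → Type}
    {p : MvPolynomial (Σ i, J i) k} {d : I → ℕ} (hp : MHd p d) {B : Type*} [CommSemiring B]
    [Algebra k B] (l : I → B) (v : ∀ i, J i → B) :
    MvPolynomial.aeval (fun y : Σ i, J i => l y.1 * v y.1 y.2) p =
      (∏ i, l i ^ d i) * MvPolynomial.aeval (fun y : Σ i, J i => v y.1 y.2) p := by
  classical
  rw [MvPolynomial.aeval_def, MvPolynomial.aeval_def, MvPolynomial.eval₂_eq, MvPolynomial.eval₂_eq,
    Finset.mul_sum]
  refine Finset.sum_congr rfl fun e he => ?_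
  have hc := hp (MvPolynomial.mem_support_iff.1 he)
  have h1 : ∀ i, d i = ∑ y ∈ e.support, if y.1 = i then e y else 0 := by
    intro i
    rw [← hc, Finsupp.weight_apply, Finsupp.sum, Finset.sum_apply]
    refine Finset.sum_congr rfl fun y _ => ?_
    by_cases hy : y.1 = i
    · subst hy
      simp [Pi.smul_apply, smul_eq_mul]
    · rw [if_neg hy, Pi.smul_apply, Pi.single_eq_of_ne (Ne.symm hy), smul_zero]
  have h2 : ∏ y ∈ e.support, (l y.1 * v y.1 y.2) ^ e y =
      (∏ i, l i ^ d i) * ∏ y ∈ e.support, v y.1 y.2 ^ e y := by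
    have h3 : ∏ i, l i ^ d i = ∏ y ∈ e.support, l y.1 ^ e y := by
      have h4 : ∀ i, l i ^ d i = ∏ y ∈ e.support, if y.1 = i then l i ^ e y else 1 := by
        intro i
        rw [h1 i, ← Finset.prod_pow_eq_pow_sum]
        refine Finset.prod_congr rfl fun y _ => ?_
        split_ifs
        · rfl
        · rw [pow_zero]
      rw [Finset.prod_congr rfl fun i _ => h4 i, Finset.prod_comm]
      refine Finset.prod_congr rfl fun y _ => ?_
      rw [Finset.prod_ite_eq Finset.univ y.1 fun i => l i ^ e y, if_pos (Finset.mem_univ _)]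
    rw [h3, ← Finset.prod_mul_distrib]
    exact Finset.prod_congr rfl fun y _ => mul_pow _ _ _
  rw [h2]
  ring

namespace MSys

variable {L : LB A} {I : Type} [Fintype I] (S : MSys A L I)

/-- the multiples of the points of `M` satisfy the equations -/
theorem onX {c : A.ι} {x : M} (hx : x ∈ (A.e c).source) (l : I → ℂ) :
    OnX S.E (fun i a => l i * S.pt c x i a) := by
  rintro p ⟨⟨d, hd⟩, hp⟩
  rw [eval_scale hd l (S.pt c x), aeval_eq]
  have h2 : MvPolynomial.eval (fun y : Σ i, S.J i => S.pt c x y.1 y.2) p = 0 := hp c x hx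
  rw [h2, mul_zero]

end MSys

/-! ### the statements -/

section Statements

variable [T2Space M] [ConnectedSpace M] [CompactSpace M] [Finite A.ι]

/-- existence for all large exponents -/
def ExistsMSys (A : Atl n M) : Prop :=
  ∀ (L : LB A) (Pr : ProjD A) (k0 : ℕ), 1 ≤ k0 → lb Pr = L ^ k0 → ∀ (I : Type) [Fintype I],
    ∃ K : ℕ, ∀ β : I → ℕ, (∀ i, K ≤ β i) → ∃ S : MSys A L I, S.β = β

/-- the points of the multicone over `ℂ` are the multiples of the points of `M` -/
def ExistsPt {L : LB A} {I : Type} [Fintype I] (S : MSys A L I) : Prop :=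
  ∀ v : ∀ i, S.J i → ℂ, OnX S.E v → (∀ i, v i ≠ 0) →
    ∃ c, ∃ x ∈ (A.e c).source, ∃ l : I → ℂ, (∀ i, l i ≠ 0) ∧ v = fun i a => l i * S.pt c x i a

/-- the ideal of `M` is prime, and it is the set of polynomials vanishing on the multicone -/
def PrimeE {L : LB A} {I : Type} [Fintype I] (S : MSys A L I) : Prop :=
  (Ideal.span S.E).IsPrime ∧ ∀ p, p ∈ Ideal.span S.E ↔
    ∀ c, ∀ x ∈ (A.e c).source, ∀ l : I → ℂ,
      MvPolynomial.eval (fun y : Σ i, S.J i => l y.1 * S.pt c x y.1 y.2) p = 0

/-- the class of every map over every field is proportional to `β` -/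
def ClsProp {L : LB A} {I : Type} [Fintype I] (S : MSys A L I) : Prop :=
  ∀ (κ : Type) [Field κ] [Algebra ℂ κ] (F : ∀ i, S.J i → Polynomial κ), IsMap S.E F →
    ∀ i j, S.β j * cls F i = S.β i * cls F j

end Statements

end

end Crest.Agent.R260.BrDefs_592
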