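import Crest.Agent.R270.H4_807
import Crest.Agent.R270.AmpDefs_907

/-!
Row 260 (S0398), case A (no map of `L`-degree `1`), part 1: coefficient bounds for based maps of an
atomic class in terms of the value at `0` (helper602).
-/

set_option autoImplicit false

namespace Crest.Agent.R260.CaseA_602

open Polynomial IsLocalRing Crest.Agent.R270 BM_360 Cone_704 H4_807

universe u

variable {I : Type} {J : I → Type} {k : Type u} [Field k] [Fintype I] [∀ i, Fintype (J i)]

section dich

variable {E : Set (MvPolynomial (Σ i, J i) k)} {y : ∀ i, J i → k} {Λ : AddSubmonoid (I → ℕ)}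
  {v : I → ℕ} {κ : Type u} [Field κ] [Algebra k κ] [IsAlgClosed κ] {O : ValuationSubring κ}
  {κ' : Type u} [Field κ'] [Algebra k κ'] [IsAlgClosed κ'] {ι : k →+* O} {ρ : O →+* κ'}

/-- **Dichotomy** without normalisation: the reduction of a based map of atomic class `v` with
coefficients in `O` is a based map of class `v`, or `(z - ζ) ^ (v i) * y i`. -/
theorem dich' (hL : LimP E y Λ) (hat : Atom Λ v) (y0 : ∀ i, y i ≠ 0)
    (hι : ∀ c, (ι c : κ) = algebraMap k κ c) (hρ : Function.Surjective ρ)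
    (hρι : ∀ c, ρ (ι c) = algebraMap k κ' c)
    (F : ∀ i, J i → O[X]) (hF : IsMap E (fun i a => (F i a).map O.subtype))
    (hB : Based y (fun i a => (F i a).map O.subtype))
    (hc : cls (fun i a => (F i a).map O.subtype) = v) :
    (IsMap E (fun i a => (F i a).map ρ) ∧ Based y (fun i a => (F i a).map ρ) ∧
      cls (fun i a => (F i a).map ρ) = v) ∨
      ∃ ζ : κ', ∀ i a, (F i a).map ρ = (X - C ζ) ^ v i * C (algebraMap k κ' (y i a)) := by
  classical
  obtain ⟨Q, G, hQ, hG, hGb, hQG, hGc, hQm⟩ := hL κ O κ' ι ρ hι hρ hρι F hF hB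
  have hsub : Function.Injective O.subtype := O.subtype_injective
  have hdegO : ∀ i a, (F i a).natDegree ≤ v i := by
    intro i a
    have h1 := natDegree_le_cls (fun i a => (F i a).map O.subtype) i a
    rw [hc] at h1
    simpa [natDegree_map_eq_of_injective hsub] using h1
  have htop : ∀ i a, (F i a).coeff (v i) = ι (y i a) := by
    intro i a
    apply hsub
    have h1 := hB i a
    rw [show vdeg ((fun i a => (F i a).map O.subtype) i) = v i from congrFun hc i] at h1
    simp only [coeff_map] at h1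
    rw [h1]
    exact (hι _).symm
  have hdeg' : ∀ i a, ((F i a).map ρ).natDegree ≤ v i := fun i a =>
    natDegree_map_le.trans (hdegO i a)
  have htop' : ∀ i a, ((F i a).map ρ).coeff (v i) = algebraMap k κ' (y i a) := by
    intro i a
    rw [coeff_map, htop, hρι]
  have hdegQ : ∀ i, v i = (Q i).natDegree + cls G i := by
    intro i
    obtain ⟨a, ha⟩ := exists_ne y0 i
    have h1 : ((F i a).map ρ).natDegree = v i := by
      refine le_antisymm (hdeg' i a) (le_natDegree_of_ne_zero ?_)
      rw [htop']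
      simpa using ha
    have h2 := natDegree_eq_cls hGb ha
    have h3 : G i a ≠ 0 := by
      intro h0
      have := hGb i a
      rw [h0, coeff_zero] at this
      exact ha (by simpa using this.symm)
    rw [← h1, hQG, (hQ i).natDegree_mul' h3, h2]
  set s : Finset κ' := Finset.univ.biUnion fun i => (Q i).roots.toFinset with hs
  have hsum : ∑ z ∈ s, (fun i => (Q i).rootMultiplicity z) + cls G = v := by
    funext i
    rw [Pi.add_apply, Finset.sum_apply, hdegQ i]
    congr 1
    have hspl : (Q i).natDegree = Multiset.card (Q i).roots :=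
      (IsAlgClosed.splits (Q i)).natDegree_eq_card_roots
    rw [hspl, ← Multiset.toFinset_sum_count_eq]
    have hsub' : (Q i).roots.toFinset ⊆ s := by
      intro z hz
      rw [hs]
      exact Finset.mem_biUnion.mpr ⟨i, Finset.mem_univ _, hz⟩
    rw [Finset.sum_subset hsub' (f := fun z => Multiset.count z (Q i).roots)]
    · exact Finset.sum_congr rfl fun z _ => (count_roots _).symm
    · intro z _ hz
      rw [Multiset.mem_toFinset] at hz
      exact Multiset.count_eq_zero_of_notMem hz
  rcases hat.sum s _ hQm hGc hsum with ⟨hc, hb⟩ | ⟨hc, ζ, hζ, hb⟩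
  · left
    have hQ1 : ∀ i, Q i = 1 := by
      intro i
      have h1 := hdegQ i
      rw [hc] at h1
      exact (hQ i).natDegree_eq_zero.mp (by omega)
    have hFG : (fun i a => (F i a).map ρ) = G := by
      funext i a
      rw [hQG, hQ1, one_mul]
    exact ⟨hFG ▸ hG, hFG ▸ hGb, hFG ▸ hc⟩
  · right
    have hG0 : ∀ i a, G i a = C (algebraMap k κ' (y i a)) := by
      intro i a
      have h1 := natDegree_le_cls G i a
      rw [hc] at h1
      have h2 := hGb i a
      rw [show vdeg (G i) = cls G i from rfl, hc] at h2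
      rw [eq_C_of_natDegree_le_zero h1]
      congr 1
    have hQ1 : ∀ i, Q i = (X - C ζ) ^ v i := by
      intro i
      have h1 := hdegQ i
      rw [hc] at h1
      have h2 : (Q i).rootMultiplicity ζ = v i := congrFun hb i
      have h3 : (X - C ζ) ^ v i ∣ Q i := by
        rw [← h2]
        exact pow_rootMultiplicity_dvd (Q i) ζ
      have h4 : ((X - C ζ) ^ v i).Monic := (monic_X_sub_C ζ).pow _
      refine eq_of_monic_of_dvd_of_natDegree_le h4 (hQ i) h3 ?_
      rw [natDegree_pow, natDegree_X_sub_C, h1]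
      simp
    exact ⟨ζ, fun i a => by rw [hQG, hQ1, hG0]⟩

end dich

section bound

variable {E : Set (MvPolynomial (Σ i, J i) k)} {y : ∀ i, J i → k} {Λ : AddSubmonoid (I → ℕ)}
  {v : I → ℕ}

omit [Fintype I] in
theorem based_resc {κ : Type u} [Field κ] [Algebra k κ] {lam : κ} (hl : lam ≠ 0)
    {F : ∀ i, J i → κ[X]} (hB : Based y F) (hc : cls F = v) : Based y (resc v lam F) := by
  intro i a
  have h1 : vdeg (resc v lam F i) = v i := by
    rw [show vdeg (resc v lam F i) = cls (resc v lam F) i from rfl, cls_resc v hl F, hc]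
  have h2 := hB i a
  rw [show vdeg (F i) = cls F i from rfl, hc] at h2
  rw [h1, coeff_resc, h2, mul_comm, mul_assoc, mul_inv_cancel₀ (pow_ne_zero _ hl), mul_one]

/-- **BOUND**: all coefficients of a based map of atomic class are bounded by the value at `0`. -/
theorem coeff_mem_of_zero (hE : MHom E) (hL : LimP E y Λ) (hat : Atom Λ v) (y0 : ∀ i, y i ≠ 0)
    {κ : Type u} [Field κ] [Algebra k κ] [IsAlgClosed κ]
    (O : ValuationSubring κ) (hk : ∀ c : k, algebraMap k κ c ∈ O) {F : ∀ i, J i → κ[X]}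
    (hF : IsMap E F) (hB : Based y F) (hc : cls F = v) {i₁ : I} (hv : 1 ≤ v i₁)
    (h0 : ∀ a, (F i₁ a).coeff 0 ∈ O) (i : I) (a : J i) (j : ℕ) : (F i a).coeff j ∈ O := by
  classical
  by_contra hcon
  have hdeg : ∀ i a, (F i a).natDegree ≤ v i := by
    intro i a
    have := natDegree_le_cls F i a
    rwa [hc] at this
  have htop : ∀ i a, (F i a).coeff (v i) = algebraMap k κ (y i a) := by
    intro i a
    have := hB i a
    rwa [show vdeg (F i) = cls F i from rfl, hc] at this
  have hgt : ∀ i a, ∀ j, v i < j → (F i a).coeff j = 0 := fun i a j hj =>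
    coeff_eq_zero_of_natDegree_lt ((hdeg i a).trans_lt hj)
  have hlt : j < v i := by
    rcases lt_trichotomy j (v i) with h | h | h
    · exact h
    · exact absurd (by rw [h, htop]; exact hk _) hcon
    · exact absurd (by rw [hgt i a j h]; exact O.zero_mem) hcon
  have hroot : ∀ τ : Σ i, J i × Fin (v i), ∃ p : κ,
      p ^ (v τ.1 - τ.2.2) = (F τ.1 τ.2.1).coeff τ.2.2 := by
    intro τ
    exact IsAlgClosed.exists_pow_nat_eq _ (Nat.sub_pos_of_lt τ.2.2.2)
  choose p hp using hroot
  obtain ⟨τ, -, hτ⟩ := Finset.exists_max_image (Finset.univ : Finset (Σ i, J i × Fin (v i)))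
    (fun τ => O.valuation (p τ)) ⟨⟨i, a, ⟨j, hlt⟩⟩, Finset.mem_univ _⟩
  set lam : κ := p τ with hlam
  have h1 : 1 < O.valuation lam := by
    refine lt_of_lt_of_le ?_ (hτ ⟨i, a, ⟨j, hlt⟩⟩ (Finset.mem_univ _))
    by_contra hle
    apply hcon
    rw [← O.valuation_le_one_iff, ← hp ⟨i, a, ⟨j, hlt⟩⟩, map_pow]
    exact pow_le_one' (not_lt.mp hle) _
  have hl0 : lam ≠ 0 := by
    intro h0
    rw [h0, map_zero] at h1
    exact absurd h1 (by simp)
  have hV0 : O.valuation lam ≠ 0 := by
    rw [Ne, Valuation.zero_iff]; exact hl0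
  have hcoef : ∀ (τ' : Σ i, J i × Fin (v i)),
      O.valuation ((resc v lam F τ'.1 τ'.2.1).coeff τ'.2.2) =
        (O.valuation (p τ') / O.valuation lam) ^ (v τ'.1 - τ'.2.2) := by
    intro τ'
    rw [coeff_resc, ← hp τ', map_mul, map_mul, map_inv₀, map_pow, map_pow, map_pow, div_pow]
    have h3 : O.valuation lam ^ v τ'.1 =
        O.valuation lam ^ (v τ'.1 - τ'.2.2) * O.valuation lam ^ (τ'.2.2 : ℕ) := by
      rw [← pow_add, Nat.sub_add_cancel τ'.2.2.2.le]
    rw [h3, mul_inv]
    have h4 : O.valuation lam ^ (τ'.2.2 : ℕ) ≠ 0 := pow_ne_zero _ hV0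
    rw [div_eq_mul_inv, mul_assoc, mul_comm (O.valuation lam ^ (τ'.2.2 : ℕ))⁻¹, ← mul_assoc,
      ← mul_assoc, mul_assoc _ _ (O.valuation lam ^ (τ'.2.2 : ℕ))⁻¹, mul_inv_cancel₀ h4, mul_one,
      mul_comm]
  have hOr : ∀ i a j, (resc v lam F i a).coeff j ∈ O := by
    intro i a j
    rcases lt_trichotomy j (v i) with hj | hj | hj
    · rw [← O.valuation_le_one_iff, hcoef ⟨i, a, ⟨j, hj⟩⟩]
      refine pow_le_one' ?_ _
      rw [div_le_one₀ (zero_lt_iff.mpr hV0)]
      exact hτ _ (Finset.mem_univ _)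
    · rw [coeff_resc, hj, htop, mul_comm, mul_assoc, mul_inv_cancel₀ (pow_ne_zero _ hl0), mul_one]
      exact hk _
    · rw [coeff_resc, hgt i a j hj, zero_mul, mul_zero]
      exact O.zero_mem
  have hlift : ∀ i a, ∃ g : O[X], g.map O.subtype = resc v lam F i a := by
    intro i a
    have : resc v lam F i a ∈ Polynomial.lifts O.subtype := by
      rw [Polynomial.lifts_iff_coeff_lifts]
      intro j
      exact ⟨⟨_, hOr i a j⟩, rfl⟩
    exact (Polynomial.mem_lifts _).mp this
  choose G hG using hlift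
  have hGF : (fun i a => (G i a).map O.subtype) = resc v lam F := by
    funext i a
    exact hG i a
  set ι : k →+* O := (algebraMap k κ).codRestrict O.toSubring hk with hι
  have hac : IsAlgClosed (ResidueField O) := isAlgClosed_residueField
  have hιk : ∀ c, (ι c : κ) = algebraMap k κ c := fun _ => rfl
  let _ : Algebra k (ResidueField O) := ((residue O).comp ι).toAlgebra
  have hρι : ∀ c, residue O (ι c) = algebraMap k (ResidueField O) c := fun _ => rfl
  have hm1 : IsMap E (fun i a => (G i a).map O.subtype) := by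
    rw [hGF]; exact isMap_resc hE v hl0 hF
  have hm2 : Based y (fun i a => (G i a).map O.subtype) := by
    rw [hGF]; exact based_resc hl0 hB hc
  have hm3 : cls (fun i a => (G i a).map O.subtype) = v := by
    rw [hGF, cls_resc v hl0, hc]
  -- the value at `0` of the block `i₁` reduces to `0`
  have hz : ∀ a, residue O ((G i₁ a).coeff 0) = 0 := by
    intro a
    rw [residue_eq_zero_iff, O.valuation_lt_one_iff]
    have h4 : ((G i₁ a).coeff 0 : κ) = (resc v lam F i₁ a).coeff 0 := by
      rw [← hG, coeff_map]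
      rfl
    rw [h4, coeff_resc, map_mul, map_inv₀, map_mul, map_pow, pow_zero, map_one, mul_one]
    have h5 : 1 < O.valuation lam ^ v i₁ := one_lt_pow₀ h1 (by omega)
    rw [inv_mul_lt_one₀ (zero_lt_iff.mpr (pow_ne_zero _ hV0))]
    exact lt_of_le_of_lt ((O.valuation_le_one_iff _).mpr (h0 a)) h5
  rcases dich' hL hat y0 hιk residue_surjective hρι G hm1 hm2 hm3 with ⟨hR, -, -⟩ | ⟨ζ, hR⟩
  · obtain ⟨a, ha⟩ := exists_coeff_zero_ne (hR.cop i₁)
    apply ha
    rw [coeff_map]
    exact hz a
  · have hζ : ζ = 0 := by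
      obtain ⟨a, ha⟩ := exists_ne y0 i₁
      have h3 := congrArg (fun p => p.coeff 0) (hR i₁ a)
      simp only [coeff_map, hz a, mul_coeff_zero, coeff_C_zero] at h3
      rw [coeff_zero_eq_eval_zero, eval_pow, eval_sub, eval_X, eval_C, zero_sub] at h3
      rcases mul_eq_zero.mp h3.symm with h4 | h4
      · exact neg_eq_zero.mp (pow_eq_zero_iff (by omega) |>.mp h4)
      · exact absurd (by simpa using h4) ha
    have h3 := congrArg (fun p => p.coeff (τ.2.2 : ℕ)) (hR τ.1 τ.2.1)
    rw [hζ, C_0, sub_zero] at h3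
    simp only [coeff_map, coeff_X_pow_mul', if_neg (not_le.mpr τ.2.2.2)] at h3
    rw [residue_eq_zero_iff, O.valuation_lt_one_iff] at h3
    have h4 : ((G τ.1 τ.2.1).coeff (τ.2.2 : ℕ) : κ) = (resc v lam F τ.1 τ.2.1).coeff τ.2.2 := by
      rw [← hG, coeff_map]
      rfl
    rw [h4, hcoef, ← hlam, div_self hV0, one_pow] at h3
    exact lt_irrefl _ h3

/-- **BOUND** with a scaling factor. -/
theorem scaled_mem (hE : MHom E) (hL : LimP E y Λ) (hat : Atom Λ v) (y0 : ∀ i, y i ≠ 0)
    {κ : Type u} [Field κ] [Algebra k κ] [IsAlgClosed κ]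
    (O : ValuationSubring κ) (hk : ∀ c : k, algebraMap k κ c ∈ O) {F : ∀ i, J i → κ[X]}
    (hF : IsMap E F) (hB : Based y F) (hc : cls F = v) {i₁ : I} (hv : 1 ≤ v i₁) {t : κ}
    (ht : t ≠ 0) (h0 : ∀ a, t ^ v i₁ * (F i₁ a).coeff 0 ∈ O) (i : I) (a : J i) (j : ℕ)
    (hj : j ≤ v i) : t ^ (v i - j) * (F i a).coeff j ∈ O := by
  have ht' : t⁻¹ ≠ 0 := inv_ne_zero ht
  have h1 := coeff_mem_of_zero hE hL hat y0 O hk (isMap_resc hE v ht' hF) (based_resc ht' hB hc)
    ((cls_resc v ht' F).trans hc) hv (fun a => ?_) i a j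
  · rw [coeff_resc] at h1
    convert h1 using 1
    obtain ⟨n, hn⟩ : ∃ n, v i = j + n := ⟨v i - j, by omega⟩
    rw [hn, Nat.add_sub_cancel_left, inv_pow, inv_inv, pow_add, inv_pow]
    have h2 : t ^ j ≠ 0 := pow_ne_zero _ ht
    field_simp
  · rw [coeff_resc, inv_pow, inv_inv, pow_zero, mul_one]
    exact h0 a

end bound

end Crest.Agent.R260.CaseA_602
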