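import Mathlib
import Crest.Agent.R270.Rees3_581
import Crest.Agent.R260.Irr2_33

/-!
Row 260 (S0398), COUNT part 4 (helper749): calculus of transcendence degrees `TrGe`.
-/

set_option autoImplicit false

namespace Crest.Agent.R260.Cnt_749

open Crest.Agent.R270.BM_360
open Crest.Agent.R270.Rees_581 (cl mem_cl coe_cl subset_cl cl_le adjoin_le_cl trGe_iff trGe_of_cl
  trGe_of_algebraic)

universe u

section basic

variable {k Ω : Type u} [Field k] [Field Ω] [Algebra k Ω]

theorem trGe_mono {S T : Set Ω} {n : ℕ} (h : TrGe k S n) (hST : S ⊆ cl k T) : TrGe k T n := by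
  obtain ⟨w, hw, hw2⟩ := h
  exact trGe_of_cl (fun j => cl_le hST (adjoin_le_cl S (hw j))) hw2

theorem trGe_sub {S T : Set Ω} {n : ℕ} (h : TrGe k S n) (hST : S ⊆ T) : TrGe k T n :=
  trGe_mono h (hST.trans (subset_cl T))

theorem trGe_adj {S T : Set Ω} {n : ℕ} (h : TrGe k S n)
    (hST : S ⊆ IntermediateField.adjoin k T) : TrGe k T n :=
  trGe_mono h (hST.trans (adjoin_le_cl T))

theorem trGe_le {S : Set Ω} {m n : ℕ} (h : TrGe k S n) (hmn : m ≤ n) : TrGe k S m := by
  rw [trGe_iff] at *
  exact le_trans (by exact_mod_cast hmn) h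

theorem trGe_zero (S : Set Ω) : TrGe k S 0 := by
  rw [trGe_iff]
  simp

/-- the independent elements may be taken in `S` itself -/
theorem exists_mem {S : Set Ω} {m : ℕ} (h : TrGe k S m) :
    ∃ w : Fin m → Ω, (∀ j, w j ∈ S) ∧ AlgebraicIndependent k w := by
  rw [trGe_iff] at h
  obtain ⟨B, hBS, hB, hBm⟩ := Matroid.le_eRk_iff.mp h
  have hfin : B.Finite := Set.finite_of_encard_eq_coe hBm
  have hcard : Nat.card B = m := by
    have h1 := hBm
    rw [← hfin.cast_ncard_eq] at h1
    exact_mod_cast h1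
  have : Finite B := hfin
  let ε : B ≃ Fin m := (Finite.equivFin B).trans (finCongr hcard)
  refine ⟨fun i => (ε.symm i : Ω), fun i => hBS (ε.symm i).2, ?_⟩
  have hB' : AlgebraicIndependent k (Subtype.val : B → Ω) := hB
  exact hB'.comp _ ε.symm.injective

theorem trGe_of_encard {S K : Set Ω} {m : ℕ} (hK : K ⊆ S)
    (hi : AlgebraicIndependent k (Subtype.val : K → Ω)) (hm : (m : ℕ∞) ≤ K.encard) :
    TrGe k S m := by
  rw [trGe_iff, Matroid.le_eRk_iff]
  obtain ⟨K', hK', hc⟩ := Set.exists_subset_encard_eq hm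
  refine ⟨K', hK'.trans hK, ?_, hc⟩
  have h1 : (AlgebraicIndependent.matroid k Ω).Indep K := hi
  exact h1.subset hK'

/-- **splitting**: the rank of `B` over the field `cl k A`. -/
theorem trGe_split {A B : Set Ω} {e d : ℕ} (h : TrGe k (A ∪ B) (e + d))
    (hB : ¬ TrGe (cl k A) B (d + 1)) : TrGe k A e := by
  classical
  by_contra hA
  set M := AlgebraicIndependent.matroid k Ω with hM
  obtain ⟨IA, hIA⟩ := M.exists_isBasis A
  rw [trGe_iff, not_le, ← hIA.encard_eq_eRk] at hA
  obtain ⟨K, hK, hsub⟩ := hIA.indep.subset_isBasis_of_subset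
    (hIA.subset.trans (Set.subset_union_left (t := B)))
  rw [trGe_iff, ← hK.encard_eq_eRk] at h
  have hcard : IA.encard + (K \ IA).encard = K.encard := by
    rw [add_comm]
    exact Set.encard_sdiff_add_encard_of_subset hsub
  have hd : ((d + 1 : ℕ) : ℕ∞) ≤ (K \ IA).encard := by
    by_contra hcon
    rw [not_le] at hcon
    have h1 : IA.encard ≠ ⊤ := (lt_of_lt_of_le hA le_top).ne
    have h2 : (K \ IA).encard ≠ ⊤ := (lt_of_lt_of_le hcon le_top).ne
    obtain ⟨a, ha⟩ := ENat.ne_top_iff_exists.mp h1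
    obtain ⟨b, hb⟩ := ENat.ne_top_iff_exists.mp h2
    rw [← hcard, ← ha, ← hb] at h
    rw [← ha] at hA
    rw [← hb] at hcon
    norm_cast at h hA hcon
    omega
  refine hB (trGe_of_encard (K := K \ IA) (fun x hx => ?_) ?_ hd)
  · rcases hK.subset hx.1 with h1 | h1
    · exfalso
      apply hx.2
      exact hIA.mem_of_insert_indep h1
        (hK.indep.subset (Set.insert_subset hx.1 hsub))
    · exact h1
  · -- independence over `cl k A`
    have hKi : AlgebraicIndependent k (Subtype.val : K → Ω) := hK.indep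
    have h1 := hKi.adjoin_of_disjoint (s := {j : K | j.1 ∈ IA}) (t := {j : K | j.1 ∉ IA})
      (by
        rw [Set.disjoint_left]
        intro x hx hx'
        exact hx' hx)
    have himg : (Subtype.val : K → Ω) '' {j : K | j.1 ∈ IA} = IA := by
      ext x
      constructor
      · rintro ⟨y, hy, rfl⟩
        exact hy
      · intro hx
        exact ⟨⟨x, hsub hx⟩, hx, rfl⟩
    rw [himg] at h1
    have h2 : AlgebraicIndependent (Algebra.adjoin k IA) (Subtype.val : (K \ IA : Set Ω) → Ω) := by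
      let φ : (K \ IA : Set Ω) → {j : K | j.1 ∉ IA} := fun x => ⟨⟨x.1, x.2.1⟩, x.2.2⟩
      have hφ : Function.Injective φ := by
        intro x y hxy
        apply Subtype.ext
        exact congrArg (fun z : {j : K | j.1 ∉ IA} => z.1.1) hxy
      exact h1.comp φ hφ
    have hle : Algebra.adjoin k IA ≤ (cl k A).toSubalgebra := by
      rw [Algebra.adjoin_le_iff]
      exact hIA.subset.trans (subset_cl A)
    let _ : Algebra (Algebra.adjoin k IA) (cl k A) := (Subalgebra.inclusion hle).toAlgebra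
    have : IsScalarTower (Algebra.adjoin k IA) (cl k A) Ω :=
      IsScalarTower.of_algebraMap_eq fun x => rfl
    have : Algebra.IsAlgebraic (Algebra.adjoin k IA) (cl k A) := by
      constructor
      intro x
      have hx := x.2
      rw [mem_cl, ← AlgebraicIndependent.isAlgebraic_adjoin_iff_of_matroid_isBasis hIA] at hx
      exact (isAlgebraic_algebraMap_iff (FaithfulSMul.algebraMap_injective (cl k A) Ω)).mp hx
    exact h2.extendScalars (cl k A)

end basic

section tower

variable {k κ Ω : Type u} [Field k] [Field κ] [Field Ω] [Algebra k κ] [Algebra κ Ω] [Algebra k Ω]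
  [IsScalarTower k κ Ω]

/-- **tower**: superadditivity of the rank. -/
theorem trGe_tower {A T : Set Ω} {a b : ℕ} (hA : TrGe k A a)
    (hAk : A ⊆ Set.range (algebraMap κ Ω)) (hT : TrGe κ T b) : TrGe k (A ∪ T) (a + b) := by
  obtain ⟨w, hw, hwi⟩ := exists_mem hA
  obtain ⟨v, hv, hvi⟩ := exists_mem hT
  have h1 : AlgebraicIndependent k (Sum.elim v w) :=
    hwi.sumElim_of_tower (S := κ) (by rintro _ ⟨j, rfl⟩; exact hAk (hw j)) hvi
  let e : Fin (a + b) ≃ Fin b ⊕ Fin a := finSumFinEquiv.symm.trans (Equiv.sumComm _ _)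
  refine ⟨fun j => Sum.elim v w (e j), fun j => ?_, h1.comp e e.injective⟩
  refine IntermediateField.subset_adjoin _ _ ?_
  have h2 : ∀ x : Fin b ⊕ Fin a, Sum.elim v w x ∈ A ∪ T := by
    rintro (i | i)
    · exact Or.inr (hv i)
    · exact Or.inl (hw i)
  exact h2 (e j)

/-- independence over a bigger field -/
theorem trGe_base {T : Set Ω} {b : ℕ} (hT : TrGe κ T b) : TrGe k T b := by
  have h := trGe_tower (k := k) (κ := κ) (A := (∅ : Set Ω)) (a := 0) (trGe_zero _)
    (Set.empty_subset _) hT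
  rwa [Set.empty_union, Nat.zero_add] at h

end tower

section map

variable {k Ω Ω' : Type u} [Field k] [Field Ω] [Algebra k Ω] [Field Ω'] [Algebra k Ω']

theorem trGe_image (φ : Ω →ₐ[k] Ω') {S : Set Ω} {n : ℕ} (h : TrGe k S n) : TrGe k (φ '' S) n := by
  obtain ⟨w, hw, hwi⟩ := exists_mem h
  refine ⟨fun j => φ (w j), fun j => ?_, hwi.map' (f := φ) φ.injective⟩
  exact IntermediateField.subset_adjoin _ _ ⟨_, hw j, rfl⟩

theorem trGe_of_image (φ : Ω →ₐ[k] Ω') {S : Set Ω} {n : ℕ} (h : TrGe k (φ '' S) n) :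
    TrGe k S n := by
  obtain ⟨w, hw, hwi⟩ := exists_mem h
  choose v hv hvw using hw
  refine ⟨v, fun j => IntermediateField.subset_adjoin _ _ (hv j), ?_⟩
  refine AlgebraicIndependent.of_comp φ ?_
  have h1 : (φ ∘ v) = w := funext hvw
  rw [h1]
  exact hwi

end map

end Crest.Agent.R260.Cnt_749
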