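import Crest.Agent.R260.BrIf_592
import Crest.Agent.R260.NNB2_580
import Crest.Agent.R260.NnDefs_254
import Crest.Agent.R260.Tup1_45

/-!
# Row 260 (S0398), the contact constant of the twistor lines (helper803)

`val_of_ld`   : pointwise data `F(w) = l • pt`, `F'(w) = l • dpt u + a • pt`,
                `∏ l ^ w * θ(u) = κ` for all `w`  ⟹  `th.Val F F' (C κ)`;
`ld_of_chart` : the pointwise data from `F(v) = q ^ β • pt` near `w` along a fibre of a real chart.
-/

set_option autoImplicit false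
set_option linter.unusedSectionVars false

open Set Filter Topology Complex
open scoped ContDiff Matrix ComplexConjugate

namespace Crest.Agent.R260.Con_803

open Crest.Agent.R275 Crest.Agent.R275.Geo Crest.Agent.R275.Core144
open Crest.Agent.R273.Defs_333 Crest.Agent.R273.SerA_945 Crest.Agent.R273.SerE_945
open Crest.Agent.R273.TD3_733
open Crest.Agent.R270.BM_360 Crest.Agent.R260.BrDefs_592 Crest.Agent.R260.BrIf_592
open Crest.Agent.R260.Lin_678 Crest.Agent.R260.ACM_580 Crest.Agent.R260.NNB_580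
open Crest.Agent.R260.Ga_323 (OneForm Contact)

noncomputable section

variable {d : ℕ} {Z : Type} [TopologicalSpace Z] {A : Atl d Z} {L : LB A} {I : Type} [Fintype I]

/-- pointwise data of the tuple `F` at the parameter `w` -/
def LD (S : MSys A L I) (θ : OneForm L) (wt : I → ℤ) (F : ∀ i, S.J i → Polynomial ℂ) (κ w : ℂ) :
    Prop :=
  ∃ ch, ∃ z ∈ (A.e ch).source, ∃ (l : I → ℂ) (u : Cn d) (a : I → ℂ), (∀ i, l i ≠ 0) ∧
    (∀ i b, (F i b).eval w = l i * S.pt ch z i b) ∧
    (∀ i b, (Polynomial.derivative (F i b)).eval w = l i * dpt S ch z u i b + a i * S.pt ch z i b) ∧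
    (∏ i, l i ^ wt i) * θ.app ch z u = κ

theorem val_of_ld {S : MSys A L I} {θ : OneForm L} {E : Set (MvPolynomial (Σ i, S.J i) ℂ)}
    {wt : I → ℤ} {th : CForm E wt} (hl : Link S θ th) {F : ∀ i, S.J i → Polynomial ℂ} {κ : ℂ}
    (h : ∀ w, LD S θ wt F κ w) :
    th.Val F (fun i a => Polynomial.derivative (F i a)) (Polynomial.C κ) := by
  intro c
  apply Polynomial.funext
  intro w
  obtain ⟨ch, z, hz, l, u, a, hl0, h1, h2, h3⟩ := h w
  have key := hl ch z hz c l hl0 u a
  have e1 : (fun i b => (F i b).eval w) = fun i b => l i * S.pt ch z i b := by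
    funext i b; exact h1 i b
  have e2 : (fun i b => (Polynomial.derivative (F i b)).eval w) =
      fun i b => l i * dpt S ch z u i b + a i * S.pt ch z i b := by
    funext i b; exact h2 i b
  have e3 : (den c F).eval w = den c (fun i b => (F i b).eval w) := by
    unfold den
    rw [Polynomial.eval_prod]
  have e4 : (form (th.p c) F (fun i a => Polynomial.derivative (F i a))).eval w =
      form (th.p c) (fun i b => (F i b).eval w)
        (fun i b => (Polynomial.derivative (F i b)).eval w) := by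
    unfold form
    rw [Polynomial.eval_finsetSum]
    refine Finset.sum_congr rfl fun x _ => ?_
    rw [Polynomial.eval_mul, Tup_45.eval_aeval_poly]
  rw [Polynomial.eval_mul, Polynomial.eval_pow, Polynomial.eval_C, e3, e4, e1, e2, key, ← h3]
  ring

variable {X : Type} [NormedAddCommGroup X] [NormedSpace ℝ X]

theorem ld_of_chart {S : MSys A L I} {θ : OneForm L} {wt : I → ℤ}
    (hw : ∑ i, wt i * (S.β i : ℤ) = 1) (C : ACM (X × ℂ) Z) (hcp : Cp C A) (k : C.ι)
    {F : ∀ i, S.J i → Polynomial ℂ} {x : X} {w : ℂ} {ch : A.ι}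
    (ht : (x, w) ∈ (C.e k).target) (hs : (C.e k).symm (x, w) ∈ (A.e ch).source) (q : Z → ℂ)
    (hq : DifferentiableAt ℝ (fun y => q ((C.e k).symm y)) (x, w))
    (hq0 : q ((C.e k).symm (x, w)) ≠ 0)
    (hF : ∀ᶠ v in 𝓝 w, ∀ i b, (F i b).eval v =
      q ((C.e k).symm (x, v)) ^ S.β i * S.pt ch ((C.e k).symm (x, v)) i b) {κ : ℂ}
    (hκ : q ((C.e k).symm (x, w)) * θ.app ch ((C.e k).symm (x, w))
      (fderiv ℝ (fun y => A.e ch ((C.e k).symm y)) (x, w) (0, 1)) = κ) :
    LD S θ wt F κ w := by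
  set z := (C.e k).symm (x, w) with hz
  set ψ : X × ℂ → Cn d := fun y => A.e ch ((C.e k).symm y) with hψ
  have hov : (x, w) ∈ ovr C k (A.e ch) := ⟨ht, hs⟩
  have hψd : DifferentiableAt ℝ ψ (x, w) := (hcp ch).diffAt hov
  set u : Cn d := fderiv ℝ ψ (x, w) (0, 1) with hu
  set Q : X × ℂ → ℂ := fun y => q ((C.e k).symm y) with hQ
  set q' : ℂ := fderiv ℝ Q (x, w) (0, 1) with hq'
  have hin : HasFDerivAt (fun v : ℂ => (x, v)) (ContinuousLinearMap.inr ℝ X ℂ) w :=
    hasFDerivAt_prodMk_right x w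
  refine ⟨ch, z, hs, fun i => q z ^ S.β i, u, fun i => S.β i * q z ^ (S.β i - 1) * q',
    fun i => pow_ne_zero _ hq0, fun i b => hF.self_of_nhds i b, fun i b => ?_, ?_⟩
  · -- derivative
    have h1 : HasFDerivAt (fun v : ℂ => (F i b).eval v)
        ((ContinuousLinearMap.smulRight (1 : ℂ →L[ℂ] ℂ)
          ((Polynomial.derivative (F i b)).eval w)).restrictScalars ℝ) w :=
      ((F i b).hasDerivAt w).hasFDerivAt.restrictScalars ℝ
    -- the factor q
    have h2 : HasFDerivAt (fun v : ℂ => Q (x, v)) ((fderiv ℝ Q (x, w)).comp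
        (ContinuousLinearMap.inr ℝ X ℂ)) w := hq.hasFDerivAt.comp w hin
    have h2' := h2.pow (S.β i)
    -- the coordinate
    have hpt : DifferentiableAt ℂ (fun y => S.pt ch ((A.e ch).symm y) i b) (A.e ch z) := by
      have h := (S.P i).hol ch b
      unfold HolAt at h
      rw [preimage_univ, inter_univ] at h
      exact (h _ ((A.e ch).map_source hs)).differentiableAt
        ((A.e ch).open_target.mem_nhds ((A.e ch).map_source hs))
    have h3 : HasFDerivAt (fun v : ℂ => S.pt ch ((A.e ch).symm (ψ (x, v))) i b)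
        ((((fderiv ℂ (fun y => S.pt ch ((A.e ch).symm y) i b) (A.e ch z)).restrictScalars ℝ).comp
          (fderiv ℝ ψ (x, w))).comp (ContinuousLinearMap.inr ℝ X ℂ)) w := by
      have h4 : HasFDerivAt (fun y => S.pt ch ((A.e ch).symm y) i b)
          ((fderiv ℂ (fun y => S.pt ch ((A.e ch).symm y) i b) (A.e ch z)).restrictScalars ℝ)
          (ψ (x, w)) := hpt.hasFDerivAt.restrictScalars ℝ
      exact (h4.comp (x, w) hψd.hasFDerivAt).comp w hin
    have h5 := h2'.mul h3
    have hev : (fun v : ℂ => (F i b).eval v) =ᶠ[𝓝 w]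
        ((fun v : ℂ => Q (x, v)) ^ S.β i * fun v : ℂ => S.pt ch ((A.e ch).symm (ψ (x, v))) i b) := by
      have hnb : ∀ᶠ v : ℂ in 𝓝 w, (x, v) ∈ ovr C k (A.e ch) := by
        have hc : ContinuousAt (fun v : ℂ => (x, v)) w := by fun_prop
        exact hc.eventually ((isOpen_ovr k (A.e ch)).mem_nhds hov)
      filter_upwards [hF, hnb] with v hv hv2
      rw [hv i b]
      show _ = Q (x, v) ^ S.β i * S.pt ch ((A.e ch).symm (ψ (x, v))) i b
      rw [hψ]
      show _ = Q (x, v) ^ S.β i * S.pt ch ((A.e ch).symm (A.e ch ((C.e k).symm (x, v)))) i b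
      rw [(A.e ch).left_inv hv2.2]
    have h6 := h1.unique (h5.congr_of_eventuallyEq hev)
    have h7 := congrArg (fun T : ℂ →L[ℝ] ℂ => T 1) h6
    simp only [ContinuousLinearMap.coe_restrictScalars', ContinuousLinearMap.smulRight_apply,
      one_apply_eq_self, add_apply, one_mul,
      smul_apply, ContinuousLinearMap.comp_apply,
      ContinuousLinearMap.inr_apply, smul_eq_mul, nsmul_eq_mul] at h7
    rw [h7]
    have e1 : (A.e ch).symm (ψ (x, w)) = z := (A.e ch).left_inv hs
    have e2 : dpt S ch z u i b =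
        (fderiv ℂ (fun y => S.pt ch ((A.e ch).symm y) i b) (A.e ch z)) u := rfl
    rw [e1]
    show Q (x, w) ^ S.β i * (fderiv ℂ (fun y => S.pt ch ((A.e ch).symm y) i b) (A.e ch z)) u +
      S.pt ch z i b * (↑(S.β i) * Q (x, w) ^ (S.β i - 1) * q') =
      q z ^ S.β i * dpt S ch z u i b + ↑(S.β i) * q z ^ (S.β i - 1) * q' * S.pt ch z i b
    rw [e2]
    show q z ^ S.β i * _ + S.pt ch z i b * (↑(S.β i) * q z ^ (S.β i - 1) * q') = _
    ring
  · show (∏ i, (q z ^ S.β i) ^ wt i) * θ.app ch z u = κ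
    have e1 : ∏ i, (q z ^ S.β i) ^ wt i = q z := by
      have e2 : ∀ i, (q z ^ S.β i) ^ wt i = q z ^ (wt i * (S.β i : ℤ)) := by
        intro i
        rw [mul_comm, zpow_mul, zpow_natCast]
      rw [Finset.prod_congr rfl fun i _ => e2 i]
      have e3 : ∏ i, q z ^ (wt i * (S.β i : ℤ)) = q z ^ (∑ i, wt i * (S.β i : ℤ)) := by
        classical
        induction (Finset.univ : Finset I) using Finset.induction_on with
        | empty => simp
        | insert a s ha ih => rw [Finset.prod_insert ha, Finset.sum_insert ha, zpow_add₀ hq0, ih]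
      rw [e3, hw, zpow_one]
    rw [e1]
    exact hκ

/-- **CON**: the contact constant of the twistor lines. -/
theorem con_of_link {S : MSys A L I} {θ : OneForm L} {E : Set (MvPolynomial (Σ i, S.J i) ℂ)}
    {wt : I → ℤ} {th : CForm E wt} (hl : Link S θ th) (hw : ∑ i, wt i * (S.β i : ℤ) = 1)
    (C : ACM (X × ℂ) Z) (cd : Nn_254.CD C) (hcp : Cp C A) (cmp : A.ι → C.ι → Z → ℂ)
    (hne : ∀ a i x, x ∈ (A.e a).source → x ∈ (C.e i).source → cmp a i x ≠ 0)
    (hsm : ∀ a i, ContDiffOn ℝ ∞ (fun y => cmp a i ((C.e i).symm y)) (ovr C i (A.e a)))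
    (hth : ∀ a i x, x ∈ (A.e a).source → x ∈ (C.e i).source → ∀ v, cd.θ i (C.e i x) v =
      cmp a i x * θ.app a x (fderiv ℝ (fun y => A.e a ((C.e i).symm y)) (C.e i x) v))
    (k : C.ι) {x : X} (hx : ∀ w, (x, w) ∈ (C.e k).target) {F : ∀ i, S.J i → Polynomial ℂ}
    (hF : ∀ w ch, (C.e k).symm (x, w) ∈ (A.e ch).source → ∀ i b, (F i b).eval w =
      cmp ch k ((C.e k).symm (x, w)) ^ S.β i * S.pt ch ((C.e k).symm (x, w)) i b) {κ : ℂ}
    (hκ : ∀ w, cd.θ k (x, w) (0, 1) = κ) :
    th.Val F (fun i a => Polynomial.derivative (F i a)) (Polynomial.C κ) := by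
  refine val_of_ld hl fun w => ?_
  obtain ⟨ch, hch⟩ := A.cover ((C.e k).symm (x, w))
  have hov : (x, w) ∈ ovr C k (A.e ch) := ⟨hx w, hch⟩
  have hks : (C.e k).symm (x, w) ∈ (C.e k).source := (C.e k).map_target (hx w)
  refine ld_of_chart hw C hcp k (hx w) hch (cmp ch k)
    (((hsm ch k).contDiffAt ((isOpen_ovr k (A.e ch)).mem_nhds hov)).differentiableAt (by simp))
    (hne ch k _ hch hks) ?_ ?_
  · have hc : ContinuousAt (fun v : ℂ => (x, v)) w := by fun_prop
    filter_upwards [hc.eventually ((isOpen_ovr k (A.e ch)).mem_nhds hov)] with v hv i b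
    exact hF v ch hv.2 i b
  · have h1 := hth ch k _ hch hks (0, 1)
    rw [(C.e k).right_inv (hx w)] at h1
    rw [← h1]
    exact hκ w

end

end Crest.Agent.R260.Con_803
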