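import Crest.Agent.R260.OutDefs_516
import Crest.Agent.R260.Pair2_764

/-!
# R260 (S0398), AG-OUT, producer of `Dens` (helper764)

`dens_of_anti_diag` : `Z` connected complex manifold with the antiholomorphic involution `σ`,
`v` = homogeneous coordinates, `ζ (x, u)` = point of the twistor line of `x` at `u`,
`σ (ζ (x, u)) = ζ (x, -1 / conj u)`, `S x u` = a vector over `ζ (x, u)`; a bihomogeneous polynomial
`D` which does not vanish identically on `Z × Z` satisfies `Dens U S D`.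
-/

set_option autoImplicit false

open Set Filter Topology Metric
open scoped ComplexConjugate

namespace Crest.Agent.R260.Pair_764

open Crest.Agent.R275.Geo Crest.Agent.R275.Core144 Crest.Agent.R260.Out_516

variable {n : ℕ} {I : Type} [Fintype I] {Jt : I → Type} [∀ i, Fintype (Jt i)]

omit [Fintype I] [∀ i, Fintype (Jt i)] in
/-- non-vanishing of a bihomogeneous polynomial does not depend on the representatives -/
theorem valD_scl [DecidableEq (I ⊕ I)]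
    (D : MvPolynomial ((Σ i, Jt i) ⊕ (Σ i, Jt i)) ℂ) (dd : I ⊕ I → ℕ)
    (hD : MvPolynomial.IsWeightedHomogeneous
      (fun x : (Σ i, Jt i) ⊕ (Σ i, Jt i) =>
        (Pi.single (Sum.map Sigma.fst Sigma.fst x) 1 : I ⊕ I → ℕ)) D dd)
    (l m : I → ℂ) (a b : Pt Jt) (h : valD D (scl l a) (scl m b) ≠ 0) : valD D a b ≠ 0 := by
  intro h0
  apply h
  have := scale_blocks (R := ℂ) (Sum.map Sigma.fst Sigma.fst) hD (Sum.elim l m)
    (Sum.elim a b) h0
  have h2 : (fun x : (Σ i, Jt i) ⊕ (Σ i, Jt i) =>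
      Sum.elim l m (Sum.map Sigma.fst Sigma.fst x) * Sum.elim a b x) =
      Sum.elim (scl l a) (scl m b) := by
    funext x
    rcases x with x | x
    · simp [scl]
    · simp [scl]
  rw [h2] at this
  exact this

/-- **producer of `Dens`** -/
theorem dens_of_anti_diag {d : ℕ} {Z : Type} [TopologicalSpace Z] [PreconnectedSpace Z]
    (A : Atl d Z) (σ : Z → Z) (hσ : Continuous σ) (hσσ : ∀ x, σ (σ x) = x) (hanti : AntiHol A σ)
    (v : A.ι → Z → Pt Jt) (hv : ∀ i t, HolAt A i univ (fun x => v i x t))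
    (tr : ∀ i j, ∀ x ∈ (A.e i).source ∩ (A.e j).source, ∃ c : I → ℂ, v i x = scl c (v j x))
    [DecidableEq (I ⊕ I)]
    (D : MvPolynomial ((Σ i, Jt i) ⊕ (Σ i, Jt i)) ℂ) (dd : I ⊕ I → ℕ)
    (hD : MvPolynomial.IsWeightedHomogeneous
      (fun x : (Σ i, Jt i) ⊕ (Σ i, Jt i) =>
        (Pi.single (Sum.map Sigma.fst Sigma.fst x) 1 : I ⊕ I → ℕ)) D dd)
    (hne : ∃ x y i j, x ∈ (A.e i).source ∧ y ∈ (A.e j).source ∧ valD D (v i x) (v j y) ≠ 0)
    {U : Set (EuclideanSpace ℝ (Fin n))} (S : EuclideanSpace ℝ (Fin n) → ℂ → Pt Jt)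
    (ζ : EuclideanSpace ℝ (Fin n) × ℂ → Z)
    (hopen : ∀ O : Set (EuclideanSpace ℝ (Fin n) × ℂ), IsOpen O → O ⊆ U ×ˢ univ →
      IsOpen (ζ '' O))
    (hσζ : ∀ x ∈ U, ∀ u : ℂ, u ≠ 0 → σ (ζ (x, u)) = ζ (x, -(conj u)⁻¹))
    (hS : ∀ x ∈ U, ∀ u, ∀ i, ζ (x, u) ∈ (A.e i).source → ∃ l : I → ℂ,
      v i (ζ (x, u)) = scl l (S x u)) : Dens U S D := by
  classical
  intro W hW hWne hWU
  have hdense := (anti_diag_dense (A := A) σ hσ hσσ hanti
    (τ := Σ i, Jt i) (B := I) Sigma.fst v hv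
    (fun i j x hx => by
      obtain ⟨c, hc⟩ := tr i j x hx
      exact ⟨c, fun t => by rw [hc]; rfl⟩) D dd hD hne).2
  let O : Set (EuclideanSpace ℝ (Fin n) × ℂ) := W ×ˢ {u : ℂ | u ≠ 0}
  have hO : IsOpen O := hW.prod isOpen_ne
  have hOU : O ⊆ U ×ˢ univ := prod_mono hWU (subset_univ _)
  have hOne : (ζ '' O).Nonempty := by
    obtain ⟨p, hp⟩ := hWne
    exact ⟨ζ (p, 1), (p, 1), ⟨hp, one_ne_zero⟩, rfl⟩
  obtain ⟨z, hzO, i, j, hi, hj, hz⟩ := hdense.inter_open_nonempty _ (hopen O hO hOU) hOne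
  obtain ⟨⟨p, u⟩, ⟨hp, hu⟩, rfl⟩ := hzO
  have hu' : u ≠ 0 := hu
  have hpU := hWU hp
  rw [hσζ p hpU u hu'] at hj hz
  obtain ⟨l, hl⟩ := hS p hpU u i hi
  obtain ⟨m, hm⟩ := hS p hpU (-(conj u)⁻¹) j hj
  refine ⟨p, hp, u, -(conj u)⁻¹, ?_, ?_⟩
  · intro huv
    have hcu : conj u ≠ 0 := (map_ne_zero _).2 hu'
    have h1 : u * conj u = -1 := by
      nth_rewrite 1 [huv]
      field_simp
    rw [Complex.mul_conj] at h1
    have h2 := congrArg Complex.re h1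
    simp at h2
    have := Complex.normSq_nonneg u
    linarith
  · apply valD_scl D dd hD l m
    rw [← hl, ← hm]
    exact hz

/-- the same with the non-vanishing of `D` stated on the cone of the equations `E`, every point of
which comes from a point of `Z` -/
theorem dens_of_cone {d : ℕ} {Z : Type} [TopologicalSpace Z] [PreconnectedSpace Z]
    (A : Atl d Z) (σ : Z → Z) (hσ : Continuous σ) (hσσ : ∀ x, σ (σ x) = x) (hanti : AntiHol A σ)
    (v : A.ι → Z → Pt Jt) (hv : ∀ i t, HolAt A i univ (fun x => v i x t))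
    (tr : ∀ i j, ∀ x ∈ (A.e i).source ∩ (A.e j).source, ∃ c : I → ℂ, v i x = scl c (v j x))
    (E : Set (MvPolynomial (Σ i, Jt i) ℂ))
    (hpt : ∀ a, OnZ E a → ∃ i x, x ∈ (A.e i).source ∧ ∃ l : I → ℂ, a = scl l (v i x))
    [DecidableEq (I ⊕ I)]
    (D : MvPolynomial ((Σ i, Jt i) ⊕ (Σ i, Jt i)) ℂ) (dd : I ⊕ I → ℕ)
    (hD : MvPolynomial.IsWeightedHomogeneous
      (fun x : (Σ i, Jt i) ⊕ (Σ i, Jt i) =>
        (Pi.single (Sum.map Sigma.fst Sigma.fst x) 1 : I ⊕ I → ℕ)) D dd)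
    (hne : ∃ a b, OnZ E a ∧ OnZ E b ∧ valD D a b ≠ 0)
    {U : Set (EuclideanSpace ℝ (Fin n))} (S : EuclideanSpace ℝ (Fin n) → ℂ → Pt Jt)
    (ζ : EuclideanSpace ℝ (Fin n) × ℂ → Z)
    (hopen : ∀ O : Set (EuclideanSpace ℝ (Fin n) × ℂ), IsOpen O → O ⊆ U ×ˢ univ →
      IsOpen (ζ '' O))
    (hσζ : ∀ x ∈ U, ∀ u : ℂ, u ≠ 0 → σ (ζ (x, u)) = ζ (x, -(conj u)⁻¹))
    (hS : ∀ x ∈ U, ∀ u, ∀ i, ζ (x, u) ∈ (A.e i).source → ∃ l : I → ℂ,
      v i (ζ (x, u)) = scl l (S x u)) : Dens U S D := by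
  obtain ⟨a, b, ha, hb, hab⟩ := hne
  obtain ⟨i, x, hx, l, rfl⟩ := hpt a ha
  obtain ⟨j, y, hy, m, rfl⟩ := hpt b hb
  exact dens_of_anti_diag A σ hσ hσσ hanti v hv tr D dd hD
    ⟨x, y, i, j, hx, hy, valD_scl D dd hD l m _ _ hab⟩ S ζ hopen hσζ hS

end Crest.Agent.R260.Pair_764
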