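import Mathlib
import Crest.Agent.R260.Der4_169

/-!
# Row 260, A-REG (helper169), part 4: the local theorem at points which are generic up to scaling

`K0 ⊆ K` is a subfield (quotients of forms of the same multidegree) contained in the local ring
of `q = H(a)`; `φ = g φ0` with `g` in the local ring of `q` and `φ0` algebraic over `K0`. Then all
derivatives of `φ` along `H` are integral at `a`. (No line is needed.)
-/

set_option autoImplicit false
set_option linter.unusedSectionVars false

namespace Crest.Agent.R260.Der_169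

open Polynomial Module
open Crest.Agent.R270.BM_360 Crest.Agent.R270.Fr_928 Crest.Agent.R260.Pur920

universe u v w

section semi

variable {k : Type u} [Field k] [CharZero k] {σ : Type v} [Fintype σ]
  {K K' : Type u} [Field K] [Field K'] [Algebra k K] [Algebra K K'] [Algebra k K']
  [IsScalarTower k K K']

/-- the local ring of the specialisation `q` of `v`. -/
def Oq (v : σ → K) {κ : Type w} [Field κ] [Algebra k κ] (q : σ → κ) : Subring K where
  carrier := {c | ∃ P Q : MvPolynomial σ k, MvPolynomial.aeval q Q ≠ 0 ∧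
    c * MvPolynomial.aeval v Q = MvPolynomial.aeval v P}
  mul_mem' := by
    rintro x y ⟨P, Q, hQ, h⟩ ⟨P', Q', hQ', h'⟩
    refine ⟨P * P', Q * Q', by rw [map_mul]; exact mul_ne_zero hQ hQ', ?_⟩
    rw [map_mul, map_mul, ← h, ← h']
    ring
  one_mem' := ⟨1, 1, by simp, by simp⟩
  add_mem' := by
    rintro x y ⟨P, Q, hQ, h⟩ ⟨P', Q', hQ', h'⟩
    refine ⟨P * Q' + P' * Q, Q * Q', by rw [map_mul]; exact mul_ne_zero hQ hQ', ?_⟩
    rw [map_add, map_mul, map_mul, map_mul, ← h, ← h']
    ring
  zero_mem' := ⟨0, 1, by simp, by simp⟩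
  neg_mem' := by
    rintro x ⟨P, Q, hQ, h⟩
    exact ⟨-P, Q, hQ, by rw [map_neg, ← h]; ring⟩

theorem mem_Oq {v : σ → K} {κ : Type w} [Field κ] [Algebra k κ] {q : σ → κ} {c : K} :
    c ∈ Oq (k := k) v q ↔ ∃ P Q : MvPolynomial σ k, MvPolynomial.aeval q Q ≠ 0 ∧
      c * MvPolynomial.aeval v Q = MvPolynomial.aeval v P := Iff.rfl

/-- polynomial derivations preserve the local ring. -/
theorem der_mem_Oq {v : σ → K} {κ : Type w} [Field κ] [Algebra k κ] {q : σ → κ}
    (hspec : ∀ p : MvPolynomial σ k, MvPolynomial.aeval v p = 0 → MvPolynomial.aeval q p = 0)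
    (d : Derivation k K K) (hd : ∀ x, ∃ s : MvPolynomial σ k, d (v x) = MvPolynomial.aeval v s)
    {c : K} (hc : c ∈ Oq (k := k) v q) : d c ∈ Oq (k := k) v q := by
  obtain ⟨P, Q, hQ, h⟩ := hc
  choose s hs using hd
  have hpol : ∀ p : MvPolynomial σ k, d (MvPolynomial.aeval v p) =
      MvPolynomial.aeval v (∑ x, MvPolynomial.pderiv x p * s x) := by
    intro p
    rw [der_aeval, map_sum]
    refine Finset.sum_congr rfl fun x _ => ?_
    rw [map_mul, hs]
  have hQv : MvPolynomial.aeval v Q ≠ 0 := fun h0 => hQ (hspec Q h0)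
  have h1 := congrArg d h
  rw [Derivation.leibniz, hpol, hpol, smul_eq_mul, smul_eq_mul] at h1
  refine ⟨(∑ x, MvPolynomial.pderiv x P * s x) * Q - P * (∑ x, MvPolynomial.pderiv x Q * s x),
    Q ^ 2, by rw [map_pow]; exact pow_ne_zero 2 hQ, ?_⟩
  rw [map_sub, map_mul, map_mul, ← h1, ← h, map_pow]
  ring

/-- **A-REG at a point which is generic up to scaling.** -/
theorem local_semi [Algebra.IsAlgebraic K K'] {E : Set (MvPolynomial σ k)} {v : σ → K}
    (hv : ∀ p ∈ E, MvPolynomial.aeval v p = 0)
    (hgen : IntermediateField.adjoin k (Set.range v) = ⊤) {N : ℕ}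
    (hNv : finrank K (TanS E v) ≤ N) (htr : TrGe k (Set.range v) N)
    {κ : Type u} [Field κ] [Algebra k κ] (H : σ → κ[X]) (a : κ)
    {L : Type w} [Field L] [Algebra (RatFunc κ) L] [Algebra k L] [IsScalarTower k (RatFunc κ) L]
    (Ψ : K' →ₐ[k] L)
    (hΨ : ∀ x, Ψ (algebraMap K K' (v x)) =
      algebraMap (RatFunc κ) L (algebraMap κ[X] (RatFunc κ) (H x)))
    (dL : Derivation ℤ L L)
    (hdL : ∀ p : κ[X], dL (algebraMap (RatFunc κ) L (algebraMap κ[X] (RatFunc κ) p)) =
      algebraMap (RatFunc κ) L (algebraMap κ[X] (RatFunc κ) (derivative p)))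
    (hNH : finrank (RatFunc κ) (TanS E (fun x => algebraMap κ[X] (RatFunc κ) (H x))) ≤ N)
    (hNq : finrank κ (TanS E (fun x => (H x).eval a)) = N)
    (K0 : IntermediateField k K)
    (hK0 : ∀ c ∈ K0, c ∈ Oq (k := k) v (fun x => (H x).eval a))
    {g : K} (hg : g ∈ Oq (k := k) v (fun x => (H x).eval a)) {φ0 : K'} (hφ0 : IsIntegral K0 φ0)
    (r : ℕ) : IsIntegral (RegAt a) (dL^[r] (Ψ (algebraMap K K' g * φ0))) := by
  classical
  have hdk : ∀ c : κ, dL (algebraMap (RatFunc κ) L (algebraMap κ[X] (RatFunc κ) (C c))) = 0 := by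
    intro c
    rw [hdL]
    simp
  have hspecH : ∀ p : MvPolynomial σ k, MvPolynomial.aeval v p = 0 →
      MvPolynomial.aeval (fun x => (H x).eval a) p = 0 := by
    intro p hp
    have h1 : Ψ (algebraMap K K' (MvPolynomial.aeval v p)) =
        MvPolynomial.aeval (fun x => Ψ (algebraMap K K' (v x))) p := by
      have := MvPolynomial.comp_aeval_apply (f := v) (Ψ.comp (IsScalarTower.toAlgHom k K K')) p
      exact this
    have h2 := MvPolynomial.comp_aeval_apply
      (f := fun x => algebraMap κ[X] (RatFunc κ) (H x)) (IsScalarTower.toAlgHom k (RatFunc κ) L) p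
    rw [IsScalarTower.coe_toAlgHom'] at h2
    have h3 : algebraMap (RatFunc κ) L (algebraMap κ[X] (RatFunc κ) (MvPolynomial.aeval H p)) =
        0 := by
      rw [← aeval_ratFunc, h2]
      rw [hp, map_zero, map_zero] at h1
      rw [h1]
      congr 2
      funext x
      exact (hΨ x).symm
    have h4 := (map_eq_zero _).1 h3
    rw [FaithfulSMul.algebraMap_eq_zero_iff] at h4
    rw [aeval_eval, h4, eval_zero]
  let S : Subring K' := Subring.closure
    ((algebraMap K K') '' (Oq (k := k) v (fun x => (H x).eval a)) ∪ {b | IsIntegral K0 b})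
  have hS1 : ∀ c ∈ Oq (k := k) v (fun x => (H x).eval a), algebraMap K K' c ∈ S := fun c hc =>
    Subring.subset_closure (Or.inl ⟨c, hc, rfl⟩)
  have hS2 : ∀ b : K', IsIntegral K0 b → b ∈ S := fun b hb => Subring.subset_closure (Or.inr hb)
  have hc0 : CharZero K0 := charZero_of_injective_algebraMap (algebraMap k K0).injective
  refine chain_core hv hgen hNv htr H a Ψ hΨ dL hdL hdk hNH hNq S ?_ ?_ ?_ r
  · intro d hd D hD b hb
    have hdO : ∀ c ∈ Oq (k := k) v (fun x => (H x).eval a), D (algebraMap K K' c) ∈ S := by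
      intro c hc
      rw [hD]
      exact hS1 _ (der_mem_Oq hspecH d hd hc)
    induction hb using Subring.closure_induction with
    | mem b hb =>
      rcases hb with ⟨c, hc, rfl⟩ | hb
      · exact hdO c hc
      · have hb' : IsIntegral K0 b := hb
        -- differentiate the minimal polynomial
        have hpoly : ∀ p : K0[X], ∃ y ∈ S, D (aeval b p) = y + aeval b (derivative p) * D b := by
          intro p
          induction p using Polynomial.induction_on' with
          | add p q hp hq =>
            obtain ⟨y, hy, h1⟩ := hp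
            obtain ⟨z, hz, h2⟩ := hq
            refine ⟨y + z, S.add_mem hy hz, ?_⟩
            rw [map_add, map_add, h1, h2, map_add, map_add]
            ring
          | monomial n c =>
            refine ⟨b ^ n * D (algebraMap K K' (c : K)), S.mul_mem (S.pow_mem (hS2 b hb') n)
              (hdO _ (hK0 c c.2)), ?_⟩
            rw [aeval_monomial, derivative_monomial, aeval_monomial]
            have h1 : algebraMap K0 K' c = algebraMap K K' (c : K) := rfl
            rw [Derivation.leibniz, Derivation.leibniz_pow, h1, map_mul, h1]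
            simp only [smul_eq_mul, nsmul_eq_mul, map_natCast]
            ring
        obtain ⟨y, hy, h1⟩ := hpoly (minpoly K0 b)
        rw [minpoly.aeval, map_zero] at h1
        have h2 : aeval b (derivative (minpoly K0 b)) ≠ 0 :=
          (minpoly.irreducible hb').separable.aeval_derivative_ne_zero (minpoly.aeval K0 b)
        have h3 : IsIntegral K0 (aeval b (derivative (minpoly K0 b))) := by
          have h4 : aeval b (derivative (minpoly K0 b)) ∈ Algebra.adjoin K0 {b} :=
            aeval_mem_adjoin_singleton K0 b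
          have h5 : Algebra.adjoin K0 {b} ≤ integralClosure K0 K' := by
            rw [Algebra.adjoin_le_iff, Set.singleton_subset_iff]
            exact hb'
          exact h5 h4
        have h6 : D b = -y * (aeval b (derivative (minpoly K0 b)))⁻¹ := by
          rw [eq_mul_inv_iff_mul_eq₀ h2, mul_comm]
          linear_combination -h1
        rw [h6]
        exact S.mul_mem (S.neg_mem hy) (hS2 _ h3.inv)
    | zero => rw [map_zero]; exact S.zero_mem
    | one => rw [D.map_one_eq_zero]; exact S.zero_mem
    | add x y _ _ hx hy => rw [map_add]; exact S.add_mem hx hy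
    | neg x _ hx => rw [map_neg]; exact S.neg_mem hx
    | mul x y hx' hy' hx hy =>
      rw [Derivation.leibniz, smul_eq_mul, smul_eq_mul]
      exact S.add_mem (S.mul_mem hx' hy) (S.mul_mem hy' hx)
  · intro b hb
    have hint : ∀ b : K', IsIntegral (Oq (k := k) v (fun x => (H x).eval a)) b →
        IsIntegral (RegAt a) (Ψ b) := fun b hb =>
      int_map H a Ψ hΨ (Oq (k := k) v (fun x => (H x).eval a)) (fun c hc => hc) hb
    induction hb using Subring.closure_induction with
    | mem b hb =>
      rcases hb with ⟨c, hc, rfl⟩ | hb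
      · apply hint
        exact isIntegral_algebraMap (R := Oq (k := k) v (fun x => (H x).eval a)) (x := ⟨c, hc⟩)
      · apply hint
        obtain ⟨p, hp, hp0⟩ : IsIntegral K0 b := hb
        let G : K0 →+* Oq (k := k) v (fun x => (H x).eval a) :=
          Subring.inclusion (S := K0.toSubfield.toSubring)
            (T := Oq (k := k) v (fun x => (H x).eval a)) (fun c hc => hK0 c hc)
        refine ⟨p.map G, hp.map _, ?_⟩
        rw [eval₂_map]
        exact hp0
    | zero => rw [map_zero]; exact isIntegral_zero
    | one => rw [map_one]; exact isIntegral_one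
    | add x y _ _ hx hy => rw [map_add]; exact hx.add hy
    | neg x _ hx => rw [map_neg]; exact hx.neg
    | mul x y _ _ hx hy => rw [map_mul]; exact hx.mul hy
  · exact S.mul_mem (hS1 g hg) (hS2 φ0 hφ0)

end semi

end Crest.Agent.R260.Der_169
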