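import Mathlib
import Crest.Agent.R260.Sep3_749
import Crest.Agent.R260.QuadDefs_517

/-!
# Row 260 (S0398), DivP leaf (L3) (helper703): multihomogeneous relations pass to reductions and to
proportional vectors.
-/

set_option autoImplicit false
set_option linter.all false

noncomputable section

namespace Crest.Agent.R260.Er_703

open Polynomial IsLocalRing
open Crest.Agent.R270.BM_360 Crest.Agent.R260.Lin_678 Crest.Agent.R260.QuadDefs_517
open Crest.Agent.R270.Span_925 (Same)
open Crest.Agent.R270.Sat_422 (RedPt)

universe u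

variable {I : Type} {J : I → Type} [Fintype I] [∀ i, Fintype (J i)]

/-- scaling of the blocks in a multihomogeneous polynomial. -/
theorem evv_scale [DecidableEq I] {F₀ A : Type u} [Field F₀] [CommRing A] [Algebra F₀ A]
    (c : I → A) (v : ∀ i, J i → A)
    {p : MvPolynomial (Σ i, J i) F₀} {d : I → ℕ}
    (hp : MvPolynomial.IsWeightedHomogeneous
      (fun x : Σ i, J i => (Pi.single x.1 1 : I → ℕ)) p d) :
    evv (fun i a => c i * v i a) p = (∏ i, c i ^ d i) * evv v p := by
  classical
  unfold evv
  have hsum : ∑ m ∈ p.support, MvPolynomial.monomial m (p.coeff m) = p :=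
    p.support_sum_monomial_coeff
  rw [← hsum, map_sum, map_sum, Finset.mul_sum]
  refine Finset.sum_congr rfl fun m hm => ?_
  have hw : ∀ i, ∑ a, m ⟨i, a⟩ = d i := by
    intro i
    have h1 := hp (MvPolynomial.mem_support_iff.1 hm)
    have h2 := congrFun h1 i
    rw [← h2, Finsupp.weight_apply, Finsupp.sum_fintype _ _ (by intro x; exact zero_smul _ _),
      Finset.sum_apply, Fintype.sum_sigma, Finset.sum_eq_single i]
    · refine Finset.sum_congr rfl fun a _ => ?_
      simp
    · intro j _ hj
      refine Finset.sum_eq_zero fun a _ => ?_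
      simp [Pi.single_apply, hj.symm]
    · simp
  rw [MvPolynomial.aeval_monomial, MvPolynomial.aeval_monomial,
    Finsupp.prod_fintype _ _ (fun _ => pow_zero _), Finsupp.prod_fintype _ _ (fun _ => pow_zero _)]
  have h3 : ∏ x : Σ i, J i, (c x.1 * v x.1 x.2) ^ m x =
      (∏ i, c i ^ d i) * ∏ x : Σ i, J i, v x.1 x.2 ^ m x := by
    simp only [mul_pow, Finset.prod_mul_distrib]
    congr 1
    rw [Fintype.prod_sigma]
    refine Finset.prod_congr rfl fun i _ => ?_
    show ∏ a, c i ^ m ⟨i, a⟩ = c i ^ d i
    rw [Finset.prod_pow_eq_pow_sum, hw i]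
  rw [h3]
  ring

/-- multihomogeneous relations hold for proportional vectors. -/
theorem evv_same {F₀ κ : Type u} [Field F₀] [Field κ] [Algebra F₀ κ] {v w : ∀ i, J i → κ}
    (h : Same v w) {p : MvPolynomial (Σ i, J i) F₀} (hp : MHm p) (h0 : evv v p = 0) :
    evv w p = 0 := by
  classical
  obtain ⟨c, hc, hw⟩ := h
  obtain ⟨d, hd⟩ := hp
  have h1 : w = fun i a => c i * v i a := by
    funext i a
    exact hw i a
  have hd' : MvPolynomial.IsWeightedHomogeneous
      (fun x : Σ i, J i => (Pi.single x.1 1 : I → ℕ)) p d := by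
    convert hd
  rw [h1, evv_scale c v hd', h0, mul_zero]

/-- multihomogeneous relations pass to the reduction of a point. -/
theorem evv_red {F₀ L : Type u} [Field F₀] [Field L] {O : ValuationSubring L} [Algebra F₀ L]
    [Algebra F₀ O] [IsScalarTower F₀ O L] {v : ∀ i, J i → L}
    {w : ∀ i, J i → IsLocalRing.ResidueField O} (h : RedPt O v w)
    {p : MvPolynomial (Σ i, J i) F₀} (hp : MHm p) (h0 : evv v p = 0) : evv w p = 0 := by
  classical
  obtain ⟨d, hd⟩ := hp
  have hd' : MvPolynomial.IsWeightedHomogeneous
      (fun x : Σ i, J i => (Pi.single x.1 1 : I → ℕ)) p d := by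
    convert hd
  choose hw l hl g hg hr using h
  -- the integral representative
  have h1 : evv (fun i a => l i * v i a) p = 0 := by
    rw [evv_scale l v hd', h0, mul_zero]
  have h2 : algebraMap O L (evv (A := O) (fun i a => g i a) p) = 0 := by
    rw [← h1]
    unfold evv
    have h3 := MvPolynomial.comp_aeval_apply (f := fun x : Σ i, J i => (g x.1 x.2 : O))
      (IsScalarTower.toAlgHom F₀ O L) p
    rw [IsScalarTower.coe_toAlgHom'] at h3
    rw [h3]
    congr 2
    funext x
    exact hg x.1 x.2
  have h4 : evv (A := O) (fun i a => g i a) p = 0 := by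
    have hinj : Function.Injective (algebraMap O L) := Subtype.val_injective
    exact hinj (by rw [h2, map_zero])
  have h5 := congrArg (residue O) h4
  rw [map_zero] at h5
  rw [← h5]
  unfold evv
  have h6 := MvPolynomial.comp_aeval_apply (f := fun x : Σ i, J i => (g x.1 x.2 : O))
    (IsScalarTower.toAlgHom F₀ O (ResidueField O)) p
  rw [IsScalarTower.coe_toAlgHom'] at h6
  have h7 : algebraMap O (ResidueField O) = residue O := rfl
  rw [h7] at h6
  rw [h6]
  congr 2
  funext x
  exact (hr x.1 x.2).symm

end Crest.Agent.R260.Er_703
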