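import Crest.Agent.R260.Fam2_919

/-!
# Row 260 (S0398), GENFAM (F0) (helper919): existence of the irreducible family
-/

set_option autoImplicit false
set_option linter.unusedSectionVars false

namespace Crest.Agent.R260.Fam_919

open Polynomial Topology
open Crest.Agent.R270.BM_360 Crest.Agent.R260.Lin_678 Crest.Agent.R260.Mob_919

variable {I : Type} {J : I → Type} [Fintype I] [∀ i, Fintype (J i)]

theorem natDegree_le_of_cls {κ : Type*} [Field κ] {F : ∀ i, J i → κ[X]} {N : I → ℕ}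
    (h : cls F = N) (i : I) (x : J i) : (F i x).natDegree ≤ N i := by
  rw [← h]
  exact Finset.le_sup (f := fun a => (F i a).natDegree) (Finset.mem_univ x)

/-- the common zero condition is closed. -/
theorem TT_eventually_ne {X : Type*} [TopologicalSpace X] (N : I → ℕ) {F : X → ∀ i, J i → ℂ[X]}
    {U : Set X} (hU : IsOpen U) (hdeg : ∀ x ∈ U, ∀ i a, (F x i a).natDegree ≤ N i)
    (hcont : ∀ i a n, ContinuousOn (fun x => (F x i a).coeff n) U)
    (p : MvPolynomial (Cx J N) ℂ) {x : X} (hx : x ∈ U) (hp : TT N (F x) p ≠ 0) :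
    ∀ᶠ y in 𝓝 x, TT N (F y) p ≠ 0 := by
  have h1 : ∃ e : Fin 4 ⊕ I → ℂ, MvPolynomial.eval e (TT N (F x) p) ≠ 0 := by
    by_contra hcon
    push Not at hcon
    apply hp
    apply MvPolynomial.funext
    intro e
    rw [hcon e, map_zero]
  obtain ⟨e, he⟩ := h1
  have key : ∀ y, (∀ i a, (F y i a).natDegree ≤ N i) → MvPolynomial.eval e (TT N (F y) p)
      = MvPolynomial.eval₂ ((MvPolynomial.aeval (cfv N (F y)) : MvPolynomial (Cx J N) ℂ →ₐ[ℂ] ℂ) :
        MvPolynomial (Cx J N) ℂ →+* ℂ) e (Psi ℂ N p) := by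
    intro y hy
    have h2 := aeval_act_of_TT (R := ℂ) N (F y) e p
    have h3 : mapT (algebraMap ℂ ℂ) (F y) = F y := by
      funext i y
      simp [mapT]
    rw [h3, aeval_act_eq N hy] at h2
    rw [h2]
    rfl
  have hcts : ContinuousAt (fun y => MvPolynomial.eval₂
      ((MvPolynomial.aeval (cfv N (F y)) : MvPolynomial (Cx J N) ℂ →ₐ[ℂ] ℂ) :
        MvPolynomial (Cx J N) ℂ →+* ℂ) e (Psi ℂ N p)) x := by
    simp only [MvPolynomial.eval₂_eq']
    refine tendsto_finsetSum _ fun m _ => ?_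
    refine Filter.Tendsto.mul_const _ ?_
    have h4 : ContinuousAt (fun y => cfv N (F y)) x := by
      refine continuousAt_pi.2 fun c => ?_
      exact (hcont c.1.1 c.1.2 c.2).continuousAt (hU.mem_nhds hx)
    have h5 : ContinuousAt (fun c => MvPolynomial.eval c ((Psi ℂ N p).coeff m)) (cfv N (F x)) :=
      (MvPolynomial.continuous_eval ((Psi ℂ N p).coeff m)).continuousAt
    exact ContinuousAt.comp (f := fun y => cfv N (F y)) (x := x) h5 h4
  rw [key x (hdeg x hx)] at he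
  filter_upwards [hcts.eventually_ne he, hU.mem_nhds hx] with y hy hyU h0
  apply hy
  rw [← key y (hdeg y hyU), h0, map_zero]

/-- **(F0)** -/
theorem exists_fam (D : CData ℂ I J) {X : Type*} [TopologicalSpace X] {U : Set X}
    (hU : IsOpen U) (hne : U.Nonempty) (F : X → ∀ i, J i → ℂ[X])
    (hmap : ∀ x ∈ U, IsMap D.E (F x)) (hcls : ∀ x ∈ U, cls (F x) = 2 • D.β)
    {κ : ℂ} (hκ : κ ≠ 0) (hcon : ∀ x ∈ U, D.th.Val (F x) (fun i a => derivative (F x i a)) (C κ))
    (hcont : ∀ i a n, ContinuousOn (fun x => (F x i a).coeff n) U)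
    (htot : ∀ Δ : MvPolynomial ((Σ i, J i) ⊕ (Σ i, J i)) ℂ, BH Δ →
      (∃ v v' : ∀ i, J i → ℂ, OnX D.E v ∧ (∀ i, v i ≠ 0) ∧ OnX D.E v' ∧ (∀ i, v' i ≠ 0) ∧
        pval Δ v v' ≠ 0) →
      ∀ V ⊆ U, IsOpen V → V.Nonempty → ∃ x ∈ V, ∃ s t : ℂ,
        pval Δ (fun i a => (F x i a).eval s) (fun i a => (F x i a).eval t) ≠ 0) :
    ∃ U' ⊆ U, IsOpen U' ∧ U'.Nonempty ∧
      ∃ P : Ideal (MvPolynomial (Cx J (fun i => 2 * D.β i)) ℂ), Fam D P ∧
        ∀ x ∈ U', InC (fun i => 2 * D.β i) P (F x) := by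
  have hdeg : ∀ x ∈ U, ∀ i a, (F x i a).natDegree ≤ 2 * D.β i := by
    intro x hx i a
    have h1 : cls (F x) = (fun i => 2 * D.β i) := by
      rw [hcls x hx]
      funext i
      simp
    exact natDegree_le_of_cls h1 i a
  set N : I → ℕ := fun i => 2 * D.β i with hN
  obtain ⟨V, hV, hVne, hVU, hprime, -⟩ := GenFam_919.exists_prime
    (fun x => (TT N (F x) : MvPolynomial (Cx J N) ℂ →+* MvPolynomial (Fin 4 ⊕ I) ℂ)) hU hne
    (fun p x hx hp => TT_eventually_ne N hU hdeg hcont p hx hp)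
  refine ⟨V, hVU, hV, hVne, PW N F V, ?_, ?_⟩
  · refine ⟨hprime, ?_, ?_, ?_, ?_⟩
    · intro R _ _ G hG μ a b c d
      exact PW_inv N hG (Sum.elim ![a, b, c, d] μ)
    · intro R _ _ G hG
      exact PW_onX N D.hom (fun x hx => hdeg x (hVU hx)) (fun x hx => (hmap x (hVU hx)).on) hG
    · obtain ⟨x, hx⟩ := hVne
      exact ⟨F x, inC_of_mem N hx (hdeg x (hVU hx)), hmap x (hVU hx), hcls x (hVU hx), κ, hκ,
        hcon x (hVU hx)⟩
    · intro Δ hΔ h v v' hv hv0 hv' hv0'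
      by_contra hne'
      obtain ⟨x, hx, s, t, hst⟩ := htot Δ hΔ ⟨v, v', hv, hv0, hv', hv0', hne'⟩ V hVU hV hVne
      exact hst (h (F x) (inC_of_mem N hx (hdeg x (hVU hx))) s t)
  · intro x hx
    exact inC_of_mem N hx (hdeg x (hVU hx))

end Crest.Agent.R260.Fam_919
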