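import Crest.Agent.R260.Out2_516
import Crest.Agent.R260.TwPenB_389
import Crest.Agent.R260.EndDefs_919
import Crest.Agent.R270.BmDefs_360

/-!
# R260 (S0398), AG-OUT (helper516): the frozen interface

From the algebraic core (AG-FINAL, helper600) and the twistor tuples (979 / TUP 45) to the two-point
tensor of helper919.

* `Pt Jt`        : vectors of the multicone, all blocks, index `Σ i, Jt i`;
* `evt F u`      : value of a tuple of polynomials; `scl l v` : scaling of the blocks;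
* `AgFin`        : **AG-FINAL (i), (ii)** over `ℂ` (producer: 600), for a class `R` of maps with
                   contact constants;
* `AgIn`         : the same along the family `S x` of twistor lines, plus density of `D ≠ 0`
                   (producer: 764 + 45 + 600);
* `TwIn`         : the smooth family of twistor tuples and its Cauchy-Riemann equation
                   (producer: 45, from 979);
* `OutProp`      : the output: near a dense set of points there is a two-point tensor `TwoPt`.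
-/

set_option autoImplicit false
set_option linter.unusedSectionVars false

open Set Filter Topology Metric
open scoped ContDiff
open Crest.GeometryTopology.CoordMetric Crest.GeometryTopology.ChartRiem
open Crest.Agent.R260.Tw_979 Crest.Agent.R260.TwPen_389 Crest.Agent.R260.End_919
open Crest.Agent.R270.BM_360

noncomputable section

namespace Crest.Agent.R260.Out_516

variable {n : ℕ} {I : Type} [Fintype I] {Jt : I → Type} [∀ i, Fintype (Jt i)]

/-- vectors of the multicone -/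
abbrev Pt (Jt : I → Type) : Type := (Σ i, Jt i) → ℂ

/-- value of a tuple of polynomials at the parameter `u` -/
def evt (F : ∀ i, Jt i → Polynomial ℂ) (u : ℂ) : Pt Jt := fun y => (F y.1 y.2).eval u

/-- scaling of the blocks -/
def scl (l : I → ℂ) (v : Pt Jt) : Pt Jt := fun y => l y.1 * v y

/-- `v` is a point of the cone over `Z` all of whose blocks are non-zero -/
def OnZ (E : Set (MvPolynomial (Σ i, Jt i) ℂ)) (v : Pt Jt) : Prop :=
  OnX E (fun i a => v ⟨i, a⟩) ∧ ∀ i, ∃ a, v ⟨i, a⟩ ≠ 0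

/-- value of the polynomial `D` at a pair -/
def valD (D : MvPolynomial ((Σ i, Jt i) ⊕ (Σ i, Jt i)) ℂ) (v w : Pt Jt) : ℂ :=
  MvPolynomial.aeval (Sum.elim v w) D

/-- **AG-FINAL** (helper600 #5834 (i), (ii), with simple roots). `R F c` : `F` is a (very free) map
of class `2β` with contact constant `c`, `θ (F') = c` (all real twistor lines). -/
structure AgFin (E : Set (MvPolynomial (Σ i, Jt i) ℂ)) (w : I → ℤ)
    (R : (∀ i, Jt i → Polynomial ℂ) → ℂ → Prop)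
    (P : Polynomial (MvPolynomial ((Σ i, Jt i) ⊕ (Σ i, Jt i)) ℂ))
    (D : MvPolynomial ((Σ i, Jt i) ⊕ (Σ i, Jt i)) ℂ) : Prop where
  /-- the roots of `P(a, b; T)` have weight `w` in each of the two slots -/
  hom : ∀ a b, OnZ E a → OnZ E b → ∀ l m : I → ℂ, (∀ i, l i ≠ 0) → (∀ i, m i ≠ 0) → ∀ t,
    (evP P (a, b)).eval t = 0 →
      (evP P (scl l a, scl m b)).eval ((∏ i, l i ^ w i) * (∏ i, m i ^ w i) * t) = 0
  /-- all roots are simple where `D ≠ 0` -/
  simple : ∀ a b, OnZ E a → OnZ E b → valD D a b ≠ 0 → ∀ t, (evP P (a, b)).eval t = 0 →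
    (evP P (a, b)).derivative.eval t ≠ 0
  /-- (i) `Φ_F(F u, F v) = c² (u - v)²` is a root -/
  root : ∀ F c, R F c → ∀ u v, u ≠ v → valD D (evt F u) (evt F v) ≠ 0 →
    (evP P (evt F u, evt F v)).eval (c ^ 2 * (u - v) ^ 2) = 0
  /-- (ii) a holomorphic root along `H` is a polynomial of degree `≤ 2`, second slot -/
  quad2 : ∀ H c, R H c → ∀ a, OnZ E a → (∃ v, valD D a (evt H v) ≠ 0) →
    ∀ (v1 : ℂ) (r : ℝ), 0 < r → ∀ f : ℂ → ℂ, DifferentiableOn ℂ f (ball v1 r) →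
      (∀ v ∈ ball v1 r, (evP P (a, evt H v)).eval (f v) = 0) →
        ∃ q : Polynomial ℂ, q.natDegree ≤ 2 ∧ ∀ v ∈ ball v1 r, f v = q.eval v
  /-- (ii) first slot -/
  quad1 : ∀ H c, R H c → ∀ b, OnZ E b → (∃ u, valD D (evt H u) b ≠ 0) →
    ∀ (u1 : ℂ) (r : ℝ), 0 < r → ∀ f : ℂ → ℂ, DifferentiableOn ℂ f (ball u1 r) →
      (∀ u ∈ ball u1 r, (evP P (evt H u, b)).eval (f u) = 0) →
        ∃ q : Polynomial ℂ, q.natDegree ≤ 2 ∧ ∀ u ∈ ball u1 r, f u = q.eval u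

/-- Density of `D ≠ 0` on pairs of points of one twistor line (producer: 764, TW). -/
def Dens (U : Set (EuclideanSpace ℝ (Fin n))) (S : EuclideanSpace ℝ (Fin n) → ℂ → Pt Jt)
    (D : MvPolynomial ((Σ i, Jt i) ⊕ (Σ i, Jt i)) ℂ) : Prop :=
  ∀ W : Set (EuclideanSpace ℝ (Fin n)), IsOpen W → W.Nonempty → W ⊆ U →
    ∃ p ∈ W, ∃ u v : ℂ, u ≠ v ∧ valD D (S p u) (S p v) ≠ 0

/-- **Twistor tuples** over the chart domain `U` (producer: TUP 45, TW 979), `S x u` = exact vector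
of the twistor line of `x` at `u`; `κ = c²`, `c` the contact constant (`c = 1` in 979's frame). -/
structure TwIn (g : MetricField n) (J : Fin 3 → EuclideanSpace ℝ (Fin n) → Matrix (Fin n) (Fin n) ℝ)
    (c : EuclideanSpace ℝ (Fin n) → Fin n → Fin 3 → Fin 3 → ℝ)
    (U : Set (EuclideanSpace ℝ (Fin n))) (w : I → ℤ)
    (S : EuclideanSpace ℝ (Fin n) → ℂ → Pt Jt) : Prop where
  qh : QH g J c U
  sm : ∀ y, ContDiffOn ℝ ∞ (fun z : EuclideanSpace ℝ (Fin n) × ℂ => S z.1 z.2 y) (U ×ˢ univ)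
  hol : ∀ x ∈ U, ∀ y, Differentiable ℂ (fun u => S x u y)
  /-- a holomorphic function of weight `w` near `S x u`, composed with `S`, satisfies the
  Cauchy-Riemann equation of 389's `HSec.eq` at `(x, u)` -/
  cr : ∀ x ∈ U, ∀ (u : ℂ) (Ψ : Pt Jt → ℂ), ContDiffAt ℂ ω Ψ (S x u) →
    (∀ᶠ l in 𝓝 (1 : I → ℂ), Ψ (scl l (S x u)) = (∏ i, l i ^ w i) * Ψ (S x u)) →
      ∀ j, ∑ i, Nq (fun a => cm (J a x)) (nn u) i j * hor c (fun y v => Ψ (S y v)) x u i = 0

/-- **The algebraic input along the family `S`** (what the proof of `OutProp` uses). -/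
structure AgIn (U : Set (EuclideanSpace ℝ (Fin n))) (w : I → ℤ)
    (S : EuclideanSpace ℝ (Fin n) → ℂ → Pt Jt) (κ : ℂ)
    (P : Polynomial (MvPolynomial ((Σ i, Jt i) ⊕ (Σ i, Jt i)) ℂ))
    (D : MvPolynomial ((Σ i, Jt i) ⊕ (Σ i, Jt i)) ℂ) : Prop where
  κ0 : κ ≠ 0
  hom : ∀ x ∈ U, ∀ y ∈ U, ∀ u v, ∀ l m : I → ℂ, (∀ i, l i ≠ 0) → (∀ i, m i ≠ 0) → ∀ t,
    (evP P (S x u, S y v)).eval t = 0 →
      (evP P (scl l (S x u), scl m (S y v))).eval ((∏ i, l i ^ w i) * (∏ i, m i ^ w i) * t) = 0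
  simple : ∀ x ∈ U, ∀ y ∈ U, ∀ u v, valD D (S x u) (S y v) ≠ 0 → ∀ t,
    (evP P (S x u, S y v)).eval t = 0 → (evP P (S x u, S y v)).derivative.eval t ≠ 0
  root : ∀ x ∈ U, ∀ u v, u ≠ v → valD D (S x u) (S x v) ≠ 0 →
    (evP P (S x u, S x v)).eval (κ * (u - v) ^ 2) = 0
  quad2 : ∀ x ∈ U, ∀ y ∈ U, ∀ u, (∃ v, valD D (S x u) (S y v) ≠ 0) →
    ∀ (v1 : ℂ) (r : ℝ), 0 < r → ∀ f : ℂ → ℂ, DifferentiableOn ℂ f (ball v1 r) →
      (∀ v ∈ ball v1 r, (evP P (S x u, S y v)).eval (f v) = 0) →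
        ∃ q : Polynomial ℂ, q.natDegree ≤ 2 ∧ ∀ v ∈ ball v1 r, f v = q.eval v
  quad1 : ∀ x ∈ U, ∀ y ∈ U, ∀ v, (∃ u, valD D (S x u) (S y v) ≠ 0) →
    ∀ (u1 : ℂ) (r : ℝ), 0 < r → ∀ f : ℂ → ℂ, DifferentiableOn ℂ f (ball u1 r) →
      (∀ u ∈ ball u1 r, (evP P (S x u, S y v)).eval (f u) = 0) →
        ∃ q : Polynomial ℂ, q.natDegree ≤ 2 ∧ ∀ u ∈ ball u1 r, f u = q.eval u
  dens : Dens U S D

/-- `AgFin` for the maps `R`, and the lines `S x` belong to `R` ⟹ `AgIn`. -/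
theorem AgFin.agIn {E : Set (MvPolynomial (Σ i, Jt i) ℂ)} {w : I → ℤ}
    {R : (∀ i, Jt i → Polynomial ℂ) → ℂ → Prop}
    {P : Polynomial (MvPolynomial ((Σ i, Jt i) ⊕ (Σ i, Jt i)) ℂ)}
    {D : MvPolynomial ((Σ i, Jt i) ⊕ (Σ i, Jt i)) ℂ} (h : AgFin E w R P D)
    {U : Set (EuclideanSpace ℝ (Fin n))}
    {F : EuclideanSpace ℝ (Fin n) → ∀ i, Jt i → Polynomial ℂ} {c : ℂ} (hc : c ≠ 0)
    (hR : ∀ x ∈ U, R (F x) c) (hZ : ∀ x ∈ U, ∀ u, OnZ E (evt (F x) u))
    (hD : Dens U (fun x => evt (F x)) D) :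
    AgIn U w (fun x => evt (F x)) (c ^ 2) P D where
  κ0 := pow_ne_zero 2 hc
  hom x hx y hy u v l m hl hm t ht := h.hom _ _ (hZ x hx u) (hZ y hy v) l m hl hm t ht
  simple x hx y hy u v hD t ht := h.simple _ _ (hZ x hx u) (hZ y hy v) hD t ht
  root x hx u v huv hD := h.root _ _ (hR x hx) u v huv hD
  quad2 x hx y hy u hD v1 r hr f hf hf0 :=
    h.quad2 _ _ (hR y hy) _ (hZ x hx u) hD v1 r hr f hf hf0
  quad1 x hx y hy v hD u1 r hr f hf hf0 :=
    h.quad1 _ _ (hR x hx) _ (hZ y hy v) hD u1 r hr f hf hf0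
  dens := hD

/-- **Output**: near a dense set of points there is a two-point tensor. -/
def OutProp (g : MetricField n) (J : Fin 3 → EuclideanSpace ℝ (Fin n) → Matrix (Fin n) (Fin n) ℝ)
    (c : EuclideanSpace ℝ (Fin n) → Fin n → Fin 3 → Fin 3 → ℝ)
    (U : Set (EuclideanSpace ℝ (Fin n))) : Prop :=
  ∀ W : Set (EuclideanSpace ℝ (Fin n)), IsOpen W → W.Nonempty → W ⊆ U →
    ∃ V : Set (EuclideanSpace ℝ (Fin n)), IsOpen V ∧ V.Nonempty ∧ V ⊆ W ∧
      ∃ G : Fin 3 → Fin 3 → EuclideanSpace ℝ (Fin n) → EuclideanSpace ℝ (Fin n) → ℝ,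
        TwoPt g V J c G

end Crest.Agent.R260.Out_516
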