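import Crest.Agent.R260.Fam3_919
import Crest.Agent.R260.MainC_803

/-!
# Row 260 (S0398), GENFAM (F0) (helper919): the family from the hypotheses of `MainC_803.AGCore`
-/

set_option autoImplicit false
set_option linter.unusedSectionVars false

namespace Crest.Agent.R260.Fam_919

open Polynomial Topology
open Crest.Agent.R270.BM_360 Crest.Agent.R260.Lin_678 Crest.Agent.R260.Mob_919
open Crest.Agent.R260.Out_516 Crest.Agent.R260.MainC_803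

variable {I : Type} {J : I → Type} [Fintype I] [∀ i, Fintype (J i)]

theorem pval_eq_valD (Δ : MvPolynomial ((Σ i, J i) ⊕ (Σ i, J i)) ℂ) (v v' : ∀ i, J i → ℂ) :
    pval Δ v v' = valD Δ (fun y => v y.1 y.2) (fun y => v' y.1 y.2) := rfl

theorem biH_of_bh {Δ : MvPolynomial ((Σ i, J i) ⊕ (Σ i, J i)) ℂ} (h : BH Δ) : BiH Δ := h

theorem bh_of_biH {Δ : MvPolynomial ((Σ i, J i) ⊕ (Σ i, J i)) ℂ} (h : BiH Δ) : BH Δ := h

theorem ne2_of {E : Set (MvPolynomial (Σ i, J i) ℂ)}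
    {Δ : MvPolynomial ((Σ i, J i) ⊕ (Σ i, J i)) ℂ}
    (h : ∃ v v' : ∀ i, J i → ℂ, OnX E v ∧ (∀ i, v i ≠ 0) ∧ OnX E v' ∧ (∀ i, v' i ≠ 0) ∧
        pval Δ v v' ≠ 0) : Ne2 E Δ := by
  obtain ⟨v, v', h1, h2, h3, h4, h5⟩ := h
  exact ⟨fun y => v y.1 y.2, fun y => v' y.1 y.2,
    ⟨h1, fun i => Function.ne_iff.1 (h2 i)⟩, ⟨h3, fun i => Function.ne_iff.1 (h4 i)⟩, h5⟩

/-- **(F0) in the language of `AGCore`.** -/
theorem exists_fam_core (D : CData ℂ I J) {n : ℕ} {U : Set (EuclideanSpace ℝ (Fin n))}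
    (hU : IsOpen U) (hne : U.Nonempty) (F : EuclideanSpace ℝ (Fin n) → ∀ i, J i → ℂ[X])
    {κ : ℂ} (hκ : κ ≠ 0) (hmap : ∀ x ∈ U, IsMap D.E (F x)) (hcls : ∀ x ∈ U, cls (F x) = 2 • D.β)
    (hcon : ∀ x ∈ U, D.th.Val (F x) (fun i a => derivative (F x i a)) (C κ))
    (hcont : ∀ i a k, ContinuousOn (fun x => (F x i a).coeff k) U)
    (htot : ∀ Dn, BiH Dn → Ne2 D.E Dn → Dens U (fun x => evt (F x)) Dn) :
    ∃ U' ⊆ U, IsOpen U' ∧ U'.Nonempty ∧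
      ∃ P : Ideal (MvPolynomial (Cx J (fun i => 2 * D.β i)) ℂ), Fam D P ∧
        ∀ x ∈ U', InC (fun i => 2 * D.β i) P (F x) := by
  refine exists_fam D hU hne F hmap hcls hκ hcon hcont ?_
  intro Δ hΔ hn V hVU hV hVne
  obtain ⟨x, hx, s, t, -, h⟩ := htot Δ hΔ (ne2_of hn) V hV hVne hVU
  exact ⟨x, hx, s, t, h⟩

end Crest.Agent.R260.Fam_919
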