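import Crest.Agent.R260.LinDefs_678
import Crest.Agent.R260.Mob1_919

/-!
# Row 260 (S0398), GENFAM (helper919): the irreducible family `CC = V(P)` of tuples of class `2β`
(plan of record #6327 (I)), frozen definitions

`N i = 2 β i`. A tuple `F : ∀ i, J i → R[X]` of degrees `≤ N i` is the point `cfv N F` of the
coefficient space with variables `Cx J N`.
-/

set_option autoImplicit false

namespace Crest.Agent.R260.Fam_919

open Polynomial
open Crest.Agent.R270.BM_360 Crest.Agent.R260.Lin_678 Crest.Agent.R260.Mob_919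

universe u v w

variable {I : Type} {J : I → Type} [Fintype I] [∀ i, Fintype (J i)]

/-- coefficient variables of tuples of degree `≤ N`. -/
abbrev Cx (J : I → Type) (N : I → ℕ) : Type := Σ x : (Σ i, J i), Fin (N x.1 + 1)

/-- the coefficient vector of a tuple. -/
def cfv {R : Type v} [CommRing R] (N : I → ℕ) (F : ∀ i, J i → R[X]) : Cx J N → R :=
  fun y => (F y.1.1 y.1.2).coeff y.2

/-- `μ · (F ∘ g)`, `g = (a, b; c, d)`. -/
noncomputable def mobT {R : Type v} [CommRing R] (N : I → ℕ) (μ : I → R) (a b c d : R)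
    (F : ∀ i, J i → R[X]) : ∀ i, J i → R[X] :=
  fun i x => C (μ i) * mob (N i) a b c d (F i x)

/-- `F` is a point of `V(P)` with values in the `k`-algebra `R`. -/
structure InC {k : Type u} [Field k] (N : I → ℕ) (P : Ideal (MvPolynomial (Cx J N) k))
    {R : Type v} [CommRing R] [Algebra k R] (F : ∀ i, J i → R[X]) : Prop where
  deg : ∀ i x, (F i x).natDegree ≤ N i
  mem : ∀ p ∈ P, MvPolynomial.aeval (cfv N F) p = 0

/-- `H` is a generic point of `V(P)` over the field `F₀ ⊇ k`: its relations over `F₀` are exactly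
the elements of the extended ideal `P F₀`. -/
structure Gen {k : Type u} [Field k] (N : I → ℕ) (P : Ideal (MvPolynomial (Cx J N) k))
    (F₀ : Type v) [Field F₀] [Algebra k F₀] {κ : Type w} [Field κ] [Algebra F₀ κ]
    (H : ∀ i, J i → κ[X]) : Prop where
  deg : ∀ i x, (H i x).natDegree ≤ N i
  iff : ∀ p : MvPolynomial (Cx J N) F₀,
    MvPolynomial.aeval (cfv N H) p = 0 ↔ p ∈ P.map (MvPolynomial.map (algebraMap k F₀))

/-- value of a polynomial on a pair of points. -/
noncomputable def pval {k : Type u} [Field k] {A : Type v} [CommRing A] [Algebra k A]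
    (Δ : MvPolynomial ((Σ i, J i) ⊕ (Σ i, J i)) k) (v v' : ∀ i, J i → A) : A :=
  MvPolynomial.aeval (Sum.elim (fun x : Σ i, J i => v x.1 x.2) (fun x : Σ i, J i => v' x.1 x.2)) Δ

open Classical in
/-- bihomogeneous polynomials on pairs of points (803's `BHom` over any field). -/
def BH {k : Type u} [Field k] (Δ : MvPolynomial ((Σ i, J i) ⊕ (Σ i, J i)) k) : Prop :=
  ∃ d : I ⊕ I → ℕ, MvPolynomial.IsWeightedHomogeneous
    (fun x : (Σ i, J i) ⊕ (Σ i, J i) => (Pi.single (Sum.map Sigma.fst Sigma.fst x) 1 : I ⊕ I → ℕ))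
    Δ d

/-- **The irreducible family `CC = V(P)`** of tuples of class `2β` containing the twistor lines. -/
structure Fam {k : Type u} [Field k] (D : CData k I J)
    (P : Ideal (MvPolynomial (Cx J (fun i => 2 * D.β i)) k)) : Prop where
  prime : P.IsPrime
  /-- invariance under linear substitutions and scalings, over every `k`-algebra -/
  inv : ∀ (R : Type u) [CommRing R] [Algebra k R] (F : ∀ i, J i → R[X]),
    InC (fun i => 2 * D.β i) P F → ∀ (μ : I → R) (a b c d : R),
      InC (fun i => 2 * D.β i) P (mobT (fun i => 2 * D.β i) μ a b c d F)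
  /-- all members lie on `Z` -/
  onX : ∀ (R : Type u) [CommRing R] [Algebra k R] (F : ∀ i, J i → R[X]),
    InC (fun i => 2 * D.β i) P F → OnX D.E F
  /-- one member over `k` is an honest transversal map of class `2β` -/
  good : ∃ F : ∀ i, J i → k[X], InC (fun i => 2 * D.β i) P F ∧ IsMap D.E F ∧ cls F = 2 • D.β ∧
    ∃ c : k, c ≠ 0 ∧ D.th.Val F (fun i x => derivative (F i x)) (C c)
  /-- the pairs of points of the members over `k` are Zariski dense in `Z × Z` -/
  pairs : ∀ Δ : MvPolynomial ((Σ i, J i) ⊕ (Σ i, J i)) k, BH Δ →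
    (∀ F : ∀ i, J i → k[X], InC (fun i => 2 * D.β i) P F → ∀ s t : k,
      pval Δ (fun i x => (F i x).eval s) (fun i x => (F i x).eval t) = 0) →
    ∀ v v' : ∀ i, J i → k, OnX D.E v → (∀ i, v i ≠ 0) → OnX D.E v' → (∀ i, v' i ≠ 0) →
      pval Δ v v' = 0

end Crest.Agent.R260.Fam_919
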