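import Crest.Agent.R260.FamDefs_919
import Crest.Agent.R260.QuadDefs_517

/-!
# Row 260 (S0398), GENFAM (helper919): literal leaves (F1)-(F6) for the family `Fam D P`
-/

set_option autoImplicit false

namespace Crest.Agent.R260.Fam_919

open Polynomial
open Crest.Agent.R270.BM_360 Crest.Agent.R260.Lin_678 Crest.Agent.R260.QuadDefs_517

universe u

variable {I : Type} {J : I → Type} [Fintype I] [∀ i, Fintype (J i)] {k : Type u} [Field k]

/-- the class of conics of the family (for `QuadDefs_517.Con`). -/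
def FCls (D : CData k I J) (P : Ideal (MvPolynomial (Cx J (fun i => 2 * D.β i)) k)) : Cls k J :=
  fun _ _ _ F => InC (fun i => 2 * D.β i) P F

/-- leading vector in degree `2 β` (the point at infinity). -/
def ld (D : CData k I J) {κ : Type u} [Field κ] (H : ∀ i, J i → κ[X]) : ∀ i, J i → κ :=
  fun i x => (H i x).coeff (2 * D.β i)

/-- **(F1)** generic members exist over every field. -/
def ExGenP (N : I → ℕ) (P : Ideal (MvPolynomial (Cx J N) k)) : Prop :=
  ∀ (F₀ : Type u) [Field F₀] [Algebra k F₀], ∃ (κ : Type u) (_ : Field κ) (_ : IsAlgClosed κ)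
    (_ : Algebra k κ) (_ : Algebra F₀ κ) (_ : IsScalarTower k F₀ κ) (H : ∀ i, J i → κ[X]),
    Gen N P F₀ H ∧ Algebra.IsAlgebraic (IntermediateField.adjoin F₀ (coeffs H)) κ

/-- **(F3)** the generic member is a transversal map of class `2β`. -/
def GenMapP (D : CData k I J) (P : Ideal (MvPolynomial (Cx J (fun i => 2 * D.β i)) k)) : Prop :=
  ∀ (F₀ κ : Type u) [Field F₀] [Field κ] [Algebra k F₀] [Algebra k κ] [Algebra F₀ κ]
    [IsScalarTower k F₀ κ] (H : ∀ i, J i → κ[X]), Gen (fun i => 2 * D.β i) P F₀ H →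
    IsMap D.E H ∧ cls H = 2 • D.β ∧ ∃ c : κ, c ≠ 0 ∧ D.th.Val H (dd H) (C c)

/-- **(F5)** the pair of points of the generic member at two different parameters of `F₀` is a
generic pair of points. -/
def GenPairP (D : CData k I J) (P : Ideal (MvPolynomial (Cx J (fun i => 2 * D.β i)) k)) : Prop :=
  ∀ (F₀ κ : Type u) [Field F₀] [Field κ] [Algebra k F₀] [Algebra k κ] [Algebra F₀ κ]
    [IsScalarTower k F₀ κ] (H : ∀ i, J i → κ[X]), Gen (fun i => 2 * D.β i) P F₀ H →
    ∀ s t : F₀, s ≠ t → ∀ Δ : MvPolynomial ((Σ i, J i) ⊕ (Σ i, J i)) F₀, BH Δ →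
      pval Δ (pt H (algebraMap F₀ κ s)) (pt H (algebraMap F₀ κ t)) = 0 →
      ∀ (A : Type u) [Field A] [Algebra k A] [Algebra F₀ A] [IsScalarTower k F₀ A]
        (v v' : ∀ i, J i → A), OnX D.E v → (∀ i, v i ≠ 0) → OnX D.E v' → (∀ i, v' i ≠ 0) →
        pval Δ v v' = 0

/-- **(F5∞)** the same for the parameters `0`, `∞`. -/
def GenPairInfP (D : CData k I J) (P : Ideal (MvPolynomial (Cx J (fun i => 2 * D.β i)) k)) :
    Prop :=
  ∀ (F₀ κ : Type u) [Field F₀] [Field κ] [Algebra k F₀] [Algebra k κ] [Algebra F₀ κ]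
    [IsScalarTower k F₀ κ] (H : ∀ i, J i → κ[X]), Gen (fun i => 2 * D.β i) P F₀ H →
    ∀ Δ : MvPolynomial ((Σ i, J i) ⊕ (Σ i, J i)) F₀, BH Δ →
      pval Δ (pt H 0) (ld D H) = 0 →
      ∀ (A : Type u) [Field A] [Algebra k A] [Algebra F₀ A] [IsScalarTower k F₀ A]
        (v v' : ∀ i, J i → A), OnX D.E v → (∀ i, v i ≠ 0) → OnX D.E v' → (∀ i, v' i ≠ 0) →
        pval Δ v v' = 0

/-- **(F6a)** the ratios of the two points have transcendence degree `4m + 2`. -/
def GenRatP (D : CData k I J) (P : Ideal (MvPolynomial (Cx J (fun i => 2 * D.β i)) k)) : Prop :=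
  ∀ (F₀ κ : Type u) [Field F₀] [Field κ] [Algebra k F₀] [Algebra k κ] [Algebra F₀ κ]
    [IsScalarTower k F₀ κ] (H : ∀ i, J i → κ[X]), Gen (fun i => 2 * D.β i) P F₀ H →
    TrGe F₀ (rat (pt H 0) ∪ rat (ld D H)) (4 * D.m + 2)

/-- **(F6)** the family has dimension at least `4m + 3 + |I|`. -/
def GenTrP (D : CData k I J) (P : Ideal (MvPolynomial (Cx J (fun i => 2 * D.β i)) k)) : Prop :=
  ∀ (F₀ κ : Type u) [Field F₀] [Field κ] [Algebra k F₀] [Algebra k κ] [Algebra F₀ κ]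
    [IsScalarTower k F₀ κ] (H : ∀ i, J i → κ[X]), Gen (fun i => 2 * D.β i) P F₀ H →
    TrGe F₀ (coeffs H) (hc D)

/-- **(F6')** the point of the generic member at `s ∈ F₀` is a generic point of the cone. -/
def GenTrPtP (D : CData k I J) (P : Ideal (MvPolynomial (Cx J (fun i => 2 * D.β i)) k)) : Prop :=
  ∀ (F₀ κ : Type u) [Field F₀] [Field κ] [Algebra k F₀] [Algebra k κ] [Algebra F₀ κ]
    [IsScalarTower k F₀ κ] (H : ∀ i, J i → κ[X]), Gen (fun i => 2 * D.β i) P F₀ H →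
    ∀ s : F₀, TrGe F₀ (ent (pt H (algebraMap F₀ κ s))) (nn D)

end Crest.Agent.R260.Fam_919
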