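import Crest.Agent.R260.FamDefs_919

/-!
# Row 260 (S0398), Moebius library part 2 (helper919): tuples

`aeval_mobT` : a multihomogeneous polynomial of multidegree `d` on `μ · (F ∘ g)`;
`mobT_mobT`, `mobT_id`, `onX_mobT`.
-/

set_option autoImplicit false
set_option linter.unusedSectionVars false

namespace Crest.Agent.R260.Mob_919

open Polynomial
open Crest.Agent.R270.BM_360 Crest.Agent.R260.Lin_678 Crest.Agent.R260.Fam_919

universe u v w

section prods

variable {R : Type u} [CommRing R] {A : Type v} [CommRing A] [Algebra R A]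

theorem hev_pow' {N : ℕ} (s t : A) {f : R[X]} (hf : f.natDegree ≤ N) (n : ℕ) :
    hev (n * N) s t (f ^ n) = hev N s t f ^ n := by
  induction n with
  | zero =>
    have := hev_C (A := A) s t (1 : R)
    simpa using this
  | succ n ih =>
    rw [pow_succ, pow_succ, Nat.succ_mul, hev_mul s t (natDegree_pow_le_of_le n hf) hf, ih]

theorem natDegree_prod_le_of_le {ι : Type*} (S : Finset ι) {N : ι → ℕ} {f : ι → R[X]}
    (h : ∀ i ∈ S, (f i).natDegree ≤ N i) : (∏ i ∈ S, f i).natDegree ≤ ∑ i ∈ S, N i :=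
  (natDegree_prod_le S f).trans (Finset.sum_le_sum h)

theorem hev_prod {ι : Type*} (s t : A) (S : Finset ι) (N : ι → ℕ) (f : ι → R[X])
    (hf : ∀ i ∈ S, (f i).natDegree ≤ N i) :
    hev (∑ i ∈ S, N i) s t (∏ i ∈ S, f i) = ∏ i ∈ S, hev (N i) s t (f i) := by
  classical
  induction S using Finset.induction_on with
  | empty =>
    have := hev_C (A := A) s t (1 : R)
    simpa using this
  | insert i S hi ih =>
    have h1 : ∀ j ∈ S, (f j).natDegree ≤ N j := fun j hj => hf j (Finset.mem_insert_of_mem hj)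
    rw [Finset.sum_insert hi, Finset.prod_insert hi, Finset.prod_insert hi,
      hev_mul s t (hf i (Finset.mem_insert_self i S)) (natDegree_prod_le_of_le _ h1), ih h1]

end prods

section tuples

variable {I : Type} {J : I → Type} [Fintype I] [∀ i, Fintype (J i)]

open Classical in
/-- the multidegree of a monomial of a multihomogeneous polynomial. -/
theorem block_sum {k : Type u} [CommSemiring k] {p : MvPolynomial (Σ i, J i) k} {d : I → ℕ}
    (hp : MvPolynomial.IsWeightedHomogeneous
      (fun x : Σ i, J i => (Pi.single x.1 1 : I → ℕ)) p d) {m : (Σ i, J i) →₀ ℕ}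
    (hm : m ∈ p.support) (i : I) : ∑ a, m ⟨i, a⟩ = d i := by
  have h1 := hp (MvPolynomial.mem_support_iff.1 hm)
  rw [Finsupp.weight_apply, Finsupp.sum_fintype _ _ (by simp)] at h1
  have h2 := congrFun h1 i
  rw [Finset.sum_apply, Fintype.sum_sigma] at h2
  rw [← h2, Finset.sum_eq_single i]
  · simp
  · intro j _ hj
    refine Finset.sum_eq_zero fun a _ => ?_
    simp [hj.symm]
  · simp

variable {R : Type v} [CommRing R]

open Classical in
/-- **Substitution law.** -/
theorem hev_aeval {k : Type u} [Field k] [Algebra k R] {A : Type w} [CommRing A] [Algebra R A]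
    {p : MvPolynomial (Σ i, J i) k} {d : I → ℕ}
    (hp : MvPolynomial.IsWeightedHomogeneous
      (fun x : Σ i, J i => (Pi.single x.1 1 : I → ℕ)) p d)
    (N : I → ℕ) (F : ∀ i, J i → R[X]) (hF : ∀ i x, (F i x).natDegree ≤ N i) (s t : A)
    [Algebra k A] [IsScalarTower k R A] :
    hev (∑ i, d i * N i) s t (MvPolynomial.aeval (fun y : Σ i, J i => F y.1 y.2) p)
      = MvPolynomial.aeval (fun y : Σ i, J i => hev (N y.1) s t (F y.1 y.2)) p := by
  rw [MvPolynomial.aeval_def, MvPolynomial.aeval_def, MvPolynomial.eval₂_eq',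
    MvPolynomial.eval₂_eq', hev_sum]
  refine Finset.sum_congr rfl fun m hm => ?_
  have hb := fun i => block_sum hp hm i
  have e1 : ∑ i, d i * N i = ∑ y : Σ i, J i, m y * N y.1 := by
    rw [Fintype.sum_sigma]
    refine Finset.sum_congr rfl fun i _ => ?_
    rw [← hb i, Finset.sum_mul]
  have e2 : (algebraMap k R[X]) (MvPolynomial.coeff m p)
      = C (algebraMap k R (MvPolynomial.coeff m p)) := rfl
  rw [e2, hev_C_mul, ← IsScalarTower.algebraMap_apply k R A, e1,
    hev_prod s t Finset.univ (fun y : Σ i, J i => m y * N y.1) (fun y => F y.1 y.2 ^ m y)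
      (fun y _ => natDegree_pow_le_of_le _ (hF _ _))]
  congr 1
  exact Finset.prod_congr rfl fun y _ => hev_pow' s t (hF _ _) _

open Classical in
theorem aeval_scale {k : Type u} [Field k] {A : Type w} [CommRing A] [Algebra k A]
    {p : MvPolynomial (Σ i, J i) k} {d : I → ℕ}
    (hp : MvPolynomial.IsWeightedHomogeneous
      (fun x : Σ i, J i => (Pi.single x.1 1 : I → ℕ)) p d) (μ : I → A) (v : (Σ i, J i) → A) :
    MvPolynomial.aeval (fun y : Σ i, J i => μ y.1 * v y) p
      = (∏ i, μ i ^ d i) * MvPolynomial.aeval v p := by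
  rw [MvPolynomial.aeval_def, MvPolynomial.aeval_def, MvPolynomial.eval₂_eq',
    MvPolynomial.eval₂_eq', Finset.mul_sum]
  refine Finset.sum_congr rfl fun m hm => ?_
  have hb := fun i => block_sum hp hm i
  have e1 : ∏ y : Σ i, J i, (μ y.1 * v y) ^ m y = (∏ i, μ i ^ d i) * ∏ y, v y ^ m y := by
    simp only [mul_pow, Finset.prod_mul_distrib]
    congr 1
    rw [Fintype.prod_sigma]
    refine Finset.prod_congr rfl fun i _ => ?_
    rw [← hb i, ← Finset.prod_pow_eq_pow_sum]
  rw [e1]; ring

open Classical in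
/-- a multihomogeneous polynomial on `μ · (F ∘ g)`. -/
theorem aeval_mobT {k : Type u} [Field k] [Algebra k R] {p : MvPolynomial (Σ i, J i) k}
    {d : I → ℕ} (hp : MvPolynomial.IsWeightedHomogeneous
      (fun x : Σ i, J i => (Pi.single x.1 1 : I → ℕ)) p d)
    (N : I → ℕ) (F : ∀ i, J i → R[X]) (hF : ∀ i x, (F i x).natDegree ≤ N i)
    (μ : I → R) (a b c e : R) :
    MvPolynomial.aeval (fun y : Σ i, J i => mobT N μ a b c e F y.1 y.2) p
      = (∏ i, C (μ i) ^ d i) *
        mob (∑ i, d i * N i) a b c e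
          (MvPolynomial.aeval (fun y : Σ i, J i => F y.1 y.2) p) := by
  have h1 := aeval_scale (A := R[X]) hp (fun i => C (μ i))
    (fun y => mob (N y.1) a b c e (F y.1 y.2))
  have h2 := hev_aeval (A := R[X]) hp N F hF (C a * X + C b) (C c * X + C e)
  unfold mobT
  rw [h1]
  congr 1
  exact h2.symm

theorem onX_mobT {k : Type u} [Field k] [Algebra k R] {E : Set (MvPolynomial (Σ i, J i) k)}
    (hE : MHom E) (N : I → ℕ) {F : ∀ i, J i → R[X]} (hF : ∀ i x, (F i x).natDegree ≤ N i)
    (hX : OnX E F) (μ : I → R) (a b c e : R) : OnX E (mobT N μ a b c e F) := by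
  classical
  intro p hp
  obtain ⟨d, hd⟩ := hE p hp
  rw [aeval_mobT hd N F hF, hX p hp, mob_zero, mul_zero]

theorem natDegree_mobT_le (N : I → ℕ) (μ : I → R) (a b c e : R) (F : ∀ i, J i → R[X]) (i : I)
    (x : J i) : (mobT N μ a b c e F i x).natDegree ≤ N i :=
  (natDegree_C_mul_le _ _).trans (natDegree_mob_le _ _ _ _ _ _)

theorem mobT_mobT (N : I → ℕ) (μ μ' : I → R) (a b c e a' b' c' e' : R) (F : ∀ i, J i → R[X]) :
    mobT N μ' a' b' c' e' (mobT N μ a b c e F)
      = mobT N (fun i => μ' i * μ i) (a * a' + b * c') (a * b' + b * e') (c * a' + e * c')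
        (c * b' + e * e') F := by
  funext i x
  unfold mobT
  rw [mob_C_mul, mob_mob, C_mul]; ring

theorem mobT_id (N : I → ℕ) {F : ∀ i, J i → R[X]} (hF : ∀ i x, (F i x).natDegree ≤ N i) :
    mobT N (fun _ => (1 : R)) 1 0 0 1 F = F := by
  funext i x
  unfold mobT
  rw [mob_id (hF i x)]; simp

theorem mobT_map {S : Type w} [CommRing S] (φ : R →+* S) (N : I → ℕ) (μ : I → R)
    (a b c e : R) (F : ∀ i, J i → R[X]) (i : I) (x : J i) :
    (mobT N μ a b c e F i x).map φ
      = mobT N (fun i => φ (μ i)) (φ a) (φ b) (φ c) (φ e) (fun i x => (F i x).map φ) i x := by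
  unfold mobT
  rw [Polynomial.map_mul, map_C, map_mob]

/-! ### coefficient vectors -/

theorem cfv_map {S : Type w} [CommRing S] (φ : R →+* S) (N : I → ℕ) (F : ∀ i, J i → R[X]) :
    cfv N (fun i x => (F i x).map φ) = fun y => φ (cfv N F y) := by
  funext y
  simp [cfv]

/-- the universal tuple over a ring of coefficients. -/
noncomputable def univT (N : I → ℕ) (z : Cx J N → R) : ∀ i, J i → R[X] :=
  fun i x => ∑ n : Fin (N i + 1), C (z ⟨⟨i, x⟩, n⟩) * X ^ (n : ℕ)

theorem natDegree_univT_le (N : I → ℕ) (z : Cx J N → R) (i : I) (x : J i) :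
    (univT N z i x).natDegree ≤ N i := by
  unfold univT
  refine natDegree_sum_le_of_forall_le _ _ fun n _ => ?_
  exact (natDegree_C_mul_X_pow_le _ _).trans (Nat.lt_succ_iff.1 n.2)

theorem cfv_univT (N : I → ℕ) (z : Cx J N → R) : cfv N (univT N z) = z := by
  classical
  funext y
  obtain ⟨⟨i, x⟩, n⟩ := y
  simp only [cfv, univT, finsetSum_coeff, coeff_C_mul, coeff_X_pow]
  rw [Finset.sum_eq_single n]
  · simp
  · intro m _ hm
    rw [if_neg, mul_zero]
    intro h
    exact hm (Fin.ext h.symm)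
  · simp

theorem univT_cfv (N : I → ℕ) {F : ∀ i, J i → R[X]} (hF : ∀ i x, (F i x).natDegree ≤ N i) :
    univT N (cfv N F) = F := by
  funext i x
  unfold univT cfv
  have h := (F i x).as_sum_range' (N i + 1) (Nat.lt_succ_of_le (hF i x))
  rw [Finset.sum_range] at h
  conv_rhs => rw [h]
  exact Finset.sum_congr rfl fun n _ => by rw [C_mul_X_pow_eq_monomial]

theorem univT_map {S : Type w} [CommRing S] (φ : R →+* S) (N : I → ℕ) (z : Cx J N → R) (i : I)
    (x : J i) : (univT N z i x).map φ = univT N (fun y => φ (z y)) i x := by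
  simp [univT, Polynomial.map_sum]

end tuples

end Crest.Agent.R260.Mob_919
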