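import Crest.Agent.R260.Irr1_33
import Crest.Agent.R260.FamP_919
import Crest.Agent.R260.Mob2_919

/-!
# Row 260, GENFAM (F1) (helper33): generic members of the family over any extension of `k`
-/

set_option autoImplicit false
set_option linter.all false

namespace Crest.Agent.R260.Fge_33

open MvPolynomial Module
open Crest.Agent.R270.BM_360 Crest.Agent.R260.Lin_678
  Crest.Agent.R260.QuadDefs_517 Crest.Agent.R260.Fam_919 Crest.Agent.R260.Mob_919

universe u v

/-- generic point of a prime ideal of polynomials over any extension of the algebraically closed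
base field, with values in an algebraically closed field algebraic over the generic point. -/
theorem exists_gen_abs {k : Type u} [Field k] [IsAlgClosed k] {σ : Type} [Finite σ]
    {P : Ideal (MvPolynomial σ k)} (hP : P.IsPrime) (F : Type u) [Field F] [Algebra k F] :
    ∃ (κ : Type u) (_ : Field κ) (_ : IsAlgClosed κ) (_ : Algebra k κ) (_ : Algebra F κ)
      (_ : IsScalarTower k F κ) (x : σ → κ), (∀ p : MvPolynomial σ F, aeval x p = 0 ↔
        p ∈ P.map (MvPolynomial.map (algebraMap k F))) ∧
      Algebra.IsAlgebraic (IntermediateField.adjoin F (Set.range x)) κ := by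
  let P' : Ideal (MvPolynomial σ F) := P.map
    (MvPolynomial.map (algebraMap k F) : MvPolynomial σ k →+* MvPolynomial σ F)
  have hPP : P'.IsPrime := Irr_33.isPrime_map (K := F) hP
  let A := MvPolynomial σ F ⧸ P'
  have : IsDomain A := Ideal.Quotient.isDomain P'
  let K := FractionRing A
  let κ := AlgebraicClosure K
  have htow : IsScalarTower k F κ := inferInstance
  let φ : A →ₐ[F] κ := (IsScalarTower.toAlgHom F K κ).comp (IsScalarTower.toAlgHom F A K)
  have hφi : Function.Injective φ :=
    ((algebraMap K κ).injective).comp (IsFractionRing.injective A K)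
  let x : σ → κ := fun i => φ (Ideal.Quotient.mk P' (X i))
  have hx : ∀ q : MvPolynomial σ F, aeval x q = φ (Ideal.Quotient.mk P' q) := by
    intro q
    have h1 : (aeval x : MvPolynomial σ F →ₐ[F] κ) = φ.comp (Ideal.Quotient.mkₐ F P') := by
      refine algHom_ext fun y => ?_
      rw [aeval_X]
      rfl
    rw [h1]
    rfl
  refine ⟨κ, inferInstance, inferInstance, inferInstance, inferInstance, htow, x, ?_, ?_⟩
  · intro q
    rw [hx]
    constructor
    · intro hq
      exact Ideal.Quotient.eq_zero_iff_mem.1 (hφi (hq.trans (map_zero φ).symm))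
    · intro hq
      rw [Ideal.Quotient.eq_zero_iff_mem.2 hq, map_zero]
  · have hA : ∀ a : A, φ a ∈ IntermediateField.adjoin F (Set.range x) := by
      intro a
      obtain ⟨q, rfl⟩ := Ideal.Quotient.mk_surjective a
      rw [← hx]
      have h3 : Algebra.adjoin F (Set.range x) ≤
          (IntermediateField.adjoin F (Set.range x)).toSubalgebra := by
        rw [Algebra.adjoin_le_iff]
        exact IntermediateField.subset_adjoin F _
      refine h3 ?_
      rw [Algebra.adjoin_range_eq_range_aeval]
      exact ⟨q, rfl⟩
    have hK : ∀ z : K, algebraMap K κ z ∈ IntermediateField.adjoin F (Set.range x) := by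
      intro z
      obtain ⟨a, b, hb, rfl⟩ := IsFractionRing.div_surjective (A := A) z
      rw [map_div₀]
      exact div_mem (hA a) (hA b)
    let ψ : K →+* IntermediateField.adjoin F (Set.range x) :=
      (algebraMap K κ).codRestrict _ hK
    let _ : Algebra K (IntermediateField.adjoin F (Set.range x)) := ψ.toAlgebra
    have : IsScalarTower K (IntermediateField.adjoin F (Set.range x)) κ :=
      IsScalarTower.of_algebraMap_eq fun z => rfl
    exact Algebra.IsAlgebraic.tower_top (K := K) (IntermediateField.adjoin F (Set.range x))

section main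

variable {I : Type} {J : I → Type} [Fintype I] [∀ i, Fintype (J i)] {k : Type u} [Field k]

/-- **(F1)** of `FamP_919`: generic members exist over every field. -/
theorem exists_gen [IsAlgClosed k] {N : I → ℕ} {P : Ideal (MvPolynomial (Cx J N) k)}
    (hP : P.IsPrime) : ExGenP N P := by
  intro F₀ _ _
  obtain ⟨κ, f1, f2, f3, f4, f5, x, hx, halg⟩ := exists_gen_abs hP F₀
  refine ⟨κ, f1, f2, f3, f4, f5, univT N x, ⟨natDegree_univT_le N x, fun p => ?_⟩, ?_⟩
  · rw [cfv_univT]
    exact hx p
  · have h1 : Set.range x ⊆ coeffs (univT N x) := by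
      rintro _ ⟨y, rfl⟩
      refine ⟨y.1.1, y.1.2, y.2, ?_⟩
      exact congrFun (cfv_univT N x) y
    have h2 : IntermediateField.adjoin F₀ (Set.range x) ≤
        IntermediateField.adjoin F₀ (coeffs (univT N x)) :=
      IntermediateField.adjoin.mono _ _ _ h1
    let _ : Algebra (IntermediateField.adjoin F₀ (Set.range x))
        (IntermediateField.adjoin F₀ (coeffs (univT N x))) :=
      (IntermediateField.inclusion h2).toRingHom.toAlgebra
    have : IsScalarTower (IntermediateField.adjoin F₀ (Set.range x))
        (IntermediateField.adjoin F₀ (coeffs (univT N x))) κ :=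
      IsScalarTower.of_algebraMap_eq fun z => rfl
    exact Algebra.IsAlgebraic.tower_top (K := IntermediateField.adjoin F₀ (Set.range x)) _

end main

end Crest.Agent.R260.Fge_33
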