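import Crest.Agent.R260.Fin9_600
import Crest.Agent.R260.Mob2_919
import Crest.Agent.R260.Scl_678

/-!
Row 260 (S0398), AG-FINAL: Möbius substitutions of conics of the family (maps, class, contact
constant).
-/

set_option autoImplicit false
set_option linter.unusedSectionVars false

namespace Crest.Agent.R260.Fin10_600

open Polynomial Crest.Agent.R270.BM_360 Crest.Agent.R260.Lin_678 Crest.Agent.R260.Fam_919
open Crest.Agent.R260.Fin_600 Crest.Agent.R260.Fin5_600 Crest.Agent.R260.Fin6_600
open Crest.Agent.R260.Fin7_600 Crest.Agent.R260.Fin8_600 Crest.Agent.R260.QuadDefs_517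
open Crest.Agent.R260.Mob_919

universe u v w

/-- coprimality over an algebraically closed field. -/
theorem cop_of_eval {K : Type u} [Field K] [IsAlgClosed K] {T : Type} {g : T → K[X]}
    (h : ∀ z : K, ∃ t, (g t).eval z ≠ 0) : Cop g := by
  by_contra hcon
  obtain ⟨M, hM, hle⟩ := Ideal.exists_le_maximal _ hcon
  obtain ⟨p, hp⟩ := (IsPrincipalIdealRing.principal M).principal
  have hp' : M = Ideal.span {p} := hp
  have hnu : ¬ IsUnit p := fun hu => hM.ne_top (by rw [hp', Ideal.span_singleton_eq_top]; exact hu)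
  have hdvd : ∀ t, p ∣ g t := fun t => by
    rw [← Ideal.mem_span_singleton, ← hp']
    exact hle (Ideal.subset_span ⟨t, rfl⟩)
  have hroot : ∃ z, p.IsRoot z := by
    by_cases h0 : p = 0
    · exact ⟨0, by rw [h0]; exact eval_zero⟩
    · refine IsAlgClosed.exists_root p fun hd => hnu ?_
      rw [isUnit_iff_degree_eq_zero]
      exact hd
  obtain ⟨z, hz⟩ := hroot
  obtain ⟨t, ht⟩ := h z
  obtain ⟨q, hq⟩ := hdvd t
  apply ht
  rw [hq, eval_mul, hz.eq_zero, zero_mul]

/-- coprime vectors have no common root -/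
theorem cop_ne {K : Type u} [Field K] {T : Type} {f : T → K[X]} (h : Cop f) (z : K) :
    ∃ t, (f t).eval z ≠ 0 := by
  by_contra hcon
  push Not at hcon
  have h1 : Ideal.span (Set.range f) ≤ RingHom.ker (Polynomial.evalRingHom z) := by
    rw [Ideal.span_le]
    rintro _ ⟨a, rfl⟩
    exact hcon a
  have h2 : (1 : K[X]) ∈ RingHom.ker (Polynomial.evalRingHom z) := by
    apply h1
    have : Ideal.span (Set.range f) = ⊤ := h
    rw [this]
    exact Submodule.mem_top
  simp [RingHom.mem_ker] at h2

/-- value of a substituted vector -/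
theorem hev_ne {K : Type u} [Field K] {T : Type} {f : T → K[X]} {N : ℕ}
    (hN : ∀ t, (f t).natDegree ≤ N) (hf : Cop f) (htop : ∃ t, (f t).coeff N ≠ 0) {s t : K}
    (hst : s ≠ 0 ∨ t ≠ 0) : ∃ j, hev N s t (f j) ≠ 0 := by
  by_cases ht : t = 0
  · subst ht
    obtain ⟨j, hj⟩ := htop
    refine ⟨j, ?_⟩
    rw [hev_t_zero]
    have hs : s ≠ 0 := hst.resolve_right (fun h => h rfl)
    exact mul_ne_zero hj (pow_ne_zero _ hs)
  · obtain ⟨j, hj⟩ := cop_ne hf (s / t)
    refine ⟨j, ?_⟩
    rw [hev_div _ ht (hN j)]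
    exact mul_ne_zero (pow_ne_zero _ ht) hj

theorem lin_ne {K : Type u} [Field K] {a b c d : K} (h : a * d - b * c ≠ 0) (z : K) :
    a * z + b ≠ 0 ∨ c * z + d ≠ 0 := by
  by_contra hcon
  push Not at hcon
  apply h
  have e : a * d - b * c = a * (c * z + d) - c * (a * z + b) := by ring
  rw [e, hcon.1, hcon.2, mul_zero, mul_zero, sub_zero]

theorem cop_mob {K : Type u} [Field K] [IsAlgClosed K] {T : Type} {f : T → K[X]} {N : ℕ}
    (hN : ∀ t, (f t).natDegree ≤ N) (hf : Cop f) (htop : ∃ t, (f t).coeff N ≠ 0) {a b c d : K}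
    (h : a * d - b * c ≠ 0) : Cop (fun t => mob N a b c d (f t)) := by
  refine cop_of_eval fun z => ?_
  obtain ⟨j, hj⟩ := hev_ne hN hf htop (lin_ne h z)
  exact ⟨j, by rw [eval_mob]; exact hj⟩

variable {I : Type} {J : I → Type} [Fintype I] [∀ i, Fintype (J i)] {k : Type u} [Field k]

theorem mobT_one {R : Type v} [CommRing R] (N : I → ℕ) (a b c d : R) (F : ∀ i, J i → R[X]) :
    mobT N (fun _ => 1) a b c d F = fun i x => mob (N i) a b c d (F i x) := by
  funext i x
  unfold mobT
  rw [C_1, one_mul]

/-- the contact form kills Euler vectors -/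
theorem form_euler {E : Set (MvPolynomial (Σ i, J i) k)} {w : I → ℤ} (th : CForm E w)
    {K : Type u} [Field K] [Algebra k K] {v : ∀ i, J i → K} (hv : OnX E v) (ch : ∀ i, J i)
    (μ : I → K) : form (th.p ch) v (fun i a => μ i * v i a) = 0 := by
  unfold form
  rw [Fintype.sum_sigma]
  refine Finset.sum_eq_zero fun i _ => ?_
  have h := th.euler K v hv ch i
  calc _ = μ i * ∑ a, MvPolynomial.aeval (fun y : Σ i, J i => v y.1 y.2) (th.p ch ⟨i, a⟩) *
        v i a := by
        rw [Finset.mul_sum]
        exact Finset.sum_congr rfl fun a _ => by ring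
    _ = 0 := by rw [h, mul_zero]

theorem form_add {A : Type*} [CommRing A] [Algebra k A]
    (p : (Σ i, J i) → MvPolynomial (Σ i, J i) k) (v t s : ∀ i, J i → A) :
    form p v (fun i a => t i a + s i a) = form p v t + form p v s := by
  unfold form
  rw [← Finset.sum_add_distrib]
  exact Finset.sum_congr rfl fun x _ => by ring

theorem form_smul {A : Type*} [CommRing A] [Algebra k A]
    (p : (Σ i, J i) → MvPolynomial (Σ i, J i) k) (v t : ∀ i, J i → A) (r : A) :
    form p v (fun i a => r * t i a) = r * form p v t := by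
  unfold form
  rw [Finset.mul_sum]
  exact Finset.sum_congr rfl fun x _ => by ring

/-- evaluation of the value of the contact form at a point -/
theorem val_eval {E : Set (MvPolynomial (Σ i, J i) k)} {w : I → ℤ} (th : CForm E w)
    {K : Type u} [Field K] [Algebra k K] {F t : ∀ i, J i → K[X]} {q : K[X]} (h : th.Val F t q)
    (z : K) : th.Val (fun i a => (F i a).eval z) (fun i a => (t i a).eval z) (q.eval z) := by
  intro ch
  let e : K[X] →ₐ[k] K := (Polynomial.aeval z : K[X] →ₐ[K] K).restrictScalars k
  have he : ∀ p : K[X], e p = p.eval z := fun p => Polynomial.coe_aeval_eq_eval z ▸ rfl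
  have h1 := congrArg e (h ch)
  rw [map_mul, map_pow, form_map] at h1
  have h2 : e (den ch F) = den ch (fun i a => (F i a).eval z) := by
    have := Fin8_600.den_map (e : K[X] →+* K) ch F
    exact this
  rw [h2] at h1
  simp only [he] at h1
  exact h1

theorem onX_eval {E : Set (MvPolynomial (Σ i, J i) k)} {K : Type u} [Field K] [Algebra k K]
    {F : ∀ i, J i → K[X]} (h : OnX E F) (z : K) : OnX E (fun i a => (F i a).eval z) := by
  intro p hp
  let e : K[X] →ₐ[k] K := (Polynomial.aeval z : K[X] →ₐ[K] K).restrictScalars k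
  have h1 := congrArg e (h p hp)
  rw [map_zero, MvPolynomial.comp_aeval_apply] at h1
  exact h1

/-- **the contact constant under a Möbius substitution**. -/
theorem val_mob {E : Set (MvPolynomial (Σ i, J i) k)} (hE : MHom E) {w : I → ℤ}
    (th : CForm E w)
    {K : Type u} [Field K] [Infinite K] [Algebra k K] {F : ∀ i, J i → K[X]} {N : I → ℕ}
    (hN : ∀ i j, (F i j).natDegree ≤ N i) (hw : ∑ i, w i * (N i : ℤ) = 2) (hX : OnX E F) {q : K}
    (hq : th.Val F (dd F) (C q)) {a b c d : K} (h : a * d - b * c ≠ 0) :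
    th.Val (fun i x => mob (N i) a b c d (F i x)) (dd fun i x => mob (N i) a b c d (F i x))
      (C ((a * d - b * c) * q)) := by
  intro ch
  set G : ∀ i, J i → K[X] := fun i x => mob (N i) a b c d (F i x) with hG
  -- it is enough to check off the zero of `c z + d`
  have hcd : (C c * X + C d : K[X]) ≠ 0 := by
    intro h0
    have h1 : c = 0 := by
      have := congrArg (fun p => coeff p 1) h0
      simpa using this
    have h2 : d = 0 := by
      have := congrArg (fun p => coeff p 0) h0
      simpa using this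
    apply h
    rw [h1, h2, mul_zero, mul_zero, sub_zero]
  refine mul_right_cancel₀ hcd (Polynomial.funext fun z => ?_)
  have e1 : ∀ P : K[X], (P * (C c * X + C d)).eval z = P.eval z * (c * z + d) := fun P => by
    simp
  rw [e1, e1]
  by_cases hz : c * z + d = 0
  · rw [hz, mul_zero, mul_zero]
  congr 1
  -- evaluate
  let e : K[X] →ₐ[k] K := (Polynomial.aeval z : K[X] →ₐ[K] K).restrictScalars k
  have he : ∀ p : K[X], e p = p.eval z := fun p => Polynomial.coe_aeval_eq_eval z ▸ rfl
  have hLHS : (den ch G ^ th.N * C ((a * d - b * c) * q)).eval z =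
      den ch (fun i x => (G i x).eval z) ^ th.N * ((a * d - b * c) * q) := by
    rw [eval_mul, eval_pow, eval_C]
    congr 2
    exact Fin8_600.den_map (e : K[X] →+* K) ch G
  have hRHS : (form (th.p ch) G (dd G)).eval z =
      form (th.p ch) (fun i x => (G i x).eval z) (fun i x => (dd G i x).eval z) := by
    rw [← he, form_map]
    simp only [he]
  rw [hLHS, hRHS]
  -- the values of `G` and `G'`
  set y : K := (a * z + b) / (c * z + d) with hy
  set lam : I → K := fun i => (c * z + d) ^ N i with hlam
  have hlam0 : ∀ i, lam i ≠ 0 := fun i => pow_ne_zero _ hz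
  set r : K := (a * d - b * c) / (c * z + d) ^ 2 with hr
  set v : ∀ i, J i → K := fun i x => (F i x).eval y with hv
  set t : ∀ i, J i → K := fun i x => (dd F i x).eval y with ht
  have hGv : (fun i x => (G i x).eval z) = fun i x => lam i * v i x := by
    funext i x
    exact eval_mob_div a b c d hz (hN i x)
  have hGt : (fun i x => (dd G i x).eval z) = fun i x => r * (lam i * t i x) +
      (N i * c / (c * z + d)) * (lam i * v i x) := by
    funext i x
    have h1 := eval_derivative_mob a b c d hz (hN i x)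
    have h2 : (G i x).eval z = lam i * v i x := congrFun (congrFun hGv i) x
    change (derivative (mob (N i) a b c d (F i x))).eval z = _
    rw [h2, ← hy] at h1
    have h3 : (derivative (mob (N i) a b c d (F i x))).eval z =
        ((N i * c * (lam i * v i x)) + (c * z + d) ^ N i * ((a * d - b * c) / (c * z + d))
          * t i x) / (c * z + d) := by
      rw [eq_div_iff hz, h1]
      rfl
    rw [h3, hr]
    change _ = _ * ((c * z + d) ^ N i * t i x) + _
    generalize lam i * v i x = V
    generalize t i x = T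
    generalize (c * z + d) ^ N i = L
    field_simp
    ring
  have hXG : OnX E (fun i x => (G i x).eval z) := by
    have h1 := onX_mobT hE N hN hX (fun _ => 1) a b c d
    rw [mobT_one] at h1
    exact onX_eval h1 z
  rw [hGt, form_add, form_smul]
  have hX' : OnX E (fun i x => lam i * v i x) := by rw [← hGv]; exact hXG
  rw [hGv, form_euler th hX' ch, add_zero]
  -- scaling of the value
  have h4 := val_eval th hq y
  have h5 := Scl_678.val_scale th (A := K) hlam0 h4
  have h6 := h5 ch
  simp only [Algebra.algebraMap_self, RingHom.id_apply, eval_C] at h6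
  have h7 : ∏ i, lam i ^ w i = (c * z + d) ^ 2 := by
    have h8 : ∀ i, lam i ^ w i = (c * z + d) ^ (w i * (N i : ℤ)) := fun i => by
      change ((c * z + d) ^ N i) ^ w i = _
      rw [mul_comm (w i), zpow_mul, zpow_natCast]
    rw [Finset.prod_congr rfl fun i _ => h8 i]
    have h9 : ∀ (S : Finset I) (f : I → ℤ), ∏ i ∈ S, (c * z + d) ^ f i =
        (c * z + d) ^ ∑ i ∈ S, f i := by
      classical
      intro S f
      induction S using Finset.induction_on with
      | empty => simp
      | insert i S hi ih => rw [Finset.prod_insert hi, Finset.sum_insert hi, ih, zpow_add₀ hz]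
    rw [h9, hw]
    norm_cast
  rw [h7] at h6
  change den ch (fun i x => lam i * v i x) ^ th.N * ((c * z + d) ^ 2 * q) =
    form (th.p ch) (fun i x => lam i * v i x) (fun i x => lam i * t i x) at h6
  rw [← h6, hr]
  generalize den ch (fun i x => lam i * v i x) ^ th.N = M
  field_simp

variable (D : CData k I J)

theorem wN2 : ∑ i, D.w i * ((N2 D i : ℕ) : ℤ) = 2 := by
  have h : ∀ i, D.w i * ((N2 D i : ℕ) : ℤ) = 2 * (D.w i * (D.β i : ℤ)) := fun i => by
    simp only [N2]
    push_cast
    ring
  rw [Finset.sum_congr rfl fun i _ => h i, ← Finset.mul_sum, D.wβ, mul_one]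

/-- leading vector of a conic is non-zero -/
theorem top_ne {K : Type u} [Field K] {F : ∀ i, J i → K[X]} (hc : cls F = 2 • D.β)
    (hne : ∀ i, ∃ x, F i x ≠ 0) (i : I) : ∃ x, (F i x).coeff (N2 D i) ≠ 0 := by
  classical
  have h1 : N2 D i = vdeg (F i) := by
    have := congrFun hc i
    unfold cls at this
    rw [this]
    simp [N2]
  have hJ : (Finset.univ : Finset (J i)).Nonempty := by
    obtain ⟨x, -⟩ := hne i
    exact ⟨x, Finset.mem_univ x⟩
  by_cases h0 : N2 D i = 0
  · obtain ⟨x, hx⟩ := hne i
    refine ⟨x, fun h => hx ?_⟩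
    have h2 : (F i x).natDegree ≤ 0 := by
      rw [← h0, h1]
      exact Finset.le_sup (f := fun a => (F i a).natDegree) (Finset.mem_univ x)
    rw [eq_C_of_natDegree_le_zero h2]
    rw [h0] at h
    rw [h, C_0]
  · obtain ⟨x, -, hx⟩ := Finset.exists_mem_eq_sup Finset.univ hJ fun a => (F i a).natDegree
    refine ⟨x, ?_⟩
    have h3 : (F i x).natDegree = N2 D i := by
      rw [h1]; exact hx.symm
    rw [← h3]
    intro h
    apply h0
    rw [← h3]
    have : F i x = 0 := leadingCoeff_eq_zero.1 h
    rw [this, natDegree_zero]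

theorem Con.top_ne {P : Ideal (MvPolynomial (Cx J (N2 D)) k)} {K : Type u} [Field K] [Algebra k K]
    {F : ∀ i, J i → K[X]} (h : Con D (FC D P) F) (i : I) : ∃ x, (F i x).coeff (N2 D i) ≠ 0 :=
  Fin10_600.top_ne D h.cls (fun i => by
    obtain ⟨x, hx⟩ := cop_ne (h.map.cop i) 0
    exact ⟨x, fun h0 => hx (by rw [h0, eval_zero])⟩) i

/-- Möbius substitutions of conics of the family. -/
theorem con_mob {P : Ideal (MvPolynomial (Cx J (N2 D)) k)} (hP : Fam D P) {K : Type u} [Field K]
    [IsAlgClosed K] [Algebra k K] {F : ∀ i, J i → K[X]} (h : Con D (FC D P) F) {a b c d : K}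
    (hd : a * d - b * c ≠ 0) :
    Con D (FC D P) (fun i x => mob (N2 D i) a b c d (F i x)) := by
  have hin : InC (N2 D) P (fun i x => mob (N2 D i) a b c d (F i x)) := by
    have := hP.inv K F h.cc (fun _ => 1) a b c d
    rwa [mobT_one] at this
  have hdeg : ∀ i x, (F i x).natDegree ≤ N2 D i := h.cc.deg
  refine ⟨⟨hP.onX K _ hin, fun i => cop_mob (hdeg i) (h.map.cop i) (Con.top_ne D h i) hd⟩, ?_, hin⟩
  rw [← N2_eq]
  refine cls_of_top (fun i x => natDegree_mob_le _ _ _ _ _ _) fun i => ?_
  have hac : a ≠ 0 ∨ c ≠ 0 := by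
    by_contra hcon
    push Not at hcon
    apply hd
    rw [hcon.1, hcon.2, zero_mul, mul_zero, sub_zero]
  obtain ⟨x, hx⟩ := hev_ne (hdeg i) (h.map.cop i) (Con.top_ne D h i) hac
  exact ⟨x, by rw [coeff_mob_top]; exact hx⟩

/-- two points of a conic of the family are joined by a conic of the family. -/
theorem joins_mob {P : Ideal (MvPolynomial (Cx J (N2 D)) k)} {K : Type u}
    [Field K] [Infinite K] [Algebra k K] {F : ∀ i, J i → K[X]} (h : Con D (FC D P) F) {q : K}
    (hq : D.th.Val F (dd F) (C q)) {s t : K} (hst : s ≠ t) :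
    Joins D (fun i x => mob (N2 D i) s t 1 1 (F i x)) (pt F s) (pt F t) (fun _ => 1) (fun _ => 1)
      ((s - t) * q) where
  a0 := fun _ => one_ne_zero
  b0 := fun _ => one_ne_zero
  lead := fun i x => by
    have h1 := coeff_mob_top (N2 D i) s t 1 1 (F i x)
    rw [hev_t_one s (h.cc.deg i x)] at h1
    rw [one_mul]
    exact h1
  bot := fun i x => by
    rw [coeff_mob_zero, hev_t_one t (h.cc.deg i x), one_mul]
    rfl
  val := by
    have h1 := val_mob D.hom D.th (N := N2 D) (h.cc.deg) (wN2 D) h.map.on hq (a := s) (b := t)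
      (c := 1) (d := 1) (by rw [mul_one, mul_one]; exact sub_ne_zero.2 hst)
    rw [mul_one, mul_one] at h1
    exact h1

/-- the reversed conic. -/
theorem joins_rev {P : Ideal (MvPolynomial (Cx J (N2 D)) k)} {K : Type u}
    [Field K] [Infinite K] [Algebra k K] {F : ∀ i, J i → K[X]} (h : Con D (FC D P) F)
    {x y : ∀ i, J i → K} {a b : I → K} {c : K} (hj : Joins D F x y a b c) :
    Joins D (fun i x => mob (N2 D i) 0 1 1 0 (F i x)) y x b a (-c) where
  a0 := hj.b0
  b0 := hj.a0
  lead := fun i j => by
    have h1 := coeff_mob_top (N2 D i) 0 1 1 0 (F i j)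
    rw [hev_t_one (0 : K) (h.cc.deg i j)] at h1
    rw [h1, ← hj.bot i j, coeff_zero_eq_eval_zero]
    rfl
  bot := fun i j => by
    rw [coeff_mob_zero, hev_t_zero, one_pow, mul_one, ← hj.lead i j]
    rfl
  val := by
    have h1 := val_mob D.hom D.th (N := N2 D) (h.cc.deg) (wN2 D) h.map.on hj.val (a := 0) (b := 1)
      (c := 1) (d := 0) (by simp)
    have h2 : (0 * 0 - 1 * 1 : K) * c = -c := by ring
    rw [h2] at h1
    exact h1

theorem phi_rev {K : Type u} [Field K] (a b : I → K) (c : K) :
    phi D b a (-c) = phi D a b c := by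
  unfold phi
  ring

theorem phi_one {K : Type u} [Field K] (c : K) : phi D (fun _ => 1) (fun _ => 1) c = c ^ 2 := by
  unfold phi
  simp

end Crest.Agent.R260.Fin10_600
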