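import Crest.Agent.R260.QuadDefs_517
import Crest.Agent.R260.Der3_169
import Crest.Agent.R270.TrM_807

/-!
# Row 260, (G1), (G2) of `QuadDefs_517` (helper169)

From the frame of a moving curve (`finrank (TanL E H) ≤ M ≤ trdeg` of the coefficients, and the
elements of `TanL E H` span the tangent space at every point of the curve) to the transcendence
degree of its points: `H(u)` is generic for `u` transcendental, and every `H(t)` has codimension at
most one.
-/

set_option autoImplicit false
set_option linter.all false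

namespace Crest.Agent.R260.Gp_169

open Polynomial Module
open Crest.Agent.R270.BM_360 Crest.Agent.R270.Fr_928 Crest.Agent.R260.Lin_678
open Crest.Agent.R260.Der_169 Crest.Agent.R260.QuadDefs_517 Crest.Agent.R270.TrM_807

universe u v

/-! ### transcendence degree from derivations -/

section trd

variable {F₀ : Type u} {K : Type u} [Field F₀] [Field K] [Algebra F₀ K] [CharZero F₀]

/-- a derivation which kills a subfield kills everything algebraic over it. -/
theorem der_alg (δ : Derivation F₀ K K) (E₁ : IntermediateField F₀ K) (hE : E₁ ≤ kerF δ) {s : K}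
    (hs : IsAlgebraic E₁ s) : δ s = 0 := by
  have hc : CharZero E₁ := charZero_of_injective_algebraMap (algebraMap F₀ E₁).injective
  have hs' : IsIntegral E₁ s := hs.isIntegral
  have hpoly : ∀ p : E₁[X], δ (aeval s p) = aeval s (derivative p) * δ s := by
    intro p
    induction p using Polynomial.induction_on' with
    | add p q hp hq => rw [map_add, map_add, hp, hq, map_add, map_add, add_mul]
    | monomial n c =>
      have h1 : δ (algebraMap E₁ K c) = 0 := hE c.2
      rw [aeval_monomial, derivative_monomial, aeval_monomial, Derivation.leibniz, h1,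
        Derivation.leibniz_pow]
      simp only [smul_eq_mul, nsmul_eq_mul, map_mul, map_natCast]
      ring
  have h2 := hpoly (minpoly E₁ s)
  rw [minpoly.aeval, map_zero] at h2
  have h3 : aeval s (derivative (minpoly E₁ s)) ≠ 0 :=
    (minpoly.irreducible hs').separable.aeval_derivative_ne_zero (minpoly.aeval E₁ s)
  exact (mul_eq_zero.1 h2.symm).resolve_left h3

/-- **transcendence degree from derivations**, general form. -/
theorem trGe_of_ders' {S : Set K} {r n : ℕ} (D : Fin r → Derivation F₀ K K)
    (W : Submodule K (Fin r → K)) (hW : ∀ c : Fin r → K, (∀ s ∈ S, ∑ i, c i * D i s = 0) → c ∈ W)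
    (hn : n + finrank K W ≤ r) : TrGe F₀ S n := by
  classical
  by_contra hr
  rw [trGe_iff, not_le] at hr
  obtain ⟨B, hB⟩ := (AlgebraicIndependent.matroid F₀ K).exists_isBasis' S
  have hc : B.encard < n := by rw [hB.encard_eq_eRk]; exact hr
  have hfin : B.Finite := by
    rw [← Set.encard_lt_top_iff]
    exact lt_of_lt_of_le hc le_top
  have hft : Fintype B := hfin.fintype
  have hcard : Fintype.card B < n := by
    have h1 := Set.encard_eq_coe_toFinset_card B
    rw [h1] at hc
    rw [← Set.toFinset_card]
    exact_mod_cast hc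
  let f : (Fin r → K) →ₗ[K] (B → K) :=
    { toFun := fun c b => ∑ i, c i * D i b
      map_add' := fun c c' => by
        funext b
        simp only [Pi.add_apply, add_mul, Finset.sum_add_distrib]
      map_smul' := fun a c => by
        funext b
        simp only [Pi.smul_apply, smul_eq_mul, RingHom.id_apply, Finset.mul_sum, mul_assoc] }
  have hker : LinearMap.ker f ≤ W := by
    intro c hc1
    apply hW
    have hval : ∀ x, (∑ i, c i • D i) x = ∑ i, c i * D i x := fun x => by
      rw [sum_der_apply]
      rfl
    have hBk : IntermediateField.adjoin F₀ B ≤ kerF (∑ i, c i • D i) := by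
      rw [IntermediateField.adjoin_le_iff]
      intro b hb
      change (∑ i, c i • D i) b = 0
      rw [hval]
      exact congrFun hc1 ⟨b, hb⟩
    intro s hs
    rw [← hval]
    apply der_alg _ _ hBk
    rw [← Crest.Agent.R270.TrM_807.mem_closure_iff]
    have h1 : S ⊆ (AlgebraicIndependent.matroid F₀ K).closure S := by
      intro x hx
      exact adjoin_subset_closure S (IntermediateField.subset_adjoin _ _ hx)
    rw [hB.closure_eq_closure]
    exact h1 hs
  have h1 := LinearMap.finrank_range_add_finrank_ker f
  have h2 : finrank K (LinearMap.range f) ≤ Fintype.card B := by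
    have := Submodule.finrank_le (LinearMap.range f)
    simpa using this
  have h3 : finrank K (LinearMap.ker f) ≤ finrank K W := Submodule.finrank_mono hker
  simp only [finrank_fintype_fun_eq_card, Fintype.card_fin] at h1
  omega

/-- **transcendence degree from derivations.** -/
theorem trGe_of_ders {S : Set K} {r : ℕ} (D : Fin r → Derivation F₀ K K)
    (hD : ∀ c : Fin r → K, (∀ s ∈ S, ∑ i, c i * D i s = 0) → c = 0) : TrGe F₀ S r :=
  trGe_of_ders' D ⊥ (fun c hc => by rw [hD c hc]; exact Submodule.zero_mem _) (by simp)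

end trd

/-! ### extension of a derivation -/

section ext

variable {F₀ κ L : Type u} [Field F₀] [Field κ] [Field L] [Algebra F₀ κ] [Algebra F₀ L]
  [Algebra κ L] [IsScalarTower F₀ κ L]

/-- a derivation of `κ` extends to `L` with a prescribed value at a transcendental element. -/
theorem exists_ext [CharZero κ] {u : L} (hu : Transcendental κ u) (δ : Derivation F₀ κ κ)
    (e : L) : ∃ D : Derivation F₀ L L, ∀ p : κ[X],
      D (aeval u p) = aeval u (dX δ p) + aeval u (derivative p) * e := by
  letI i1 : Algebra κ[X] L := (aeval u).toRingHom.toAlgebra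
  have h1 : ∀ p : κ[X], algebraMap κ[X] L p = aeval u p := fun _ => rfl
  haveI i2 : IsScalarTower F₀ κ[X] L := IsScalarTower.of_algebraMap_eq fun r => by
    rw [h1, IsScalarTower.algebraMap_apply F₀ κ κ[X], Polynomial.algebraMap_eq, aeval_C,
      ← IsScalarTower.algebraMap_apply]
  have hinj : Function.Injective (algebraMap κ[X] L) :=
    transcendental_iff_injective.1 hu
  letI i3 : Algebra (FractionRing κ[X]) L := (IsFractionRing.lift hinj).toAlgebra
  haveI i4 : IsScalarTower κ[X] (FractionRing κ[X]) L :=
    IsScalarTower.of_algebraMap_eq fun r => (IsFractionRing.lift_algebraMap hinj r).symm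
  haveI i5 : CharZero (FractionRing κ[X]) :=
    charZero_of_injective_algebraMap (R := κ)
      (algebraMap κ (FractionRing κ[X])).injective
  haveI i6 : Algebra.FormallySmooth κ[X] (FractionRing κ[X]) :=
    Algebra.FormallySmooth.of_isLocalization (nonZeroDivisors _)
  haveI i7 : Algebra.FormallySmooth (FractionRing κ[X]) L := fs_charZero _ _
  haveI i8 : Algebra.FormallySmooth κ[X] L :=
    Algebra.FormallySmooth.comp _ (FractionRing κ[X]) _
  obtain ⟨D, hD⟩ := ext_der (R := F₀) (A := κ[X]) (L := L)
    ((Algebra.linearMap κ[X] L).compDer (dX δ) +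
      ((LinearMap.toSpanSingleton κ[X] L e).compDer
        ((derivative' (R := κ)).restrictScalars F₀)))
  refine ⟨D, fun p => ?_⟩
  rw [← h1, hD]
  rfl

end ext

/-! ### frames of a tuple -/

section frame

variable {I : Type} {J : I → Type} [Fintype I] [∀ i, Fintype (J i)]

/-- `F` moves in dimension at most `M`, and the infinitesimal motions have rank at least `N` at
every point of `F`. -/
structure Frm {k κ : Type u} [Field k] [Field κ] [Algebra k κ]
    (E : Set (MvPolynomial (Σ i, J i) k)) (M N : ℕ) (F : ∀ i, J i → κ[X]) : Prop where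
  le : finrank κ (TanL E F) ≤ M
  pts : ∀ t : κ, ∃ s : Fin N → ∀ i, J i → κ[X], (∀ j, s j ∈ TanL E F) ∧
    LinearIndependent κ (fun j => fun x : Σ i, J i => (s j x.1 x.2).eval t)

variable {k F₀ κ L : Type u} [Field k] [Field F₀] [Field κ] [Field L] [Algebra k F₀]
  [Algebra k κ] [Algebra F₀ κ] [IsScalarTower k F₀ κ] [CharZero F₀]
  {E : Set (MvPolynomial (Σ i, J i) k)}

/-- every infinitesimal motion is a derivation over `F₀`. -/
theorem exists_der_F₀ {F : ∀ i, J i → κ[X]} (hF : OnX E F) {M : ℕ}
    (hM : finrank κ (TanL E F) ≤ M) (htr : TrGe F₀ (coeffs F) M) :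
    ∀ s ∈ TanL E F, ∃ δ : Derivation F₀ κ κ, dF F δ = s := by
  obtain ⟨-, h⟩ := exists_der_sub (k := F₀) (TanL E F) (fun δ => by
    have h1 := dF_mem_TanL hF (δ.restrictScalars k)
    have h2 : dF F (δ.restrictScalars k) = dF F δ := by
      funext i a
      ext n
      rw [coeff_dF, coeff_dF]
      rfl
    rwa [h2] at h1) hM htr
  intro s hs
  obtain ⟨δ, hδ⟩ := h s hs
  refine ⟨δ, ?_⟩
  funext i a
  ext n
  rw [coeff_dF, hδ]

/-- **(G1)** from a frame. -/
theorem gen1_of_frm [Algebra F₀ L] [Algebra κ L] [IsScalarTower F₀ κ L]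
    {F : ∀ i, J i → κ[X]} (hF : OnX E F) {M N : ℕ} (hfr : Frm E M N F)
    (htr : TrGe F₀ (coeffs F) M) {u : L} (hu : Transcendental κ u) :
    TrGe F₀ (ent (at' F u)) N := by
  classical
  have hcκ : CharZero κ := charZero_of_injective_algebraMap (algebraMap F₀ κ).injective
  obtain ⟨s, hs1, hs2⟩ := hfr.pts 0
  obtain ⟨y, hy⟩ := exists_minor _ hs2
  choose δ hδ using fun j => exists_der_F₀ (F₀ := F₀) hF hfr.le htr (s j) (hs1 j)
  choose D hD using fun j => exists_ext (L := L) hu (δ j) 0
  apply trGe_of_ders D
  intro c hc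
  have h1 : ∀ x : Σ i, J i, ∑ j, c j * aeval u (s j x.1 x.2) = 0 := by
    intro x
    have := hc (at' F u x.1 x.2) ⟨x.1, x.2, rfl⟩
    rw [← this]
    refine Finset.sum_congr rfl fun j _ => ?_
    unfold at'
    rw [hD, mul_zero, add_zero, ← hδ]
    rfl
  -- the determinant at `u`
  let A : Matrix (Fin N) (Fin N) κ[X] := Matrix.of fun i j => s j (y i).1 (y i).2
  have hA0 : A.det ≠ 0 := by
    intro h0
    apply hy
    have h2 := RingHom.map_det (evalRingHom (0 : κ)) A
    rw [h0, map_zero] at h2
    exact h2.symm
  have hAu : ((aeval u : κ[X] →ₐ[κ] L).toRingHom.mapMatrix A).det ≠ 0 := by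
    rw [← RingHom.map_det]
    intro h0
    exact hA0 ((transcendental_iff.1 hu) _ h0)
  apply Matrix.eq_zero_of_mulVec_eq_zero hAu
  funext i
  rw [Matrix.mulVec, dotProduct, Pi.zero_apply, ← h1 (y i)]
  refine Finset.sum_congr rfl fun j _ => ?_
  rw [mul_comm]
  rfl

/-- chain rule at a point. -/
theorem der_eval (δ : Derivation F₀ κ κ) (p : κ[X]) (t : κ) :
    δ (p.eval t) = (dX δ p).eval t + (derivative p).eval t * δ t := by
  induction p using Polynomial.induction_on' with
  | add p q hp hq =>
    rw [eval_add, map_add, hp, hq, map_add, map_add, eval_add, eval_add, add_mul]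
    ring
  | monomial n c =>
    have h1 : dX δ (monomial n c) = monomial n (δ c) := by
      ext i
      rw [coeff_dX, coeff_monomial, coeff_monomial]
      split_ifs
      · rfl
      · exact map_zero δ
    rw [h1, derivative_monomial, eval_monomial, eval_monomial, eval_monomial, Derivation.leibniz,
      Derivation.leibniz_pow]
    simp only [smul_eq_mul, nsmul_eq_mul]
    ring

/-- at every point the vectors `δ (F t)` have codimension at most one. -/
theorem der_pt {F : ∀ i, J i → κ[X]} {t : κ} (δ : Derivation F₀ κ κ) (i : I) (a : J i) :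
    (dF F δ i a).eval t = δ (pt F t i a) - (derivative (F i a)).eval t * δ t := by
  unfold pt
  rw [der_eval]
  unfold dF
  ring

/-- **(G2)** from a frame, ratios. -/
theorem gen2_of_frm {F : ∀ i, J i → κ[X]} (hF : IsMap E F) {M N n : ℕ} (hfr : Frm E M N F)
    (htr : TrGe F₀ (coeffs F) M) (t : κ) (hn : n + Fintype.card I + 1 ≤ N) :
    TrGe F₀ (rat (pt F t)) n := by
  classical
  obtain ⟨s, hs1, hs2⟩ := hfr.pts t
  choose δ hδ using fun j => exists_der_F₀ (F₀ := F₀) hF.on hfr.le htr (s j) (hs1 j)
  -- the Euler vectors and the velocity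
  let w : Option I → (Σ i, J i) → κ := fun o =>
    match o with
    | none => fun x => (derivative (F x.1 x.2)).eval t
    | some i => fun x => if x.1 = i then (F x.1 x.2).eval t else 0
  let g : (Fin N → κ) →ₗ[κ] ((Σ i, J i) → κ) :=
    Fintype.linearCombination κ (fun j => fun x : Σ i, J i => (s j x.1 x.2).eval t)
  have hg : Function.Injective g := linearIndependent_iff_injective_fintypeLinearCombination.1 hs2
  let W : Submodule κ (Fin N → κ) := (Submodule.span κ (Set.range w)).comap g
  refine trGe_of_ders' δ W ?_ ?_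
  · intro c hc
    have hval : ∀ x, (∑ i, c i • δ i) x = ∑ i, c i * δ i x := fun x => by
      rw [sum_der_apply]
      rfl
    set Δ : Derivation F₀ κ κ := ∑ i, c i • δ i with hΔ
    have hne : ∀ i, ∃ b, pt F t i b ≠ 0 := by
      intro i
      by_contra h0
      push Not at h0
      have h1 : Ideal.span (Set.range (F i)) ≤ RingHom.ker (evalRingHom t) := by
        rw [Ideal.span_le]
        rintro _ ⟨a, rfl⟩
        exact h0 a
      have h2 : Ideal.span (Set.range (F i)) = ⊤ := hF.cop i
      rw [h2, top_le_iff] at h1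
      exact (RingHom.ker_ne_top (evalRingHom t)) h1
    choose b hb using hne
    have hEu : ∀ i a, Δ (pt F t i a) = Δ (pt F t i (b i)) / pt F t i (b i) * pt F t i a := by
      intro i a
      have h1 : Δ (pt F t i a / pt F t i (b i)) = 0 := by
        rw [hval]
        exact hc _ ⟨i, a, b i, hb i, rfl⟩
      have h2 : pt F t i a = (pt F t i a / pt F t i (b i)) * pt F t i (b i) := by
        rw [div_mul_cancel₀ _ (hb i)]
      have h3 : Δ (pt F t i a) = (pt F t i a / pt F t i (b i)) * Δ (pt F t i (b i)) := by
        conv_lhs => rw [h2]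
        rw [Derivation.leibniz, h1]
        simp
      rw [h3]
      ring
    have hgc : g c = (-Δ t) • w none + ∑ i, (Δ (pt F t i (b i)) / pt F t i (b i)) • w (some i) := by
      funext x
      have h1 : g c x = ∑ j, c j * (s j x.1 x.2).eval t := by
        simp only [g, Fintype.linearCombination_apply, Finset.sum_apply, Pi.smul_apply, smul_eq_mul]
      have h2 : ∀ j, (s j x.1 x.2).eval t =
          δ j (pt F t x.1 x.2) - (derivative (F x.1 x.2)).eval t * δ j t := by
        intro j
        rw [← hδ j]
        exact der_pt _ _ _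
      have h3 : ∑ j, c j * (s j x.1 x.2).eval t =
          Δ (pt F t x.1 x.2) - (derivative (F x.1 x.2)).eval t * Δ t := by
        rw [hval, hval, Finset.mul_sum, ← Finset.sum_sub_distrib]
        refine Finset.sum_congr rfl fun j _ => ?_
        rw [h2]
        ring
      rw [h1, h3, hEu, Pi.add_apply, Finset.sum_apply, Finset.sum_eq_single x.1]
      · simp only [Pi.smul_apply, smul_eq_mul, w, if_true, pt]
        ring
      · intro i _ hi
        simp only [Pi.smul_apply, smul_eq_mul, w, if_neg hi.symm, mul_zero]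
      · simp
    change g c ∈ Submodule.span κ (Set.range w)
    rw [hgc]
    exact Submodule.add_mem _ (Submodule.smul_mem _ _ (Submodule.subset_span ⟨none, rfl⟩))
      (Submodule.sum_mem _ fun i _ => Submodule.smul_mem _ _ (Submodule.subset_span ⟨some i, rfl⟩))
  · have h1 : finrank κ W ≤ Fintype.card I + 1 := by
      have h2 : finrank κ W = finrank κ (W.map g) :=
        LinearEquiv.finrank_eq (Submodule.equivMapOfInjective g hg W)
      have h3 : finrank κ (W.map g) ≤ finrank κ (Submodule.span κ (Set.range w)) :=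
        Submodule.finrank_mono (Submodule.map_comap_le _ _)
      have h4 : finrank κ (Submodule.span κ (Set.range w)) ≤ Fintype.card (Option I) :=
        finrank_range_le_card w
      rw [Fintype.card_option] at h4
      omega
    omega

/-- the same for the exact point. -/
theorem gen2_ent_of_frm {F : ∀ i, J i → κ[X]} (hF : IsMap E F) {M N n : ℕ} (hfr : Frm E M N F)
    (htr : TrGe F₀ (coeffs F) M) (t : κ) (hn : n + 1 ≤ N) :
    TrGe F₀ (ent (pt F t)) n := by
  classical
  obtain ⟨s, hs1, hs2⟩ := hfr.pts t
  choose δ hδ using fun j => exists_der_F₀ (F₀ := F₀) hF.on hfr.le htr (s j) (hs1 j)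
  let w : (Σ i, J i) → κ := fun x => (derivative (F x.1 x.2)).eval t
  let g : (Fin N → κ) →ₗ[κ] ((Σ i, J i) → κ) :=
    Fintype.linearCombination κ (fun j => fun x : Σ i, J i => (s j x.1 x.2).eval t)
  have hg : Function.Injective g := linearIndependent_iff_injective_fintypeLinearCombination.1 hs2
  let W : Submodule κ (Fin N → κ) := (Submodule.span κ {w}).comap g
  refine trGe_of_ders' δ W ?_ ?_
  · intro c hc
    have hval : ∀ x, (∑ i, c i • δ i) x = ∑ i, c i * δ i x := fun x => by
      rw [sum_der_apply]
      rfl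
    set Δ : Derivation F₀ κ κ := ∑ i, c i • δ i with hΔ
    have hgc : g c = (-Δ t) • w := by
      funext x
      have h1 : g c x = ∑ j, c j * (s j x.1 x.2).eval t := by
        simp only [g, Fintype.linearCombination_apply, Finset.sum_apply, Pi.smul_apply, smul_eq_mul]
      have h2 : ∀ j, (s j x.1 x.2).eval t =
          δ j (pt F t x.1 x.2) - (derivative (F x.1 x.2)).eval t * δ j t := by
        intro j
        rw [← hδ j]
        exact der_pt _ _ _
      have h3 : ∑ j, c j * (s j x.1 x.2).eval t =
          Δ (pt F t x.1 x.2) - (derivative (F x.1 x.2)).eval t * Δ t := by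
        rw [hval, hval, Finset.mul_sum, ← Finset.sum_sub_distrib]
        refine Finset.sum_congr rfl fun j _ => ?_
        rw [h2]
        ring
      have h4 : Δ (pt F t x.1 x.2) = 0 := by
        rw [hval]
        exact hc _ ⟨x.1, x.2, rfl⟩
      rw [h1, h3, h4]
      simp only [Pi.smul_apply, smul_eq_mul, w]
      ring
    change g c ∈ Submodule.span κ {w}
    rw [hgc]
    exact Submodule.smul_mem _ _ (Submodule.subset_span rfl)
  · have h1 : finrank κ W ≤ 1 := by
      have h2 : finrank κ W = finrank κ (W.map g) :=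
        LinearEquiv.finrank_eq (Submodule.equivMapOfInjective g hg W)
      have h3 : finrank κ (W.map g) ≤ finrank κ (Submodule.span κ {w}) :=
        Submodule.finrank_mono (Submodule.map_comap_le _ _)
      have h4 : finrank κ (Submodule.span κ {w}) ≤ 1 :=
        (finrank_span_le_card {w}).trans (by simp)
      omega
    omega

end frame

/-! ### the statements of `QuadDefs_517` -/

section statements

variable {I : Type} {J : I → Type} [Fintype I] [∀ i, Fintype (J i)] {k : Type u} [Field k]

/-- linearly independent finite sets of bounded cardinality bound the dimension. -/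
theorem finrank_le_of_finset {κ : Type u} [Field κ] {V : Type u} [AddCommGroup V] [Module κ V]
    (T : Submodule κ V) [Module.Finite κ T] {m : ℕ}
    (h : ∀ B : Finset V, (∀ G ∈ B, G ∈ T) → LinearIndependent κ (fun G : B => G.1) →
      B.card ≤ m) : finrank κ T ≤ m := by
  classical
  let b := Module.finBasis κ T
  have hb : LinearIndependent κ (fun i => (b i : V)) :=
    b.linearIndependent.map' T.subtype (Submodule.ker_subtype T)
  have hinj : Function.Injective (fun i => (b i : V)) := hb.injective
  have h1 := h (Finset.univ.image (fun i => (b i : V))) (by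
    intro G hG
    rw [Finset.mem_image] at hG
    obtain ⟨i, -, rfl⟩ := hG
    exact (b i).2) (by
    have h2 := hb.linearIndepOn_id
    have h3 : (Set.range fun i => (b i : V)) =
        ((Finset.univ.image (fun i => (b i : V)) : Finset V) : Set V) := by
      simp
    rw [h3] at h2
    exact h2)
  rw [Finset.card_image_of_injective _ hinj, Finset.card_univ, Fintype.card_fin] at h1
  exact h1

/-- the frame of a line in the sense of `LineFrameP`. -/
theorem lineFrm {D : CData k I J} (h : LineFrameP D) (F₀ kl : Type u) [Field F₀] [Field kl]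
    [IsAlgClosed F₀] [IsAlgClosed kl] [Algebra k F₀] [Algebra k kl] [Algebra F₀ kl]
    [IsScalarTower k F₀ kl] (l : ∀ i, J i → kl[X]) (hl1 : IsMap D.E l) (hl2 : cls l = D.β)
    (hl3 : TrGe F₀ (coeffs l) (hl D)) : Frm D.E (hl D) (nn D) l := by
  refine ⟨?_, fun t₀ => ?_⟩
  · apply finrank_le_of_finset
    intro B hB hBi
    refine (h F₀ kl l 0 hl1 hl2 hl3).1 B (fun G hG => ?_) hBi
    have h1 := hB G hG
    rw [mem_TanL, hl2] at h1
    exact ⟨h1.2, h1.1⟩
  · obtain ⟨t, ht1, ht2⟩ := (h F₀ kl l t₀ hl1 hl2 hl3).2
    refine ⟨t, fun j => ?_, ht2⟩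
    rw [mem_TanL, hl2]
    exact ⟨(ht1 j).2, (ht1 j).1⟩

/-- **(CF)** the tangent frame of a generic conic at every point. -/
def ConFrameP (D : CData k I J) (CC : Cls k J) : Prop :=
  ∀ (F₀ k' : Type u) [Field F₀] [Field k'] [IsAlgClosed F₀] [IsAlgClosed k'] [Algebra k F₀]
    [Algebra k k'] [Algebra F₀ k'] [IsScalarTower k F₀ k'] (H : ∀ i, J i → k'[X]) (t₀ : k'),
    Con D CC H → TrGe F₀ (coeffs H) (hc D) →
    (∀ V : Finset (∀ i, J i → k'[X]),
      (∀ G ∈ V, Tan D.E H G ∧ ∀ i j, (G i j).degree ≤ (2 * D.β i : ℕ)) →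
      LinearIndependent k' (fun G : V => G.1) → V.card ≤ hc D) ∧
    ∃ t : Fin (nn D) → ∀ i, J i → k'[X],
      (∀ j, Tan D.E H (t j) ∧ ∀ i b, (t j i b).degree ≤ (2 * D.β i : ℕ)) ∧
      LinearIndependent k' (fun j => fun x : Σ i, J i => (t j x.1 x.2).eval t₀)

/-- the frame of a conic. -/
theorem conFrm {D : CData k I J} {CC : Cls k J} (h : ConFrameP D CC) (F₀ k' : Type u) [Field F₀]
    [Field k'] [IsAlgClosed F₀] [IsAlgClosed k'] [Algebra k F₀] [Algebra k k'] [Algebra F₀ k']
    [IsScalarTower k F₀ k'] (H : ∀ i, J i → k'[X]) (h1 : Con D CC H)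
    (h2 : TrGe F₀ (coeffs H) (hc D)) : Frm D.E (hc D) (nn D) H := by
  have hcl : ∀ i, cls H i = 2 * D.β i := fun i => by
    rw [h1.cls]
    simp
  refine ⟨?_, fun t₀ => ?_⟩
  · apply finrank_le_of_finset
    intro B hB hBi
    refine (h F₀ k' H 0 h1 h2).1 B (fun G hG => ?_) hBi
    have h3 := hB G hG
    rw [mem_TanL] at h3
    exact ⟨h3.2, fun i j => by rw [← hcl]; exact h3.1 i j⟩
  · obtain ⟨t, ht1, ht2⟩ := (h F₀ k' H t₀ h1 h2).2
    refine ⟨t, fun j => ?_, ht2⟩
    rw [mem_TanL]
    exact ⟨fun i a => by rw [hcl]; exact (ht1 j).2 i a, (ht1 j).1⟩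

/-- **Gen1P** from the frame of a generic conic. -/
theorem gen1P [CharZero k] {D : CData k I J} {CC : Cls k J} (h : ConFrameP D CC) :
    Gen1P D CC := by
  intro F₀ k' L _ _ _ _ _ _ _ _ _ _ _ _ _ _ _ H u h1 h2 hu
  have hc0 : CharZero F₀ := charZero_of_injective_algebraMap (algebraMap k F₀).injective
  exact gen1_of_frm h1.map.on (conFrm h F₀ k' H h1 h2) h2 hu

/-- **Gen2P** from the frame of a generic conic. -/
theorem gen2P [CharZero k] {D : CData k I J} {CC : Cls k J} (h : ConFrameP D CC) :
    Gen2P D CC := by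
  intro F₀ k' _ _ _ _ _ _ _ _ H t h1 h2
  have hc0 : CharZero F₀ := charZero_of_injective_algebraMap (algebraMap k F₀).injective
  refine gen2_of_frm h1.map (conFrm h F₀ k' H h1 h2) h2 t ?_
  unfold nn
  omega

/-- the exact point of a generic conic has transcendence degree at least `nn - 1`. -/
theorem gen2_exact [CharZero k] {D : CData k I J} {CC : Cls k J} (h : ConFrameP D CC)
    (F₀ k' : Type u) [Field F₀] [Field k'] [IsAlgClosed F₀] [IsAlgClosed k'] [Algebra k F₀]
    [Algebra k k'] [Algebra F₀ k'] [IsScalarTower k F₀ k'] (H : ∀ i, J i → k'[X]) (t : k')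
    (h1 : Con D CC H) (h2 : TrGe F₀ (coeffs H) (hc D)) :
    TrGe F₀ (ent (pt H t)) (2 * D.m + Fintype.card I) := by
  have hc0 : CharZero F₀ := charZero_of_injective_algebraMap (algebraMap k F₀).injective
  refine gen2_ent_of_frm h1.map (conFrm h F₀ k' H h1 h2) h2 t ?_
  unfold nn
  omega

end statements

end Crest.Agent.R260.Gp_169
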