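import Crest.Agent.R260.QuadDefs_517
import Crest.Agent.R260.FamDefs_919
import Crest.Agent.R260.Irr2_33
import Crest.Agent.R260.Gp1_169

/-!
# Row 260, the link `Con + TrGe hc ⇒ Gen` (helper169)

A point of the irreducible family `V(P)` whose transcendence degree over `F₀` is at least the
dimension of the family is a generic point. Hence the frame of the generic member (703) gives
`ConFrameP` of `Gp1_169` for the class `V(P)`.
-/

set_option autoImplicit false
set_option linter.all false

namespace Crest.Agent.R260.Gp_169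

open Module
open Crest.Agent.R270.BM_360 Crest.Agent.R270.Fr_928 Crest.Agent.R260.Lin_678
open Crest.Agent.R260.Der_169 Crest.Agent.R260.QuadDefs_517 Crest.Agent.R270.TrM_807
open Crest.Agent.R260.Fam_919

universe u v

variable {I : Type} {J : I → Type} [Fintype I] [∀ i, Fintype (J i)]

/-- the tuple with the coefficient vector `z`. -/
noncomputable def tup {R : Type v} [CommRing R] (N : I → ℕ) (z : Cx J N → R) :
    ∀ i, J i → Polynomial R :=
  fun i x => ∑ n : Fin (N i + 1), Polynomial.C (z ⟨⟨i, x⟩, n⟩) * Polynomial.X ^ (n : ℕ)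

theorem cfv_tup {R : Type v} [CommRing R] (N : I → ℕ) (z : Cx J N → R) : cfv N (tup N z) = z := by
  funext y
  obtain ⟨⟨i, x⟩, n⟩ := y
  unfold cfv tup
  rw [Polynomial.finsetSum_coeff, Finset.sum_eq_single n]
  · simp
  · intro b _ hb
    rw [Polynomial.coeff_C_mul, Polynomial.coeff_X_pow, if_neg, mul_zero]
    exact fun h => hb (Fin.ext h.symm)
  · simp

theorem natDegree_tup {R : Type v} [CommRing R] (N : I → ℕ) (z : Cx J N → R) (i : I) (x : J i) :
    (tup N z i x).natDegree ≤ N i := by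
  unfold tup
  refine Polynomial.natDegree_sum_le_of_forall_le _ _ fun n _ => ?_
  refine (Polynomial.natDegree_C_mul_X_pow_le _ _).trans ?_
  have := n.2
  omega

section coeff

variable {F₀ κ : Type u} [Field F₀] [Field κ] [Algebra F₀ κ]

theorem coeffs_sub (N : I → ℕ) {F : ∀ i, J i → Polynomial κ}
    (hF : ∀ i x, (F i x).natDegree ≤ N i) :
    coeffs F ⊆ (IntermediateField.adjoin F₀ (Set.range (cfv N F)) : Set κ) := by
  rintro _ ⟨i, x, n, rfl⟩
  by_cases hn : n < N i + 1
  · exact IntermediateField.subset_adjoin _ _ ⟨⟨⟨i, x⟩, ⟨n, hn⟩⟩, rfl⟩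
  · rw [Polynomial.coeff_eq_zero_of_natDegree_lt (by have := hF i x; omega)]
    exact zero_mem _

theorem range_cfv_sub (N : I → ℕ) (F : ∀ i, J i → Polynomial κ) :
    Set.range (cfv N F) ⊆ coeffs F := by
  rintro _ ⟨y, rfl⟩
  exact ⟨y.1.1, y.1.2, y.2, rfl⟩

/-- the transcendence degree is at most the dimension of the tangent space. -/
theorem le_finrank_TanL {k : Type u} [Field k] [Algebra k F₀] [Algebra k κ]
    [IsScalarTower k F₀ κ] [CharZero F₀] {E : Set (MvPolynomial (Σ i, J i) k)}
    {F : ∀ i, J i → Polynomial κ} (hF : OnX E F) {r : ℕ} (hr : TrGe F₀ (coeffs F) r) :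
    r ≤ finrank κ (TanL E F) := by
  by_contra hcon
  push Not at hcon
  have h := (exists_der_sub (k := F₀) (TanL E F) (fun δ => by
    have h1 := dF_mem_TanL hF (δ.restrictScalars k)
    have h2 : dF F (δ.restrictScalars k) = dF F δ := by
      funext i a
      ext n
      rw [coeff_dF, coeff_dF]
      rfl
    rwa [h2] at h1) hcon.le hr).1
  omega

end coeff

/-- **the link**: a point of `V(P)` of maximal transcendence degree is generic. -/
theorem gen_of_trGe {k : Type u} [Field k] [IsAlgClosed k] {N : I → ℕ}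
    {P : Ideal (MvPolynomial (Cx J N) k)} (hP : P.IsPrime)
    {F₀ κ : Type u} [Field F₀] [Field κ] [Algebra k F₀] [Algebra k κ] [Algebra F₀ κ]
    [IsScalarTower k F₀ κ] {m : ℕ}
    (hmax : ∀ (K : Type u) [Field K] [IsAlgClosed K] [Algebra k K] [Algebra F₀ K]
      [IsScalarTower k F₀ K] (H : ∀ i, J i → Polynomial K), Gen N P F₀ H →
      ∀ r, TrGe F₀ (coeffs H) r → r ≤ m)
    {F : ∀ i, J i → Polynomial κ} (hF : InC N P F) (htr : TrGe F₀ (coeffs F) m) :
    Gen N P F₀ F := by
  classical
  let Q : Ideal (MvPolynomial (Cx J N) F₀) := P.map (MvPolynomial.map (algebraMap k F₀))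
  have hQ : Q.IsPrime := Crest.Agent.R260.Irr_33.isPrime_map (K := F₀) hP
  have hQF : ∀ p ∈ Q, MvPolynomial.aeval (cfv N F) p = 0 := by
    have h1 : Q ≤ RingHom.ker (MvPolynomial.aeval (cfv N F) :
        MvPolynomial (Cx J N) F₀ →ₐ[F₀] κ).toRingHom := by
      rw [Ideal.map_le_iff_le_comap]
      intro p hp
      rw [Ideal.mem_comap]
      change MvPolynomial.aeval (cfv N F) (MvPolynomial.map (algebraMap k F₀) p) = 0
      rw [MvPolynomial.aeval_map_algebraMap]
      exact hF.mem p hp
    exact fun p hp => h1 hp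
  refine ⟨hF.deg, fun p => ⟨fun hp => ?_, fun hp => hQF p hp⟩⟩
  by_contra hcon
  have htr' : TrGe F₀ (Set.range (cfv N F)) m := TrGe.mono htr (coeffs_sub N hF.deg)
  obtain ⟨x, hx⟩ := Crest.Agent.R260.Irr_33.exists_sub htr'
  let A := MvPolynomial (Cx J N) F₀ ⧸ Q
  have : IsDomain A := Ideal.Quotient.isDomain Q
  let φ : A →ₐ[F₀] κ := Ideal.Quotient.liftₐ Q (MvPolynomial.aeval (cfv N F)) hQF
  have hφ : ∀ q, φ (Ideal.Quotient.mk Q q) = MvPolynomial.aeval (cfv N F) q := fun q => rfl
  let K₀ := FractionRing A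
  let K := AlgebraicClosure K₀
  let ψ : A →ₐ[F₀] K := (IsScalarTower.toAlgHom F₀ K₀ K).comp (IsScalarTower.toAlgHom F₀ A K₀)
  have hψ : Function.Injective ψ :=
    (algebraMap K₀ K).injective.comp (IsFractionRing.injective A K₀)
  let z : Cx J N → K := fun y => ψ (Ideal.Quotient.mk Q (MvPolynomial.X y))
  let H : ∀ i, J i → Polynomial K := tup N z
  have hcf : cfv N H = z := cfv_tup N z
  have hev : ∀ q : MvPolynomial (Cx J N) F₀, MvPolynomial.aeval (cfv N H) q =
      ψ (Ideal.Quotient.mk Q q) := by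
    intro q
    rw [hcf]
    have h1 : (MvPolynomial.aeval z : MvPolynomial (Cx J N) F₀ →ₐ[F₀] K) =
        ψ.comp (Ideal.Quotient.mkₐ F₀ Q) := by
      refine MvPolynomial.algHom_ext fun y => ?_
      rw [MvPolynomial.aeval_X]
      rfl
    rw [h1]
    rfl
  haveI : IsScalarTower k F₀ K := inferInstance
  have hgen : Gen N P F₀ H := by
    refine ⟨natDegree_tup N z, fun q => ?_⟩
    rw [hev]
    constructor
    · intro h0
      exact Ideal.Quotient.eq_zero_iff_mem.1 (hψ (h0.trans (map_zero ψ).symm))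
    · intro hq
      rw [Ideal.Quotient.eq_zero_iff_mem.2 hq, map_zero]
  -- independence in `A`
  have h1 : AlgebraicIndependent F₀
      (fun o : Option (Fin m) => o.elim (Ideal.Quotient.mk Q p : A)
        (fun j => Ideal.Quotient.mk Q (MvPolynomial.X (x j)))) := by
    refine Crest.Agent.R260.Irr_33.indep_option φ
      (a := fun j => (Ideal.Quotient.mk Q (MvPolynomial.X (x j)) : A)) ?_ ?_ ?_
    · have h2 : (fun j => φ (Ideal.Quotient.mk Q (MvPolynomial.X (x j)))) =
          fun j => cfv N F (x j) := by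
        funext j
        rw [hφ, MvPolynomial.aeval_X]
      rw [h2]
      exact hx
    · intro h0
      exact hcon (Ideal.Quotient.eq_zero_iff_mem.1 h0)
    · rw [hφ, hp]
  have h2 : AlgebraicIndependent F₀
      (fun o : Option (Fin m) => ψ (o.elim (Ideal.Quotient.mk Q p : A)
        (fun j => Ideal.Quotient.mk Q (MvPolynomial.X (x j))))) := h1.map' (f := ψ) hψ
  have hmem : ∀ a : A, ψ a ∈ IntermediateField.adjoin F₀ (coeffs H) := by
    intro a
    obtain ⟨q, rfl⟩ := Ideal.Quotient.mk_surjective a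
    rw [← hev]
    have h3 : Algebra.adjoin F₀ (Set.range (cfv N H)) ≤
        (IntermediateField.adjoin F₀ (coeffs H)).toSubalgebra := by
      rw [Algebra.adjoin_le_iff]
      intro c hc
      exact IntermediateField.subset_adjoin F₀ _ (range_cfv_sub N H hc)
    refine h3 ?_
    rw [Algebra.adjoin_range_eq_range_aeval]
    exact ⟨q, rfl⟩
  have h3 : TrGe F₀ (coeffs H) (m + 1) := by
    let e : Fin (m + 1) ≃ Option (Fin m) := finSuccEquiv m
    exact ⟨fun j => ψ ((e j).elim (Ideal.Quotient.mk Q p : A)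
        (fun j => Ideal.Quotient.mk Q (MvPolynomial.X (x j)))), fun j => hmem _,
        h2.comp e e.injective⟩
  have h4 := hmax K H hgen _ h3
  omega

section fam

variable {k : Type u} [Field k]

/-- the class `V(P)` of tuples over all extensions of `k`. -/
def VC (N : I → ℕ) (P : Ideal (MvPolynomial (Cx J N) k)) : Cls k J :=
  fun _ _ _ F => InC N P F

/-- a generic member is a member. -/
theorem inC_of_gen {N : I → ℕ} {P : Ideal (MvPolynomial (Cx J N) k)} {F₀ κ : Type u} [Field F₀]
    [Field κ] [Algebra k F₀] [Algebra k κ] [Algebra F₀ κ] [IsScalarTower k F₀ κ]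
    {H : ∀ i, J i → Polynomial κ} (h : Gen N P F₀ H) : InC N P H := by
  refine ⟨h.deg, fun p hp => ?_⟩
  have h1 := (h.iff (MvPolynomial.map (algebraMap k F₀) p)).2 (Ideal.mem_map_of_mem _ hp)
  rwa [MvPolynomial.aeval_map_algebraMap] at h1

/-- the statement of 703 about the generic member of the family. -/
def GenFrame (D : CData k I J) (P : Ideal (MvPolynomial (Cx J (fun i => 2 * D.β i)) k)) : Prop :=
  ∀ (F₀ κ : Type u) [Field F₀] [Field κ] [IsAlgClosed F₀] [IsAlgClosed κ] [Algebra k F₀]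
    [Algebra k κ] [Algebra F₀ κ] [IsScalarTower k F₀ κ] (H : ∀ i, J i → Polynomial κ) (t₀ : κ),
    Gen (fun i => 2 * D.β i) P F₀ H →
    finrank κ (TanL D.E H) ≤ hc D ∧
    ∃ s : Fin (nn D) → ∀ i, J i → Polynomial κ, (∀ j, s j ∈ TanL D.E H) ∧
      LinearIndependent κ (fun j => fun x : Σ i, J i => (s j x.1 x.2).eval t₀)

variable [IsAlgClosed k] [CharZero k] {D : CData k I J}
  {P : Ideal (MvPolynomial (Cx J (fun i => 2 * D.β i)) k)}

/-- **the link** for the family. -/
theorem gen_of_con (hP : Fam D P) (hG : GenFrame D P) {F₀ κ : Type u} [Field F₀] [Field κ]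
    [IsAlgClosed F₀] [Algebra k F₀] [Algebra k κ] [Algebra F₀ κ] [IsScalarTower k F₀ κ]
    {F : ∀ i, J i → Polynomial κ} (hF : Con D (VC _ P) F) (htr : TrGe F₀ (coeffs F) (hc D)) :
    Gen (fun i => 2 * D.β i) P F₀ F := by
  have hc0 : CharZero F₀ := charZero_of_injective_algebraMap (algebraMap k F₀).injective
  refine gen_of_trGe hP.prime (fun K _ _ _ _ _ H hH r hr => ?_) hF.cc htr
  have h1 : OnX D.E H := hP.onX K H (inC_of_gen hH)
  exact (le_finrank_TanL h1 hr).trans (hG F₀ K H 0 hH).1

/-- `ConFrameP` from the frame of the generic member. -/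
theorem conFrameP_of_gen (hP : Fam D P) (hG : GenFrame D P) : ConFrameP D (VC _ P) := by
  intro F₀ k' _ _ _ _ _ _ _ _ H t₀ h1 h2
  obtain ⟨h3, s, hs1, hs2⟩ := hG F₀ k' H t₀ (gen_of_con hP hG h1 h2)
  have hcl : ∀ i, cls H i = 2 * D.β i := fun i => by
    rw [h1.cls]
    simp
  refine ⟨fun V hV hVi => ?_, s, fun j => ?_, hs2⟩
  · refine le_trans ?_ h3
    let b : V → TanL D.E H := fun G => ⟨G.1, by
      rw [mem_TanL]
      exact ⟨fun i a => by rw [hcl]; exact (hV G.1 G.2).2 i a, (hV G.1 G.2).1⟩⟩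
    have hb : LinearIndependent k' b := by
      apply LinearIndependent.of_comp (TanL D.E H).subtype
      exact hVi
    have h4 := hb.fintype_card_le_finrank
    rwa [Fintype.card_coe] at h4
  · have h4 := hs1 j
    rw [mem_TanL] at h4
    exact ⟨h4.2, fun i b => by rw [← hcl]; exact h4.1 i b⟩

end fam

end Crest.Agent.R260.Gp_169
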