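import Crest.Agent.R260.Irr3_33
import Crest.Agent.R260.Gp1_169

/-!
# Row 260 (helper33): generic points of the cone over any extension of the base field
(600 #6862)
-/

set_option autoImplicit false
set_option linter.all false

namespace Crest.Agent.R260.Gpt_33

open MvPolynomial Module
open Crest.Agent.R270.BM_360 Crest.Agent.R260.Lin_678 Crest.Agent.R270.Fr_928
  Crest.Agent.R260.QuadDefs_517 Crest.Agent.R260.Irr_33

universe u v

section der

variable {F : Type u} [Field F]

/-- homs to the dual numbers which kill the kernel of `f` give derivations of the range of `f`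
(after AmpFree_498). -/
theorem exists_der_range {P : Type*} [CommRing P] [Algebra F P] {κ : Type u} [Field κ]
    [Algebra F κ] (f : P →ₐ[F] κ)
    (g : P →ₐ[F] TrivSqZeroExt κ κ) (hfst : ∀ p, (g p).fst = f p)
    (hker : ∀ p, f p = 0 → g p = 0) :
    ∃ d : Derivation F f.range κ, ∀ p, d ⟨f p, ⟨p, rfl⟩⟩ = (g p).snd := by
  have hex : ∀ r : f.range, ∃ p, f p = r := fun r => r.2
  choose s hs using hex
  have hg : ∀ p q, f p = f q → g p = g q := fun p q hpq => by
    rw [← sub_eq_zero, ← map_sub]
    exact hker _ (by rw [map_sub, hpq, sub_self])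
  refine ⟨Derivation.mk'
    { toFun := fun r => (g (s r)).snd
      map_add' := fun x y => ?_
      map_smul' := fun c x => ?_ } ?_, fun p => ?_⟩
  · rw [hg (s (x + y)) (s x + s y) (by rw [map_add, hs, hs, hs]; rfl), map_add,
      TrivSqZeroExt.snd_add]
  · rw [hg (s (c • x)) (c • s x) (by rw [map_smul, hs, hs]; rfl), map_smul,
      TrivSqZeroExt.snd_smul, RingHom.id_apply]
  · intro x y
    change (g (s (x * y))).snd = x • (g (s y)).snd + y • (g (s x)).snd
    have hsm : ∀ (r : f.range) (t : κ), r • t = (r : κ) * t := fun r t => rfl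
    rw [hg (s (x * y)) (s x * s y) (by rw [map_mul, hs, hs, hs]; rfl), map_mul,
      TrivSqZeroExt.snd_mul, hfst, hfst, hs, hs, hsm, hsm]
    simp [mul_comm]
  · change (g (s _)).snd = _
    rw [hg (s _) p (by rw [hs])]

/-- extension to the big field in characteristic zero. -/
theorem exists_der_field [CharZero F] {P : Type*} [CommRing P] [Algebra F P] {κ : Type u}
    [Field κ] [Algebra F κ] (f : P →ₐ[F] κ)
    (g : P →ₐ[F] TrivSqZeroExt κ κ) (hfst : ∀ p, (g p).fst = f p)
    (hker : ∀ p, f p = 0 → g p = 0) :
    ∃ D : Derivation F κ κ, ∀ p, D (f p) = (g p).snd := by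
  obtain ⟨d, hd⟩ := exists_der_range f g hfst hker
  have hinj : Function.Injective (algebraMap f.range κ) := Subtype.val_injective
  let i3 : Algebra (FractionRing f.range) κ := (IsFractionRing.lift hinj).toAlgebra
  have i4 : IsScalarTower f.range (FractionRing f.range) κ :=
    IsScalarTower.of_algebraMap_eq fun r => (IsFractionRing.lift_algebraMap hinj r).symm
  have i5 : CharZero (FractionRing f.range) :=
    charZero_of_injective_algebraMap (R := F)
      (algebraMap F (FractionRing f.range)).injective
  have i6 : Algebra.FormallySmooth f.range (FractionRing f.range) :=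
    Algebra.FormallySmooth.of_isLocalization (nonZeroDivisors _)
  have i7 : Algebra.FormallySmooth (FractionRing f.range) κ := fs_charZero _ _
  have i8 : Algebra.FormallySmooth f.range κ :=
    Algebra.FormallySmooth.comp _ (FractionRing f.range) _
  obtain ⟨D, hD⟩ := ext_der (R := F) (A := f.range) (L := κ) d
  refine ⟨D, fun p => ?_⟩
  have h1 := hD ⟨f p, ⟨p, rfl⟩⟩
  rw [hd] at h1
  exact h1

end der

section dual

variable {σ : Type} [Fintype σ] {k : Type u} [Field k] {A : Type v} [CommRing A] [Algebra k A]

theorem aeval_dual (w t : σ → A) (p : MvPolynomial σ k) :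
    aeval (fun x => (TrivSqZeroExt.inl (w x) + TrivSqZeroExt.inr (t x) : TrivSqZeroExt A A)) p =
      TrivSqZeroExt.inl (aeval w p) + TrivSqZeroExt.inr (∑ x : σ, aeval w (pderiv x p) * t x) := by
  classical
  induction p using MvPolynomial.induction_on with
  | C c =>
    rw [← MvPolynomial.algebraMap_eq, AlgHom.commutes, AlgHom.commutes]
    simp [MvPolynomial.algebraMap_eq]
    rfl
  | add p q hp hq =>
    rw [map_add, map_add, hp, hq]
    ext
    · simp
    · simp [add_mul, Finset.sum_add_distrib]
  | mul_X p y hp =>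
    rw [map_mul, hp, map_mul, MvPolynomial.aeval_X, MvPolynomial.aeval_X]
    ext
    · simp
    · simp only [TrivSqZeroExt.snd_mul, TrivSqZeroExt.snd_add, TrivSqZeroExt.fst_add,
        TrivSqZeroExt.fst_inl, TrivSqZeroExt.fst_inr, TrivSqZeroExt.snd_inl,
        TrivSqZeroExt.snd_inr, add_zero, zero_add, op_smul_eq_smul, smul_eq_mul]
      simp only [Derivation.leibniz, MvPolynomial.pderiv_X, smul_eq_mul, map_add, map_mul,
        MvPolynomial.aeval_X, add_mul, Finset.sum_add_distrib]
      congr 1
      · rw [Finset.sum_eq_single y]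
        · simp
        · intro b _ hb
          simp [Ne.symm hb]
        · simp
      · rw [Finset.mul_sum]
        exact Finset.sum_congr rfl fun x _ => by ring

end dual

section main

variable {k : Type u} [Field k] {I : Type} {J : I → Type} [Fintype I] [∀ i, Fintype (J i)]

/-- a tangent vector at a point whose relations over `F` are generated by the equations is the
value of a derivation over `F`. -/
theorem exists_tan_der {E : Set (MvPolynomial (Σ i, J i) k)} {F : Type u} [Field F] [CharZero F]
    [Algebra k F] {κ : Type u} [Field κ] [Algebra k κ] [Algebra F κ] [IsScalarTower k F κ]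
    {x : ∀ i, J i → κ} (hxE : OnX E x)
    (hx : ∀ p : MvPolynomial (Σ i, J i) F, aeval (fun y : Σ i, J i => x y.1 y.2) p = 0 →
      p ∈ (Ideal.span E).map (MvPolynomial.map (algebraMap k F) :
        MvPolynomial (Σ i, J i) k →+* MvPolynomial (Σ i, J i) F))
    {t : ∀ i, J i → κ} (ht : Tan E x t) :
    ∃ D : Derivation F κ κ, ∀ i a, D (x i a) = t i a := by
  let g : MvPolynomial (Σ i, J i) F →ₐ[F] TrivSqZeroExt κ κ := aeval (fun y : Σ i, J i =>
    (TrivSqZeroExt.inl (x y.1 y.2) + TrivSqZeroExt.inr (t y.1 y.2) : TrivSqZeroExt κ κ))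
  obtain ⟨D, hD⟩ := exists_der_field
    (aeval (fun y : Σ i, J i => x y.1 y.2) : MvPolynomial (Σ i, J i) F →ₐ[F] κ) g
    (fun p => by
      change (aeval _ p : TrivSqZeroExt κ κ).fst = _
      rw [aeval_dual]
      simp) (fun p hp => by
      change aeval _ p = 0
      refine eval_of_mem_map (hx p hp) fun q hq => ?_
      have h2 : Ideal.span E ≤ RingHom.ker (aeval (fun y : Σ i, J i =>
          (TrivSqZeroExt.inl (x y.1 y.2) + TrivSqZeroExt.inr (t y.1 y.2) : TrivSqZeroExt κ κ)) :
          MvPolynomial (Σ i, J i) k →ₐ[k] TrivSqZeroExt κ κ).toRingHom := by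
        rw [Ideal.span_le]
        intro q hq
        change aeval _ q = 0
        rw [aeval_dual (k := k) (fun y : Σ i, J i => x y.1 y.2) (fun y => t y.1 y.2) q]
        have h3 := hxE q hq
        have h4 := ht q hq
        rw [h4]
        change TrivSqZeroExt.inl (aeval (fun y : Σ i, J i => x y.1 y.2) q) + _ = _
        have h5 : aeval (fun y : Σ i, J i => x y.1 y.2) q = 0 := h3
        rw [h5]
        simp
      exact h2 hq)
  refine ⟨D, fun i a => ?_⟩
  have h1 := hD (X ⟨i, a⟩)
  change D (aeval _ (X _)) = (aeval _ (X _) : TrivSqZeroExt κ κ).snd at h1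
  rw [aeval_X, aeval_X] at h1
  simpa using h1

/-- a point whose relations over `F` are generated by the equations has transcendence degree at
least the dimension of the tangent space. -/
theorem trGe_of_ker {E : Set (MvPolynomial (Σ i, J i) k)} {F : Type u} [Field F] [CharZero F]
    [Algebra k F] {κ : Type u} [Field κ] [Algebra k κ] [Algebra F κ] [IsScalarTower k F κ]
    {x : ∀ i, J i → κ} (hxE : OnX E x)
    (hx : ∀ p : MvPolynomial (Σ i, J i) F, aeval (fun y : Σ i, J i => x y.1 y.2) p = 0 →
      p ∈ (Ideal.span E).map (MvPolynomial.map (algebraMap k F) :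
        MvPolynomial (Σ i, J i) k →+* MvPolynomial (Σ i, J i) F)) :
    TrGe F (QuadDefs_517.ent x) (finrank κ (TanSp E x)) := by
  let b := finBasis κ (TanSp E x)
  choose D hD using fun j => exists_tan_der hxE hx (show Tan E x (b j : ∀ i, J i → κ) from (b j).2)
  refine Gp_169.trGe_of_ders D fun c hc => ?_
  have h1 : ∑ j, c j • b j = 0 := by
    apply Subtype.ext
    funext i
    funext a
    have h2 := hc (x i a) ⟨i, a, rfl⟩
    simp only [hD] at h2
    simpa [Finset.sum_apply] using h2
  exact funext fun j => (Fintype.linearIndependent_iff.1 b.linearIndependent c h1) j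

variable [IsAlgClosed k] [CharZero k]

/-- **generic points of the cone** over any extension `F` of `k`, with values in an algebraically
closed field algebraic over `F(x)`. -/
theorem exists_gen_pt (D : CData k I J) (hP : (Ideal.span D.E).IsPrime)
    (hne : ∃ v : ∀ i, J i → k, OnX D.E v ∧ ∀ i, v i ≠ 0) (F : Type u) [Field F] [Algebra k F] :
    ∃ (κ : Type u) (_ : Field κ) (_ : IsAlgClosed κ) (_ : Algebra k κ) (_ : Algebra F κ)
      (_ : IsScalarTower k F κ) (x : ∀ i, J i → κ), OnX D.E x ∧ (∀ i, x i ≠ 0) ∧
      TrGe F (QuadDefs_517.ent x) (2 * D.m + 1 + Fintype.card I) ∧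
      Algebra.IsAlgebraic (IntermediateField.adjoin F (QuadDefs_517.ent x)) κ := by
  have hF : CharZero F := charZero_of_injective_algebraMap (algebraMap k F).injective
  let P : Ideal (MvPolynomial (Σ i, J i) F) := (Ideal.span D.E).map
    (MvPolynomial.map (algebraMap k F) : MvPolynomial (Σ i, J i) k →+* MvPolynomial (Σ i, J i) F)
  have hPP : P.IsPrime := isPrime_map (K := F) hP
  let A := MvPolynomial (Σ i, J i) F ⧸ P
  have : IsDomain A := Ideal.Quotient.isDomain P
  let K := FractionRing A
  let κ := AlgebraicClosure K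
  have htow : IsScalarTower k F κ := inferInstance
  let φ : A →ₐ[F] κ := (IsScalarTower.toAlgHom F K κ).comp (IsScalarTower.toAlgHom F A K)
  have hφi : Function.Injective φ :=
    ((algebraMap K κ).injective).comp (IsFractionRing.injective A K)
  let x : ∀ i, J i → κ := fun i a => φ (Ideal.Quotient.mk P (X ⟨i, a⟩))
  have hx : ∀ q : MvPolynomial (Σ i, J i) F, aeval (fun y : Σ i, J i => x y.1 y.2) q =
      φ (Ideal.Quotient.mk P q) := by
    intro q
    have h1 : (aeval (fun y : Σ i, J i => x y.1 y.2) : MvPolynomial (Σ i, J i) F →ₐ[F] κ) =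
        φ.comp (Ideal.Quotient.mkₐ F P) := by
      refine algHom_ext fun y => ?_
      rw [aeval_X]
      rfl
    rw [h1]
    rfl
  have hker : ∀ q : MvPolynomial (Σ i, J i) F, aeval (fun y : Σ i, J i => x y.1 y.2) q = 0 →
      q ∈ P := by
    intro q hq
    rw [hx] at hq
    exact Ideal.Quotient.eq_zero_iff_mem.1 (hφi (hq.trans (map_zero φ).symm))
  have hxE : OnX D.E x := by
    intro q hq
    rw [← aeval_map_algebraMap F (fun y : Σ i, J i => x y.1 y.2) q, hx,
      Ideal.Quotient.eq_zero_iff_mem.2 (Ideal.mem_map_of_mem _ (Ideal.subset_span hq)), map_zero]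
  have hx0 : ∀ i, x i ≠ 0 := by
    obtain ⟨v, hv, hv0⟩ := hne
    intro i hi
    obtain ⟨a, ha⟩ := Function.ne_iff.1 (hv0 i)
    have h1 : (X ⟨i, a⟩ : MvPolynomial (Σ i, J i) F) ∈ P := hker _ (by
      rw [aeval_X]
      exact congrFun hi a)
    have h2 := eval_of_mem_map (A := F) h1 (x := fun y => algebraMap k F (v y.1 y.2))
      (fun p hp => by
        have h3 : Ideal.span D.E ≤ RingHom.ker (aeval (fun y : Σ i, J i =>
            algebraMap k F (v y.1 y.2)) : MvPolynomial (Σ i, J i) k →ₐ[k] F).toRingHom := by
          rw [Ideal.span_le]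
          intro q hq
          change aeval (fun y : Σ i, J i => algebraMap k F (v y.1 y.2)) q = 0
          have h4 := hv q hq
          have h5 := aeval_algebraMap_apply (B := F) (fun y : Σ i, J i => v y.1 y.2) q
          rw [show aeval (fun y : Σ i, J i => v y.1 y.2) q = 0 from h4, map_zero] at h5
          exact h5
        exact h3 hp)
    rw [aeval_X] at h2
    exact ha ((algebraMap k F).injective (h2.trans (map_zero _).symm))
  refine ⟨κ, inferInstance, inferInstance, inferInstance, inferInstance, htow, x, hxE, hx0, ?_, ?_⟩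
  · have h1 := trGe_of_ker hxE hker
    rwa [D.tan_dim κ x hxE hx0] at h1
  · have hA : ∀ a : A, φ a ∈ IntermediateField.adjoin F (QuadDefs_517.ent x) := by
      intro a
      obtain ⟨q, rfl⟩ := Ideal.Quotient.mk_surjective a
      rw [← hx]
      have h3 : Algebra.adjoin F (Set.range fun y : Σ i, J i => x y.1 y.2) ≤
          (IntermediateField.adjoin F (QuadDefs_517.ent x)).toSubalgebra := by
        rw [Algebra.adjoin_le_iff]
        rintro _ ⟨y, rfl⟩
        exact IntermediateField.subset_adjoin F _ ⟨y.1, y.2, rfl⟩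
      refine h3 ?_
      rw [Algebra.adjoin_range_eq_range_aeval]
      exact ⟨q, rfl⟩
    have hK : ∀ z : K, algebraMap K κ z ∈ IntermediateField.adjoin F (QuadDefs_517.ent x) := by
      intro z
      obtain ⟨a, b, hb, rfl⟩ := IsFractionRing.div_surjective (A := A) z
      rw [map_div₀]
      exact div_mem (hA a) (hA b)
    let ψ : K →+* IntermediateField.adjoin F (QuadDefs_517.ent x) :=
      (algebraMap K κ).codRestrict _ hK
    let _ : Algebra K (IntermediateField.adjoin F (QuadDefs_517.ent x)) := ψ.toAlgebra
    have : IsScalarTower K (IntermediateField.adjoin F (QuadDefs_517.ent x)) κ :=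
      IsScalarTower.of_algebraMap_eq fun z => rfl
    exact Algebra.IsAlgebraic.tower_top (K := K) (IntermediateField.adjoin F (QuadDefs_517.ent x))

end main

end Crest.Agent.R260.Gpt_33
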