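import Crest.Agent.R260.Fin10_600
import Crest.Agent.R260.Fin4_600
import Crest.Agent.R260.Prop2_703
import Crest.Agent.R260.Gpt_33
import Crest.Agent.R260.FamP_919
import Crest.Agent.R260.Gp2_169

/-!
Row 260 (S0398), AG-FINAL: along the generic conic all roots are quadratic polynomials, and this
property passes to all conics of the family over `k`.
-/

set_option autoImplicit false
set_option linter.unusedSectionVars false

namespace Crest.Agent.R260.Fin11_600

open Polynomial Crest.Agent.R270.BM_360 Crest.Agent.R260.Lin_678 Crest.Agent.R260.Fam_919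
open Crest.Agent.R260.Fin_600 Crest.Agent.R260.Fin5_600 Crest.Agent.R260.Fin6_600
open Crest.Agent.R260.Fin7_600 Crest.Agent.R260.Fin8_600 Crest.Agent.R260.QuadDefs_517
open Crest.Agent.R260.Fin9_600 Crest.Agent.R260.Fin10_600 Crest.Agent.R260.Mob_919
open Crest.Agent.R260.Fin4_600

universe u v w

/-- a transcendental extension, algebraically closed and algebraic over one element. -/
theorem exists_trans (K : Type u) [Field K] : ∃ (L : Type u) (_ : Field L) (_ : IsAlgClosed L)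
    (_ : Algebra K L) (t : L), Transcendental K t ∧
      Algebra.IsAlgebraic (IntermediateField.adjoin K {t}) L := by
  let Q := FractionRing K[X]
  let L := AlgebraicClosure Q
  let t : L := algebraMap Q L (algebraMap K[X] Q X)
  have hinj : Function.Injective (algebraMap Q L) := (algebraMap Q L).injective
  have hinj2 : Function.Injective (algebraMap K[X] Q) := IsFractionRing.injective _ _
  have haev : ∀ p : K[X], aeval t p = algebraMap Q L (algebraMap K[X] Q p) := by
    intro p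
    have h1 : (aeval t : K[X] →ₐ[K] L) =
        ((IsScalarTower.toAlgHom K Q L).comp (IsScalarTower.toAlgHom K K[X] Q)) := by
      refine Polynomial.algHom_ext ?_
      rw [aeval_X]
      rfl
    rw [h1]
    rfl
  have htr : Transcendental K t := by
    rw [transcendental_iff]
    intro p hp
    rw [haev, map_eq_zero_iff _ hinj, map_eq_zero_iff _ hinj2] at hp
    exact hp
  refine ⟨L, inferInstance, inferInstance, inferInstance, t, htr, ?_⟩
  let A := IntermediateField.adjoin K {t}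
  have ht : t ∈ A := IntermediateField.subset_adjoin K _ rfl
  have hpol : ∀ p : K[X], aeval t p ∈ A := fun p =>
    IntermediateField.algebra_adjoin_le_adjoin K {t} (Polynomial.aeval_mem_adjoin_singleton K t)
  have hmem : ∀ x : Q, algebraMap Q L x ∈ A := by
    intro x
    obtain ⟨p, q, hq, rfl⟩ := IsFractionRing.div_surjective (A := K[X]) x
    rw [map_div₀, ← haev, ← haev]
    exact div_mem (hpol p) (hpol q)
  let φ : Q →+* A := (algebraMap Q L).codRestrict A hmem
  let _ : Algebra Q A := φ.toAlgebra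
  have : IsScalarTower Q A L := IsScalarTower.of_algebraMap_eq fun x => rfl
  exact Algebra.IsAlgebraic.tower_top (K := Q) A

variable {I : Type} {J : I → Type} [Fintype I] [∀ i, Fintype (J i)] {k : Type u} [Field k]

/-- naturality of `P(x; T)` -/
theorem Pv_map {σ : Type} (Q : Polynomial (MvPolynomial σ k)) {A B : Type*} [CommRing A]
    [Algebra k A] [CommRing B] [Algebra k B] (φ : A →ₐ[k] B) (x : σ → A) :
    (Pv Q x).map (φ : A →+* B) = Pv Q (fun s => φ (x s)) := by
  unfold Pv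
  rw [Polynomial.map_map]
  congr 1
  have h : φ.comp (MvPolynomial.aeval x : MvPolynomial σ k →ₐ[k] A) =
      MvPolynomial.aeval (fun s => φ (x s)) := by
    refine MvPolynomial.algHom_ext fun s => ?_
    rw [AlgHom.comp_apply, MvPolynomial.aeval_X, MvPolynomial.aeval_X]
  rw [← h]
  rfl

variable (D : CData k I J)

/-- **LIFT2**: along the generic conic all roots of `Q` are quadratic polynomials. -/
def Lft2 (P : Ideal (MvPolynomial (Cx J (N2 D)) k)) (Q : Polynomial (MvPolynomial (PIdx J) k)) :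
    Prop :=
  ∀ (F₀ k' L : Type u) [Field F₀] [Field k'] [Field L] [IsAlgClosed F₀] [IsAlgClosed k']
    [IsAlgClosed L] [Algebra k F₀] [Algebra k k'] [Algebra k L] [Algebra F₀ k'] [Algebra F₀ L]
    [Algebra k' L] [IsScalarTower k F₀ k'] [IsScalarTower k F₀ L] [IsScalarTower k k' L]
    [IsScalarTower F₀ k' L]
    (x₀ : ∀ i, J i → F₀) (H : ∀ i, J i → k'[X]) (u : L),
    OnX D.E x₀ → (∀ i, x₀ i ≠ 0) → TrGe k (ent x₀) (nn D) →
    Algebra.IsAlgebraic (IntermediateField.adjoin k (ent x₀)) F₀ →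
    Con D (FC D P) H → TrGe F₀ (coeffs H) (hc D) →
    Algebra.IsAlgebraic (IntermediateField.adjoin F₀ (coeffs H)) k' →
    Transcendental k' u → Algebra.IsAlgebraic (IntermediateField.adjoin k' {u}) L →
    Pv Q (pr (up L x₀) (at' H u)) ≠ 0 ∧
      ∀ t : L, (Pv Q (pr (up L x₀) (at' H u))).IsRoot t →
        ∃ p : k'[X], p.natDegree ≤ 2 ∧ t = aeval u p

theorem onZ_at {E : Set (MvPolynomial (Σ i, J i) k)} {K L : Type u} [Field K] [Field L]
    [Algebra k K] [Algebra k L] [Algebra K L] [IsScalarTower k K L] {H : ∀ i, J i → K[X]}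
    (h : IsMap E H) (u : L) : OnZ' E (at' H u) := by
  refine ⟨fun p hp => ?_, fun i h0 => ?_⟩
  · let e : K[X] →ₐ[k] L := (Polynomial.aeval u : K[X] →ₐ[K] L).restrictScalars k
    have h1 := congrArg e (h.on p hp)
    rw [map_zero, MvPolynomial.comp_aeval_apply] at h1
    exact h1
  · have h1 : (1 : K[X]) ∈ Ideal.span (Set.range (H i)) := by
      have : Ideal.span (Set.range (H i)) = ⊤ := h.cop i
      rw [this]; exact Submodule.mem_top
    have h2 : Ideal.span (Set.range (H i)) ≤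
        RingHom.ker (Polynomial.aeval u : K[X] →ₐ[K] L).toRingHom := by
      rw [Ideal.span_le]
      rintro _ ⟨a, rfl⟩
      exact congrFun h0 a
    have h3 := h2 h1
    rw [RingHom.mem_ker, map_one] at h3
    exact one_ne_zero h3

variable [IsAlgClosed k] [CharZero k]

theorem lft2 {P : Ideal (MvPolynomial (Cx J (N2 D)) k)}
    {Q : Polynomial (MvPolynomial (PIdx J) k)} {D' : MvPolynomial (PIdx J) k}
    (hE : (Ideal.span D.E).IsPrime) (hQ : QUAD D (FC D P)) (hG : Gen1P D (FC D P))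
    (h : Hom2 D P Q D') : Lft2 D P Q := by
  intro F₀ k' L _ _ _ _ _ _ _ _ _ _ _ _ _ _ _ _ x₀ H u hx hx0 hxt hxa hH hHt hHa hu hua
  have hHu : OnZ' D.E (at' H u) := onZ_at hH.map u
  have hgt : TrGe F₀ (ent (at' H u)) (nn D) := hG F₀ k' L H u hH hHt hu
  have hgn : Gnr (qp D.E) (pr (up L x₀) (at' H u)) := gnr_pair D hE ⟨hx, hx0⟩ hxt hHu hgt
  refine ⟨h.gne L _ hgn, fun t ht => ?_⟩
  obtain ⟨F, a, b, c, hF, hj, rfl⟩ := h.lift L _ hgn t ht
  exact hQ F₀ k' L x₀ H u F a b c hx hx0 hxt hxa hH hHt hHa hu hua hF hj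

theorem Pv_swp (Q : Polynomial (MvPolynomial (PIdx J) k)) {A : Type*} [CommRing A] [Algebra k A]
    (v w : ∀ i, J i → A) :
    Pv (Q.map (swp : MvPolynomial (PIdx J) k →ₐ[k] _).toRingHom) (pr v w) = Pv Q (pr w v) := by
  unfold Pv
  rw [Polynomial.map_map]
  congr 1
  have h : (MvPolynomial.aeval (pr v w) : MvPolynomial (PIdx J) k →ₐ[k] A).comp swp =
      MvPolynomial.aeval (pr w v) := by
    refine AlgHom.ext fun p => ?_
    exact aeval_swp v w p
  rw [← h]
  rfl

theorem lft2_swap {P : Ideal (MvPolynomial (Cx J (N2 D)) k)}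
    {Q : Polynomial (MvPolynomial (PIdx J) k)} {D' : MvPolynomial (PIdx J) k} (hP : Fam D P)
    (hE : (Ideal.span D.E).IsPrime) (hQ : QUAD D (FC D P)) (hG : Gen1P D (FC D P))
    (h : Hom2 D P Q D') :
    Lft2 D P (Q.map (swp : MvPolynomial (PIdx J) k →ₐ[k] _).toRingHom) := by
  intro F₀ k' L _ _ _ _ _ _ _ _ _ _ _ _ _ _ _ _ x₀ H u hx hx0 hxt hxa hH hHt hHa hu hua
  have hHu : OnZ' D.E (at' H u) := onZ_at hH.map u
  have hgt : TrGe F₀ (ent (at' H u)) (nn D) := hG F₀ k' L H u hH hHt hu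
  have hgn : Gnr (qp D.E) (pr (up L x₀) (at' H u)) := gnr_pair D hE ⟨hx, hx0⟩ hxt hHu hgt
  have hgn' := gnr_swap hgn
  rw [Pv_swp]
  refine ⟨h.gne L _ hgn', fun t ht => ?_⟩
  obtain ⟨F, a, b, c, hF, hj, rfl⟩ := h.lift L _ hgn' t ht
  have hF' : Con D (FC D P) (fun i x => mob (N2 D i) 0 1 1 0 (F i x)) :=
    con_mob D hP hF (by simp)
  have hj' := joins_rev D hF hj
  have h1 := hQ F₀ k' L x₀ H u _ b a (-c) hx hx0 hxt hxa hH hHt hHa hu hua hF' hj'
  rwa [phi_rev] at h1

/-- **the place**. -/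
theorem exists_val {P : Ideal (MvPolynomial (Cx J (N2 D)) k)} (hE : (Ideal.span D.E).IsPrime)
    {F₀ k' : Type u} [Field F₀] [Field k'] [Algebra k F₀] [Algebra k k'] [Algebra F₀ k']
    [IsScalarTower k F₀ k'] {x₀ : ∀ i, J i → F₀} (hx : OnZ' D.E x₀)
    (hxt : TrGe k (ent x₀) (nn D)) {H : ∀ i, J i → k'[X]} (hH : Gen (N2 D) P F₀ H)
    {a : ∀ i, J i → k} (ha : OnX D.E a) {H₀ : ∀ i, J i → k[X]} (hH₀ : InC (N2 D) P H₀) :
    ∃ V : ValuationSubring k', (∀ c : k, algebraMap k k' c ∈ V) ∧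
      ∀ r : MvPolynomial ((Σ i, J i) ⊕ Cx J (N2 D)) k,
        MvPolynomial.aeval (Sum.elim (fun s : Σ i, J i => algebraMap F₀ k' (x₀ s.1 s.2))
          (cfv (N2 D) H)) r - algebraMap k k' (MvPolynomial.aeval
            (Sum.elim (fun s : Σ i, J i => a s.1 s.2) (cfv (N2 D) H₀)) r) ∈ V.nonunits := by
  let ψ : MvPolynomial ((Σ i, J i) ⊕ Cx J (N2 D)) k →ₐ[k] k' :=
    MvPolynomial.aeval (Sum.elim (fun s : Σ i, J i => algebraMap F₀ k' (x₀ s.1 s.2))
      (cfv (N2 D) H))
  let θ : MvPolynomial ((Σ i, J i) ⊕ Cx J (N2 D)) k →ₐ[k] k :=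
    MvPolynomial.aeval (Sum.elim (fun s : Σ i, J i => a s.1 s.2) (cfv (N2 D) H₀))
  have hspec : ∀ r, (ψ : MvPolynomial ((Σ i, J i) ⊕ Cx J (N2 D)) k →+* k') r = 0 →
      (θ : MvPolynomial ((Σ i, J i) ⊕ Cx J (N2 D)) k →+* k) r = 0 := by
    intro r hr
    -- first step: specialise `H`
    let e1 : MvPolynomial ((Σ i, J i) ⊕ Cx J (N2 D)) k →ₐ[k] MvPolynomial (Cx J (N2 D)) F₀ :=
      MvPolynomial.aeval (Sum.elim (fun s : Σ i, J i => MvPolynomial.C (x₀ s.1 s.2)) MvPolynomial.X)
    have h1 : ∀ {B : Type u} [Field B] [Algebra k B] [Algebra F₀ B] [IsScalarTower k F₀ B]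
        (z : Cx J (N2 D) → B) (r : MvPolynomial ((Σ i, J i) ⊕ Cx J (N2 D)) k),
        MvPolynomial.aeval z (e1 r) = MvPolynomial.aeval (Sum.elim
          (fun s : Σ i, J i => algebraMap F₀ B (x₀ s.1 s.2)) z) r := by
      intro B _ _ _ _ z r
      have h : ((MvPolynomial.aeval z : MvPolynomial (Cx J (N2 D)) F₀ →ₐ[F₀] B).restrictScalars
          k).comp e1 = MvPolynomial.aeval (Sum.elim
            (fun s : Σ i, J i => algebraMap F₀ B (x₀ s.1 s.2)) z) := by
        refine MvPolynomial.algHom_ext fun x => ?_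
        rcases x with x | x
        · simp [e1]
        · simp [e1]
      exact DFunLike.congr_fun h r
    have h2 : MvPolynomial.aeval (cfv (N2 D) H) (e1 r) = 0 := by
      rw [h1]; exact hr
    have h3 := (hH.iff _).1 h2
    have h4 : ∀ p ∈ P, MvPolynomial.aeval (fun z => algebraMap k F₀ (cfv (N2 D) H₀ z)) p = 0 := by
      intro p hp
      have := MvPolynomial.aeval_algebraMap_apply (B := F₀) (cfv (N2 D) H₀) p
      rw [hH₀.mem p hp, map_zero] at this
      exact this
    have h5 := Irr_33.eval_of_mem_map (K := F₀) h3 h4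
    rw [h1] at h5
    -- second step: specialise `x₀`
    let e2 : MvPolynomial ((Σ i, J i) ⊕ Cx J (N2 D)) k →ₐ[k] MvPolynomial (Σ i, J i) k :=
      MvPolynomial.aeval (Sum.elim MvPolynomial.X (fun z => MvPolynomial.C (cfv (N2 D) H₀ z)))
    have h6 : ∀ {B : Type u} [Field B] [Algebra k B] (y : ∀ i, J i → B)
        (r : MvPolynomial ((Σ i, J i) ⊕ Cx J (N2 D)) k),
        MvPolynomial.aeval (fun s : Σ i, J i => y s.1 s.2) (e2 r) = MvPolynomial.aeval (Sum.elim
          (fun s : Σ i, J i => y s.1 s.2) (fun z => algebraMap k B (cfv (N2 D) H₀ z))) r := by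
      intro B _ _ y r
      have h : ((MvPolynomial.aeval (fun s : Σ i, J i => y s.1 s.2) :
          MvPolynomial (Σ i, J i) k →ₐ[k] B)).comp e2 = MvPolynomial.aeval (Sum.elim
            (fun s : Σ i, J i => y s.1 s.2) (fun z => algebraMap k B (cfv (N2 D) H₀ z))) := by
        refine MvPolynomial.algHom_ext fun x => ?_
        rcases x with x | x
        · simp [e2]
        · simp [e2]
      exact DFunLike.congr_fun h r
    have h7 : MvPolynomial.aeval (fun s : Σ i, J i => x₀ s.1 s.2) (e2 r) = 0 := by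
      rw [h6]; exact h5
    have h8 := Irr_33.specialise hE (fun K _ _ g hg hg0 => (D.tan_dim K g hg hg0).le) hx.1 hx.2 hxt
      (A := k) (y := a) ha _ h7
    rw [h6] at h8
    exact h8
  obtain ⟨V, hV, hiff⟩ := Prop_703.exists_place (ψ : MvPolynomial ((Σ i, J i) ⊕ Cx J (N2 D)) k →+* k')
    (θ : MvPolynomial ((Σ i, J i) ⊕ Cx J (N2 D)) k →+* k) hspec
  refine ⟨V, fun c => ?_, fun r => ?_⟩
  · have := hV (MvPolynomial.C c)
    have h1 : (ψ : MvPolynomial ((Σ i, J i) ⊕ Cx J (N2 D)) k →+* k') (MvPolynomial.C c) = algebraMap k k' c := by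
      change ψ (MvPolynomial.C c) = _
      rw [← MvPolynomial.algebraMap_eq, AlgHom.commutes]
    rwa [h1] at this
  · have h1 := (hiff (r - MvPolynomial.C (θ r))).1 (by
      change θ (r - MvPolynomial.C (θ r)) = 0
      rw [map_sub, ← MvPolynomial.algebraMap_eq, AlgHom.commutes]
      exact sub_self _)
    have h2 : (ψ : MvPolynomial ((Σ i, J i) ⊕ Cx J (N2 D)) k →+* k') (r - MvPolynomial.C (θ r)) = ψ r - algebraMap k k' (θ r) := by
      change ψ (r - MvPolynomial.C (θ r)) = _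
      rw [map_sub, ← MvPolynomial.algebraMap_eq, AlgHom.commutes]
    rw [ValuationSubring.mem_nonunits_iff_exists_mem_maximalIdeal]
    have h3 := hV (r - MvPolynomial.C (θ r))
    rw [h2] at h3
    refine ⟨h3, ?_⟩
    convert h1 using 2
    exact h2.symm

/-- the universal pair (point, tuple in the second slot) -/
noncomputable def xU : PIdx J → (MvPolynomial ((Σ i, J i) ⊕ Cx J (N2 D)) k)[X] :=
  pr (fun i j => C (MvPolynomial.X (Sum.inl ⟨i, j⟩)))
    (tup (N2 D) (fun z => MvPolynomial.X (Sum.inr z)))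

theorem coeff_univ (Q : Polynomial (MvPolynomial (PIdx J) k)) {A : Type u} [Field A]
    [Algebra k A] (v : ∀ i, J i → A) {F : ∀ i, J i → A[X]}
    (hF : ∀ i j, (F i j).natDegree ≤ N2 D i) (m n : ℕ) :
    ((Pv Q (pr (fun i j => C (v i j)) F)).coeff m).coeff n =
      MvPolynomial.aeval (Sum.elim (fun s : Σ i, J i => v s.1 s.2) (cfv (N2 D) F))
        (((Pv Q (xU D)).coeff m).coeff n) := by
  let e : MvPolynomial ((Σ i, J i) ⊕ Cx J (N2 D)) k →ₐ[k] A :=
    MvPolynomial.aeval (Sum.elim (fun s : Σ i, J i => v s.1 s.2) (cfv (N2 D) F))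
  let E : (MvPolynomial ((Σ i, J i) ⊕ Cx J (N2 D)) k)[X] →ₐ[k] A[X] := Polynomial.mapAlgHom e
  have h1 := Pv_map Q E (xU D)
  have h2 : (fun s => E (xU D s)) = pr (fun i j => C (v i j)) F := by
    funext s
    rcases s with ⟨i, j⟩ | ⟨i, j⟩
    · change (C (MvPolynomial.X (Sum.inl ⟨i, j⟩)) : (MvPolynomial ((Σ i, J i) ⊕ Cx J (N2 D)) k)[X]).map
        (e : MvPolynomial ((Σ i, J i) ⊕ Cx J (N2 D)) k →+* A) = _
      rw [map_C]
      change C (e (MvPolynomial.X _)) = _
      simp only [e, MvPolynomial.aeval_X]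
      rfl
    · change (tup (N2 D) (fun z => (MvPolynomial.X (Sum.inr z) :
        MvPolynomial ((Σ i, J i) ⊕ Cx J (N2 D)) k)) i j).map (e : MvPolynomial ((Σ i, J i) ⊕ Cx J (N2 D)) k →+* A) = _
      rw [map_tup]
      have h3 : (fun z => (e : MvPolynomial ((Σ i, J i) ⊕ Cx J (N2 D)) k →+* A) (MvPolynomial.X (Sum.inr z) :
          MvPolynomial ((Σ i, J i) ⊕ Cx J (N2 D)) k)) = cfv (N2 D) F := by
        funext z
        change e (MvPolynomial.X _) = _
        simp only [e, MvPolynomial.aeval_X]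
        rfl
      rw [h3, tup_cfv _ hF]
      rfl
  rw [h2] at h1
  rw [← h1, coeff_map]
  change (Polynomial.map (e : MvPolynomial ((Σ i, J i) ⊕ Cx J (N2 D)) k →+* A) ((Pv Q (xU D)).coeff m)).coeff n = _
  rw [coeff_map]
  rfl

/-- **all conics of the family over `k`**: `Q(a, H₀(X); T)` is a product of linear factors with
quadratic roots. -/
theorem splits {P : Ideal (MvPolynomial (Cx J (N2 D)) k)}
    {Q : Polynomial (MvPolynomial (PIdx J) k)} (hE : (Ideal.span D.E).IsPrime)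
    (hne : ∃ v : ∀ i, J i → k, OnZ' D.E v) (hex : ExGenP (N2 D) P) (hmap : GenMapP D P)
    (htr : GenTrP D P) (hL : Lft2 D P Q) {a : ∀ i, J i → k} (ha : OnX D.E a)
    {H₀ : ∀ i, J i → k[X]} (hH₀ : InC (N2 D) P H₀)
    (hne0 : Pv Q (pr (fun i j => C (a i j)) H₀) ≠ 0) :
    SplitsLE 2 (Pv Q (pr (fun i j => C (a i j)) H₀)) := by
  obtain ⟨F₀, _, _, i1, i2, i3, x₀, hx, hx0, hxt, hxa⟩ := Gpt_33.exists_gen_pt D hE hne k
  have hi : i2 = i1 := by
    refine Algebra.algebra_ext _ _ fun r => ?_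
    exact (@IsScalarTower.algebraMap_apply k k F₀ _ _ _ (Algebra.id k) i2 i1 i3 r).symm
  subst hi
  obtain ⟨k', _, _, _, _, _, H, hH, hHa⟩ := hex F₀
  obtain ⟨hHm, hHc, -⟩ := hmap F₀ k' H hH
  have hHt := htr F₀ k' H hH
  have hHcon : Con D (FC D P) H := ⟨hHm, hHc, Gp_169.inC_of_gen hH⟩
  obtain ⟨L, _, _, _, u, hu, hua⟩ := exists_trans k'
  let _ : Algebra k L := ((algebraMap k' L).comp (algebraMap k k')).toAlgebra
  let _ : Algebra F₀ L := ((algebraMap k' L).comp (algebraMap F₀ k')).toAlgebra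
  have t1 : IsScalarTower k k' L := IsScalarTower.of_algebraMap_eq fun _ => rfl
  have t2 : IsScalarTower F₀ k' L := IsScalarTower.of_algebraMap_eq fun _ => rfl
  have t3 : IsScalarTower k F₀ L := IsScalarTower.of_algebraMap_eq fun r => by
    change algebraMap k' L (algebraMap k k' r) = algebraMap k' L (algebraMap F₀ k' _)
    rw [← IsScalarTower.algebraMap_apply k F₀ k']
  obtain ⟨hL1, hL2⟩ := hL F₀ k' L x₀ H u hx hx0 hxt hxa hHcon hHt hHa hu hua
  -- the generic polynomial
  set Q1 : k'[X][X] := Pv Q (pr (fun i j => C (algebraMap F₀ k' (x₀ i j))) H) with hQ1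
  let j : k'[X] →ₐ[k] L := (Polynomial.aeval u : k'[X] →ₐ[k'] L).restrictScalars k
  have hjinj : Function.Injective (j : k'[X] →+* L) := by
    have := transcendental_iff_injective.1 hu
    exact this
  have hQ1map : Q1.map (j : k'[X] →+* L) = Pv Q (pr (up L x₀) (at' H u)) := by
    rw [hQ1, Pv_map]
    congr 1
    funext s
    rcases s with s | s
    · change aeval u (C (algebraMap F₀ k' (x₀ s.1 s.2))) = _
      rw [aeval_C, ← IsScalarTower.algebraMap_apply]
      rfl
    · rfl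
  have hQ1s : SplitsLE 2 Q1 := by
    refine SplitsLE.of_roots (j : k'[X] →+* L) hjinj 2 Q1 (fun h0 => hL1 ?_) fun r hr => ?_
    · rw [← hQ1map, h0, Polynomial.map_zero]
    · rw [← eval_map, hQ1map] at hr
      exact hL2 r hr
  obtain ⟨V, hVk, hV⟩ := exists_val D hE ⟨hx, hx0⟩ hxt hH ha hH₀
  refine SplitsLE.spec_alg V hVk 2 Q1 _ (fun m n => ?_) hQ1s hne0
  rw [hQ1, coeff_univ D Q _ (hH.deg) m n, coeff_univ D Q _ (hH₀.deg) m n]
  exact hV _

end Crest.Agent.R260.Fin11_600
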