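import Crest.Agent.R260.FinDefs_600
import Crest.Agent.R260.Fin5_600
import Crest.Agent.R260.Irr3_33
import Crest.Agent.R260.QuadDefs_517

/-!
Row 260 (S0398), AG-FINAL: the prime ideal `qp E` of the pairs of points of the cone and its generic
pairs.
-/

set_option autoImplicit false
set_option linter.unusedSectionVars false

namespace Crest.Agent.R260.Fin6_600

open MvPolynomial Crest.Agent.R270.BM_360 Crest.Agent.R260.Lin_678 Crest.Agent.R260.Fin_600
open Crest.Agent.R260.Fin5_600 Crest.Agent.R260.QuadDefs_517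

universe u v w

/-- **points over an algebraically closed field**. -/
theorem exists_pt {k : Type u} [Field k] [IsAlgClosed k] {σ : Type} [Finite σ] {L : Type v}
    [Field L] [Algebra k L] (x : σ → L) (g : MvPolynomial σ k) (hg : aeval x g ≠ 0) :
    ∃ x' : σ → k, (∀ p : MvPolynomial σ k, aeval x p = 0 → aeval x' p = 0) ∧ aeval x' g ≠ 0 := by
  have hP : (RingHom.ker (aeval x : MvPolynomial σ k →ₐ[k] L).toRingHom).IsPrime :=
    RingHom.ker_isPrime _
  have hg' : g ∉ RingHom.ker (aeval x : MvPolynomial σ k →ₐ[k] L).toRingHom := hg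
  obtain ⟨x', h1, h2⟩ := Irr_33.exists_point hP hg'
  have he : ∀ p : MvPolynomial σ k, eval x' p = aeval x' p := fun p => by
    rw [aeval_def, Algebra.algebraMap_self, eval₂_id]
  exact ⟨x', fun p hp => by rw [← he]; exact h1 p hp, by rwa [← he]⟩

variable {I : Type} {J : I → Type} [Fintype I] [∀ i, Fintype (J i)] {k : Type u} [Field k]

/-- a point of the cone with non-zero blocks -/
def OnZ' (E : Set (MvPolynomial (Σ i, J i) k)) {A : Type*} [CommRing A] [Algebra k A]
    (v : ∀ i, J i → A) : Prop := OnX E v ∧ ∀ i, v i ≠ 0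

/-- the ideal of the pairs of points of the cone -/
def qp (E : Set (MvPolynomial (Σ i, J i) k)) : Ideal (MvPolynomial (PIdx J) k) where
  carrier := {p | ∀ v w : ∀ i, J i → k, OnZ' E v → OnZ' E w → aeval (pr v w) p = 0}
  add_mem' := fun ha hb v w hv hw => by rw [map_add, ha v w hv hw, hb v w hv hw, add_zero]
  zero_mem' := fun v w _ _ => map_zero _
  smul_mem' := fun a b hb v w hv hw => by
    rw [smul_eq_mul, map_mul, hb v w hv hw, mul_zero]

theorem mem_qp {E : Set (MvPolynomial (Σ i, J i) k)} {p : MvPolynomial (PIdx J) k} :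
    p ∈ qp E ↔ ∀ v w : ∀ i, J i → k, OnZ' E v → OnZ' E w → aeval (pr v w) p = 0 := Iff.rfl

/-- evaluation of the first half of the variables -/
noncomputable def evL {A : Type*} [CommRing A] [Algebra k A] (v : ∀ i, J i → A) :
    MvPolynomial (PIdx J) k →ₐ[k] MvPolynomial (Σ i, J i) A :=
  aeval (Sum.elim (fun s => C (v s.1 s.2)) X)

/-- evaluation of the second half of the variables -/
noncomputable def evR {A : Type*} [CommRing A] [Algebra k A] (v : ∀ i, J i → A) :
    MvPolynomial (PIdx J) k →ₐ[k] MvPolynomial (Σ i, J i) A :=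
  aeval (Sum.elim X (fun s => C (v s.1 s.2)))

theorem aeval_evL {A B : Type*} [CommRing A] [Algebra k A] [CommRing B] [Algebra k B] [Algebra A B]
    [IsScalarTower k A B] (v : ∀ i, J i → A) (w : ∀ i, J i → B) (p : MvPolynomial (PIdx J) k) :
    aeval (fun x : Σ i, J i => w x.1 x.2) (evL v p) =
      aeval (pr (fun i a => algebraMap A B (v i a)) w) p := by
  have h : ((aeval (fun x : Σ i, J i => w x.1 x.2) : MvPolynomial (Σ i, J i) A →ₐ[A] B).restrictScalars
      k).comp (evL v) = (aeval (pr (fun i a => algebraMap A B (v i a)) w) :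
      MvPolynomial (PIdx J) k →ₐ[k] B) := by
    refine algHom_ext fun x => ?_
    rcases x with x | x
    · simp [evL, pr]
    · simp [evL, pr]
  exact DFunLike.congr_fun h p

theorem aeval_evR {A B : Type*} [CommRing A] [Algebra k A] [CommRing B] [Algebra k B] [Algebra A B]
    [IsScalarTower k A B] (v : ∀ i, J i → A) (w : ∀ i, J i → B) (p : MvPolynomial (PIdx J) k) :
    aeval (fun x : Σ i, J i => w x.1 x.2) (evR v p) =
      aeval (pr w (fun i a => algebraMap A B (v i a))) p := by
  have h : ((aeval (fun x : Σ i, J i => w x.1 x.2) : MvPolynomial (Σ i, J i) A →ₐ[A] B).restrictScalars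
      k).comp (evR v) = (aeval (pr w (fun i a => algebraMap A B (v i a))) :
      MvPolynomial (PIdx J) k →ₐ[k] B) := by
    refine algHom_ext fun x => ?_
    rcases x with x | x
    · simp [evR, pr]
    · simp [evR, pr]
  exact DFunLike.congr_fun h p

theorem onX_map {E : Set (MvPolynomial (Σ i, J i) k)} {A B : Type*} [CommRing A] [Algebra k A]
    [CommRing B] [Algebra k B] [Algebra A B] [IsScalarTower k A B] {v : ∀ i, J i → A}
    (h : OnX E v) : OnX E (fun i a => algebraMap A B (v i a)) := by
  intro p hp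
  have h1 := congrArg (algebraMap A B) (h p hp)
  rw [map_zero, ← MvPolynomial.aeval_algebraMap_apply] at h1
  exact h1

theorem blk_map {A B : Type*} [Field A] [Field B] [Algebra A B] {v : ∀ i, J i → A}
    (h : ∀ i, v i ≠ 0) : ∀ i, (fun a => algebraMap A B (v i a)) ≠ 0 := by
  intro i h0
  refine h i (funext fun a => ?_)
  have := congrFun h0 a
  rwa [Pi.zero_apply, map_eq_zero] at this

theorem OnZ'.map {E : Set (MvPolynomial (Σ i, J i) k)} {A B : Type*} [Field A] [Algebra k A]
    [Field B] [Algebra k B] [Algebra A B] [IsScalarTower k A B] {v : ∀ i, J i → A}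
    (h : OnZ' E v) : OnZ' E (fun i a => algebraMap A B (v i a)) :=
  ⟨onX_map h.1, blk_map h.2⟩

/-- pairs over fields come from pairs over `k`. -/
theorem qp_field [IsAlgClosed k] {E : Set (MvPolynomial (Σ i, J i) k)} {L : Type v} [Field L]
    [Algebra k L] {v w : ∀ i, J i → L} (hv : OnZ' E v) (hw : OnZ' E w)
    {p : MvPolynomial (PIdx J) k} (hp : p ∈ qp E) : aeval (pr v w) p = 0 := by
  classical
  by_contra hcon
  have h1 : ∀ i, ∃ a, v i a ≠ 0 := fun i => by
    by_contra h0; push Not at h0; exact hv.2 i (funext h0)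
  have h2 : ∀ i, ∃ a, w i a ≠ 0 := fun i => by
    by_contra h0; push Not at h0; exact hw.2 i (funext h0)
  choose a ha using h1
  choose b hb using h2
  obtain ⟨x', h3, h4⟩ := exists_pt (pr v w) (p * ((∏ i, X (Sum.inl ⟨i, a i⟩)) *
    ∏ i, X (Sum.inr ⟨i, b i⟩))) (by
      rw [map_mul, map_mul, map_prod, map_prod]
      refine mul_ne_zero hcon (mul_ne_zero ?_ ?_)
      · refine Finset.prod_ne_zero_iff.2 fun i _ => ?_
        rw [aeval_X]; exact ha i
      · refine Finset.prod_ne_zero_iff.2 fun i _ => ?_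
        rw [aeval_X]; exact hb i)
  rw [map_mul, map_mul, map_prod, map_prod] at h4
  have h5 := left_ne_zero_of_mul h4
  have h6 := left_ne_zero_of_mul (right_ne_zero_of_mul h4)
  have h7 := right_ne_zero_of_mul (right_ne_zero_of_mul h4)
  rw [Finset.prod_ne_zero_iff] at h6 h7
  have hx : pr (fun i a => x' (Sum.inl ⟨i, a⟩)) (fun i a => x' (Sum.inr ⟨i, a⟩)) = x' := by
    funext s
    rcases s with s | s <;> rfl
  apply h5
  rw [← hx]
  refine hp _ _ ⟨fun e he => ?_, fun i h0 => ?_⟩ ⟨fun e he => ?_, fun i h0 => ?_⟩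
  · have h8 := h3 (rename Sum.inl e) (by
      rw [aeval_rename]
      exact hv.1 e he)
    rw [aeval_rename] at h8
    exact h8
  · have := h6 i (Finset.mem_univ i)
    rw [aeval_X] at this
    exact this (congrFun h0 (a i))
  · have h8 := h3 (rename Sum.inr e) (by
      rw [aeval_rename]
      exact hw.1 e he)
    rw [aeval_rename] at h8
    exact h8
  · have := h7 i (Finset.mem_univ i)
    rw [aeval_X] at this
    exact this (congrFun h0 (b i))

variable [IsAlgClosed k] [CharZero k]

/-- **generic pairs are generic for `qp`**. -/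
theorem gnr_pair (D : CData k I J) (hP : (Ideal.span D.E).IsPrime) {F L : Type u} [Field F]
    [Field L] [Algebra k F] [Algebra k L] [Algebra F L] [IsScalarTower k F L]
    {x : ∀ i, J i → F} (hx : OnZ' D.E x) (hxt : TrGe k (ent x) (nn D))
    {y : ∀ i, J i → L} (hy : OnZ' D.E y) (hyt : TrGe F (ent y) (nn D)) :
    Gnr (qp D.E) (pr (up L x) y) := by
  intro p
  constructor
  · intro hp v w hv hw
    have h1 : aeval (fun s : Σ i, J i => y s.1 s.2) (evL x p) = 0 := by
      rw [aeval_evL]; exact hp
    have h2 := Irr_33.specialise hP (fun K _ _ g hg hg0 => (D.tan_dim K g hg hg0).le) hy.1 hy.2 hyt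
      (A := F) (y := fun i a => algebraMap k F (w i a)) (onX_map hw.1) _ h1
    have h2' : aeval (pr x (fun i a => algebraMap k F (w i a))) p = 0 := by
      rw [← h2]
      exact (aeval_evL (B := F) x (fun i a => algebraMap k F (w i a)) p).symm
    have h3 : aeval (fun s : Σ i, J i => x s.1 s.2) (evR w p) = 0 := by
      rw [aeval_evR]; exact h2'
    have h4 := Irr_33.specialise hP (fun K _ _ g hg hg0 => (D.tan_dim K g hg hg0).le) hx.1 hx.2 hxt
      (A := k) (y := v) hv.1 _ h3
    rw [aeval_evR] at h4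
    exact h4
  · intro hp
    exact qp_field hx.map hy hp

/-- swapping the points of a pair -/
noncomputable def swp : MvPolynomial (PIdx J) k →ₐ[k] MvPolynomial (PIdx J) k := rename Sum.swap

theorem aeval_swp {A : Type*} [CommRing A] [Algebra k A] (v w : ∀ i, J i → A)
    (p : MvPolynomial (PIdx J) k) : aeval (pr v w) (swp p) = aeval (pr w v) p := by
  unfold swp
  rw [aeval_rename]
  congr 1
  congr 1
  funext s
  rcases s with s | s <;> rfl

theorem swp_swp (p : MvPolynomial (PIdx J) k) : swp (swp p) = p := by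
  unfold swp
  rw [rename_rename, Sum.swap_swap_eq, rename_id_apply]

theorem swp_mem {E : Set (MvPolynomial (Σ i, J i) k)} {p : MvPolynomial (PIdx J) k} :
    swp p ∈ qp E ↔ p ∈ qp E := by
  constructor
  · intro h v w hv hw
    have := h w v hw hv
    rwa [aeval_swp] at this
  · intro h v w hv hw
    rw [aeval_swp]
    exact h w v hw hv

theorem gnr_swap {E : Set (MvPolynomial (Σ i, J i) k)} {A : Type*} [CommRing A] [Algebra k A]
    {v w : ∀ i, J i → A} (h : Gnr (qp E) (pr v w)) : Gnr (qp E) (pr w v) := by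
  intro p
  rw [← swp_mem, ← h, aeval_swp]

/-- scalings of `PIdx` by blocks -/
abbrev pb : PIdx J → I ⊕ I := Sum.map Sigma.fst Sigma.fst

/-- multihomogeneous sets of equations are preserved by scalings -/
theorem onX_smul {E : Set (MvPolynomial (Σ i, J i) k)} (hE : MHom E) {A : Type*} [CommRing A]
    [Algebra k A] (l : I → A) {v : ∀ i, J i → A} (h : OnX E v) :
    OnX E (fun i a => l i * v i a) := by
  classical
  intro p hp
  obtain ⟨d, hd⟩ := hE p hp
  have key : aeval (fun x : Σ i, J i => l x.1 * v x.1 x.2) p =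
      (∏ i, l i ^ d i) * aeval (fun x : Σ i, J i => v x.1 x.2) p := by
    rw [aeval_def, aeval_def, eval₂_eq, eval₂_eq, Finset.mul_sum]
    refine Finset.sum_congr rfl fun m hm => ?_
    have h1 : ∏ s ∈ m.support, (l s.1 * v s.1 s.2) ^ m s =
        (∏ s ∈ m.support, l s.1 ^ m s) * ∏ s ∈ m.support, (v s.1 s.2) ^ m s := by
      rw [← Finset.prod_mul_distrib]
      exact Finset.prod_congr rfl fun s _ => mul_pow _ _ _
    have h2 : ∏ s ∈ m.support, l s.1 ^ m s = ∏ i, l i ^ d i := by
      have h3 := hd (mem_support_iff.1 hm)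
      have h4 : ∀ i, d i = ∑ a, m ⟨i, a⟩ := by
        intro i
        rw [← h3, Finsupp.weight_apply, Finsupp.sum_fintype _ _ (fun _ => by simp)]
        rw [Finset.sum_apply, Fintype.sum_sigma, Finset.sum_eq_single i]
        · refine Finset.sum_congr rfl fun a _ => ?_
          simp
        · intro j _ hj
          refine Finset.sum_eq_zero fun a _ => ?_
          simp [Ne.symm hj]
        · intro h; exact absurd (Finset.mem_univ i) h
      have h5 : ∏ s ∈ m.support, l s.1 ^ m s = ∏ s : (Σ i, J i), l s.1 ^ m s := by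
        refine Finset.prod_subset (Finset.subset_univ _) fun s _ hs => ?_
        rw [Finsupp.notMem_support_iff.1 hs, pow_zero]
      rw [h5, Fintype.prod_sigma]
      refine Finset.prod_congr rfl fun i _ => ?_
      rw [h4, ← Finset.prod_pow_eq_pow_sum]
    rw [h1, h2]
    ring
  rw [key, h p hp, mul_zero]

theorem OnZ'.smul {E : Set (MvPolynomial (Σ i, J i) k)} (hE : MHom E) {A : Type*} [Field A]
    [Algebra k A] {l : I → A} (hl : ∀ i, l i ≠ 0) {v : ∀ i, J i → A} (h : OnZ' E v) :
    OnZ' E (fun i a => l i * v i a) := by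
  refine ⟨onX_smul hE l h.1, fun i h0 => h.2 i (funext fun a => ?_)⟩
  have := congrFun h0 a
  exact (mul_eq_zero.1 this).resolve_left (hl i)

theorem sc_pr {A : Type*} [Mul A] (l : I ⊕ I → A) (v w : ∀ i, J i → A) :
    sc pb l (pr v w) = pr (fun i a => l (Sum.inl i) * v i a) (fun i a => l (Sum.inr i) * w i a) := by
  funext s
  rcases s with s | s <;> rfl

theorem qp_inv (D : CData k I J) (l : I ⊕ I → k) (hl : ∀ i, l i ≠ 0) (p : MvPolynomial (PIdx J) k)
    (hp : p ∈ qp D.E) :
    aeval (fun s : PIdx J => C (l (pb s)) * X s) p ∈ qp D.E := by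
  intro v w hv hw
  have h1 : aeval (pr v w) (aeval (fun s : PIdx J => (C (l (pb s)) * X s : MvPolynomial (PIdx J) k))
      p) = aeval (sc pb l (pr v w)) p := by
    have h2 : ((aeval (pr v w) : MvPolynomial (PIdx J) k →ₐ[k] k).comp
        (aeval (fun s : PIdx J => (C (l (pb s)) * X s : MvPolynomial (PIdx J) k)))) =
        (aeval (sc pb l (pr v w)) : MvPolynomial (PIdx J) k →ₐ[k] k) := by
      refine algHom_ext fun x => ?_
      rw [AlgHom.comp_apply, aeval_X, map_mul, aeval_X, aeval_X]
      simp [sc]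
    exact DFunLike.congr_fun h2 p
  rw [h1, sc_pr]
  exact hp _ _ (hv.smul D.hom fun i => hl _) (hw.smul D.hom fun i => hl _)

/-- scaling a generic pair by elements of `k` -/
theorem gnr_sc (D : CData k I J) {A : Type*} [CommRing A] [Algebra k A] {x : PIdx J → A}
    (hx : Gnr (qp D.E) x) (l : I ⊕ I → k) (hl : ∀ i, l i ≠ 0) :
    Gnr (qp D.E) (sc pb (fun i => algebraMap k A (l i)) x) := by
  have key : ∀ (l : I ⊕ I → k) (x : PIdx J → A) (p : MvPolynomial (PIdx J) k),
      aeval (sc pb (fun i => algebraMap k A (l i)) x) p =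
      aeval x (aeval (fun s : PIdx J => (C (l (pb s)) * X s : MvPolynomial (PIdx J) k)) p) := by
    intro l x p
    have h2 : ((aeval x : MvPolynomial (PIdx J) k →ₐ[k] A).comp
        (aeval (fun s : PIdx J => (C (l (pb s)) * X s : MvPolynomial (PIdx J) k)))) =
        (aeval (sc pb (fun i => algebraMap k A (l i)) x) : MvPolynomial (PIdx J) k →ₐ[k] A) := by
      refine algHom_ext fun x => ?_
      rw [AlgHom.comp_apply, aeval_X, map_mul, aeval_X, aeval_X]
      simp [sc]
    exact (DFunLike.congr_fun h2 p).symm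
  intro p
  rw [key, hx]
  constructor
  · intro h
    have h1 := qp_inv D (fun i => (l i)⁻¹) (fun i => inv_ne_zero (hl i)) _ h
    have h2 : aeval (fun s : PIdx J => (C ((l (pb s))⁻¹) * X s : MvPolynomial (PIdx J) k))
        (aeval (fun s : PIdx J => (C (l (pb s)) * X s : MvPolynomial (PIdx J) k)) p) = p := by
      have h3 : ((aeval (fun s : PIdx J => (C ((l (pb s))⁻¹) * X s : MvPolynomial (PIdx J) k)) :
          MvPolynomial (PIdx J) k →ₐ[k] MvPolynomial (PIdx J) k).comp
          (aeval (fun s : PIdx J => (C (l (pb s)) * X s : MvPolynomial (PIdx J) k)))) =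
          AlgHom.id k _ := by
        refine algHom_ext fun x => ?_
        rw [AlgHom.comp_apply, aeval_X, map_mul, aeval_X, ← algebraMap_eq, AlgHom.commutes,
          algebraMap_eq, ← mul_assoc, ← C_mul, mul_inv_cancel₀ (hl _), C_1, one_mul]
        rfl
      exact DFunLike.congr_fun h3 p
    rwa [h2] at h1
  · intro h
    exact qp_inv D l hl p h

end Crest.Agent.R260.Fin6_600
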