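import Crest.Agent.R260.FamDefs_919

/-!
Row 260 (S0398), AG-FINAL: tuples of bounded degree and Bezout cofactors of bounded degree.
-/

set_option autoImplicit false
set_option linter.unusedSectionVars false

namespace Crest.Agent.R260.Fin7_600

open Polynomial Crest.Agent.R270.BM_360 Crest.Agent.R260.Lin_678 Crest.Agent.R260.Fam_919

universe u v w

/-- **Bezout cofactors of bounded degree**. -/
theorem bezout_bound {K : Type u} [Field K] {T : Type} [Fintype T] (f : T → K[X]) (N : ℕ)
    (hN : ∀ t, (f t).natDegree ≤ N) (hf : Cop f) :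
    ∃ g : T → K[X], (∀ t, (g t).natDegree ≤ N) ∧ ∑ t, g t * f t = 1 := by
  classical
  have h1 : (1 : K[X]) ∈ Ideal.span (Set.range f) := by
    have : Ideal.span (Set.range f) = ⊤ := hf
    rw [this]; exact Submodule.mem_top
  obtain ⟨g, hg⟩ := Ideal.mem_span_range_iff_exists_fun.1 h1
  have h2 : ∃ t₀, f t₀ ≠ 0 := by
    by_contra hcon
    push Not at hcon
    rw [Finset.sum_eq_zero (fun t _ => by rw [hcon t, mul_zero])] at hg
    exact zero_ne_one hg
  obtain ⟨t₀, ht₀⟩ := h2
  set h := f t₀ with hh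
  let g0 : K[X] := g t₀ + ∑ t ∈ Finset.univ.erase t₀, (g t / h) * f t
  have hsum : g0 * h + ∑ t ∈ Finset.univ.erase t₀, (g t % h) * f t = 1 := by
    have h3 : ∀ t, g t = h * (g t / h) + g t % h := fun t => (EuclideanDomain.div_add_mod _ _).symm
    rw [← hg, ← Finset.add_sum_erase Finset.univ _ (Finset.mem_univ t₀), ← hh]
    have h4 : ∑ t ∈ Finset.univ.erase t₀, g t * f t =
        (∑ t ∈ Finset.univ.erase t₀, (g t / h) * f t) * h +
          ∑ t ∈ Finset.univ.erase t₀, (g t % h) * f t := by
      rw [Finset.sum_mul, ← Finset.sum_add_distrib]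
      refine Finset.sum_congr rfl fun t _ => ?_
      conv_lhs => rw [h3 t]
      ring
    rw [h4]
    ring
  have hmod : ∀ t, (g t % h).natDegree ≤ h.natDegree := fun t =>
    natDegree_le_natDegree (EuclideanDomain.mod_lt (g t) ht₀).le
  refine ⟨fun t => if t = t₀ then g0 else g t % h, fun t => ?_, ?_⟩
  · by_cases ht : t = t₀
    · simp only [ht, if_true]
      by_cases h0 : g0 = 0
      · rw [h0]; simp
      · have h5 : g0 * h = 1 - ∑ t ∈ Finset.univ.erase t₀, (g t % h) * f t := by
          rw [← hsum]; ring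
        have h6 : (g0 * h).natDegree ≤ h.natDegree + N := by
          rw [h5]
          refine (natDegree_sub_le _ _).trans (max_le (by simp) ?_)
          refine natDegree_sum_le_of_forall_le _ _ fun t _ => ?_
          exact (natDegree_mul_le).trans (Nat.add_le_add (hmod t) (hN t))
        rw [natDegree_mul h0 ht₀] at h6
        omega
    · simp only [ht, if_false]
      exact (hmod t).trans (hN t₀)
  · rw [← Finset.add_sum_erase Finset.univ _ (Finset.mem_univ t₀)]
    simp only [if_true]
    rw [← hsum, ← hh]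
    congr 1
    refine Finset.sum_congr rfl fun t ht => ?_
    rw [if_neg (Finset.ne_of_mem_erase ht)]

variable {I : Type} {J : I → Type} [Fintype I] [∀ i, Fintype (J i)]

/-- the tuple with given coefficients -/
noncomputable def tup {A : Type v} [CommRing A] (N : I → ℕ) (c : Cx J N → A) : ∀ i, J i → A[X] :=
  fun i j => ∑ n : Fin (N i + 1), C (c ⟨⟨i, j⟩, n⟩) * X ^ (n : ℕ)

theorem coeff_tup {A : Type v} [CommRing A] (N : I → ℕ) (c : Cx J N → A) (i : I) (j : J i)
    (n : ℕ) : (tup N c i j).coeff n = if h : n < N i + 1 then c ⟨⟨i, j⟩, ⟨n, h⟩⟩ else 0 := by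
  classical
  unfold tup
  rw [finsetSum_coeff]
  simp only [coeff_C_mul, coeff_X_pow]
  split_ifs with h
  · rw [Finset.sum_eq_single (⟨n, h⟩ : Fin (N i + 1))]
    · simp
    · intro b _ hb
      have : n ≠ (b : ℕ) := fun h' => hb (Fin.ext h'.symm)
      simp [this]
    · intro h'; exact absurd (Finset.mem_univ _) h'
  · refine Finset.sum_eq_zero fun b _ => ?_
    have : n ≠ (b : ℕ) := fun h' => h (by rw [h']; exact b.2)
    simp [this]

theorem natDegree_tup {A : Type v} [CommRing A] (N : I → ℕ) (c : Cx J N → A) (i : I) (j : J i) :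
    (tup N c i j).natDegree ≤ N i := by
  rw [natDegree_le_iff_coeff_eq_zero]
  intro n hn
  rw [coeff_tup, dif_neg (by omega)]

theorem cfv_tup {A : Type v} [CommRing A] (N : I → ℕ) (c : Cx J N → A) : cfv N (tup N c) = c := by
  funext y
  obtain ⟨⟨i, j⟩, n⟩ := y
  unfold cfv
  rw [coeff_tup, dif_pos n.2]

theorem tup_cfv {A : Type v} [CommRing A] (N : I → ℕ) {F : ∀ i, J i → A[X]}
    (hF : ∀ i j, (F i j).natDegree ≤ N i) : tup N (cfv N F) = F := by
  funext i j
  ext n
  rw [coeff_tup]
  split_ifs with h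
  · rfl
  · exact (coeff_eq_zero_of_natDegree_lt ((hF i j).trans_lt (by omega))).symm

theorem map_tup {A : Type v} {B : Type w} [CommRing A] [CommRing B] (e : A →+* B) (N : I → ℕ)
    (c : Cx J N → A) (i : I) (j : J i) : (tup N c i j).map e = tup N (fun y => e (c y)) i j := by
  ext n
  rw [coeff_map, coeff_tup, coeff_tup]
  split_ifs <;> simp

/-- the fibre variables of the family of conics with end data -/
inductive BV (J : I → Type) (N : I → ℕ) : Type
  /-- coefficients of the tuple -/
  | f (y : Cx J N) : BV J N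
  /-- coefficients of the cofactors -/
  | g (y : Cx J N) : BV J N
  /-- scalars at infinity -/
  | a (i : I) : BV J N
  /-- their inverses -/
  | a' (i : I) : BV J N
  /-- scalars at zero -/
  | b (i : I) : BV J N
  /-- their inverses -/
  | b' (i : I) : BV J N
  /-- contact constant -/
  | c : BV J N

/-- `BV` as a sum -/
def BV.toSum {N : I → ℕ} : BV J N → (Cx J N ⊕ Cx J N) ⊕ ((I ⊕ I) ⊕ (I ⊕ I)) ⊕ Unit
  | .f y => Sum.inl (Sum.inl y)
  | .g y => Sum.inl (Sum.inr y)
  | .a i => Sum.inr (Sum.inl (Sum.inl (Sum.inl i)))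
  | .a' i => Sum.inr (Sum.inl (Sum.inl (Sum.inr i)))
  | .b i => Sum.inr (Sum.inl (Sum.inr (Sum.inl i)))
  | .b' i => Sum.inr (Sum.inl (Sum.inr (Sum.inr i)))
  | .c => Sum.inr (Sum.inr ())

instance {N : I → ℕ} : Finite (BV J N) := by
  refine Finite.of_injective BV.toSum fun x y h => ?_
  cases x <;> cases y <;> simp_all [BV.toSum]

/-- a power with integral exponent, the inverse given separately -/
def zp {A : Type v} [CommRing A] (w : ℤ) (a a' : A) : A := a ^ w.toNat * a' ^ (-w).toNat

theorem zp_eq {K : Type v} [Field K] (w : ℤ) {a a' : K} (h : a * a' = 1) : zp w a a' = a ^ w := by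
  have ha : a ≠ 0 := left_ne_zero_of_mul_eq_one h
  have h2 : a' = a⁻¹ := eq_inv_of_mul_eq_one_right h
  unfold zp
  rw [h2, inv_pow, ← div_eq_mul_inv, ← zpow_natCast, ← zpow_natCast, ← zpow_sub₀ ha]
  congr 1
  omega

theorem map_zp {A : Type v} {B : Type w} [CommRing A] [CommRing B] (e : A →+* B) (n : ℤ)
    (a a' : A) : e (zp n a a') = zp n (e a) (e a') := by
  unfold zp
  rw [map_mul, map_pow, map_pow]

end Crest.Agent.R260.Fin7_600
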