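import Crest.Agent.R260.Fin1_600
import Crest.Agent.R260.Fin6_600
import Crest.Agent.R260.Fin7_600
import Crest.Agent.R260.Alg3_661

/-!
Row 260 (S0398), AG-FINAL: the polynomial `P` whose roots are the numbers `Φ` of the conics of the
family (PHI-POLY for the family of conics with end data).
-/

set_option autoImplicit false
set_option linter.unusedSectionVars false

namespace Crest.Agent.R260.Fin8_600

open Polynomial Crest.Agent.R270.BM_360 Crest.Agent.R260.Lin_678 Crest.Agent.R260.Fam_919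
open Crest.Agent.R260.Fin_600 Crest.Agent.R260.Fin5_600 Crest.Agent.R260.Fin6_600
open Crest.Agent.R260.Fin7_600 Crest.Agent.R260.QuadDefs_517

universe u v w

variable {I : Type} {J : I → Type} [Fintype I] [∀ i, Fintype (J i)] {k : Type u} [Field k]

/-- the first point of a pair -/
def fst {A : Type*} (x : PIdx J → A) : ∀ i, J i → A := fun i j => x (Sum.inl ⟨i, j⟩)

/-- the second point of a pair -/
def snd {A : Type*} (x : PIdx J → A) : ∀ i, J i → A := fun i j => x (Sum.inr ⟨i, j⟩)

theorem pr_fst_snd {A : Type*} (x : PIdx J → A) : pr (fst x) (snd x) = x := by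
  funext s
  rcases s with s | s <;> rfl

theorem den_map {A B : Type*} [CommRing A] [CommRing B] (e : A →+* B) (c : ∀ i, J i)
    (v : ∀ i, J i → A) : e (den c v) = den c (fun i a => e (v i a)) := by
  unfold den
  rw [map_prod]

theorem form_map {A B : Type*} [CommRing A] [Algebra k A] [CommRing B] [Algebra k B] (e : A →ₐ[k] B)
    (p : (Σ i, J i) → MvPolynomial (Σ i, J i) k) (v t : ∀ i, J i → A) :
    e (form p v t) = form p (fun i a => e (v i a)) (fun i a => e (t i a)) := by
  unfold form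
  rw [map_sum]
  refine Finset.sum_congr rfl fun x _ => ?_
  rw [map_mul, ← MvPolynomial.comp_aeval_apply]

variable (D : CData k I J)

/-- degrees of the conics -/
abbrev N2 : I → ℕ := fun i => 2 * D.β i

/-- total ring of the family -/
abbrev RR : Type u := MvPolynomial (PIdx J ⊕ BV J (N2 D)) k

variable {D}

/-- fibre variable -/
noncomputable def vb (v : BV J (N2 D)) : RR D := MvPolynomial.X (Sum.inr v)

/-- base variable -/
noncomputable def va (s : PIdx J) : RR D := MvPolynomial.X (Sum.inl s)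

variable (D)

/-- universal tuple -/
noncomputable def fU : ∀ i, J i → (RR D)[X] := tup (N2 D) (fun y => vb (.f y))

/-- universal cofactors -/
noncomputable def gU : ∀ i, J i → (RR D)[X] := tup (N2 D) (fun y => vb (.g y))

/-- equation of the contact constant -/
noncomputable def zval (ch : ∀ i, J i) : (RR D)[X] :=
  den ch (fU D) ^ D.th.N * C (vb .c) - form (D.th.p ch) (fU D) (fun i a => derivative (fU D i a))

/-- the equations in the universal tuple -/
inductive ZP : (RR D)[X] → Prop
  | val (ch : ∀ i, J i) : ZP (zval D ch)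
  | bez (i : I) : ZP (∑ j, gU D i j * fU D i j - 1)
  | ia (i : I) : ZP (C (vb (.a i) * vb (.a' i) - 1))
  | ib (i : I) : ZP (C (vb (.b i) * vb (.b' i) - 1))
  | top (i : I) (j : J i) : ZP (C ((fU D i j).coeff (N2 D i) - vb (.a i) * va (Sum.inl ⟨i, j⟩)))
  | bot (i : I) (j : J i) : ZP (C ((fU D i j).coeff 0 - vb (.b i) * va (Sum.inr ⟨i, j⟩)))

/-- the system of equations -/
def Sys (P : Ideal (MvPolynomial (Cx J (N2 D)) k)) : Set (RR D) :=
  {s | ∃ q, ZP D q ∧ ∃ n : ℕ, s = q.coeff n} ∪
    {s | ∃ p ∈ P, s = MvPolynomial.rename (fun y => Sum.inr (BV.f y)) p}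

/-- the number `Φ` as a polynomial -/
noncomputable def phiU : RR D :=
  vb .c ^ 2 * (∏ i, zp (-D.w i) (vb (.a i)) (vb (.a' i))) *
    ∏ i, zp (-D.w i) (vb (.b i)) (vb (.b' i))

/-- point of the system over a field -/
structure PtS (P : Ideal (MvPolynomial (Cx J (N2 D)) k)) {K : Type u} [Field K] [Algebra k K]
    (x : PIdx J → K) (y : BV J (N2 D) → K) : Prop where
  inC : InC (N2 D) P (tup (N2 D) fun z => y (.f z))
  bez : ∀ i, ∑ j, tup (N2 D) (fun z => y (.g z)) i j * tup (N2 D) (fun z => y (.f z)) i j = 1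
  ia : ∀ i, y (.a i) * y (.a' i) = 1
  ib : ∀ i, y (.b i) * y (.b' i) = 1
  top : ∀ i j, (tup (N2 D) (fun z => y (.f z)) i j).coeff (N2 D i) = y (.a i) * x (Sum.inl ⟨i, j⟩)
  bot : ∀ i j, (tup (N2 D) (fun z => y (.f z)) i j).coeff 0 = y (.b i) * x (Sum.inr ⟨i, j⟩)
  val : D.th.Val (tup (N2 D) fun z => y (.f z))
    (fun i a => derivative (tup (N2 D) (fun z => y (.f z)) i a)) (C (y .c))

theorem sys_iff (P : Ideal (MvPolynomial (Cx J (N2 D)) k)) {K : Type u} [Field K] [Algebra k K]
    (x : PIdx J → K) (y : BV J (N2 D) → K) :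
    (∀ s ∈ Sys D P, MvPolynomial.aeval (Sum.elim x y) s = 0) ↔ PtS D P x y := by
  let e : RR D →ₐ[k] K := MvPolynomial.aeval (Sum.elim x y)
  let E : (RR D)[X] →ₐ[k] K[X] := Polynomial.mapAlgHom e
  have hE : ∀ q, E q = q.map (e : RR D →+* K) := fun q => rfl
  have hevb : ∀ v, e (vb v) = y v := fun v => by
    change MvPolynomial.aeval _ (MvPolynomial.X _) = _
    rw [MvPolynomial.aeval_X]; rfl
  have heva : ∀ v, e (va v) = x v := fun v => by
    change MvPolynomial.aeval _ (MvPolynomial.X _) = _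
    rw [MvPolynomial.aeval_X]; rfl
  have hfU : ∀ i j, E (fU D i j) = tup (N2 D) (fun z => y (.f z)) i j := fun i j => by
    rw [hE]
    unfold fU
    rw [map_tup]
    congr 1
    funext z
    exact hevb _
  have hgU : ∀ i j, E (gU D i j) = tup (N2 D) (fun z => y (.g z)) i j := fun i j => by
    rw [hE]
    unfold gU
    rw [map_tup]
    congr 1
    funext z
    exact hevb _
  have hC : ∀ a, E (C a) = C (e a) := fun a => by rw [hE, map_C]; rfl
  have hval : ∀ ch, E (zval D ch) = den ch (tup (N2 D) fun z => y (.f z)) ^ D.th.N * C (y .c) -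
      form (D.th.p ch) (tup (N2 D) fun z => y (.f z))
        (fun i a => derivative (tup (N2 D) (fun z => y (.f z)) i a)) := by
    intro ch
    unfold zval
    rw [map_sub, map_mul, map_pow, hC, hevb, form_map]
    have h1 : E (den ch (fU D)) = den ch (tup (N2 D) fun z => y (.f z)) := by
      have := den_map (E : (RR D)[X] →+* K[X]) ch (fU D)
      refine this.trans ?_
      congr 1
      funext i a
      exact hfU i a
    rw [h1]
    congr 2
    · funext i a
      exact hfU i a
    · funext i a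
      rw [← hfU i a, hE, hE, derivative_map]
  have hsys : (∀ s ∈ Sys D P, e s = 0) ↔ (∀ q, ZP D q → E q = 0) ∧
      ∀ p ∈ P, MvPolynomial.aeval (fun z => y (.f z)) p = 0 := by
    constructor
    · intro h
      refine ⟨fun q hq => ?_, fun p hp => ?_⟩
      · ext n
        rw [hE, coeff_map, coeff_zero]
        exact h _ (Or.inl ⟨q, hq, n, rfl⟩)
      · have := h _ (Or.inr ⟨p, hp, rfl⟩)
        change MvPolynomial.aeval (Sum.elim x y) _ = 0 at this
        rwa [MvPolynomial.aeval_rename] at this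
    · rintro ⟨h1, h2⟩ s (⟨q, hq, n, rfl⟩ | ⟨p, hp, rfl⟩)
      · have := congrArg (fun r => r.coeff n) (h1 q hq)
        simp only [hE, coeff_map, coeff_zero] at this
        exact this
      · change MvPolynomial.aeval (Sum.elim x y) _ = 0
        rw [MvPolynomial.aeval_rename]
        exact h2 p hp
  change (∀ s ∈ Sys D P, e s = 0) ↔ _
  rw [hsys]
  have htopU : ∀ i j n, e ((fU D i j).coeff n) = (tup (N2 D) (fun z => y (.f z)) i j).coeff n := by
    intro i j n
    rw [← hfU i j, hE, coeff_map]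
    rfl
  constructor
  · rintro ⟨h1, h2⟩
    refine ⟨⟨fun i j => natDegree_tup _ _ _ _, fun p hp => ?_⟩, fun i => ?_, fun i => ?_, fun i => ?_,
      fun i j => ?_, fun i j => ?_, fun ch => ?_⟩
    · rw [cfv_tup]
      exact h2 p hp
    · have := h1 _ (ZP.bez i)
      rw [map_sub, map_sum, map_one, sub_eq_zero] at this
      rw [← this]
      refine Finset.sum_congr rfl fun j _ => ?_
      rw [map_mul, hfU, hgU]
    · have := h1 _ (ZP.ia i)
      rwa [hC, C_eq_zero, map_sub, map_mul, hevb, hevb, map_one, sub_eq_zero] at this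
    · have := h1 _ (ZP.ib i)
      rwa [hC, C_eq_zero, map_sub, map_mul, hevb, hevb, map_one, sub_eq_zero] at this
    · have := h1 _ (ZP.top i j)
      rwa [hC, C_eq_zero, map_sub, map_mul, hevb, heva, htopU, sub_eq_zero] at this
    · have := h1 _ (ZP.bot i j)
      rwa [hC, C_eq_zero, map_sub, map_mul, hevb, heva, htopU, sub_eq_zero] at this
    · have := h1 _ (ZP.val ch)
      rwa [hval, sub_eq_zero] at this
  · intro h
    refine ⟨fun q hq => ?_, fun p hp => ?_⟩
    · cases hq with
      | val ch => rw [hval, sub_eq_zero]; exact h.val ch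
      | bez i =>
        rw [map_sub, map_sum, map_one, sub_eq_zero, ← h.bez i]
        refine Finset.sum_congr rfl fun j _ => ?_
        rw [map_mul, hfU, hgU]
      | ia i => rw [hC, C_eq_zero, map_sub, map_mul, hevb, hevb, map_one, sub_eq_zero, h.ia]
      | ib i => rw [hC, C_eq_zero, map_sub, map_mul, hevb, hevb, map_one, sub_eq_zero, h.ib]
      | top i j => rw [hC, C_eq_zero, map_sub, map_mul, hevb, heva, htopU, sub_eq_zero, h.top]
      | bot i j => rw [hC, C_eq_zero, map_sub, map_mul, hevb, heva, htopU, sub_eq_zero, h.bot]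
    · have := h.inC.mem p hp
      rwa [cfv_tup] at this

theorem aeval_phiU {K : Type u} [Field K] [Algebra k K] (x : PIdx J → K) (y : BV J (N2 D) → K)
    (ha : ∀ i, y (.a i) * y (.a' i) = 1) (hb : ∀ i, y (.b i) * y (.b' i) = 1) :
    MvPolynomial.aeval (Sum.elim x y) (phiU D) =
      phi D (fun i => y (.a i)) (fun i => y (.b i)) (y .c) := by
  let e : RR D →ₐ[k] K := MvPolynomial.aeval (Sum.elim x y)
  have hevb : ∀ v, e (vb v) = y v := fun v => by
    change MvPolynomial.aeval _ (MvPolynomial.X _) = _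
    rw [MvPolynomial.aeval_X]; rfl
  change e (phiU D) = _
  unfold phiU phi
  rw [map_mul, map_mul, map_pow, map_prod, map_prod, hevb]
  congr 1
  · congr 1
    refine Finset.prod_congr rfl fun i _ => ?_
    have := map_zp (e : RR D →+* K) (-D.w i) (vb (.a i)) (vb (.a' i))
    refine this.trans ?_
    have h1 : (e : RR D →+* K) (vb (.a i)) = y (.a i) := hevb _
    have h2 : (e : RR D →+* K) (vb (.a' i)) = y (.a' i) := hevb _
    rw [h1, h2, zp_eq _ (ha i)]
  · refine Finset.prod_congr rfl fun i _ => ?_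
    have := map_zp (e : RR D →+* K) (-D.w i) (vb (.b i)) (vb (.b' i))
    refine this.trans ?_
    have h1 : (e : RR D →+* K) (vb (.b i)) = y (.b i) := hevb _
    have h2 : (e : RR D →+* K) (vb (.b' i)) = y (.b' i) := hevb _
    rw [h1, h2, zp_eq _ (hb i)]

/-- the class of conics of the family -/
def FC (P : Ideal (MvPolynomial (Cx J (N2 D)) k)) : Cls k J :=
  fun κ _ _ F => InC (N2 D) P F

theorem cls_of_top {K : Type u} [Field K] {F : ∀ i, J i → K[X]} {N : I → ℕ}
    (hd : ∀ i j, (F i j).natDegree ≤ N i) (ht : ∀ i, ∃ j, (F i j).coeff (N i) ≠ 0) : cls F = N := by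
  funext i
  refine le_antisymm (Finset.sup_le fun j _ => hd i j) ?_
  obtain ⟨j, hj⟩ := ht i
  exact (le_natDegree_of_ne_zero hj).trans (Finset.le_sup (f := fun a => (F i a).natDegree)
    (Finset.mem_univ j))

theorem N2_eq : N2 D = 2 • D.β := by
  funext i
  simp [N2]

/-- points of the system are conics of the family joining the two points. -/
theorem PtS.joins {P : Ideal (MvPolynomial (Cx J (N2 D)) k)}
    (hon : ∀ (K : Type u) [Field K] [Algebra k K] (F : ∀ i, J i → K[X]), InC (N2 D) P F → OnX D.E F)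
    {K : Type u} [Field K] [Algebra k K] {x : PIdx J → K} {y : BV J (N2 D) → K}
    (h : PtS D P x y) (hx : ∀ i, fst x i ≠ 0) :
    Con D (FC D P) (tup (N2 D) fun z => y (.f z)) ∧
      Joins D (tup (N2 D) fun z => y (.f z)) (fst x) (snd x) (fun i => y (.a i))
        (fun i => y (.b i)) (y .c) := by
  have ha : ∀ i, y (.a i) ≠ 0 := fun i => left_ne_zero_of_mul_eq_one (h.ia i)
  have hb : ∀ i, y (.b i) ≠ 0 := fun i => left_ne_zero_of_mul_eq_one (h.ib i)
  refine ⟨⟨⟨hon K _ h.inC, fun i => ?_⟩, ?_, h.inC⟩, ⟨ha, hb, h.top, h.bot, h.val⟩⟩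
  · rw [Cop, Ideal.eq_top_iff_one]
    rw [← h.bez i]
    exact Ideal.sum_mem _ fun j _ => Ideal.mul_mem_left _ _ (Ideal.subset_span ⟨j, rfl⟩)
  · rw [← N2_eq]
    refine cls_of_top (fun i j => natDegree_tup _ _ _ _) fun i => ?_
    by_contra hcon
    push Not at hcon
    refine hx i (funext fun j => ?_)
    have := hcon j
    rw [h.top i j] at this
    exact (mul_eq_zero.1 this).resolve_left (ha i)

/-- conics of the family joining two points are points of the system. -/
theorem exists_ptS {P : Ideal (MvPolynomial (Cx J (N2 D)) k)} {K : Type u} [Field K] [Algebra k K]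
    {x : PIdx J → K} {F : ∀ i, J i → K[X]} {a b : I → K} {c : K} (hF : Con D (FC D P) F)
    (hj : Joins D F (fst x) (snd x) a b c) :
    ∃ y : BV J (N2 D) → K, PtS D P x y ∧ (∀ i, y (.a i) = a i) ∧ (∀ i, y (.b i) = b i) ∧
      y .c = c := by
  have hd : ∀ i j, (F i j).natDegree ≤ N2 D i := hF.cc.deg
  have h1 := fun i => bezout_bound (F i) (N2 D i) (hd i) (hF.map.cop i)
  choose g hg1 hg2 using h1
  let y : BV J (N2 D) → K := fun v => match v with
    | .f z => cfv (N2 D) F z
    | .g z => cfv (N2 D) g z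
    | .a i => a i
    | .a' i => (a i)⁻¹
    | .b i => b i
    | .b' i => (b i)⁻¹
    | .c => c
  have hyf : tup (N2 D) (fun z => y (.f z)) = F := tup_cfv _ hd
  have hyg : tup (N2 D) (fun z => y (.g z)) = g := tup_cfv _ hg1
  refine ⟨y, ⟨?_, fun i => ?_, fun i => mul_inv_cancel₀ (hj.a0 i), fun i => mul_inv_cancel₀ (hj.b0 i),
    fun i j => ?_, fun i j => ?_, ?_⟩, fun i => rfl, fun i => rfl, rfl⟩
  · rw [hyf]; exact hF.cc
  · rw [hyf, hyg]; exact hg2 i
  · rw [hyf]; exact hj.lead i j
  · rw [hyf]; exact hj.bot i j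
  · rw [hyf]; exact hj.val

/-- the components of a generic pair are points of the cone with non-zero blocks. -/
theorem gnr_onZ [IsAlgClosed k] [CharZero k] {K : Type u} [Field K] [Algebra k K] {x : PIdx J → K}
    (hx : Gnr (qp D.E) x) (hne : ∃ v : ∀ i, J i → k, OnZ' D.E v) :
    OnZ' D.E (fst x) ∧ OnZ' D.E (snd x) := by
  obtain ⟨v, hv⟩ := hne
  refine ⟨⟨fun e he => ?_, fun i h0 => ?_⟩, ⟨fun e he => ?_, fun i h0 => ?_⟩⟩
  · have h1 : MvPolynomial.rename Sum.inl e ∈ qp D.E := fun v w hv _ => by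
      rw [MvPolynomial.aeval_rename]
      exact hv.1 e he
    have := (hx _).2 h1
    rwa [MvPolynomial.aeval_rename] at this
  · have h1 : ∀ j, v i j = 0 := fun j => by
      have h2 : (MvPolynomial.X (Sum.inl ⟨i, j⟩) : MvPolynomial (PIdx J) k) ∈ qp D.E :=
        (hx _).1 (by rw [MvPolynomial.aeval_X]; exact congrFun h0 j)
      have := h2 v v hv hv
      rwa [MvPolynomial.aeval_X] at this
    exact hv.2 i (funext h1)
  · have h1 : MvPolynomial.rename Sum.inr e ∈ qp D.E := fun v w _ hw => by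
      rw [MvPolynomial.aeval_rename]
      exact hw.1 e he
    have := (hx _).2 h1
    rwa [MvPolynomial.aeval_rename] at this
  · have h1 : ∀ j, v i j = 0 := fun j => by
      have h2 : (MvPolynomial.X (Sum.inr ⟨i, j⟩) : MvPolynomial (PIdx J) k) ∈ qp D.E :=
        (hx _).1 (by rw [MvPolynomial.aeval_X]; exact congrFun h0 j)
      have := h2 v v hv hv
      rwa [MvPolynomial.aeval_X] at this
    exact hv.2 i (funext h1)

/-- algebraicity of `Φ` (helper661), for a pair. -/
theorem phi_alg [CharZero k] {P : Ideal (MvPolynomial (Cx J (N2 D)) k)} {K : Type u} [Field K]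
    [Algebra k K] {x : PIdx J → K} {F : ∀ i, J i → K[X]} {a b : I → K} {c : K}
    (hF : Con D (FC D P) F) (hj : Joins D F (fst x) (snd x) a b c) :
    IsAlgebraic (IntermediateField.adjoin k (Set.range x)) (phi D a b c) := by
  have he : ∑ i, D.w i * (cls F i : ℤ) = (2 : ℕ) := Alg0_661.sum_w_cls D.wβ hF.cls
  have h1 := Alg0_661.phi_algebraic D.th hF.map he hj.val hj.b0 hj.a0
    (x := snd x) (y := fst x) (fun i j => hj.bot i j) (fun i j => by
      change (F i j).coeff (cls F i) = _
      rw [hF.cls]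
      exact hj.lead i j)
  have h2 : Alg0_661.ents (snd x) (fst x) ⊆ Set.range x := by
    rintro s (⟨i, j, rfl⟩ | ⟨i, j, rfl⟩)
    · exact ⟨Sum.inr ⟨i, j⟩, rfl⟩
    · exact ⟨Sum.inl ⟨i, j⟩, rfl⟩
  have h3 : phi D a b c = Alg0_661.phi D.w b a c := by
    unfold phi Alg0_661.phi
    rw [mul_assoc, ← Finset.prod_mul_distrib]
    congr 1
    refine Finset.prod_congr rfl fun i _ => ?_
    rw [mul_comm (b i), mul_zpow]
  rw [h3]
  have hle : IntermediateField.adjoin k (Alg0_661.ents (snd x) (fst x)) ≤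
      IntermediateField.adjoin k (Set.range x) := IntermediateField.adjoin.mono _ _ _ h2
  obtain ⟨p, hp0, hp⟩ := h1
  refine ⟨p.map (IntermediateField.inclusion hle).toRingHom, ?_, ?_⟩
  · rwa [Ne, Polynomial.map_eq_zero]
  · have hcomp : (algebraMap (IntermediateField.adjoin k (Set.range x)) K).comp
        (IntermediateField.inclusion hle).toRingHom =
        algebraMap (IntermediateField.adjoin k (Alg0_661.ents (snd x) (fst x))) K := rfl
    rw [aeval_def, eval₂_map, hcomp, ← aeval_def]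
    exact hp

/-- **PHI-POLY for the family**. -/
theorem phi_fam [IsAlgClosed k] [CharZero k] (P : Ideal (MvPolynomial (Cx J (N2 D)) k))
    (hon : ∀ (K : Type u) [Field K] [Algebra k K] (F : ∀ i, J i → K[X]), InC (N2 D) P F → OnX D.E F)
    (hne : ∃ v : ∀ i, J i → k, OnZ' D.E v) (hq : (qp D.E).IsPrime) :
    ∃ (Q : Polynomial (MvPolynomial (PIdx J) k)) (Dn : MvPolynomial (PIdx J) k), Dn ∉ qp D.E ∧
      (∀ (K : Type u) [Field K] [Algebra k K] (x : PIdx J → K) (F : ∀ i, J i → K[X]) (a b : I → K)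
        (c : K), (∀ p ∈ qp D.E, MvPolynomial.aeval x p = 0) → Con D (FC D P) F →
        Joins D F (fst x) (snd x) a b c → MvPolynomial.aeval x Dn ≠ 0 →
        (Pv Q x).IsRoot (phi D a b c)) ∧
      (∀ (K : Type u) [Field K] [Algebra k K] (x : PIdx J → K),
        (∀ p ∈ qp D.E, MvPolynomial.aeval x p = 0) → MvPolynomial.aeval x Dn ≠ 0 →
        ∀ t : K, (Pv Q x).IsRoot t → ¬ (derivative (Pv Q x)).IsRoot t) ∧
      (∀ (K : Type u) [Field K] [Algebra k K] [IsAlgClosed K] (x : PIdx J → K), Gnr (qp D.E) x →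
        ∀ t : K, (Pv Q x).IsRoot t → ∃ (F : ∀ i, J i → K[X]) (a b : I → K) (c : K),
          Con D (FC D P) F ∧ Joins D F (fst x) (snd x) a b c ∧ phi D a b c = t) := by
  obtain ⟨Q, Dn, hDn, hroot, hsimple, hlift⟩ := Fin1_600.phi_poly (qp D.E) (Sys D P) (phiU D) (by
    intro K _ _ _ x y hx hy
    rw [sys_iff] at hy
    rw [aeval_phiU D x y hy.ia hy.ib]
    obtain ⟨h1, h2⟩ := hy.joins D hon (gnr_onZ D (fun p => hx p) hne).1.2
    exact phi_alg D h1 h2)
  refine ⟨Q, Dn, hDn, ?_, hsimple, ?_⟩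
  · intro K _ _ x F a b c hx hF hj hD
    obtain ⟨y, hy, hya, hyb, hyc⟩ := exists_ptS D hF hj
    have h1 := hroot K x y hx ((sys_iff D P x y).2 hy) hD
    rw [aeval_phiU D x y hy.ia hy.ib] at h1
    have h2 : phi D (fun i => y (.a i)) (fun i => y (.b i)) (y .c) = phi D a b c := by
      rw [hyc, funext hya, funext hyb]
    rw [h2] at h1
    exact h1
  · intro K _ _ _ x hx t ht
    obtain ⟨y, hy, hyt⟩ := hlift K x (fun p => hx p) t ht
    rw [sys_iff] at hy
    obtain ⟨h1, h2⟩ := hy.joins D hon (gnr_onZ D hx hne).1.2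
    rw [aeval_phiU D x y hy.ia hy.ib] at hyt
    exact ⟨_, _, _, _, h1, h2, hyt⟩

end Crest.Agent.R260.Fin8_600
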