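import Crest.Agent.R260.Fin8_600
import Crest.Agent.R260.Hmg3_516

/-!
Row 260 (S0398), AG-FINAL: the bihomogeneous polynomial of the numbers `Φ`.
-/

set_option autoImplicit false
set_option linter.unusedSectionVars false

namespace Crest.Agent.R260.Fin9_600

open Polynomial Crest.Agent.R270.BM_360 Crest.Agent.R260.Lin_678 Crest.Agent.R260.Fam_919
open Crest.Agent.R260.Fin_600 Crest.Agent.R260.Fin5_600 Crest.Agent.R260.Fin6_600
open Crest.Agent.R260.Fin7_600 Crest.Agent.R260.Fin8_600 Crest.Agent.R260.QuadDefs_517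

universe u v w

variable {I : Type} {J : I → Type} [Fintype I] [∀ i, Fintype (J i)] {k : Type u} [Field k]
  (D : CData k I J)

/-- weights of `Φ` -/
abbrev WW : I ⊕ I → ℤ := Sum.elim D.w D.w

variable {D} in
theorem joins_sc {K : Type u} [Field K] [Algebra k K] {F : ∀ i, J i → K[X]} {x : PIdx J → K}
    {a b : I → K} {c : K} (h : Joins D F (fst x) (snd x) a b c) (l : I ⊕ I → K)
    (hl : ∀ i, l i ≠ 0) :
    Joins D F (fst (sc pb l x)) (snd (sc pb l x)) (fun i => a i / l (Sum.inl i))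
      (fun i => b i / l (Sum.inr i)) c := by
  refine ⟨fun i => div_ne_zero (h.a0 i) (hl _), fun i => div_ne_zero (h.b0 i) (hl _), fun i j => ?_,
    fun i j => ?_, h.val⟩
  · rw [h.lead i j]
    change _ = a i / l (Sum.inl i) * (l (Sum.inl i) * x (Sum.inl ⟨i, j⟩))
    rw [← mul_assoc, div_mul_cancel₀ _ (hl _)]
    rfl
  · rw [h.bot i j]
    change _ = b i / l (Sum.inr i) * (l (Sum.inr i) * x (Sum.inr ⟨i, j⟩))
    rw [← mul_assoc, div_mul_cancel₀ _ (hl _)]
    rfl

theorem phi_sc {K : Type u} [Field K] (a b : I → K) (c : K) (l : I ⊕ I → K)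
    (hl : ∀ i, l i ≠ 0) :
    phi D (fun i => a i / l (Sum.inl i)) (fun i => b i / l (Sum.inr i)) c =
      (∏ i, l i ^ WW D i) * phi D a b c := by
  have key : ∀ (a l : I → K), (∀ i, l i ≠ 0) → ∏ i, (a i / l i) ^ (-D.w i) =
      (∏ i, l i ^ D.w i) * ∏ i, a i ^ (-D.w i) := by
    intro a l hl
    rw [← Finset.prod_mul_distrib]
    refine Finset.prod_congr rfl fun i _ => ?_
    rw [div_zpow, zpow_neg (l i), div_inv_eq_mul, mul_comm]
  unfold phi
  rw [key a _ fun i => hl _, key b _ fun i => hl _, Fintype.prod_sum_type]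
  simp only [WW, Sum.elim_inl, Sum.elim_inr]
  ring

theorem van_sc [IsAlgClosed k] [CharZero k] {x : PIdx J → k}
    (hx : ∀ p ∈ qp D.E, MvPolynomial.aeval x p = 0) (l : I ⊕ I → k) (hl : ∀ i, l i ≠ 0) :
    ∀ p ∈ qp D.E, MvPolynomial.aeval (sc pb l x) p = 0 := by
  intro p hp
  have h1 := hx _ (qp_inv D l hl p hp)
  have h2 : ((MvPolynomial.aeval x : MvPolynomial (PIdx J) k →ₐ[k] k).comp
      (MvPolynomial.aeval (fun s : PIdx J =>
        (MvPolynomial.C (l (pb s)) * MvPolynomial.X s : MvPolynomial (PIdx J) k)))) =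
      (MvPolynomial.aeval (sc pb l x) : MvPolynomial (PIdx J) k →ₐ[k] k) := by
    refine MvPolynomial.algHom_ext fun x => ?_
    rw [AlgHom.comp_apply, MvPolynomial.aeval_X, map_mul, MvPolynomial.aeval_X,
      MvPolynomial.aeval_X]
    simp [sc]
  rw [← h2]
  exact h1

/-- what the assembly uses of the polynomial of the numbers `Φ`. -/
structure Hom2 (P : Ideal (MvPolynomial (Cx J (N2 D)) k)) (Q : Polynomial (MvPolynomial (PIdx J) k))
    (D' : MvPolynomial (PIdx J) k) : Prop where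
  ne : D' ∉ qp D.E
  bih : ∃ e, MvPolynomial.IsWeightedHomogeneous (bw (pb (J := J))) D' e
  hom : ∀ (K : Type u) [Field K] [Algebra k K] (x : PIdx J → K) (l : I ⊕ I → K),
    (∀ i, l i ≠ 0) → ∀ t, (Pv Q x).IsRoot t → (Pv Q (sc pb l x)).IsRoot ((∏ i, l i ^ WW D i) * t)
  root : ∀ (x : PIdx J → k) (F : ∀ i, J i → k[X]) (a b : I → k) (c : k),
    (∀ p ∈ qp D.E, MvPolynomial.aeval x p = 0) → MvPolynomial.aeval x D' ≠ 0 →
    Con D (FC D P) F → Joins D F (fst x) (snd x) a b c → (Pv Q x).IsRoot (phi D a b c)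
  simple : ∀ (x : PIdx J → k), (∀ p ∈ qp D.E, MvPolynomial.aeval x p = 0) →
    MvPolynomial.aeval x D' ≠ 0 → ∀ t, (Pv Q x).IsRoot t → ¬ (derivative (Pv Q x)).IsRoot t
  lift : ∀ (K : Type u) [Field K] [Algebra k K] [IsAlgClosed K] (x : PIdx J → K),
    Gnr (qp D.E) x → ∀ t : K, (Pv Q x).IsRoot t →
      ∃ (F : ∀ i, J i → K[X]) (a b : I → K) (c : K),
        Con D (FC D P) F ∧ Joins D F (fst x) (snd x) a b c ∧ phi D a b c = t
  gne : ∀ (K : Type u) [Field K] [Algebra k K] (x : PIdx J → K), Gnr (qp D.E) x → Pv Q x ≠ 0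

theorem exists_hom2 [IsAlgClosed k] [CharZero k] (P : Ideal (MvPolynomial (Cx J (N2 D)) k))
    (hon : ∀ (K : Type u) [Field K] [Algebra k K] (F : ∀ i, J i → K[X]), InC (N2 D) P F → OnX D.E F)
    (hne : ∃ v : ∀ i, J i → k, OnZ' D.E v) (hq : (qp D.E).IsPrime) :
    ∃ Q D', Hom2 D P Q D' := by
  obtain ⟨Q, Dn, hDn, hroot, hsimple, hlift⟩ := phi_fam D P hon hne hq
  obtain ⟨Q', D', e, h1, h2, h3, h4, h5⟩ := Hmg3_516.homog k (PIdx J) (I ⊕ I) pb (WW D) (qp D.E)
    (fun l hl p hp => qp_inv D l hl p hp) Q Dn hDn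
    (fun K _ _ _ x hx t ht => hsimple K x (fun p hp => (hx p).2 hp) (fun h0 => hDn ((hx _).1 h0)) t ht)
    (fun K _ _ _ x hx l hl t ht => by
      obtain ⟨F, a, b, c, hF, hj, rfl⟩ := hlift K x hx t ht
      have hl' : ∀ i, algebraMap k K (l i) ≠ 0 := fun i => by
        rw [Ne, map_eq_zero]; exact hl i
      have hx' := gnr_sc D hx l hl
      have h := hroot K _ F _ _ _ (fun p hp => (hx' p).2 hp) hF (joins_sc hj _ hl')
        (fun h0 => hDn ((hx' _).1 h0))
      rwa [phi_sc D a b c _ hl'] at h)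
  refine ⟨Q', D', h1, ⟨e, h2⟩, h3, ?_, ?_, ?_, ?_⟩
  · intro x F a b c hx hD hF hj
    obtain ⟨l, hl, hDl, c', hc', hQ⟩ := h5 x hx hD
    have h := hroot k _ F _ _ _ (van_sc D hx l hl) hF (joins_sc hj l hl) hDl
    rw [phi_sc D a b c l hl] at h
    rw [hQ, IsRoot, eval_mul, eval_comp, eval_mul, eval_C, eval_C, eval_X]
    rw [IsRoot] at h
    rw [h, mul_zero]
  · intro x hx hD t ht ht'
    obtain ⟨l, hl, hDl, c', hc', hQ⟩ := h5 x hx hD
    have hlam : (∏ i, l i ^ WW D i) ≠ 0 :=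
      Finset.prod_ne_zero_iff.2 fun i _ => zpow_ne_zero _ (hl i)
    rw [hQ, IsRoot, eval_mul, eval_comp, eval_mul, eval_C, eval_C, eval_X] at ht
    rw [hQ, IsRoot, derivative_mul, derivative_C, zero_mul, zero_add, derivative_comp, eval_mul,
      eval_mul, derivative_mul, derivative_C, zero_mul, zero_add, derivative_X, mul_one, eval_C,
      eval_C, eval_comp, eval_mul, eval_C, eval_X] at ht'
    refine hsimple k _ (van_sc D hx l hl) hDl _ ((mul_eq_zero.1 ht).resolve_left hc') ?_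
    rcases mul_eq_zero.1 ht' with h | h
    · exact absurd h hc'
    · rcases mul_eq_zero.1 h with h | h
      · exact absurd h hlam
      · exact h
  · intro K _ _ _ x hx t ht
    obtain ⟨c, hc, hQ⟩ := h4 K x hx
    refine hlift K x hx t ?_
    rw [hQ, IsRoot, eval_mul, eval_C] at ht
    exact (mul_eq_zero.1 ht).resolve_left hc
  · intro K _ _ x hx h0
    obtain ⟨c, hc, hQ⟩ := h4 K x hx
    have h6 : Pv Q x = 0 := by
      rw [hQ] at h0
      exact (mul_eq_zero.1 h0).resolve_left (C_ne_zero.2 hc)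
    have h7 := hsimple K x (fun p hp => (hx p).2 hp) (fun h0 => hDn ((hx _).1 h0)) 0
      (by rw [h6]; exact eval_zero)
    apply h7
    rw [h6, derivative_zero]
    exact eval_zero

end Crest.Agent.R260.Fin9_600
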