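import Crest.Agent.R260.LinDefs_678

/-!
Row 260 (S0398), task AG-FINAL: **the interface algebra → analysis**, everything over `ℂ`.

`D : CData ℂ I J` is the contact manifold `Z` in tuple language (`LinDefs_678`). Points of `Z` are
written as vectors normalised in a chart `c : ∀ i, J i` (`v i (c i) = 1`). The statement `AgFinal`
says: there is ONE polynomial `P (v, w; T)` (and a discriminant/denominator `Dn (v, w)`, not
identically zero on `Z × Z`) such that, where `Dn ≠ 0`, all roots of `P (v, w; ·)` are simple and the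
two-point numbers `Φ_F` of all conics `F` through `v` and `w` are roots; and along every very free
conic every holomorphic root is a quadratic polynomial.
-/

namespace Crest.Agent.R260.Fin_600

open Polynomial Crest.Agent.R270.BM_360 Crest.Agent.R260.Lin_678

universe u

variable {I : Type} {J : I → Type} [Fintype I] [∀ i, Fintype (J i)]

/-- index set of the coordinates of a pair of vectors -/
abbrev PIdx (J : I → Type) : Type := (Σ i, J i) ⊕ (Σ i, J i)

/-- a pair of vectors as one point -/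
def pr {A : Type*} (v w : ∀ i, J i → A) : PIdx J → A :=
  Sum.elim (fun x => v x.1 x.2) (fun x => w x.1 x.2)

/-- the polynomial in `T` obtained by evaluating the coefficients at the pair `(v, w)` -/
noncomputable def PT {k : Type u} [Field k] (P : Polynomial (MvPolynomial (PIdx J) k))
    {A : Type*} [CommRing A] [Algebra k A] (v w : ∀ i, J i → A) : Polynomial A :=
  P.map (MvPolynomial.aeval (pr v w)).toRingHom

/-- `v` is a point of the cone, normalised in the chart `c` -/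
def NPt {k : Type u} [Field k] (E : Set (MvPolynomial (Σ i, J i) k)) (c : ∀ i, J i)
    {A : Type*} [CommRing A] [Algebra k A] (v : ∀ i, J i → A) : Prop :=
  OnX E v ∧ ∀ i, v i (c i) = 1

/-- the value of the tuple `F` at `u`, normalised in the chart `c` -/
noncomputable def nrm {κ : Type u} [Field κ] (c : ∀ i, J i) (F : ∀ i, J i → κ[X]) (u : κ) :
    ∀ i, J i → κ :=
  fun i a => (F i a).eval u / (F i (c i)).eval u

/-- `F` is very free (tested at the point `0`): every tangent vector of the cone at `F (0)` is, up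
to Euler vectors, the value of a tangent field along `F` of degree `< cls F`
(all splitting degrees of `T_Z` along `F` are `≥ 1`; this is `VF` of helper703 at `0`). -/
def VF0 {k : Type u} [Field k] (E : Set (MvPolynomial (Σ i, J i) k)) {κ : Type u} [Field κ]
    [Algebra k κ] (F : ∀ i, J i → κ[X]) : Prop :=
  ∀ t : ∀ i, J i → κ, Tan E (fun i a => (F i a).eval 0) t →
    ∃ (G : ∀ i, J i → κ[X]) (a : I → κ), Tan E F G ∧ (∀ i x, (G i x).degree < cls F i) ∧
      ∀ i x, t i x = (G i x).eval 0 + a i * (F i x).eval 0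

/-- **AG-FINAL**, the output of the algebraic part of row 260, for the charts `c`, `c'`. -/
structure AgFinal (D : CData ℂ I J) (c c' : ∀ i, J i) (P : Polynomial (MvPolynomial (PIdx J) ℂ))
    (Dn : MvPolynomial (PIdx J) ℂ) : Prop where
  /-- `Dn` is not identically zero on `Z × Z` -/
  nz : ∃ v w : ∀ i, J i → ℂ, NPt D.E c v ∧ NPt D.E c' w ∧ MvPolynomial.aeval (pr v w) Dn ≠ 0
  /-- simple roots (in particular `PT P v w ≠ 0`) -/
  simple : ∀ v w : ∀ i, J i → ℂ, NPt D.E c v → NPt D.E c' w →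
    MvPolynomial.aeval (pr v w) Dn ≠ 0 →
    ∀ t, (PT P v w).IsRoot t → ¬ (derivative (PT P v w)).IsRoot t
  /-- the numbers `Φ_F` are roots -/
  root : ∀ F : ∀ i, J i → ℂ[X], IsMap D.E F → cls F = 2 • D.β →
    ∀ q : ℂ, D.th.Val F (fun i a => derivative (F i a)) (C q) →
    ∀ u₁ u₂ : ℂ, u₁ ≠ u₂ → (∀ i, (F i (c i)).eval u₁ ≠ 0) → (∀ i, (F i (c' i)).eval u₂ ≠ 0) →
    MvPolynomial.aeval (pr (nrm c F u₁) (nrm c' F u₂)) Dn ≠ 0 →
    (PT P (nrm c F u₁) (nrm c' F u₂)).IsRoot ((u₁ - u₂) ^ 2 * q ^ 2 *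
      (∏ i, (F i (c i)).eval u₁ ^ (-D.w i)) * ∏ i, (F i (c' i)).eval u₂ ^ (-D.w i))
  /-- holomorphic roots are quadratic along very free conics, second slot -/
  quad : ∀ H : ∀ i, J i → ℂ[X], IsMap D.E H → cls H = 2 • D.β → VF0 D.E H →
    ∀ v : ∀ i, J i → ℂ, NPt D.E c v → ∀ V : Set ℂ, IsOpen V → IsPreconnected V →
    (∀ u ∈ V, ∀ i, (H i (c' i)).eval u ≠ 0) →
    (∃ u ∈ V, MvPolynomial.aeval (pr v (nrm c' H u)) Dn ≠ 0) →
    ∀ f : ℂ → ℂ, AnalyticOnNhd ℂ f V → (∀ u ∈ V, (PT P v (nrm c' H u)).IsRoot (f u)) →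
    ∃ p : ℂ[X], p.natDegree ≤ 2 ∧ ∀ u ∈ V, f u * ∏ i, (H i (c' i)).eval u ^ D.w i = p.eval u
  /-- the same in the first slot -/
  quad' : ∀ H : ∀ i, J i → ℂ[X], IsMap D.E H → cls H = 2 • D.β → VF0 D.E H →
    ∀ w : ∀ i, J i → ℂ, NPt D.E c' w → ∀ V : Set ℂ, IsOpen V → IsPreconnected V →
    (∀ u ∈ V, ∀ i, (H i (c i)).eval u ≠ 0) →
    (∃ u ∈ V, MvPolynomial.aeval (pr (nrm c H u) w) Dn ≠ 0) →
    ∀ f : ℂ → ℂ, AnalyticOnNhd ℂ f V → (∀ u ∈ V, (PT P (nrm c H u) w).IsRoot (f u)) →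
    ∃ p : ℂ[X], p.natDegree ≤ 2 ∧ ∀ u ∈ V, f u * ∏ i, (H i (c i)).eval u ^ D.w i = p.eval u

/-- **AG-FINAL** for all pairs of charts which contain a point of `Z`. -/
def AgFinalAll (D : CData ℂ I J) : Prop :=
  ∀ c c' : ∀ i, J i, (∃ v : ∀ i, J i → ℂ, NPt D.E c v) → (∃ v : ∀ i, J i → ℂ, NPt D.E c' v) →
    ∃ P Dn, AgFinal D c c' P Dn

end Crest.Agent.R260.Fin_600
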