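import Crest.Agent.R260.Ga3_323
import Crest.Agent.R260.GaDefs_323

set_option autoImplicit false
set_option linter.unusedSectionVars false

/-!
# Row 260 (S0398), GAGA-TH, part 4 (helper323): one-forms with values in `L` are algebraic

* `fdc`      : derivatives of functions in the charts, change of charts;
* `isHS_dets`: determinants of `n + 1` jets (or of `0 ⊕ θ`) are sections of `KB A * …`;
* `alg_div`  : for `m` large and every section `s` of `L ^ (m + β)` one has
               `s θ = ∑ t k dF k`, `∑ t k F k = 0`, with sections `t k` of `L ^ (m + 1)`.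
-/

open Set Filter Topology Complex
open scoped ContDiff Matrix ComplexConjugate

namespace Crest.Agent.R260.Ga_323

open Crest.Agent.R275 Crest.Agent.R275.Geo Crest.Agent.R275.Core144 Crest.Agent.R275.Dg199
open Crest.Agent.R273.LamN127 Crest.Agent.R273.SerA_945
open Crest.Agent.R273.SerB_945 Crest.Agent.R273.SerC_945 Crest.Agent.R273.KosGen_313
open Crest.Agent.R273.Defs_333 Crest.Agent.R273.FS_333
open Crest.Agent.R273.TD3_733 Crest.Agent.R273.SerE_945 Crest.Agent.R273.Chow_313
open Crest.Agent.R270.BM_360 Crest.Agent.R260.BrDefs_592 Crest.Agent.R260.Br1_592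
open Crest.Agent.R260.Br2_592

noncomputable section

/-! ### derivatives in the charts -/

section Fd

variable {n : ℕ} {M : Type} [TopologicalSpace M] {A : Atl n M}

/-- the derivative of `f` in the chart `c` in the direction `u` -/
def fdc (A : Atl n M) (c : A.ι) (f : M → ℂ) (u : Cn n) (x : M) : ℂ :=
  fderiv ℂ (fun z => f ((A.e c).symm z)) (A.e c x) u

theorem holAt_fdc {c : A.ι} {U : Set M} (hU : IsOpen U) {f : M → ℂ} (hf : HolAt A c U f)
    (u : Cn n) : HolAt A c U (fdc A c f u) := by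
  have ho := isOpen_ti (A := A) (i := c) hU
  have h1 : DifferentiableOn ℂ (fderiv ℂ (fun z => f ((A.e c).symm z)))
      ((A.e c).target ∩ (A.e c).symm ⁻¹' U) :=
    ((Crest.Agent.R266.SCV.analyticOnNhd_of_differentiableOn ho hf).fderiv).differentiableOn
  have h2 := h1.clm_apply (differentiableOn_const u)
  refine DifferentiableOn.congr h2 fun z hz => ?_
  simp only [fdc, (A.e c).right_inv hz.1]

theorem nhds_ti {c : A.ι} {U : Set M} (hU : IsOpen U) {x : M} (hx : x ∈ (A.e c).source)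
    (hxU : x ∈ U) : (A.e c).target ∩ (A.e c).symm ⁻¹' U ∈ 𝓝 (A.e c x) :=
  (isOpen_ti hU).mem_nhds ⟨(A.e c).map_source hx, by
    rw [mem_preimage, (A.e c).left_inv hx]; exact hxU⟩

theorem fdc_congr {c : A.ι} {U : Set M} (hU : IsOpen U) {f f' : M → ℂ} {x : M}
    (hx : x ∈ (A.e c).source) (hxU : x ∈ U) (h : ∀ y ∈ (A.e c).source, y ∈ U → f y = f' y)
    (u : Cn n) : fdc A c f u x = fdc A c f' u x := by
  unfold fdc
  have h1 : (fun z => f ((A.e c).symm z)) =ᶠ[𝓝 (A.e c x)] fun z => f' ((A.e c).symm z) := by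
    filter_upwards [nhds_ti hU hx hxU] with z hz
    exact h _ ((A.e c).map_target hz.1) hz.2
  rw [h1.fderiv_eq]

theorem fdc_mul {c : A.ι} {U : Set M} (hU : IsOpen U) {f g : M → ℂ} (hf : HolAt A c U f)
    (hg : HolAt A c U g) {x : M} (hx : x ∈ (A.e c).source) (hxU : x ∈ U) (u : Cn n) :
    fdc A c (fun y => g y * f y) u x = fdc A c g u x * f x + g x * fdc A c f u x := by
  unfold fdc
  have h1 := (hg.diffAt hU hx hxU).hasFDerivAt.fun_mul (hf.diffAt hU hx hxU).hasFDerivAt
  rw [h1.fderiv]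
  simp only [(A.e c).left_inv hx]
  simp
  ring

theorem cn_sum (u : Cn n) : u = ∑ a, u a • (EuclideanSpace.single a (1 : ℂ) : Cn n) := by
  ext d
  simp [Finset.sum_apply, Pi.single_apply]

theorem fdc_sum (c : A.ι) (f : M → ℂ) (u : Cn n) (x : M) :
    fdc A c f u x = ∑ a, u a * fdc A c f (EuclideanSpace.single a 1) x := by
  unfold fdc
  conv_lhs => rw [cn_sum u]
  rw [map_sum]
  exact Finset.sum_congr rfl fun a _ => by rw [map_smul, smul_eq_mul]

theorem fdc_chg {c c' : A.ι} {U : Set M} (hU : IsOpen U) {f : M → ℂ} (hf : HolAt A c' U f)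
    {x : M} (hx : x ∈ (A.e c).source ∩ (A.e c').source) (hxU : x ∈ U) (b : Fin n) :
    fdc A c f (EuclideanSpace.single b 1) x =
      ∑ a, A.J c c' x a b * fdc A c' f (EuclideanSpace.single a 1) x := by
  have h0 : DifferentiableAt ℂ (fun z => A.e c' ((A.e c).symm z)) (A.e c x) :=
    (A.holo c c').differentiableAt ((isOpen_ov (A := A) c c').mem_nhds (mem_ov hx))
  have h1 : DifferentiableAt ℂ (fun z => f ((A.e c').symm z)) (A.e c' x) := hf.diffAt hU hx.2 hxU
  have hval : A.e c' ((A.e c).symm (A.e c x)) = A.e c' x := by rw [(A.e c).left_inv hx.1]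
  have h2 : (fun z => f ((A.e c).symm z)) =ᶠ[𝓝 (A.e c x)]
      (fun w => f ((A.e c').symm w)) ∘ fun z => A.e c' ((A.e c).symm z) := by
    filter_upwards [(isOpen_ov (A := A) c c').mem_nhds (mem_ov hx)] with z hz
    simp [(A.e c').left_inv hz.2]
  have h3 : fderiv ℂ (fun z => f ((A.e c).symm z)) (A.e c x) =
      (fderiv ℂ (fun w => f ((A.e c').symm w)) (A.e c' x)).comp
        (fderiv ℂ (fun z => A.e c' ((A.e c).symm z)) (A.e c x)) := by
    rw [h2.fderiv_eq, fderiv_comp _ (by rw [hval]; exact h1) h0, hval]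
  have h4 : fdc A c f (EuclideanSpace.single b 1) x = fdc A c' f
      (fderiv ℂ (fun z => A.e c' ((A.e c).symm z)) (A.e c x) (EuclideanSpace.single b 1)) x := by
    unfold fdc
    rw [h3]
    rfl
  rw [h4, fdc_sum]
  rfl

end Fd

/-! ### jets -/

section Jet

variable {n : ℕ} {M : Type} [TopologicalSpace M] {A : Atl n M}

/-- the 1-jet of a section -/
def jt (s : Fn A) (c : A.ι) (x : M) : Unit ⊕ Fin n → ℂ :=
  Sum.elim (fun _ => s c x) fun b => fdc A c (s c) (EuclideanSpace.single b 1) x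

/-- a one-form as a jet -/
def ft {L : LB A} (θ : OneForm L) (c : A.ι) (x : M) : Unit ⊕ Fin n → ℂ :=
  Sum.elim (fun _ => 0) fun b => θ.th c x b

/-- change of charts for jets, up to the factor `L'.g` -/
def Tm (L' : LB A) (c c' : A.ι) (x : M) : Matrix (Unit ⊕ Fin n) (Unit ⊕ Fin n) ℂ :=
  Matrix.fromBlocks 1 0 (Matrix.of fun b _ => fdc A c (L'.g c c') (EuclideanSpace.single b 1) x /
    L'.g c c' x) (Jm A c c' x)ᵀ

theorem det_Tm (L' : LB A) {c c' : A.ι} {x : M} (hx : x ∈ (A.e c).source ∩ (A.e c').source) :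
    (Tm L' c c' x).det = (KB A).g c c' x := by
  rw [Tm, Matrix.det_fromBlocks_zero₁₂, Matrix.det_one, one_mul, Matrix.det_transpose, KB_g hx]

theorem jt_tr {L' : LB A} {s : Fn A} (hs : IsHS L' univ s) {c c' : A.ι} {x : M}
    (hx : x ∈ (A.e c).source ∩ (A.e c').source) :
    jt s c x = L'.g c c' x • (Tm L' c c' x *ᵥ jt s c' x) := by
  funext r
  rw [Pi.smul_apply, smul_eq_mul]
  rcases r with r | b
  · show s c x = _
    rw [hs.tr c c' x hx (mem_univ x)]
    simp [Tm, jt, Matrix.mulVec, dotProduct, Fintype.sum_sum_type]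
  · show fdc A c (s c) (EuclideanSpace.single b 1) x = _
    have hc' : HolAt A c (A.e c').source (s c') := by
      have h1 := (hs.hol c').chg isOpen_univ c
      rwa [univ_inter] at h1
    have h1 : fdc A c (s c) (EuclideanSpace.single b 1) x =
        fdc A c (fun y => L'.g c c' y * s c' y) (EuclideanSpace.single b 1) x :=
      fdc_congr (A.e c').open_source hx.1 hx.2
        (fun y hy hy' => hs.tr c c' y ⟨hy, hy'⟩ (mem_univ y)) _
    rw [h1, fdc_mul (A.e c').open_source hc' (L'.hol c c') hx.1 hx.2,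
      fdc_chg isOpen_univ (hs.hol c') hx (mem_univ x)]
    have h0 := L'.ne_zero c c' x
    simp only [Tm, jt, Matrix.mulVec, dotProduct, Fintype.sum_sum_type, Matrix.fromBlocks_apply₂₁,
      Matrix.fromBlocks_apply₂₂, Matrix.of_apply, Sum.elim_inl, Sum.elim_inr,
      Matrix.transpose_apply, Jm_apply, Finset.univ_unique, Finset.sum_singleton]
    rw [mul_add]
    congr 1
    field_simp

theorem ft_tr (L' : LB A) {L : LB A} (θ : OneForm L) {c c' : A.ι} {x : M}
    (hx : x ∈ (A.e c).source ∩ (A.e c').source) :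
    ft θ c x = L.g c c' x • (Tm L' c c' x *ᵥ ft θ c' x) := by
  funext r
  rw [Pi.smul_apply, smul_eq_mul]
  rcases r with r | b
  · simp [Tm, ft, Matrix.mulVec, dotProduct, Fintype.sum_sum_type]
  · simp only [Tm, ft, Matrix.mulVec, dotProduct, Fintype.sum_sum_type, Matrix.fromBlocks_apply₂₁,
      Matrix.fromBlocks_apply₂₂, Matrix.of_apply, Sum.elim_inl, Sum.elim_inr,
      Matrix.transpose_apply, Jm_apply, Finset.univ_unique, Finset.sum_singleton, mul_zero,
      zero_add]
    exact θ.tr c c' x hx b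

theorem holAt_jt {L' : LB A} {s : Fn A} (hs : IsHS L' univ s) (c : A.ι) (r : Unit ⊕ Fin n) :
    HolAt A c univ (fun x => jt s c x r) := by
  rcases r with r | b
  · exact hs.hol c
  · exact holAt_fdc isOpen_univ (hs.hol c) _

theorem holAt_ft {L : LB A} (θ : OneForm L) (c : A.ι) (r : Unit ⊕ Fin n) :
    HolAt A c univ (fun x => ft θ c x r) := by
  rcases r with r | b
  · exact holAt_const 0
  · exact θ.hol c b

open Classical in
/-- determinants of jets -/
def dets (col : (Unit ⊕ Fin n) → A.ι → M → (Unit ⊕ Fin n) → ℂ) : Fn A := fun c x =>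
  if x ∈ (A.e c).source then (Matrix.of fun r l => col l c x r).det else 0

theorem prodLB_g {ρ : Type} (s : Finset ρ) (N : ρ → LB A) (i j : A.ι) (x : M) :
    (∏ b ∈ s, N b).g i j x = ∏ b ∈ s, (N b).g i j x := by
  classical
  induction s using Finset.induction_on with
  | empty => simp
  | insert a s ha ih => rw [Finset.prod_insert ha, Finset.prod_insert ha, LB.mul_g, ih]

theorem isHS_dets (L' : LB A) (Lc : (Unit ⊕ Fin n) → LB A)
    (col : (Unit ⊕ Fin n) → A.ι → M → (Unit ⊕ Fin n) → ℂ)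
    (hol : ∀ l c r, HolAt A c univ fun x => col l c x r)
    (tr : ∀ l c c' x, x ∈ (A.e c).source ∩ (A.e c').source →
      col l c x = (Lc l).g c c' x • (Tm L' c c' x *ᵥ col l c' x)) :
    IsHS (KB A * ∏ l, Lc l) univ (dets col) := by
  refine ⟨fun c => ?_, fun c x hx => if_neg hx, fun c c' x hx _ => ?_⟩
  · have h1 : HolAt A c univ fun x => (Matrix.of fun r l => col l c x r).det := by
      simp only [Matrix.det_apply']
      exact HolAt.sum _ fun s _ => (HolAt.prod _ fun b _ => hol _ _ _).const_mul _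
    exact h1.congr fun x hx _ => (if_pos hx).symm
  · have h1 : dets col c x = (Matrix.of fun r l => col l c x r).det := if_pos hx.1
    have h2 : dets col c' x = (Matrix.of fun r l => col l c' x r).det := if_pos hx.2
    have h3 : (Matrix.of fun r l => col l c x r) = Tm L' c c' x *
        (Matrix.of fun r l => col l c' x r) * Matrix.diagonal fun l => (Lc l).g c c' x := by
      ext r l
      rw [Matrix.mul_diagonal, Matrix.of_apply, tr l c c' x hx, Pi.smul_apply, smul_eq_mul,
        mul_comm, Matrix.mul_apply]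
      rfl
    rw [h1, h2, h3, Matrix.det_mul, Matrix.det_mul, Matrix.det_diagonal, det_Tm L' hx, LB.mul_g,
      prodLB_g]
    ring

end Jet

/-! ### Cramer's rule -/

section Cramer

variable {n : ℕ} {M : Type} [TopologicalSpace M] {A : Atl n M} {L : LB A} {I : Type} [Fintype I]
  (S : MSys A L I) (θ : OneForm L) (i1 : I)

/-- Wronskian determinants -/
def Wd (a : Unit ⊕ Fin n → S.J i1) : Fn A := dets fun l => jt (sec (S.P i1) (a l))

open Classical in
/-- the numerators of Cramer's rule -/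
def Nd (a : Unit ⊕ Fin n → S.J i1) (l0 : Unit ⊕ Fin n) : Fn A :=
  dets fun l => if l = l0 then ft θ else jt (sec (S.P i1) (a l))

theorem isHS_Wd (a : Unit ⊕ Fin n → S.J i1) :
    IsHS (KB A * L ^ (S.β i1 * (n + 1))) univ (Wd S i1 a) := by
  have h1 := isHS_dets (L ^ S.β i1) (fun _ => L ^ S.β i1) (fun l => jt (sec (S.P i1) (a l)))
    (fun l c r => holAt_jt (isHS_sec (S.P i1) (a l)) c r) (fun l c c' x hx => by
      have h2 := isHS_sec (S.P i1) (a l)
      rw [S.hb] at h2
      exact jt_tr h2 hx)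
  have h2 : ∏ _l : Unit ⊕ Fin n, L ^ S.β i1 = L ^ (S.β i1 * (n + 1)) := by
    rw [Finset.prod_const, Finset.card_univ, Fintype.card_sum, Fintype.card_unit, Fintype.card_fin,
      ← pow_mul, add_comm 1 n]
  rw [h2] at h1
  exact h1

open Classical in
theorem isHS_Nd (a : Unit ⊕ Fin n → S.J i1) (l0 : Unit ⊕ Fin n) :
    IsHS (KB A * L ^ (S.β i1 * n + 1)) univ (Nd S θ i1 a l0) := by
  have h1 := isHS_dets (L ^ S.β i1) (fun l => if l = l0 then L else L ^ S.β i1)
    (fun l => if l = l0 then ft θ else jt (sec (S.P i1) (a l)))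
    (fun l c r => by
      split_ifs
      · exact holAt_ft θ c r
      · exact holAt_jt (isHS_sec (S.P i1) (a l)) c r) (fun l c c' x hx => by
      split_ifs
      · exact ft_tr _ θ hx
      · have h2 := isHS_sec (S.P i1) (a l)
        rw [S.hb] at h2
        exact jt_tr h2 hx)
  have h2 : ∏ l : Unit ⊕ Fin n, (if l = l0 then L else L ^ S.β i1) = L ^ (S.β i1 * n + 1) := by
    rw [← Finset.mul_prod_erase Finset.univ _ (Finset.mem_univ l0), if_pos rfl,
      Finset.prod_congr rfl (g := fun _ => L ^ S.β i1) fun l hl => if_neg (Finset.ne_of_mem_erase hl),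
      Finset.prod_const, Finset.card_erase_of_mem (Finset.mem_univ _), Finset.card_univ,
      Fintype.card_sum, Fintype.card_unit, Fintype.card_fin, ← pow_mul, ← pow_succ',
      Nat.add_sub_cancel_left]
  rw [h2] at h1
  exact h1

theorem cramer_eq (a : Unit ⊕ Fin n → S.J i1) {c : A.ι} {x : M} (hx : x ∈ (A.e c).source)
    (r : Unit ⊕ Fin n) :
    ∑ l, jt (sec (S.P i1) (a l)) c x r * Nd S θ i1 a l c x = Wd S i1 a c x * ft θ c x r := by
  classical
  have h1 : Wd S i1 a c x = (Matrix.of fun r l => jt (sec (S.P i1) (a l)) c x r).det := if_pos hx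
  have h2 : ∀ l, Nd S θ i1 a l c x =
      Matrix.cramer (Matrix.of fun r l => jt (sec (S.P i1) (a l)) c x r) (ft θ c x) l := by
    intro l
    rw [Matrix.cramer_apply]
    refine (if_pos hx).trans ?_
    congr 1
    ext r l'
    rw [Matrix.of_apply, Matrix.updateCol_apply]
    by_cases h : l' = l
    · subst h
      simp
    · simp [h]
  have h3 := congrFun (Matrix.mulVec_cramer
    (Matrix.of fun r l => jt (sec (S.P i1) (a l)) c x r) (ft θ c x)) r
  rw [Pi.smul_apply, smul_eq_mul] at h3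
  rw [h1, ← h3]
  simp only [Matrix.mulVec, dotProduct, Matrix.of_apply]
  exact Finset.sum_congr rfl fun l _ => by rw [h2 l]

theorem fdc_sec {c : A.ι} {x : M} (hx : x ∈ (A.e c).source) (k : S.J i1) (u : Cn n) :
    fdc A c (sec (S.P i1) k c) u x = dpt S c x u i1 k :=
  fdc_congr isOpen_univ hx (mem_univ x) (fun _ hy _ => sec_eq (S.P i1) hy k) u

/-- Cramer's rule, the Euler relation -/
theorem cramer_euler (a : Unit ⊕ Fin n → S.J i1) {c : A.ι} {x : M} (hx : x ∈ (A.e c).source) :
    ∑ l, Nd S θ i1 a l c x * S.pt c x i1 (a l) = 0 := by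
  have h1 := cramer_eq S θ i1 a hx (Sum.inl ())
  have h2 : Wd S i1 a c x * ft θ c x (Sum.inl ()) = 0 := mul_zero _
  rw [h2] at h1
  rw [← h1]
  refine Finset.sum_congr rfl fun l _ => ?_
  have h3 : jt (sec (S.P i1) (a l)) c x (Sum.inl ()) = S.pt c x i1 (a l) := sec_eq (S.P i1) hx (a l)
  rw [h3, mul_comm]

/-- Cramer's rule, the one-form -/
theorem cramer_form (a : Unit ⊕ Fin n → S.J i1) {c : A.ι} {x : M} (hx : x ∈ (A.e c).source)
    (u : Cn n) :
    Wd S i1 a c x * θ.app c x u = ∑ l, Nd S θ i1 a l c x * dpt S c x u i1 (a l) := by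
  unfold OneForm.app
  rw [Finset.mul_sum]
  have h1 : ∀ b : Fin n, Wd S i1 a c x * (θ.th c x b * u b) =
      ∑ l, u b * fdc A c (sec (S.P i1) (a l) c) (EuclideanSpace.single b 1) x *
        Nd S θ i1 a l c x := by
    intro b
    have h2 := cramer_eq S θ i1 a hx (Sum.inr b)
    have h3 : ft θ c x (Sum.inr b) = θ.th c x b := rfl
    rw [h3] at h2
    rw [← mul_assoc, ← h2, Finset.sum_mul]
    refine Finset.sum_congr rfl fun l _ => ?_
    have h4 : jt (sec (S.P i1) (a l)) c x (Sum.inr b) =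
      fdc A c (sec (S.P i1) (a l) c) (EuclideanSpace.single b 1) x := rfl
    rw [h4]
    ring
  rw [Finset.sum_congr rfl fun b _ => h1 b, Finset.sum_comm]
  refine Finset.sum_congr rfl fun l _ => ?_
  rw [← fdc_sec S i1 hx (a l) u, fdc_sum c _ u x, ← Finset.sum_mul, mul_comm]

/-- the Wronskians have no common zero -/
theorem exists_Wd {c : A.ι} {x : M} (hx : x ∈ (A.e c).source) : ∃ a, Wd S i1 a c x ≠ 0 := by
  classical
  -- the jets of the coordinates span
  set v : S.J i1 → (Unit ⊕ Fin n → ℂ) := fun k => jt (sec (S.P i1) k) c x with hv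
  have hspan : Submodule.span ℂ (Set.range v) = ⊤ := by
    by_contra hne
    obtain ⟨f, hf0, hf⟩ := Submodule.exists_le_ker_of_lt_top _ (lt_top_iff_ne_top.2 hne)
    have hfk : ∀ k, f (v k) = 0 := fun k => hf (Submodule.subset_span ⟨k, rfl⟩)
    have hfe : ∀ w : Unit ⊕ Fin n → ℂ, f w = ∑ r, w r * f (Pi.single r 1) := by
      intro w
      conv_lhs => rw [← Finset.univ_sum_single w]
      rw [map_sum]
      refine Finset.sum_congr rfl fun r _ => ?_
      have h1 : (Pi.single r (w r) : Unit ⊕ Fin n → ℂ) = w r • Pi.single r (1 : ℂ) := by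
        rw [← Pi.single_smul, smul_eq_mul, mul_one]
      rw [h1, map_smul, smul_eq_mul]
    set u : Cn n := WithLp.toLp 2 (fun b => f (Pi.single (Sum.inr b) 1)) with hu
    set f0 : ℂ := f (Pi.single (Sum.inl ()) 1) with hf0'
    have h1 : ∀ k, dpt S c x u i1 k = -f0 * S.pt c x i1 k := by
      intro k
      have h2 := hfk k
      rw [hfe, Fintype.sum_sum_type] at h2
      simp only [Finset.univ_unique, Finset.sum_singleton] at h2
      have h3 : v k (Sum.inl default) = S.pt c x i1 k := sec_eq (S.P i1) hx k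
      have h4 : ∑ b, v k (Sum.inr b) * f (Pi.single (Sum.inr b) 1) = dpt S c x u i1 k := by
        rw [← fdc_sec S i1 hx k u, fdc_sum c _ u x]
        refine Finset.sum_congr rfl fun b _ => ?_
        rw [mul_comm]
        rfl
      rw [h3, h4] at h2
      linear_combination h2
    have hu0 : u = 0 := by
      refine (S.P i1).imm c (A.e c x) ((A.e c).map_source hx) u ⟨-f0, funext fun k => ?_⟩
      rw [(A.e c).left_inv hx]
      have h5 : fderiv ℂ (fun w => (S.P i1).F c ((A.e c).symm w)) (A.e c x) u k =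
          dpt S c x u i1 k := by
        have hd : DifferentiableAt ℂ (fun w => (S.P i1).F c ((A.e c).symm w)) (A.e c x) :=
          differentiableAt_pi.2 fun a => pt_diff S c hx i1 a
        have h6 := fderiv_pi fun a => pt_diff S c hx i1 a
        have h7 : (fun w => (S.P i1).F c ((A.e c).symm w)) =
          fun w a => S.pt c ((A.e c).symm w) i1 a := rfl
        rw [h7, h6]
        rfl
      rw [h5, h1 k]
      rfl
    obtain ⟨k, hk⟩ := Function.ne_iff.1 (S.pt_ne hx i1)
    have hf00 : f0 = 0 := by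
      have h6 := h1 k
      rw [hu0] at h6
      have h7 : dpt S c x 0 i1 k = 0 := by
        unfold dpt
        exact map_zero _
      rw [h7] at h6
      have h8 := mul_eq_zero.1 h6.symm
      exact neg_eq_zero.1 (h8.resolve_right hk)
    refine hf0 (LinearMap.ext fun w => ?_)
    rw [hfe, Fintype.sum_sum_type]
    simp only [Finset.univ_unique, Finset.sum_singleton]
    have h9 : f (Pi.single (Sum.inl default) 1) = 0 := hf00
    have h10 : ∀ b, f (Pi.single (Sum.inr b) 1) = 0 := by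
      intro b
      have := congrArg (fun w : Cn n => w b) hu0
      exact this
    rw [h9, mul_zero, zero_add]
    refine Finset.sum_eq_zero fun b _ => ?_
    rw [h10 b, mul_zero]
  -- a basis
  obtain ⟨f, hf, -, hli⟩ := Submodule.exists_fun_fin_finrank_span_eq ℂ (Set.range v)
  have hcard : Module.finrank ℂ (Submodule.span ℂ (Set.range v)) =
      Fintype.card (Unit ⊕ Fin n) := by
    rw [hspan, finrank_top, Module.finrank_pi]
  let e : Unit ⊕ Fin n ≃ Fin (Module.finrank ℂ (Submodule.span ℂ (Set.range v))) :=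
    (Fintype.equivFin _).trans (finCongr hcard.symm)
  choose a ha using fun l => hf (e l)
  refine ⟨a, ?_⟩
  have h1 : Wd S i1 a c x = (Matrix.of fun r l => v (a l) r).det := if_pos hx
  rw [h1]
  have h2 : LinearIndependent ℂ fun l => v (a l) := by
    have h3 := hli.comp e e.injective
    have h4 : (fun l => v (a l)) = f ∘ e := funext fun l => ha l
    rw [h4]
    exact h3
  have h5 : LinearIndependent ℂ (Matrix.of fun r l => v (a l) r).col := h2
  have h6 := Matrix.linearIndependent_cols_iff_isUnit.1 h5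
  exact ((Matrix.isUnit_iff_isUnit_det _).1 h6).ne_zero

end Cramer

/-! ### division -/

section Div

variable {n : ℕ} {M : Type} [TopologicalSpace M] {A : Atl n M} {L : LB A} {I : Type} [Fintype I]
  (S : MSys A L I) (θ : OneForm L) (i1 : I)
  [T2Space M] [ConnectedSpace M] [CompactSpace M] [Finite A.ι]

/-- **one-forms with values in `L` are algebraic**, in terms of sections -/
theorem alg_div (PA : Part A) (hD : D2 A) : ∃ m0 : ℕ, ∀ m, m0 ≤ m → ∀ s : Fn A,
    IsHS (L ^ (m + S.β i1)) univ s →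
    ∃ t : S.J i1 → Fn A, (∀ k, IsHS (L ^ (m + 1)) univ (t k)) ∧
      (∀ c, ∀ x ∈ (A.e c).source, ∑ k, t k c x * S.pt c x i1 k = 0) ∧
      ∀ c, ∀ x ∈ (A.e c).source, ∀ u, s c x * θ.app c x u =
        ∑ k, t k c x * dpt S c x u i1 k := by
  classical
  obtain ⟨m1, hV⟩ := vanish_large PA hD (S.pos i1) (S.hb i1)
  obtain ⟨m2, hG⟩ := ggen_proj PA hD (S.P i1) (KB A)⁻¹
  obtain ⟨r0, v, hv, hvne⟩ := hG m2 le_rfl
  have hlb : (KB A)⁻¹ * lb (S.P i1) ^ m2 = (KB A)⁻¹ * L ^ (S.β i1 * m2) := by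
    rw [S.hb, ← pow_mul]
  rw [hlb] at hv
  -- the sections without common zeros
  set e0 : ℕ := S.β i1 * m2 + S.β i1 * (n + 1) with he0
  let κ := Fin r0 × (Unit ⊕ Fin n → S.J i1)
  let ε : κ ≃ Fin (Fintype.card κ) := Fintype.equivFin κ
  let ℓ : κ → Fn A := fun p => v p.1 * Wd S i1 p.2
  have hℓ : ∀ p, IsHS (L ^ e0) univ (ℓ p) := by
    intro p
    have h1 := (hv p.1).mul (isHS_Wd S i1 p.2)
    have h2 : (KB A)⁻¹ * L ^ (S.β i1 * m2) * (KB A * L ^ (S.β i1 * (n + 1))) = L ^ e0 := by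
      rw [mul_mul_mul_comm, inv_mul_cancel, one_mul, ← pow_add]
    rw [h2] at h1
    exact h1
  have hℓne : ∀ c, ∀ x ∈ (A.e c).source, ∃ p, ℓ p c x ≠ 0 := by
    intro c x hx
    obtain ⟨j, hj⟩ := hvne c x hx
    obtain ⟨a, ha⟩ := exists_Wd S i1 hx
    exact ⟨(j, a), mul_ne_zero hj ha⟩
  refine ⟨m1 + (n + 1) * e0, fun m hm s hs => ?_⟩
  have hN : ∀ p : ℕ, (L ^ (m + S.β i1) * (L ^ e0)⁻¹ ^ (p + 1)) * L ^ e0 =
      L ^ (m + S.β i1) * (L ^ e0)⁻¹ ^ p := by
    intro p
    rw [pow_succ (L ^ e0)⁻¹, ← mul_assoc, inv_mul_cancel_right]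
  have hNq : ∀ q : ℕ, q * e0 ≤ m + S.β i1 →
      L ^ (m + S.β i1) * (L ^ e0)⁻¹ ^ q = L ^ (m + S.β i1 - q * e0) := by
    intro q hq
    have e1 : L ^ (m + S.β i1) = L ^ (m + S.β i1 - q * e0) * (L ^ e0) ^ q := by
      rw [← pow_mul, ← pow_add, mul_comm e0 q, Nat.sub_add_cancel hq]
    rw [e1, mul_assoc, inv_pow, mul_inv_cancel, mul_one]
  have hle : e0 ≤ (n + 1) * e0 := Nat.le_mul_of_pos_left _ (Nat.succ_pos n)
  obtain ⟨w, hw, hsw⟩ := kosgen (L ^ e0) (fun p => L ^ (m + S.β i1) * (L ^ e0)⁻¹ ^ p) hN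
    (fun j => ℓ (ε.symm j)) (fun j => hℓ _)
    (fun c x hx => by
      obtain ⟨p, hp⟩ := hℓne c x hx
      exact ⟨ε p, by rw [Equiv.symm_apply_apply]; exact hp⟩)
    (fun q hq hqn => by
      show Solv (L ^ (m + S.β i1) * (L ^ e0)⁻¹ ^ (q + 1)) q
      have h1 : (q + 1) * e0 ≤ (n + 1) * e0 := Nat.mul_le_mul_right _ (by omega)
      rw [hNq (q + 1) (by omega)]
      exact hV _ (by omega) q hq)
    (s := s) (by
      show IsHS (L ^ (m + S.β i1) * (L ^ e0)⁻¹ ^ 0) univ s
      rw [pow_zero, mul_one]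
      exact hs)
  have hw' : ∀ j, IsHS (L ^ (m + S.β i1 - e0)) univ (w j) := by
    intro j
    have h1 : IsHS (L ^ (m + S.β i1) * (L ^ e0)⁻¹ ^ 1) univ (w j) := hw j
    rw [hNq 1 (by omega), one_mul] at h1
    exact h1
  -- the sum over all the indices
  have hs2 : ∀ c x, s c x = ∑ p : κ, v p.1 c x * Wd S i1 p.2 c x * w (ε p) c x := by
    intro c x
    have h1 : s c x = ∑ j, ℓ (ε.symm j) c x * w j c x := by
      conv_lhs => rw [hsw]
      rw [Finset.sum_apply, Finset.sum_apply]
      rfl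
    rw [h1]
    refine (Fintype.sum_equiv ε _ _ fun p => ?_).symm
    rw [Equiv.symm_apply_apply]
    rfl
  let t : S.J i1 → Fn A := fun k => ∑ p : κ, ∑ l : Unit ⊕ Fin n,
    if p.2 l = k then v p.1 * Nd S θ i1 p.2 l * w (ε p) else 0
  have ht : ∀ k c x, t k c x = ∑ p : κ, ∑ l : Unit ⊕ Fin n,
      if p.2 l = k then v p.1 c x * Nd S θ i1 p.2 l c x * w (ε p) c x else 0 := by
    intro k c x
    show (∑ p : κ, ∑ l : Unit ⊕ Fin n,
      if p.2 l = k then v p.1 * Nd S θ i1 p.2 l * w (ε p) else 0 : Fn A) c x = _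
    rw [Finset.sum_apply, Finset.sum_apply]
    refine Finset.sum_congr rfl fun p _ => ?_
    rw [Finset.sum_apply, Finset.sum_apply]
    refine Finset.sum_congr rfl fun l _ => ?_
    split_ifs <;> rfl
  have hsum : ∀ (g : S.J i1 → ℂ) (c : A.ι) (x : M), ∑ k, t k c x * g k =
      ∑ p : κ, v p.1 c x * (∑ l, Nd S θ i1 p.2 l c x * g (p.2 l)) * w (ε p) c x := by
    intro g c x
    have h1 : ∀ k, t k c x * g k = ∑ p : κ, ∑ l : Unit ⊕ Fin n,
        if k = p.2 l then v p.1 c x * Nd S θ i1 p.2 l c x * w (ε p) c x * g (p.2 l) else 0 := by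
      intro k
      rw [ht, Finset.sum_mul]
      refine Finset.sum_congr rfl fun p _ => ?_
      rw [Finset.sum_mul]
      refine Finset.sum_congr rfl fun l _ => ?_
      by_cases h : k = p.2 l
      · rw [if_pos h, if_pos h.symm, h]
      · rw [if_neg h, if_neg (Ne.symm h), zero_mul]
    rw [Finset.sum_congr rfl fun k _ => h1 k, Finset.sum_comm]
    refine Finset.sum_congr rfl fun p _ => ?_
    rw [Finset.sum_comm, Finset.mul_sum, Finset.sum_mul]
    refine Finset.sum_congr rfl fun l _ => ?_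
    rw [Finset.sum_ite_eq' Finset.univ, if_pos (Finset.mem_univ _)]
    ring
  refine ⟨t, fun k => ?_, fun c x hx => ?_, fun c x hx u => ?_⟩
  · have h0 : ∀ (p : κ) (l : Unit ⊕ Fin n),
        IsHS (L ^ (m + 1)) univ (v p.1 * Nd S θ i1 p.2 l * w (ε p)) := by
      intro p l
      have h1 := ((hv p.1).mul (isHS_Nd S θ i1 p.2 l)).mul (hw' (ε p))
      have h2 : (KB A)⁻¹ * L ^ (S.β i1 * m2) * (KB A * L ^ (S.β i1 * n + 1)) *
          L ^ (m + S.β i1 - e0) = L ^ (m + 1) := by
        rw [mul_mul_mul_comm, inv_mul_cancel, one_mul, ← pow_add, ← pow_add]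
        congr 1
        have h3 : e0 = S.β i1 * m2 + S.β i1 * n + S.β i1 := by rw [he0]; ring
        omega
      rw [h2] at h1
      exact h1
    have h3 : t k ∈ HS (L ^ (m + 1)) univ := by
      refine Submodule.sum_mem _ fun p _ => Submodule.sum_mem _ fun l _ => ?_
      split_ifs
      · exact h0 p l
      · exact Submodule.zero_mem _
    exact h3
  · rw [hsum]
    refine Finset.sum_eq_zero fun p _ => ?_
    rw [cramer_euler S θ i1 p.2 hx, mul_zero, zero_mul]
  · rw [hsum, hs2, Finset.sum_mul]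
    refine Finset.sum_congr rfl fun p _ => ?_
    rw [← cramer_form S θ i1 p.2 hx u]
    ring

theorem mhd_support {k : Type*} [CommSemiring k] {I : Type} {J : I → Type} [∀ i, Fintype (J i)]
    {p : MvPolynomial (Σ i, J i) k} {d : I → ℕ} (hp : MHd p d) {e : (Σ i, J i) →₀ ℕ}
    (he : e ∈ p.support) (i : I) : ∑ a, e ⟨i, a⟩ = d i := by
  classical
  have hc := hp (MvPolynomial.mem_support_iff.1 he)
  have h1 : d i = ∑ y ∈ e.support, if y.1 = i then e y else 0 := by
    rw [← hc, Finsupp.weight_apply, Finsupp.sum, Finset.sum_apply]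
    refine Finset.sum_congr rfl fun y _ => ?_
    by_cases hy : y.1 = i
    · subst hy
      simp [Pi.smul_apply, smul_eq_mul]
    · rw [if_neg hy, Pi.smul_apply, Pi.single_eq_of_ne (Ne.symm hy), smul_zero]
  rw [h1, ← Finset.sum_filter]
  symm
  have h2 : ∑ a, e ⟨i, a⟩ = ∑ y ∈ Finset.univ.map
      ⟨fun a : J i => (⟨i, a⟩ : Σ i, J i), sigma_mk_injective⟩, e y := by
    rw [Finset.sum_map]
    rfl
  rw [h2]
  refine Finset.sum_subset ?_ ?_
  · intro y hy
    rw [Finset.mem_filter] at hy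
    obtain ⟨j, a⟩ := y
    obtain rfl : j = i := hy.2
    exact Finset.mem_map.2 ⟨a, Finset.mem_univ _, rfl⟩
  · intro y hy hny
    obtain ⟨a, -, rfl⟩ := Finset.mem_map.1 hy
    by_contra h0
    exact hny (Finset.mem_filter.2 ⟨Finsupp.mem_support_iff.2 h0, rfl⟩)

/-- **one-forms with values in `L` are algebraic**, in terms of polynomials -/
theorem alg_poly (PA : Part A) (hD : D2 A) (w : I → ℤ) (hw : ∑ i, w i * (S.β i : ℤ) = 1) :
    ∃ K : ℕ, (∀ i, 1 ≤ (K : ℤ) + w i) ∧ ∀ d : I → ℕ, (∀ i, K ≤ d i) → ∀ Q, MHd Q d →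
      ∃ q : (Σ i, S.J i) → MvPolynomial (Σ i, S.J i) ℂ,
        (∀ y, ∀ e : I → ℕ, (∀ i, (e i : ℤ) = d i + w i -
          (open Classical in if y.1 = i then 1 else 0)) → MHd (q y) e) ∧
        (∀ y, ∀ m ∈ (q y).support, ∀ i, ((∑ a, m ⟨i, a⟩ : ℕ) : ℤ) +
          (open Classical in if y.1 = i then 1 else 0) = d i + w i) ∧
        (∀ c, ∀ x ∈ (A.e c).source, ∀ u, S.ev c x Q * θ.app c x u =
          ∑ y, S.ev c x (q y) * dpt S c x u y.1 y.2) ∧
        ∀ c, ∀ x ∈ (A.e c).source, ∀ i, ∑ a, S.ev c x (q ⟨i, a⟩) * S.pt c x i a = 0 := by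
  classical
  have hI : Nonempty I := by
    by_contra h
    rw [not_nonempty_iff] at h
    rw [Finset.univ_eq_empty, Finset.sum_empty] at hw
    exact zero_ne_one hw
  obtain ⟨i1⟩ := hI
  obtain ⟨m0, hm0⟩ := alg_div S θ i1 PA hD
  obtain ⟨B, hB⟩ : ∃ B : ℕ, ∀ i, -(B : ℤ) ≤ w i := by
    refine ⟨∑ i, (w i).natAbs, fun i => ?_⟩
    have h1 : (w i).natAbs ≤ ∑ i, (w i).natAbs :=
      Finset.single_le_sum (f := fun i => (w i).natAbs) (fun _ _ => Nat.zero_le _)
        (Finset.mem_univ i)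
    omega
  refine ⟨m0 + B + 2, fun i => by have := hB i; push_cast; omega, fun d hd Q hQ => ?_⟩
  -- the multidegree of the coefficients
  have hnn : ∀ i, 0 ≤ (d i : ℤ) + w i - (if i1 = i then 1 else 0) := by
    intro i
    have h1 := hd i
    have h2 := hB i
    split_ifs <;> omega
  let e : I → ℕ := fun i => ((d i : ℤ) + w i - (if i1 = i then 1 else 0)).toNat
  have he : ∀ i, (e i : ℤ) = d i + w i - (if i1 = i then 1 else 0) := fun i =>
    Int.toNat_of_nonneg (hnn i)
  set D := ∑ i, S.β i * d i with hD'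
  have hDge : S.β i1 * d i1 ≤ D :=
    Finset.single_le_sum (f := fun i => S.β i * d i) (fun _ _ => Nat.zero_le _)
      (Finset.mem_univ i1)
  have hD1 : m0 + S.β i1 ≤ D := by
    have h1 : S.β i1 * (m0 + 1) ≤ S.β i1 * d i1 :=
      Nat.mul_le_mul_left _ (by have := hd i1; omega)
    have h2 : m0 ≤ S.β i1 * m0 := Nat.le_mul_of_pos_left _ (S.pos i1)
    have h3 : S.β i1 * (m0 + 1) = S.β i1 * m0 + S.β i1 := by ring
    omega
  obtain ⟨m, hm⟩ : ∃ m, D = m + S.β i1 := ⟨D - S.β i1, by omega⟩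
  have hesum : ∑ i, S.β i * e i = m + 1 := by
    have h1 : ((∑ i, S.β i * e i : ℕ) : ℤ) = (m : ℤ) + 1 := by
      push_cast
      have h2 : ∀ i, (S.β i : ℤ) * (e i : ℤ) = S.β i * d i + w i * S.β i -
          (if i1 = i then (S.β i : ℤ) else 0) := by
        intro i
        rw [he i]
        split_ifs <;> ring
      rw [Finset.sum_congr rfl fun i _ => h2 i, Finset.sum_sub_distrib, Finset.sum_add_distrib, hw,
        Finset.sum_ite_eq Finset.univ, if_pos (Finset.mem_univ _)]
      have h3 : (∑ i, (S.β i : ℤ) * (d i : ℤ)) = (D : ℤ) := by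
        rw [hD']
        push_cast
        rfl
      rw [h3, hm]
      push_cast
      ring
    exact_mod_cast h1
  have hs : IsHS (L ^ (m + S.β i1)) univ (sv S Q) := by
    rw [← hm]
    exact isHS_sv S hQ
  obtain ⟨t, ht, hte, htf⟩ := hm0 m (by omega) (sv S Q) hs
  have hq : ∀ k, ∃ p : MvPolynomial (Σ i, S.J i) ℂ, MHd p e ∧ ∀ c, ∀ x ∈ (A.e c).source,
      t k c x = S.ev c x p := by
    intro k
    have h1 := ht k
    rw [← hesum] at h1
    exact S.gen e (t k) h1
  choose qa hqa hqe using hq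
  let q : (Σ i, S.J i) → MvPolynomial (Σ i, S.J i) ℂ := fun y =>
    if h : y.1 = i1 then qa (h ▸ y.2) else 0
  have hq1 : ∀ k : S.J i1, q ⟨i1, k⟩ = qa k := by
    intro k
    exact dif_pos rfl
  have hq0 : ∀ y : Σ i, S.J i, y.1 ≠ i1 → q y = 0 := fun y hy => dif_neg hy
  have hsum : ∀ (c : A.ι) (x : M) (g : ∀ i, S.J i → ℂ), x ∈ (A.e c).source →
      ∑ y, S.ev c x (q y) * g y.1 y.2 = ∑ k, t k c x * g i1 k := by
    intro c x g hx
    rw [Fintype.sum_sigma, Finset.sum_eq_single i1]
    · refine Finset.sum_congr rfl fun k _ => ?_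
      rw [hq1, hqe k c x hx]
    · intro i _ hi
      refine Finset.sum_eq_zero fun k _ => ?_
      rw [hq0 ⟨i, k⟩ hi]
      show MvPolynomial.eval _ 0 * _ = 0
      rw [map_zero, zero_mul]
    · intro h
      exact absurd (Finset.mem_univ _) h
  refine ⟨q, fun y e' he' => ?_, fun y m hmy i => ?_, fun c x hx u => ?_, fun c x hx i => ?_⟩
  · obtain ⟨i, k⟩ := y
    by_cases hi : i = i1
    · subst hi
      rw [hq1]
      have h1 : e' = e := by
        funext j
        have h2 := he' j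
        have h3 := he j
        have h4 : (e' j : ℤ) = e j := by rw [h2, h3]
        exact_mod_cast h4
      rw [h1]
      exact hqa k
    · rw [hq0 ⟨i, k⟩ hi]
      exact MvPolynomial.isWeightedHomogeneous_zero _ _ _
  · obtain ⟨j, k⟩ := y
    by_cases hj : j = i1
    · subst hj
      rw [hq1] at hmy
      rw [mhd_support (hqa k) hmy i, he i]
      ring
    · rw [hq0 ⟨j, k⟩ hj] at hmy
      simp at hmy
  · rw [hsum c x (dpt S c x u) hx, ← htf c x hx u, sv_eq S Q hx]
  · by_cases hi : i = i1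
    · subst hi
      rw [← hte c x hx]
      refine Finset.sum_congr rfl fun k _ => ?_
      rw [hq1, hqe k c x hx]
    · refine Finset.sum_eq_zero fun k _ => ?_
      rw [hq0 ⟨i, k⟩ hi]
      show MvPolynomial.eval _ 0 * _ = 0
      rw [map_zero, zero_mul]

end Div

end

end Crest.Agent.R260.Ga_323
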