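import Crest.Agent.R260.Ga4_323
import Crest.Agent.R260.BrIf_592
import Crest.Agent.R260.Rank3_406

set_option autoImplicit false
set_option linter.unusedSectionVars false

/-!
# Row 260 (S0398), GAGA-TH, part 5 (helper323): the algebraic contact form

* `PF S θ w` : the polynomials representing `θ` in the charts of the multicone;
* `PF.link`, `PF.euler`, `PF.agree`, `PF.toCForm`.
-/

open Set Filter Topology Complex
open scoped ContDiff Matrix ComplexConjugate

namespace Crest.Agent.R260.Ga_323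

open Crest.Agent.R275 Crest.Agent.R275.Geo Crest.Agent.R275.Core144
open Crest.Agent.R273.SerE_945 Crest.Agent.R273.TD3_733
open Crest.Agent.R273.Defs_333 Crest.Agent.R273.SerA_945
open Crest.Agent.R270.BM_360 Crest.Agent.R260.BrDefs_592 Crest.Agent.R260.Br1_592
open Crest.Agent.R260.Br2_592 Crest.Agent.R260.Lin_678

noncomputable section

/-! ### powers of the denominator -/

section DenP

variable {k : Type*} [CommSemiring k] {I : Type} {J : I → Type} [Fintype I]

/-- the power of the denominator as a polynomial -/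
def denP (k : Type*) [CommSemiring k] {I : Type} {J : I → Type} [Fintype I] (c : ∀ i, J i)
    (N : ℕ) : MvPolynomial (Σ i, J i) k := ∏ i, MvPolynomial.X ⟨i, c i⟩ ^ N

theorem denP_MHd (c : ∀ i, J i) (N : ℕ) : MHd (denP k c N) (fun _ => N) := by
  classical
  have h1 : MHd (denP k c N) (∑ i : I, N • (Pi.single i 1 : I → ℕ)) := by
    refine MvPolynomial.IsWeightedHomogeneous.prod _ _ _ fun i _ => ?_
    have h2 := (MvPolynomial.isWeightedHomogeneous_X k
      (fun x : Σ i, J i => (Pi.single x.1 1 : I → ℕ)) ⟨i, c i⟩).pow N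
    convert h2
  have h2 : (∑ i : I, N • (Pi.single i 1 : I → ℕ)) = fun _ => N := by
    funext j
    rw [Finset.sum_apply, Finset.sum_eq_single j]
    · simp
    · intro i _ hi
      simp [Pi.single_eq_of_ne hi.symm]
    · intro h
      exact absurd (Finset.mem_univ j) h
  rw [h2] at h1
  exact h1

theorem denP_aeval {k : Type*} [CommSemiring k] {B : Type*} [CommRing B] [Algebra k B]
    (c : ∀ i, J i) (N : ℕ) (v : ∀ i, J i → B) :
    MvPolynomial.aeval (fun y : Σ i, J i => v y.1 y.2) (denP k c N) = den c v ^ N := by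
  unfold denP den
  rw [map_prod, ← Finset.prod_pow]
  exact Finset.prod_congr rfl fun i _ => by rw [map_pow, MvPolynomial.aeval_X]

end DenP

variable {n : ℕ} {M : Type} [TopologicalSpace M] {A : Atl n M} {L : LB A} {I : Type} [Fintype I]

open Classical in
/-- the polynomials representing `θ` -/
structure PF (S : MSys A L I) (θ : OneForm L) (w : I → ℤ) where
  N : ℕ
  pos : 1 ≤ N
  nn : ∀ i, 1 ≤ (N : ℤ) + w i
  p : (∀ i, S.J i) → (Σ i, S.J i) → MvPolynomial (Σ i, S.J i) ℂ
  mh : ∀ c y, ∀ e : I → ℕ, (∀ i, (e i : ℤ) = N + w i - (if y.1 = i then 1 else 0)) →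
    MHd (p c y) e
  hom : ∀ c y, ∀ m ∈ (p c y).support, ∀ i, ((∑ a, m ⟨i, a⟩ : ℕ) : ℤ) +
    (if y.1 = i then 1 else 0) = N + w i
  eq : ∀ c ch, ∀ x ∈ (A.e ch).source, ∀ u, S.ev ch x (denP ℂ c N) * θ.app ch x u =
    ∑ y, S.ev ch x (p c y) * dpt S ch x u y.1 y.2
  eu : ∀ c ch, ∀ x ∈ (A.e ch).source, ∀ i, ∑ a, S.ev ch x (p c ⟨i, a⟩) * S.pt ch x i a = 0

theorem exists_pf [T2Space M] [ConnectedSpace M] [CompactSpace M] [Finite A.ι] (PA : Part A)
    (hD : D2 A) (S : MSys A L I) (θ : OneForm L) (w : I → ℤ)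
    (hw : ∑ i, w i * (S.β i : ℤ) = 1) : Nonempty (PF S θ w) := by
  obtain ⟨K, hK1, hK⟩ := alg_poly S θ PA hD w hw
  choose p hp1 hp2 hp3 hp4 using fun c : ∀ i, S.J i =>
    hK (fun _ => K + 1) (fun _ => Nat.le_succ K) (denP ℂ c (K + 1)) (denP_MHd c (K + 1))
  exact ⟨{
    N := K + 1
    pos := Nat.le_add_left 1 K
    nn := fun i => by have := hK1 i; push_cast; omega
    p := p
    mh := fun c y e he => hp1 c y e he
    hom := fun c y m hm i => hp2 c y m hm i
    eq := fun c ch x hx u => hp3 c ch x hx u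
    eu := fun c ch x hx i => hp4 c ch x hx i }⟩

namespace PF

variable {S : MSys A L I} {θ : OneForm L} {w : I → ℤ} (F : PF S θ w)

open Classical in
/-- the multidegree of the coefficients -/
def dg (y : I) : I → ℕ := fun i => ((F.N : ℤ) + w i - (if y = i then 1 else 0)).toNat

open Classical in
theorem dg_eq (y i : I) : (F.dg y i : ℤ) = F.N + w i - (if y = i then 1 else 0) := by
  refine Int.toNat_of_nonneg ?_
  have := F.nn i
  split_ifs <;> omega

theorem mhd (c : ∀ i, S.J i) (y : Σ i, S.J i) : MHd (F.p c y) (F.dg y.1) :=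
  F.mh c y _ fun i => F.dg_eq y.1 i

/-- the total degree `N + w` -/
def tg : I → ℕ := fun i => ((F.N : ℤ) + w i).toNat

theorem tg_eq (i : I) : (F.tg i : ℤ) = F.N + w i := by
  refine Int.toNat_of_nonneg ?_
  have := F.nn i
  omega

open Classical in
theorem dg_tg (y : I) : F.dg y + Pi.single y 1 = F.tg := by
  funext i
  have h1 := F.dg_eq y i
  have h2 := F.tg_eq i
  rw [Pi.add_apply]
  by_cases h : y = i
  · subst h
    rw [Pi.single_eq_same]
    rw [if_pos rfl] at h1
    omega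
  · rw [Pi.single_eq_of_ne (Ne.symm h)]
    rw [if_neg h] at h1
    omega

theorem prod_dg {κ : Type*} [Field κ] (l : I → κ) (y : I) :
    (∏ i, l i ^ F.dg y i) * l y = ∏ i, l i ^ F.tg i := by
  classical
  rw [← F.dg_tg y]
  have h1 : ∀ i, l i ^ (F.dg y + Pi.single y 1 : I → ℕ) i =
      l i ^ F.dg y i * (if i = y then l y else 1) := by
    intro i
    rw [Pi.add_apply, pow_add]
    by_cases h : i = y
    · subst h
      rw [Pi.single_eq_same, pow_one, if_pos rfl]
    · rw [Pi.single_eq_of_ne h, pow_zero, if_neg h]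
  rw [Finset.prod_congr rfl fun i _ => h1 i, Finset.prod_mul_distrib,
    Finset.prod_ite_eq' Finset.univ, if_pos (Finset.mem_univ _)]

theorem prod_tg {κ : Type*} [Field κ] {l : I → κ} (hl : ∀ i, l i ≠ 0) :
    ∏ i, l i ^ F.tg i = (∏ i, l i) ^ F.N * ∏ i, l i ^ w i := by
  rw [← Finset.prod_pow, ← Finset.prod_mul_distrib]
  refine Finset.prod_congr rfl fun i _ => ?_
  rw [← zpow_natCast, F.tg_eq i, zpow_add₀ (hl i), zpow_natCast]

/-- the sum of the Euler terms in a block, as a polynomial -/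
def eup (c : ∀ i, S.J i) (i : I) : MvPolynomial (Σ i, S.J i) ℂ :=
  ∑ a, F.p c ⟨i, a⟩ * MvPolynomial.X ⟨i, a⟩

theorem eup_mem (c : ∀ i, S.J i) (i : I) : F.eup c i ∈ S.E := by
  classical
  refine ⟨⟨F.tg, ?_⟩, fun ch x hx => ?_⟩
  · refine MvPolynomial.IsWeightedHomogeneous.sum _ _ _ fun a _ => ?_
    rw [← F.dg_tg i]
    refine MvPolynomial.IsWeightedHomogeneous.mul (F.mhd c ⟨i, a⟩) ?_
    have h2 := (MvPolynomial.isWeightedHomogeneous_X ℂ
      (fun x : Σ i, S.J i => (Pi.single x.1 1 : I → ℕ)) ⟨i, a⟩)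
    convert h2
  · rw [← F.eu c ch x hx i]
    unfold MSys.ev eup
    rw [map_sum]
    exact Finset.sum_congr rfl fun a _ => by rw [map_mul, MvPolynomial.eval_X]

/-- `θ` kills the Euler fields -/
theorem euler {B : Type*} [CommRing B] [Algebra ℂ B] {v : ∀ i, S.J i → B} (hv : OnX S.E v)
    (c : ∀ i, S.J i) (i : I) :
    ∑ a, MvPolynomial.aeval (fun y : Σ i, S.J i => v y.1 y.2) (F.p c ⟨i, a⟩) * v i a = 0 := by
  have h1 := hv _ (F.eup_mem c i)
  rw [eup, map_sum] at h1
  rw [← h1]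
  exact Finset.sum_congr rfl fun a _ => by rw [map_mul, MvPolynomial.aeval_X]

/-- the analytic meaning of `p` -/
theorem link {ch : A.ι} {x : M} (hx : x ∈ (A.e ch).source) (c : ∀ i, S.J i) {l : I → ℂ}
    (hl : ∀ i, l i ≠ 0) (u : Cn n) (a : I → ℂ) :
    form (F.p c) (fun i b => l i * S.pt ch x i b)
        (fun i b => l i * dpt S ch x u i b + a i * S.pt ch x i b) =
      den c (fun i b => l i * S.pt ch x i b) ^ F.N * (∏ i, l i ^ w i) * θ.app ch x u := by
  have h1 : ∀ y : Σ i, S.J i, MvPolynomial.aeval (fun y : Σ i, S.J i => l y.1 * S.pt ch x y.1 y.2)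
      (F.p c y) = (∏ i, l i ^ F.dg y.1 i) * S.ev ch x (F.p c y) := by
    intro y
    rw [eval_scale (F.mhd c y) l (S.pt ch x), aeval_eq]
    rfl
  have hden : den c (fun i b => l i * S.pt ch x i b) ^ F.N =
      (∏ i, l i) ^ F.N * S.ev ch x (denP ℂ c F.N) := by
    have h2 : S.ev ch x (denP ℂ c F.N) = den c (S.pt ch x) ^ F.N := by
      unfold MSys.ev
      rw [← aeval_eq]
      exact denP_aeval c F.N (S.pt ch x)
    rw [h2, ← mul_pow]
    congr 1
    unfold den
    rw [← Finset.prod_mul_distrib]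
  unfold form
  have h3 : ∀ y : Σ i, S.J i,
      MvPolynomial.aeval (fun y : Σ i, S.J i => l y.1 * S.pt ch x y.1 y.2) (F.p c y) *
        (l y.1 * dpt S ch x u y.1 y.2 + a y.1 * S.pt ch x y.1 y.2) =
      (∏ i, l i ^ F.tg i) * (S.ev ch x (F.p c y) * dpt S ch x u y.1 y.2) +
        (∏ i, l i ^ F.dg y.1 i) * a y.1 * (S.ev ch x (F.p c y) * S.pt ch x y.1 y.2) := by
    intro y
    rw [h1 y, ← F.prod_dg l y.1]
    ring
  rw [Finset.sum_congr rfl fun y _ => h3 y, Finset.sum_add_distrib, ← Finset.mul_sum,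
    ← F.eq c ch x hx u, Fintype.sum_sigma (fun y : Σ i, S.J i => (∏ i, l i ^ F.dg y.1 i) * a y.1 *
      (S.ev ch x (F.p c y) * S.pt ch x y.1 y.2))]
  have h4 : ∀ i, ∑ b, (∏ i', l i' ^ F.dg i i') * a i *
      (S.ev ch x (F.p c ⟨i, b⟩) * S.pt ch x i b) = 0 := by
    intro i
    rw [← Finset.mul_sum, F.eu c ch x hx i, mul_zero]
  rw [Finset.sum_congr rfl fun i _ => h4 i, Finset.sum_const_zero, add_zero, hden, F.prod_tg hl]
  ring

/-- comparison of two charts, as a polynomial in the point and the tangent vector -/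
def cmp (c c' : ∀ i, S.J i) : MvPolynomial ((Σ i, S.J i) ⊕ (Σ i, S.J i)) ℂ :=
  MvPolynomial.rename Sum.inl (denP ℂ c F.N) *
      (∑ y, MvPolynomial.rename Sum.inl (F.p c' y) * MvPolynomial.X (Sum.inr y)) -
    MvPolynomial.rename Sum.inl (denP ℂ c' F.N) *
      ∑ y, MvPolynomial.rename Sum.inl (F.p c y) * MvPolynomial.X (Sum.inr y)

theorem cmp_aeval (c c' : ∀ i, S.J i) {B : Type*} [CommRing B] [Algebra ℂ B]
    (v t : ∀ i, S.J i → B) : MvPolynomial.aeval (Sum.elim (fun y : Σ i, S.J i => v y.1 y.2)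
      (fun y : Σ i, S.J i => t y.1 y.2)) (F.cmp c c') =
      den c v ^ F.N * form (F.p c') v t - den c' v ^ F.N * form (F.p c) v t := by
  unfold cmp form
  simp only [map_sub, map_mul, map_sum, MvPolynomial.aeval_rename, MvPolynomial.aeval_X,
    Sum.elim_comp_inl, Sum.elim_inr, denP_aeval]

variable (hP : ExistsPt S) (hT : BrIf_592.TanPt S)

include hP hT

theorem cmp_zero {v t : ∀ i, S.J i → ℂ} (hv : OnX S.E v) (ht : Tan S.E v t)
    (hv0 : ∀ i, v i ≠ 0) (c c' : ∀ i, S.J i) :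
    MvPolynomial.aeval (Sum.elim (fun y : Σ i, S.J i => v y.1 y.2)
      (fun y : Σ i, S.J i => t y.1 y.2)) (F.cmp c c') = 0 := by
  refine (F.cmp_aeval c c' v t).trans ?_
  obtain ⟨ch, y, hy, l, hl, rfl⟩ := hP v hv hv0
  obtain ⟨u, b, rfl⟩ := (hT ch y hy l hl t).1 ht
  have e1 := F.link hy c hl u b
  have e2 := F.link hy c' hl u b
  have e3 : BrIf_592.dpt S ch y u = dpt S ch y u := rfl
  rw [e3, e1, e2]
  ring

/-- the charts agree, over fields -/
theorem agree_field {κ : Type} [Field κ] [Algebra ℂ κ] {v t : ∀ i, S.J i → κ}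
    (hv : OnX S.E v) (ht : Tan S.E v t) (hv0 : ∀ i, v i ≠ 0) (c c' : ∀ i, S.J i) :
    den c v ^ F.N * form (F.p c') v t = den c' v ^ F.N * form (F.p c) v t := by
  have h1 : ∀ i, ∃ a, v i a ≠ 0 := fun i => Function.ne_iff.1 (hv0 i)
  choose a ha using h1
  have h0 : ∀ x s : ∀ i, S.J i → ℂ, Rk_406.OnC S.E x → Rk_406.TanC S.E x s →
      MvPolynomial.aeval (Rk_406.unc x) (denP ℂ a 1) ≠ 0 →
      MvPolynomial.aeval (Sum.elim (Rk_406.unc x) (Rk_406.unc s)) (F.cmp c c') = 0 := by
    intro x s hx hs hB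
    refine F.cmp_zero hP hT hx hs (fun i hi => hB ?_) c c'
    refine (denP_aeval a 1 x).trans ?_
    rw [pow_one]
    exact Finset.prod_eq_zero (Finset.mem_univ i) (congrFun hi (a i))
  have h2 := Rk_406.c3 (E := S.E) (B := denP ℂ a 1) (Q := F.cmp c c') h0 v t hv ht (by
    rw [isUnit_iff_ne_zero]
    have h5 : MvPolynomial.aeval (Rk_406.unc v) (denP ℂ a 1) = den a v ^ 1 := denP_aeval a 1 v
    rw [h5, pow_one]
    exact Finset.prod_ne_zero_iff.2 fun i _ => ha i)
  have h3 := (F.cmp_aeval c c' v t).symm.trans h2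
  exact sub_eq_zero.1 h3

/-- the charts agree, over reduced algebras -/
theorem agree {B : Type} [CommRing B] [IsReduced B] [Algebra ℂ B] {v t : ∀ i, S.J i → B}
    (hv : OnX S.E v) (ht : Tan S.E v t) (c c' : ∀ i, S.J i) :
    den c v ^ F.N * form (F.p c') v t = den c' v ^ F.N * form (F.p c) v t := by
  rw [← sub_eq_zero]
  refine IsReduced.eq_zero _ ?_
  rw [nilpotent_iff_mem_prime]
  intro P hP'
  let κ := FractionRing (B ⧸ P)
  let f : B →ₐ[ℂ] κ := (IsScalarTower.toAlgHom ℂ (B ⧸ P) κ).comp (Ideal.Quotient.mkₐ ℂ P)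
  have hf : ∀ b, f b = 0 ↔ b ∈ P := by
    intro b
    have h1 : f b = algebraMap (B ⧸ P) κ (Ideal.Quotient.mk P b) := rfl
    rw [h1, map_eq_zero_iff _ (IsFractionRing.injective (B ⧸ P) κ), Ideal.Quotient.eq_zero_iff_mem]
  have hae : ∀ q : MvPolynomial (Σ i, S.J i) ℂ,
      MvPolynomial.aeval (fun y : Σ i, S.J i => f (v y.1 y.2)) q =
      f (MvPolynomial.aeval (fun y : Σ i, S.J i => v y.1 y.2) q) := by
    intro q
    exact (MvPolynomial.comp_aeval_apply (fun y : Σ i, S.J i => v y.1 y.2) f q).symm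
  have hv' : OnX S.E (fun i a => f (v i a)) := by
    intro p hp
    have h1 := hv p hp
    rw [hae, h1, map_zero]
  have ht' : Tan S.E (fun i a => f (v i a)) (fun i a => f (t i a)) := by
    intro p hp
    have h1 := ht p hp
    have h2 : ∀ x : Σ i, S.J i, MvPolynomial.aeval (fun y : Σ i, S.J i => f (v y.1 y.2))
        (MvPolynomial.pderiv x p) * f (t x.1 x.2) = f (MvPolynomial.aeval
          (fun y : Σ i, S.J i => v y.1 y.2) (MvPolynomial.pderiv x p) * t x.1 x.2) := by
      intro x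
      rw [hae, map_mul]
    rw [Finset.sum_congr rfl fun x _ => h2 x, ← map_sum, h1, map_zero]
  have hden : ∀ c : ∀ i, S.J i, den c (fun i a => f (v i a)) = f (den c v) := by
    intro c
    unfold den
    rw [map_prod]
  have hform : ∀ c : ∀ i, S.J i, form (F.p c) (fun i a => f (v i a)) (fun i a => f (t i a)) =
      f (form (F.p c) v t) := by
    intro c
    unfold form
    rw [map_sum]
    refine Finset.sum_congr rfl fun y _ => ?_
    rw [map_mul, hae]
  rw [← hf, map_sub, map_mul, map_mul, map_pow, map_pow, ← hden, ← hden, ← hform, ← hform,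
    sub_eq_zero]
  by_cases h0 : den c (fun i a => f (v i a)) = 0 ∧ den c' (fun i a => f (v i a)) = 0
  · have hN : F.N ≠ 0 := by have := F.pos; omega
    rw [h0.1, h0.2, zero_pow hN, zero_mul, zero_mul]
  · refine F.agree_field hP hT hv' ht' (fun i hi => h0 ?_) c c'
    constructor
    · refine Finset.prod_eq_zero (Finset.mem_univ i) ?_
      exact congrFun hi (c i)
    · refine Finset.prod_eq_zero (Finset.mem_univ i) ?_
      exact congrFun hi (c' i)

/-- the algebraic contact form -/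
def toCForm : CForm S.E w where
  N := F.N
  p := F.p
  hom := fun c x m hm i => F.hom c x m hm i
  agree := fun _ _ _ _ _ _ hv ht c c' => F.agree hP hT hv ht c c'
  euler := fun _ _ _ _ _ hv c i => F.euler hv c i

end PF

end

end Crest.Agent.R260.Ga_323
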