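import Crest.Agent.R260.End3_919
import Crest.Agent.R260.QKh_838
import Crest.Agent.R260.LinDefs_678
import Crest.Agent.R260.TwPenB_389
import Crest.Agent.R260.Out1_516

/-!
# Row 260 (S0398), MAIN (helper803): the frozen interfaces algebra ↔ analysis

`n = dim M = 4m`, `E = EuclideanSpace ℝ (Fin n)`; `D : CData ℂ I Jt` = the contact manifold `Z` in
tuple language over `ℂ`; `VF` = "very free" (predicate on tuples of class `2β`).

* `AGOut D VF`          : output of the algebraic side (600's AG-FINAL).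
* `TwFam`, `TwAlg`      : the twistor lines over one chart of `M` as polynomial tuples.
* `OutP`                : (516) `TwAlg + AGOut ⟹ TwoPt` near a dense set of points.
-/

set_option autoImplicit false
set_option linter.unusedSectionVars false

open Set Filter Topology Polynomial
open scoped ContDiff Matrix
open Crest.GeometryTopology.CoordMetric Crest.GeometryTopology.ChartRiem
open Crest.Agent.R270.BM_360 Crest.Agent.R260.Lin_678 Crest.Agent.R260.TwPen_389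
open Crest.Agent.R260.Tw_979 Crest.Agent.R260.Out_516

noncomputable section

namespace Crest.Agent.R260.Main_803

/-! ### tuples over `ℂ` -/

section Tup

variable {I : Type} {J : I → Type}

/-- a family of vectors as one vector -/
def unc {A : Type*} (v : ∀ i, J i → A) : (Σ i, J i) → A := fun x => v x.1 x.2

/-- the value of a tuple at a point of the affine line -/
def evT {A : Type*} [CommRing A] (F : ∀ i, J i → A[X]) (s : A) : ∀ i, J i → A :=
  fun i a => (F i a).eval s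

/-- coefficientwise derivative -/
def derT {A : Type*} [CommRing A] (F : ∀ i, J i → A[X]) : ∀ i, J i → A[X] :=
  fun i a => derivative (F i a)

/-- rescaling of the blocks -/
def scT {A : Type*} [CommRing A] (a : I → A) (v : ∀ i, J i → A) : ∀ i, J i → A :=
  fun i j => a i * v i j

/-- points of the multicone with all blocks non-zero -/
structure Pt (E : Set (MvPolynomial (Σ i, J i) ℂ)) (v : ∀ i, J i → ℂ) : Prop where
  on : OnX E v
  ne : ∀ i, v i ≠ 0

/-- value of a polynomial on a pair of points -/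
def val2 (Δ : MvPolynomial ((Σ i, J i) ⊕ (Σ i, J i)) ℂ) (v v' : ∀ i, J i → ℂ) : ℂ :=
  MvPolynomial.aeval (Sum.elim (unc v) (unc v')) Δ

open Classical in
/-- bihomogeneous polynomials on pairs of points -/
def BHom (Δ : MvPolynomial ((Σ i, J i) ⊕ (Σ i, J i)) ℂ) : Prop :=
  ∃ d : I ⊕ I → ℕ, MvPolynomial.IsWeightedHomogeneous
    (fun x : (Σ i, J i) ⊕ (Σ i, J i) => (Pi.single (Sum.map Sigma.fst Sigma.fst x) 1 : I ⊕ I → ℕ)) Δ d

end Tup

section AG

variable {I : Type} {J : I → Type} [Fintype I] [∀ i, Fintype (J i)]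

/-- **Output of the algebraic side.** `P(v, v'; T)` = the polynomial with root
`Φ(v, v') = c²` for every tuple of class `2β` with leading vector `v`, constant vector `v'` and
contact constant `c ≠ 0`. -/
structure AGOut (D : CData ℂ I J) (VF : (∀ i, J i → ℂ[X]) → Prop) where
  P : Polynomial (MvPolynomial ((Σ i, J i) ⊕ (Σ i, J i)) ℂ)
  Δ : MvPolynomial ((Σ i, J i) ⊕ (Σ i, J i)) ℂ
  /-- `P(a v, b v'; a^w b^w T)` is a monomial times `P(v, v'; T)` -/
  homP : ∃ dl dr : I → ℤ, ∀ (a b : I → ℂ), (∀ i, a i ≠ 0) → (∀ i, b i ≠ 0) →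
    ∀ (v v' : ∀ i, J i → ℂ) (t : ℂ),
    (evP P (unc (scT a v), unc (scT b v'))).eval
        ((∏ i, a i ^ D.w i) * (∏ i, b i ^ D.w i) * t) =
      (∏ i, a i ^ dl i) * (∏ i, b i ^ dr i) * (evP P (unc v, unc v')).eval t
  homΔ : BHom Δ
  ne : ∃ v v', Pt D.E v ∧ Pt D.E v' ∧ val2 Δ v v' ≠ 0
  root : ∀ F : ∀ i, J i → ℂ[X], IsMap D.E F → cls F = 2 • D.β →
    ∀ c : ℂ, c ≠ 0 → D.th.Val F (derT F) (C c) →
    val2 Δ (fun i a => (F i a).coeff (2 * D.β i)) (evT F 0) ≠ 0 →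
    (evP P (unc (fun i a => (F i a).coeff (2 * D.β i)), unc (evT F 0))).eval (c ^ 2) = 0
  simple : ∀ v v', Pt D.E v → Pt D.E v' → val2 Δ v v' ≠ 0 → ∀ t,
    (evP P (unc v, unc v')).eval t = 0 → (evP P (unc v, unc v')).derivative.eval t ≠ 0
  quadR : ∀ v, Pt D.E v → ∀ H : ∀ i, J i → ℂ[X], IsMap D.E H → cls H = 2 • D.β → VF H →
    (∃ u, val2 Δ v (evT H u) ≠ 0) →
    ∀ V : Set ℂ, IsOpen V → IsPreconnected V → V.Nonempty → ∀ f : ℂ → ℂ, DifferentiableOn ℂ f V →
    (∀ u ∈ V, (evP P (unc v, unc (evT H u))).eval (f u) = 0) →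
    ∃ q : ℂ[X], q.natDegree ≤ 2 ∧ ∀ u ∈ V, f u = q.eval u
  quadL : ∀ v, Pt D.E v → ∀ H : ∀ i, J i → ℂ[X], IsMap D.E H → cls H = 2 • D.β → VF H →
    (∃ u, val2 Δ (evT H u) v ≠ 0) →
    ∀ V : Set ℂ, IsOpen V → IsPreconnected V → V.Nonempty → ∀ f : ℂ → ℂ, DifferentiableOn ℂ f V →
    (∀ u ∈ V, (evP P (unc (evT H u), unc v)).eval (f u) = 0) →
    ∃ q : ℂ[X], q.natDegree ≤ 2 ∧ ∀ u ∈ V, f u = q.eval u

end AG

/-! ### the twistor lines over one chart of `M` -/

section Tw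

variable {n : ℕ}

/-- (45) horizontal derivative of a section of `L ^ k` -/
def horK (c : EuclideanSpace ℝ (Fin n) → Fin n → Fin 3 → Fin 3 → ℝ) (k : ℂ)
    (f : EuclideanSpace ℝ (Fin n) → ℂ → ℂ) (x : EuclideanSpace ℝ (Fin n)) (w : ℂ) (i : Fin n) : ℂ :=
  cpd i (fun y => f y w) x - mu (c x i) w * deriv (f x) w - k * lam (c x i) w * f x w

variable {I : Type} {Jt : I → Type} [Fintype I] [∀ i, Fintype (Jt i)]

/-- (45) the smooth family of twistor tuples over the open set `U` of a chart -/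
structure TwFam (J : Fin 3 → EuclideanSpace ℝ (Fin n) → Matrix (Fin n) (Fin n) ℝ)
    (c : EuclideanSpace ℝ (Fin n) → Fin n → Fin 3 → Fin 3 → ℝ)
    (U : Set (EuclideanSpace ℝ (Fin n))) (E : Set (MvPolynomial (Σ i, Jt i) ℂ)) (β : I → ℕ)
    (F : EuclideanSpace ℝ (Fin n) → ∀ i, Jt i → ℂ[X]) : Prop where
  map : ∀ x ∈ U, IsMap E (F x)
  cls : ∀ x ∈ U, cls (F x) = 2 • β
  sm : ∀ i a k, ContDiffOn ℝ ∞ (fun x => (F x i a).coeff k) U
  hol : ∀ x ∈ U, ∀ w j i a,
    ∑ l, Nq (fun a => cm (J a x)) (nn w) l j *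
      horK c (β i) (fun y w => (F y i a).eval w) x w l = 0

/-- **The twistor lines over one chart**, everything the step OUT consumes. -/
structure TwAlg (J : Fin 3 → EuclideanSpace ℝ (Fin n) → Matrix (Fin n) (Fin n) ℝ)
    (c : EuclideanSpace ℝ (Fin n) → Fin n → Fin 3 → Fin 3 → ℝ)
    (U : Set (EuclideanSpace ℝ (Fin n))) (D : CData ℂ I Jt) (VF : (∀ i, Jt i → ℂ[X]) → Prop)
    (F : EuclideanSpace ℝ (Fin n) → ∀ i, Jt i → ℂ[X]) : Prop where
  fam : TwFam J c U D.E D.β F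
  /-- the contact constant of the twistor lines is a constant -/
  con : ∃ κ : ℂ, κ ≠ 0 ∧ ∀ x ∈ U, D.th.Val (F x) (derT (F x)) (C κ)
  vf : ∀ x ∈ U, VF (F x)
  /-- the pairs of points on a common twistor line are dense enough -/
  gen : ∀ Δ, BHom Δ → (∃ v v', Pt D.E v ∧ Pt D.E v' ∧ val2 Δ v v' ≠ 0) →
    ∀ V ⊆ U, IsOpen V → V.Nonempty →
    ∃ x ∈ V, ∃ s t : ℂ, s ≠ t ∧ val2 Δ (evT (F x) s) (evT (F x) t) ≠ 0

/-- **OUT** (516): the two-point tensor near a dense set of points. -/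
def OutP : Prop :=
  ∀ (n : ℕ) (g : MetricField n)
    (J : Fin 3 → EuclideanSpace ℝ (Fin n) → Matrix (Fin n) (Fin n) ℝ)
    (c : EuclideanSpace ℝ (Fin n) → Fin n → Fin 3 → Fin 3 → ℝ) (U : Set (EuclideanSpace ℝ (Fin n)))
    (lam : ℝ), QKm_838.Dat g U J c lam →
    ∀ (I : Type) (Jt : I → Type) [Fintype I] [∀ i, Fintype (Jt i)] (D : CData ℂ I Jt)
      (VF : (∀ i, Jt i → ℂ[X]) → Prop), AGOut D VF →
    ∀ F, TwAlg J c U D VF F → ∀ V ⊆ U, IsOpen V → V.Nonempty →
      ∃ p ∈ V, ∃ W ⊆ U, IsOpen W ∧ p ∈ W ∧ ∃ G, End_919.TwoPt g W J c G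

end Tw

end Crest.Agent.R260.Main_803
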