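import Crest.Agent.R260.Iso4_568
import Crest.Agent.R260.LinDefs_678

/-!
Row 260 (S0398), AG-ISO part 5 (helper568): the theorem for the common structure `CData` (helper678).
-/

set_option autoImplicit false

namespace Crest.Agent.R260.Iso_568

open Polynomial Module Crest.Agent.R270.BM_360
open Crest.Agent.R270.Cramer_491 (JacT der_aeval)
open Crest.Agent.R260.Lin_678

universe u

variable {k : Type u} [Field k] {I : Type} {J : I → Type} [Fintype I] [∀ i, Fintype (J i)]

/-- the denominator as a polynomial. -/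
noncomputable def denP (k : Type u) [Field k] (c : ∀ i, J i) : MvPolynomial (Σ i, J i) k :=
  ∏ i, MvPolynomial.X ⟨i, c i⟩

theorem ev_denP {A : Type*} [CommRing A] [Algebra k A] (c : ∀ i, J i) (v : ∀ i, J i → A) (N : ℕ) :
    ev v (denP k c ^ N) = den c v ^ N := by
  unfold ev denP den
  rw [map_pow, map_prod]
  congr 1
  exact Finset.prod_congr rfl fun i _ => by rw [MvPolynomial.aeval_X]

open Classical in
theorem hom_denP (c : ∀ i, J i) (N : ℕ) : MvPolynomial.IsWeightedHomogeneous
    (fun x : Σ i, J i => (Pi.single x.1 1 : I → ℕ)) (denP k c ^ N) (fun _ => N) := by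
  have h1 : MvPolynomial.IsWeightedHomogeneous
      (fun x : Σ i, J i => (Pi.single x.1 1 : I → ℕ)) (denP k c) (fun _ => 1) := by
    have h2 := MvPolynomial.IsWeightedHomogeneous.prod (R := k) (Finset.univ : Finset I)
      (fun i => (MvPolynomial.X ⟨i, c i⟩ : MvPolynomial (Σ i, J i) k))
      (fun i => (Pi.single i 1 : I → ℕ)) (w := fun x : Σ i, J i => (Pi.single x.1 1 : I → ℕ))
      (fun i _ => MvPolynomial.isWeightedHomogeneous_X k _ _)
    have h3 : (∑ i, (Pi.single i 1 : I → ℕ)) = fun _ => 1 := by
      funext j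
      rw [Finset.sum_apply]
      simp [Pi.single_apply]
    rw [h3] at h2
    exact h2
  have h2 := h1.pow N
  have h3 : N • (fun _ : I => 1) = (fun _ : I => N) := by
    funext j
    simp
  rwa [h3] at h2

/-- `CForm` + non-degeneracy + dimension = `IsCont`. -/
theorem isCont (D : CData k I J) :
    IsCont D.E D.w D.m (fun c => denP k c ^ D.th.N) D.th.p (fun _ _ => D.th.N) where
  homG := fun c => hom_denP c D.th.N
  homp := fun c x => by
    classical
    rcases eq_or_ne (D.th.p c x) 0 with h0 | h0
    · exact Or.inl h0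
    · right
      obtain ⟨m₀, hm₀⟩ := (MvPolynomial.support_nonempty.mpr h0)
      refine ⟨fun i => ∑ a, m₀ ⟨i, a⟩, ?_, fun j => ?_⟩
      · intro m hm
        have h1 : ∀ i, ∑ a, m ⟨i, a⟩ = ∑ a, m₀ ⟨i, a⟩ := by
          intro i
          have h2 := D.th.hom c x m (MvPolynomial.mem_support_iff.mpr hm) i
          have h3 := D.th.hom c x m₀ hm₀ i
          have h4 : ((∑ a, m ⟨i, a⟩ : ℕ) : ℤ) = ((∑ a, m₀ ⟨i, a⟩ : ℕ) : ℤ) := by
            linarith
          exact_mod_cast h4
        funext i
        rw [← h1 i, Finsupp.weight_apply, Finsupp.sum_fintype]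
        · rw [Fintype.sum_sigma, Finset.sum_apply]
          rw [Finset.sum_eq_single i]
          · rw [Finset.sum_apply]
            refine Finset.sum_congr rfl fun a _ => ?_
            simp
          · intro b _ hb
            rw [Finset.sum_apply]
            refine Finset.sum_eq_zero fun a _ => ?_
            simp [Pi.single_eq_of_ne (Ne.symm hb)]
          · intro hi
            exact absurd (Finset.mem_univ i) hi
        · intro y
          simp
      · have h3 := D.th.hom c x m₀ hm₀ j
        convert h3 using 2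
  euler := fun κ _ _ v hv c i => D.th.euler κ v hv c i
  comp := fun κ _ _ v t hv ht c c' => by
    have h1 := D.th.agree κ v t hv ht c c'
    rw [ev_denP, ev_denP]
    exact h1
  cov := fun κ _ _ v hv hv0 => by
    have h1 : ∀ i, ∃ a, v i a ≠ 0 := fun i => Function.ne_iff.mp (hv0 i)
    choose c hc using h1
    refine ⟨c, ?_⟩
    rw [ev_denP]
    exact pow_ne_zero _ (Finset.prod_ne_zero_iff.mpr fun i _ => hc i)
  nondeg := fun κ _ _ _ v hv hv0 => by
    have h1 : ∀ i, ∃ a, v i a ≠ 0 := fun i => Function.ne_iff.mp (hv0 i)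
    choose c hc using h1
    refine ⟨c, ?_, fun t ht hft hd => D.nondeg κ v c hv hc t ht hft hd⟩
    rw [ev_denP]
    exact pow_ne_zero _ (Finset.prod_ne_zero_iff.mpr fun i _ => hc i)
  dim := fun κ _ _ _ v hv hv0 V hV => by
    rw [← D.tan_dim κ v hv hv0]
    exact Submodule.finrank_mono (fun t ht => hV t ht)

/-- **AG-ISO for the common data of row 260.** -/
theorem iso_cdata [CharZero k] (D : CData k I J) : Iso D.E D.β D.m :=
  iso D.hom (isCont D) D.wβ fun κ _ _ _ F hF => by
    obtain ⟨e, he⟩ := D.cls_eq κ F hF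
    exact ⟨e, fun i => by rw [he]; rfl⟩

end Crest.Agent.R260.Iso_568
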