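import Crest.Agent.R260.Cnt3_749
import Crest.Agent.R260.Sep3_749
import Crest.Agent.R260.Irr3_33
import Crest.Agent.R260.Iso5_568

/-!
Row 260 (S0398), DivP, glue part 1 (helper749): the two generic lines over the residue field of a
separating place.
-/

set_option autoImplicit false
set_option linter.unusedSectionVars false

namespace Crest.Agent.R260.Cnt_749

open Polynomial IsLocalRing Crest.Agent.R270.BM_360 Crest.Agent.R260.Lin_678
open Crest.Agent.R270.Rees_581 (cl mem_cl coe_cl subset_cl cl_le adjoin_le_cl trGe_iff trGe_of_cl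
  trGe_of_algebraic)
open Crest.Agent.R270.Span_925 (Same)
open Crest.Agent.R270.Fin_305 (VMax)
open Crest.Agent.R270.Sat_422 (lo hi lo_ne_zero hi_ne_zero RedPt)
open Crest.Agent.R270.Link_131 (Arc IsPt Ch low top rev)
open Crest.Agent.R270.Gr_789 (val natDegree_le_cls cop_exists_eval)
open Crest.Agent.R260.Iso_568 (Iso)
open Crest.Agent.R260.QuadDefs_517

universe u

variable {I : Type} {J : I → Type}

section tr

variable {F κ : Type u} [Field F] [Field κ] [Algebra F κ] [Fintype I]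

theorem trGe_encard {S : Set κ} {n : ℕ} (h : TrGe F S n) : (n : ℕ∞) ≤ S.encard := by
  rw [trGe_iff] at h
  exact h.trans (Matroid.eRk_le_encard _ _)

/-- exact vectors have at most `|I|` more parameters than their ratios -/
theorem rat_of_ent {v : ∀ i, J i → κ} (hv : ∀ i, v i ≠ 0) {n : ℕ}
    (h : TrGe F (ent v) (n + Fintype.card I)) : TrGe F (rat v) n := by
  have h1 : ∀ i, ∃ b, v i b ≠ 0 := fun i => by
    obtain ⟨b, hb⟩ := Function.ne_iff.mp (hv i)
    exact ⟨b, hb⟩
  choose b hb using h1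
  set B : Set κ := Set.range fun i => v i (b i) with hB
  have h2 : TrGe F (rat v ∪ B) (n + Fintype.card I) := by
    refine trGe_adj h ?_
    rintro _ ⟨i, a, rfl⟩
    have h3 : v i a = v i a / v i (b i) * v i (b i) := by
      rw [div_mul_cancel₀ _ (hb i)]
    rw [h3]
    exact mul_mem (IntermediateField.subset_adjoin _ _ (Or.inl ⟨i, a, b i, hb i, rfl⟩))
      (IntermediateField.subset_adjoin _ _ (Or.inr ⟨i, rfl⟩))
  refine trGe_split h2 fun h3 => ?_
  have h4 := trGe_encard h3
  have h5 : B.encard ≤ Fintype.card I := by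
    rw [hB, ← Set.image_univ]
    refine (Set.encard_image_le _ _).trans ?_
    simp [Set.encard_univ]
  have h6 := h4.trans h5
  norm_cast at h6
  omega

end tr

section dim

variable {k : Type u} [Field k] [IsAlgClosed k] [CharZero k] [Fintype I] [∀ i, Fintype (J i)]
  (D : CData k I J)

/-- the dimension of the cone, in terms of ratios -/
theorem dim_rat {F κ : Type u} [Field F] [Field κ] [Algebra k F] [Algebra k κ] [Algebra F κ]
    [IsScalarTower k F κ] {y : ∀ i, J i → κ} (hy : IsPt D.E y) :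
    ¬ TrGe F (rat y) (2 * D.m + 2) := by
  intro h
  obtain ⟨Ω, _, _, _, lam, hlam⟩ := exists_trans κ I
  let _ : Algebra k Ω := ((algebraMap κ Ω).comp (algebraMap k κ)).toAlgebra
  let _ : Algebra F Ω := ((algebraMap κ Ω).comp (algebraMap F κ)).toAlgebra
  have : IsScalarTower k κ Ω := IsScalarTower.of_algebraMap_eq fun x => rfl
  have : IsScalarTower F κ Ω := IsScalarTower.of_algebraMap_eq fun x => rfl
  have : IsScalarTower k F Ω := IsScalarTower.of_algebraMap_eq fun x => by
    show algebraMap κ Ω (algebraMap k κ x) = algebraMap κ Ω (algebraMap F κ (algebraMap k F x))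
    rw [← IsScalarTower.algebraMap_apply k F κ]
  have h1 := ent_scal (F := F) hlam hy.ne h
  have h2 : IsPt D.E (fun i a => algebraMap κ Ω (y i a)) :=
    IsPt.map (IsScalarTower.toAlgHom k κ Ω) hy
  have hl0 : ∀ i, lam i ≠ 0 := fun i h0 => hlam.transcendental i (h0 ▸ isAlgebraic_zero)
  have h3 : IsPt D.E (fun i a => lam i * algebraMap κ Ω (y i a)) :=
    h2.same D.hom ⟨lam, hl0, fun i a => rfl⟩
  have h4 := Crest.Agent.R260.Irr_33.cd_trge_le D (F := F) h3.on h3.ne h1
  omega

theorem clsE : ClsE D.E D.β := fun κ _ _ _ G hG => by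
  obtain ⟨e, he⟩ := D.cls_eq κ G hG
  exact ⟨e, he⟩

include D in
theorem nonempty_I : Nonempty I := by
  by_contra h
  rw [not_nonempty_iff] at h
  have := D.wβ
  simp at this

end dim

section red

variable {k₁ L : Type u} [Field k₁] [Field L] {O : ValuationSubring L} [Algebra k₁ L]
  [Algebra k₁ O] [IsScalarTower k₁ O L]

/-- constants reduce to themselves -/
theorem red_const {v : ∀ i, J i → k₁} (hv : ∀ i, v i ≠ 0) :
    RedPt O (up L v) (up (ResidueField O) v) := by
  intro i
  refine ⟨?_, 1, one_ne_zero, fun a => algebraMap k₁ O (v i a), fun a => ?_, fun a => rfl⟩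
  · intro h
    apply hv i
    funext a
    have h1 := congrFun h a
    exact (map_eq_zero _).mp h1
  · rw [one_mul]
    exact (IsScalarTower.algebraMap_apply k₁ O L _).symm

variable {k : Type u} [Field k] [Algebra k k₁] [Fintype I]
  {E : Set (MvPolynomial (Σ i, J i) k)}

theorem red_at' {H : ∀ i, J i → k₁[X]} (hH : ∀ i, Cop (H i)) {w : L} (hw : w ∈ O) :
    RedPt O (at' H w)
      (pt (fun i a => (H i a).map (algebraMap k₁ (ResidueField O))) (residue O ⟨w, hw⟩)) := by
  intro i
  have hcop : Cop (fun a => (H i a).map (algebraMap k₁ (ResidueField O))) :=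
    (hH i).map (Polynomial.mapRingHom _)
  have hmap : algebraMap k₁ (ResidueField O) = (residue O).comp (algebraMap k₁ O) := rfl
  refine ⟨?_, 1, one_ne_zero, fun a => ((H i a).map (algebraMap k₁ O)).eval ⟨w, hw⟩,
    fun a => ?_, fun a => ?_⟩
  · obtain ⟨x, hx⟩ := cop_exists_eval hcop (residue O ⟨w, hw⟩)
    intro h
    exact hx (congrFun h x)
  · rw [one_mul]
    show (((((H i a).map (algebraMap k₁ O)).eval (⟨w, hw⟩ : O)) : O) : L) = aeval w (H i a)
    have h1 : ((((H i a).map (algebraMap k₁ O)).eval (⟨w, hw⟩ : O) : O) : L) =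
        algebraMap O L (((H i a).map (algebraMap k₁ O)).eval (⟨w, hw⟩ : O)) := rfl
    rw [h1, eval_map, ← aeval_def, ← aeval_algebraMap_apply]
    rfl
  · show residue O (((H i a).map (algebraMap k₁ O)).eval ⟨w, hw⟩) =
      ((H i a).map (algebraMap k₁ (ResidueField O))).eval (residue O ⟨w, hw⟩)
    rw [hmap, ← Polynomial.map_map, eval_map (residue O), eval₂_at_apply]

/-- every point of `H` reduces to a point of `H` or of the reversed tuple -/
theorem red_pt [IsAlgClosed k₁] [∀ i, Fintype (J i)] (hE : MHom E) {H : ∀ i, J i → k₁[X]}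
    (hH : IsMap E H) (u : L) :
    ∃ (H' : ∀ i, J i → k₁[X]) (t : ResidueField O), (H' = H ∨ H' = rev H) ∧
      RedPt O (at' H u) (pt (fun i a => (H' i a).map (algebraMap k₁ (ResidueField O))) t) := by
  by_cases hu : u ∈ O
  · exact ⟨H, _, Or.inl rfl, red_at' hH.cop hu⟩
  · have hu0 : u ≠ 0 := fun h0 => hu (h0 ▸ O.zero_mem)
    have hui : u⁻¹ ∈ O := (O.mem_or_inv_mem u).resolve_left hu
    refine ⟨rev H, residue O ⟨u⁻¹, hui⟩, Or.inr rfl, ?_⟩
    have h1 := red_at' (Crest.Agent.R270.Link_131.rev_isMap hE hH).cop hui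
    refine RedPt.of_scale (c := fun i => (u⁻¹) ^ vdeg (H i))
      (fun i => pow_ne_zero _ (inv_ne_zero hu0)) ?_
    convert h1 using 3 with i a
    show (u⁻¹) ^ vdeg (H i) * aeval u (H i a) = aeval u⁻¹ (rev H i a)
    have h2 : Invertible u := invertibleOfNonzero hu0
    have h3 := eval₂_reflect_mul_pow (algebraMap k₁ L) u (vdeg (H i)) (H i a)
      (Crest.Agent.R270.Link_131.natDegree_le_vdeg _ _)
    rw [invOf_eq_inv] at h3
    rw [aeval_def, ← h3, aeval_def]
    show (u⁻¹) ^ vdeg (H i) * (eval₂ (algebraMap k₁ L) u⁻¹ (reflect (vdeg (H i)) (H i a)) *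
      u ^ vdeg (H i)) = _
    rw [mul_comm, mul_assoc, ← mul_pow, mul_inv_cancel₀ hu0, one_pow, mul_one]
    rfl

end red

section sep

variable {k : Type u} [Field k] [IsAlgClosed k] [CharZero k] [Fintype I] [∀ i, Fintype (J i)]
  (D : CData k I J)

/-- invariance of a class of conics -/
structure CCInv (CC : Cls k J) : Prop where
  map : ∀ (A B : Type u) [Field A] [Field B] [Algebra k A] [Algebra k B] (φ : A →ₐ[k] B)
    (F : ∀ i, J i → A[X]), Con D CC F → Con D CC (fun i a => (F i a).map (φ : A →+* B))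
  rev : ∀ (A : Type u) [Field A] [IsAlgClosed A] [Algebra k A] (F : ∀ i, J i → A[X]),
    Con D CC F → Con D CC (rev F)

/-- **the two lines over the residue field of a separating place.** -/
theorem exists_sep (hm : 0 < D.m) {CC : Cls k J} (hCC : CCInv D CC) (hG2 : Gen2P D CC)
    {F₀ F₁ k₁ L : Type u} [Field F₀] [Field F₁] [Field k₁] [Field L]
    [IsAlgClosed F₁] [IsAlgClosed k₁] [IsAlgClosed L]
    {O : ValuationSubring L} [Algebra k L] [Algebra k O] [IsScalarTower k O L]
    [Algebra F₁ L] [Algebra F₁ O] [IsScalarTower F₁ O L]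
    [Algebra k₁ L] [Algebra k₁ O] [IsScalarTower k₁ O L]
    [Algebra k F₀] [Algebra k F₁] [Algebra k k₁] [Algebra F₀ F₁] [Algebra F₁ k₁]
    [Algebra F₀ (ResidueField O)] [IsScalarTower k F₀ (ResidueField O)]
    [IsScalarTower k F₁ (ResidueField O)] [IsScalarTower k k₁ (ResidueField O)]
    [IsScalarTower F₀ F₁ (ResidueField O)] [IsScalarTower F₁ k₁ (ResidueField O)]
    {x₁ : ∀ i, J i → F₁} {H₁ : ∀ i, J i → k₁[X]} {u₁ : L} {f₁ : ∀ i, J i → L[X]}
    {a b : I → L} {c : L}
    (hx0 : ∀ i, x₁ i ≠ 0) (hxt : TrGe F₀ (ent x₁) (nn D))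
    (hH : Con D CC H₁) (hHt : TrGe F₁ (coeffs H₁) (hc D))
    (hf : Con D CC f₁) (hJ : Joins D f₁ (up L x₁) (at' H₁ u₁) a b c)
    (hno : ¬ OneRadius D O f₁ a) :
    ∃ (p q : L) (μ ν : I → L) (G H : ∀ i, J i → (ResidueField O)[X]),
      Sep O D.E D.β (fun i j => C (a i)⁻¹ * f₁ i j) p q μ ν G H ∧
      TrGe F₀ (rat (hi G) ∪ rat (lo G)) (3 * D.m + 1) ∧
      TrGe F₀ (rat (hi H) ∪ rat (lo H)) (3 * D.m + 1) := by
  have hac : IsAlgClosed (ResidueField O) := isAlgClosed_residueField
  set κ := ResidueField O with hκ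
  obtain ⟨i₀⟩ := nonempty_I D
  have hβ := D.β_pos
  have hI : Iso D.E D.β D.m := Crest.Agent.R260.Iso_568.iso_cdata D
  set f : ∀ i, J i → L[X] := fun i j => C (a i)⁻¹ * f₁ i j with hfdef
  have ha0 : ∀ i, (a i)⁻¹ ≠ 0 := fun i => inv_ne_zero (hJ.a0 i)
  have hfm : IsMap D.E f := by
    refine ⟨hf.map.on.scale D.hom (fun i => C (a i)⁻¹), fun i =>
      Crest.Agent.R270.Fin_305.cop_C_mul (hf.map.cop i) (ha0 i)⟩
  have hfc : cls f = 2 • D.β := by
    rw [← hf.cls]
    funext i
    unfold cls vdeg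
    refine Finset.sup_congr rfl fun x _ => ?_
    rw [hfdef]
    exact natDegree_C_mul (ha0 i)
  have hc2 : ∀ i, cls f i = 2 * D.β i := fun i => by rw [hfc]; rfl
  -- the reductions of the end points
  have hhi : hi f = up L x₁ := by
    funext i j
    show (f i j).coeff (cls f i) = _
    rw [hc2, hfdef]
    show (C (a i)⁻¹ * f₁ i j).coeff (2 * D.β i) = _
    rw [coeff_C_mul, hJ.lead i j, inv_mul_cancel_left₀ (hJ.a0 i)]
  have hx : RedPt O (hi f) (up κ x₁) := by
    rw [hhi]
    exact red_const hx0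
  obtain ⟨H', t', hH', hred⟩ := red_pt D.hom hH.map u₁ (O := O)
  have hCon' : Con D CC H' := by
    rcases hH' with rfl | rfl
    · exact hH
    · exact hCC.rev k₁ H₁ hH
  have hcoef : coeffs H₁ ⊆ coeffs H' := by
    rcases hH' with rfl | rfl
    · exact subset_rfl
    · rintro _ ⟨i, x, j, rfl⟩
      refine ⟨i, x, revAt (vdeg (H₁ i)) j, ?_⟩
      show (reflect (vdeg (H₁ i)) (H₁ i x)).coeff _ = _
      rw [coeff_reflect, revAt_invol]
  set y' : ∀ i, J i → κ := pt (fun i a => (H' i a).map (algebraMap k₁ κ)) t' with hy'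
  have hy : RedPt O (lo f) y' := by
    have h1 : (lo f) = fun i j => ((a i)⁻¹ * b i) * at' H₁ u₁ i j := by
      funext i j
      show (C (a i)⁻¹ * f₁ i j).coeff 0 = _
      rw [coeff_C_mul, hJ.bot i j, mul_assoc]
    rw [h1]
    exact hred.scale fun i => mul_ne_zero (ha0 i) (hJ.b0 i)
  -- counting parameters
  have hty : TrGe F₁ (rat y') (2 * D.m) := by
    have h1 : Con D CC (fun i a => (H' i a).map (algebraMap k₁ κ)) :=
      hCC.map k₁ κ (IsScalarTower.toAlgHom k k₁ κ) H' hCon'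
    refine hG2 F₁ κ _ t' h1 ?_
    have h2 : TrGe F₁ (IsScalarTower.toAlgHom F₁ k₁ κ '' coeffs H') (hc D) :=
      trGe_image _ (trGe_sub hHt hcoef)
    refine trGe_sub h2 ?_
    rintro _ ⟨_, ⟨i, x, j, rfl⟩, rfl⟩
    exact ⟨i, x, j, coeff_map _ _⟩
  have htx : TrGe F₀ (rat x₁) (2 * D.m + 1) := by
    refine rat_of_ent hx0 ?_
    exact hxt
  have htot : TrGe F₀ (rat (up κ x₁) ∪ rat y') (4 * D.m + 1) := by
    have h1 : TrGe F₀ (rat (up κ x₁)) (2 * D.m + 1) := by
      have h2 : rat (up κ x₁) = IsScalarTower.toAlgHom F₀ F₁ κ '' rat x₁ :=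
        rat_map (algebraMap F₁ κ) x₁
      rw [h2]
      exact trGe_image _ htx
    have h3 : rat (up κ x₁) ⊆ Set.range (algebraMap F₁ κ) := by
      have h2 : rat (up κ x₁) = algebraMap F₁ κ '' rat x₁ := rat_map (algebraMap F₁ κ) x₁
      rw [h2]
      exact Set.image_subset_range _ _
    have h4 := trGe_tower h1 h3 hty
    have h5 : 2 * D.m + 1 + 2 * D.m = 4 * D.m + 1 := by ring
    rwa [h5] at h4
  -- not joined
  have hnj : ∀ b, b ≤ D.β → ¬ Ch D.E b y' (up κ x₁) := fun b hb =>
    not_joined hI D.hom (clsE D) hm (hβ i₀) htot (fun y hy => dim_rat D hy) b hb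
  -- primitive leading vectors
  have hprim : ∀ i, VMax O (fun x => (f i x).coeff (2 * D.β i)) 1 := by
    intro i
    have h1 : ∀ x, (f i x).coeff (2 * D.β i) = algebraMap F₁ L (x₁ i x) := by
      intro x
      have h2 := congrFun (congrFun hhi i) x
      rw [← hc2 i]
      exact h2
    have h3 : ∀ z : F₁, O.valuation (algebraMap F₁ L z) ≤ 1 := fun z => by
      rw [IsScalarTower.algebraMap_apply F₁ O L]
      exact O.valuation_le_one _
    refine ⟨?_, fun x => ?_⟩
    · obtain ⟨x, hx⟩ := Function.ne_iff.mp (hx0 i)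
      rw [Pi.zero_apply] at hx
      refine ⟨x, ?_⟩
      show O.valuation ((f i x).coeff (2 * D.β i)) = 1
      rw [h1]
      refine le_antisymm (h3 _) ?_
      have h4 := h3 (x₁ i x)⁻¹
      rw [map_inv₀, map_inv₀] at h4
      have h5 : 0 < O.valuation (algebraMap F₁ L (x₁ i x)) := by
        rw [zero_lt_iff, Ne, Valuation.zero_iff, map_eq_zero]
        exact hx
      exact (inv_le_one₀ h5).mp h4
    · show O.valuation ((f i x).coeff (2 * D.β i)) ≤ 1
      rw [h1]
      exact h3 _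
  -- the radius
  have hno' : ¬ ∃ ρ : O.ValueGroup, 0 < ρ ∧
      (∀ i, VMax O (fun x => (f i x).coeff 0) (ρ ^ (2 * D.β i))) ∧
      ∀ i x, O.valuation ((f i x).coeff 1) ≤ ρ ^ (2 * D.β i - 1) := by
    rintro ⟨ρ, hρ, h1, h2⟩
    have hav : ∀ i, 0 < O.valuation (a i) := fun i => by
      rw [zero_lt_iff, Ne, Valuation.zero_iff]; exact hJ.a0 i
    have h3 : ∀ i j n, O.valuation ((f₁ i j).coeff n) =
        O.valuation (a i) * O.valuation ((f i j).coeff n) := by
      intro i j n
      rw [← map_mul, hfdef]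
      show _ = O.valuation (a i * (C (a i)⁻¹ * f₁ i j).coeff n)
      rw [coeff_C_mul, mul_inv_cancel_left₀ (hJ.a0 i)]
    refine hno ⟨ρ, hρ, fun i => ⟨fun j => ?_, ?_⟩, fun i j => ?_⟩
    · rw [h3]
      gcongr
      exact (h1 i).2 j
    · obtain ⟨j, hj⟩ := (h1 i).1
      refine ⟨j, ?_⟩
      rw [h3]
      congr 1
    · rw [h3]
      gcongr
      exact h2 i j
  obtain ⟨p, q, μ, ν, G, H, hS⟩ := sep_of_not_bound D.hom (clsE D) hβ i₀ hfm hfc hx hy hnj
    hprim hno'
  refine ⟨p, q, μ, ν, G, H, hS, ?_⟩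
  have h1 : Same (hi G) (up κ x₁) := by
    have h2 := hS.red_none hfc
    exact h2.unique hx
  have h3 : Same (lo H) y' := by
    have h4 := hS.red_inner (w := 0) O.zero_mem
    rw [mul_zero] at h4
    have h5 : val f (some 0) = lo f := by
      funext i j
      exact (coeff_zero_eq_eval_zero _).symm
    have h6 : val H (some (residue O ⟨0, O.zero_mem⟩)) = lo H := by
      have h7 : residue O ⟨0, O.zero_mem⟩ = 0 := map_zero _
      rw [h7]
      funext i j
      exact (coeff_zero_eq_eval_zero _).symm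
    rw [h5, h6] at h4
    exact h4.unique hy
  have h8 : TrGe F₀ (rat (hi G) ∪ rat (lo H)) (4 * D.m + 1) := by
    rw [← rat_same_eq h1, ← rat_same_eq h3]
    exact htot
  have h9 := chain_count hI D.hom (hβ i₀) ((arc_of hS.isMapG hS.clsG).symm D.hom)
    (((arc_of hS.isMapH hS.clsH).symm D.hom).same_left hS.node.symm) h8
  refine ⟨h9.1, ?_⟩
  rw [← rat_same_eq hS.node] at h9
  exact h9.2

end sep

end Crest.Agent.R260.Cnt_749
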