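import Mathlib
import Crest.Agent.R260.Scal2_661

/-!
# Row 260, (L4) of helper749 (helper661): a specialisation which does not drop the transcendence
degree of the ratios has the same multihomogeneous relations.
-/

set_option autoImplicit false

namespace Crest.Agent.R260.Spe_661

open Crest.Agent.R270.BM_360 Crest.Agent.R260.QuadDefs_517 Crest.Agent.R260.Scal_661

universe u

variable {I : Type} {J : I → Type} [Fintype I] [∀ i, Fintype (J i)]

section

variable {F A B : Type u} [Field F] [Field A] [Algebra F A] [Field B] [Algebra F B]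

/-- one direction of `evv_dehom`. -/
theorem dehom_one {q : ∀ i, J i → A} {q' : ∀ i, J i → B} {b : ∀ i, J i}
    (hb : ∀ i, q i (b i) ≠ 0) (hb' : ∀ i, q' i (b i) ≠ 0)
    (h : ∀ p : MvPolynomial (Σ i, J i) F, MHm p → evv q p = 0 → evv q' p = 0)
    {p : MvPolynomial (Σ i, J i) F} (hp : evv (fun i j => q i j / q i (b i)) p = 0) :
    evv (fun i j => q' i j / q' i (b i)) p = 0 := by
  obtain ⟨N, hN⟩ := bdeg_le p
  have e1 := evv_hmz (b := b) hN (l := fun i => q i (b i))
    (v := fun i j => q i j / q i (b i)) fun i => div_self (hb i)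
  have e2 := evv_hmz (b := b) hN (l := fun i => q' i (b i))
    (v := fun i j => q' i j / q' i (b i)) fun i => div_self (hb' i)
  have h1 : (fun i j => q i (b i) * (q i j / q i (b i))) = q := by
    funext i j
    rw [mul_div_cancel₀ _ (hb i)]
  have h2 : (fun i j => q' i (b i) * (q' i j / q' i (b i))) = q' := by
    funext i j
    rw [mul_div_cancel₀ _ (hb' i)]
  rw [h1, hp, mul_zero] at e1
  have h3 := h _ (mhm_hmz (b := b) hN) e1
  rw [h2, h3] at e2
  have n2 : (∏ i, q' i (b i) ^ N) ≠ 0 :=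
    Finset.prod_ne_zero_iff.2 fun i _ => pow_ne_zero _ (hb' i)
  exact (mul_eq_zero.1 e2.symm).resolve_left n2

/-- scaling of the vector to the chart. -/
theorem evv_chart {q : ∀ i, J i → A} {b : ∀ i, J i} (hb : ∀ i, q i (b i) ≠ 0)
    {p : MvPolynomial (Σ i, J i) F} (hp : MHm p) :
    evv q p = 0 ↔ evv (fun i j => q i j / q i (b i)) p = 0 := by
  obtain ⟨d, hd⟩ := hp
  have h1 := evv_scale (A := A) (p := p) (d := d) hd (fun i => q i (b i))
    (fun i j => q i j / q i (b i))
  have h2 : (fun i j => q i (b i) * (q i j / q i (b i))) = q := by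
    funext i j
    rw [mul_div_cancel₀ _ (hb i)]
  rw [h2] at h1
  rw [h1]
  have n1 : (∏ i, q i (b i) ^ d i) ≠ 0 :=
    Finset.prod_ne_zero_iff.2 fun i _ => pow_ne_zero _ (hb i)
  exact mul_eq_zero_iff_left n1

end

/-- **(L4)** of #7115. -/
theorem spec_eq {F₀ A B : Type u} [Field F₀] [Field A] [Field B] [Algebra F₀ A] [Algebra F₀ B]
    (q : ∀ i, J i → A) (q' : ∀ i, J i → B) (hq' : ∀ i, q' i ≠ 0) (r : ℕ)
    (h1 : ¬ TrGe F₀ (rat q) (r + 1)) (h2 : TrGe F₀ (rat q') r)
    (h : ∀ p : MvPolynomial (Σ i, J i) F₀, MHm p → evv q p = 0 → evv q' p = 0) :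
    ∀ p : MvPolynomial (Σ i, J i) F₀, MHm p → evv q' p = 0 → evv q p = 0 := by
  classical
  intro p hp hp0
  by_contra hne
  obtain ⟨b, hb'⟩ := exists_ne hq'
  have hb : ∀ i, q i (b i) ≠ 0 := fun i hi => by
    have h4 : MHm (MvPolynomial.X (⟨i, b i⟩ : Σ i, J i) : MvPolynomial (Σ i, J i) F₀) :=
      ⟨_, MvPolynomial.isWeightedHomogeneous_X F₀ (fun x : Σ i, J i => (Pi.single x.1 1 : I → ℕ))
        ⟨i, b i⟩⟩
    have h5 := h _ h4 (by unfold evv; rw [MvPolynomial.aeval_X]; exact hi)
    unfold evv at h5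
    rw [MvPolynomial.aeval_X] at h5
    exact hb' i h5
  rw [evv_chart hb hp] at hne
  rw [evv_chart hb' hp] at hp0
  -- the ratios of `q'`: `r` independent ones among the affine coordinates
  have h3 : TrGe F₀ (Set.range fun x : Σ i, J i => q' x.1 x.2 / q' x.1 (b x.1)) r := by
    obtain ⟨w, hw, hwi⟩ := h2
    refine ⟨w, fun j => ?_, hwi⟩
    have hsub : rat q' ⊆ IntermediateField.adjoin F₀
        (Set.range fun x : Σ i, J i => q' x.1 x.2 / q' x.1 (b x.1)) := by
      rintro c ⟨i, a, b', hb2, rfl⟩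
      have h2 : q' i a / q' i b' = (q' i a / q' i (b i)) / (q' i b' / q' i (b i)) :=
        (div_div_div_cancel_right₀ (hb' i) _ _).symm
      rw [h2]
      exact div_mem (IntermediateField.subset_adjoin _ _ ⟨⟨i, a⟩, rfl⟩)
        (IntermediateField.subset_adjoin _ _ ⟨⟨i, b'⟩, rfl⟩)
    exact IntermediateField.adjoin_le_iff.2 hsub (hw j)
  obtain ⟨x, hx⟩ := Irr_33.exists_sub h3
  -- the coordinate ring of the affine point of `q`
  let f : MvPolynomial (Σ i, J i) F₀ →ₐ[F₀] A :=
    MvPolynomial.aeval fun x : Σ i, J i => q x.1 x.2 / q x.1 (b x.1)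
  let g : MvPolynomial (Σ i, J i) F₀ →ₐ[F₀] B :=
    MvPolynomial.aeval fun x : Σ i, J i => q' x.1 x.2 / q' x.1 (b x.1)
  have hfg : ∀ P, f P = 0 → g P = 0 := fun P hP => dehom_one hb hb' h hP
  have hprime : (RingHom.ker f).IsPrime := RingHom.ker_isPrime f
  let φ : (MvPolynomial (Σ i, J i) F₀ ⧸ RingHom.ker f) →ₐ[F₀] B :=
    Ideal.Quotient.liftₐ (RingHom.ker f) g fun P hP => hfg P hP
  let ψ : (MvPolynomial (Σ i, J i) F₀ ⧸ RingHom.ker f) →ₐ[F₀] A :=
    Ideal.Quotient.liftₐ (RingHom.ker f) f fun P hP => hP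
  have hψ : Function.Injective ψ := by
    rw [injective_iff_map_eq_zero]
    intro z hz
    obtain ⟨P, rfl⟩ := Ideal.Quotient.mk_surjective z
    exact Ideal.Quotient.eq_zero_iff_mem.2 hz
  have hφa : ∀ j, φ (Ideal.Quotient.mk _ (MvPolynomial.X (x j))) =
      q' (x j).1 (x j).2 / q' (x j).1 (b (x j).1) := fun j => MvPolynomial.aeval_X _ _
  have hψa : ∀ j, ψ (Ideal.Quotient.mk _ (MvPolynomial.X (x j))) =
      q (x j).1 (x j).2 / q (x j).1 (b (x j).1) := fun j => MvPolynomial.aeval_X _ _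
  have hind : AlgebraicIndependent F₀ fun j => φ (Ideal.Quotient.mk (RingHom.ker f)
      (MvPolynomial.X (x j))) := by
    have : (fun j => φ (Ideal.Quotient.mk (RingHom.ker f) (MvPolynomial.X (x j)))) =
      fun j => q' (x j).1 (x j).2 / q' (x j).1 (b (x j).1) := funext hφa
    rw [this]
    exact hx
  have hp1 : (Ideal.Quotient.mk (RingHom.ker f) p) ≠ 0 := fun hz =>
    hne (Ideal.Quotient.eq_zero_iff_mem.1 hz)
  have hopt := Irr_33.indep_option φ hind hp1 hp0
  have hopt2 := hopt.map' (f := ψ) hψ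
  refine h1 ⟨fun j => ψ (((finSuccEquiv r) j).elim (Ideal.Quotient.mk (RingHom.ker f) p)
    fun j => Ideal.Quotient.mk (RingHom.ker f) (MvPolynomial.X (x j))), fun j => ?_, ?_⟩
  · have hmem : ∀ P : MvPolynomial (Σ i, J i) F₀,
        f P ∈ IntermediateField.adjoin F₀ (rat q) := by
      intro P
      induction P using MvPolynomial.induction_on with
      | C c =>
        change MvPolynomial.aeval _ (MvPolynomial.C c) ∈ _
        rw [MvPolynomial.aeval_C]
        exact IntermediateField.algebraMap_mem _ _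
      | add P Q hP hQ => rw [map_add]; exact add_mem hP hQ
      | mul_X P y hP =>
        rw [map_mul]
        refine mul_mem hP ?_
        change MvPolynomial.aeval _ (MvPolynomial.X y) ∈ _
        rw [MvPolynomial.aeval_X]
        exact IntermediateField.subset_adjoin _ _ ⟨y.1, y.2, b y.1, hb _, rfl⟩
    change ψ (((finSuccEquiv r) j).elim (Ideal.Quotient.mk (RingHom.ker f) p)
      fun j => Ideal.Quotient.mk (RingHom.ker f) (MvPolynomial.X (x j))) ∈ _
    generalize (finSuccEquiv r) j = o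
    cases o with
    | none => exact hmem p
    | some l => exact hmem (MvPolynomial.X (x l))
  · exact hopt2.comp _ (finSuccEquiv r).injective

end Crest.Agent.R260.Spe_661
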