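import Crest.Agent.R260.Glu1_749
import Crest.Agent.R260.Er_703
import Crest.Agent.R260.Spe_661
import Crest.Agent.R260.Prop3_703

/-!
Row 260 (S0398), DivP, glue part 2 (helper749): the division theorem `DivP` from the two generic
lines (COUNT), PROPER, the generic reparametrisation of a line and the specialisation lemma.
-/

set_option autoImplicit false
set_option linter.unusedSectionVars false

namespace Crest.Agent.R260.Cnt_749

open Polynomial IsLocalRing Crest.Agent.R270.BM_360 Crest.Agent.R260.Lin_678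
open Crest.Agent.R270.Span_925 (Same)
open Crest.Agent.R270.Sat_422 (lo hi lo_ne_zero hi_ne_zero RedPt)
open Crest.Agent.R270.Link_131 (Arc IsPt Ch low top rev)
open Crest.Agent.R270.Gr_789 (val natDegree_le_cls cop_exists_eval)
open Crest.Agent.R260.Iso_568 (Iso)
open Crest.Agent.R260.QuadDefs_517
open Crest.Agent.R260.Er_703 (evv_same evv_red)
open Crest.Agent.R260.Spe_661 (spec_eq)

universe u

variable {I : Type} {J : I → Type} [Fintype I] [∀ i, Fintype (J i)]

/-- generic reparametrisation of a line (941's `gen_line`). -/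
def GenLine {k : Type u} [Field k] (E : Set (MvPolynomial (Σ i, J i) k)) (β : I → ℕ) : Prop :=
  ∀ (F₀ κ : Type u) [Field F₀] [Algebra k F₀] [Field κ] [IsAlgClosed κ] [Algebra k κ]
    [Algebra F₀ κ] [IsScalarTower k F₀ κ] (G : ∀ i, J i → κ[X]), IsMap E G → cls G = β →
    ∀ n : ℕ, TrGe F₀ (rat (hi G) ∪ rat (lo G)) n →
    ∃ (kl : Type u) (_ : Field kl) (_ : IsAlgClosed kl) (_ : Algebra k kl) (_ : Algebra F₀ kl)
      (_ : IsScalarTower k F₀ kl) (_ : Algebra κ kl) (_ : IsScalarTower F₀ κ kl)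
      (l : ∀ i, J i → kl[X]), IsMap E l ∧ cls l = β ∧
      TrGe F₀ (coeffs l) (n + 1 + Fintype.card I) ∧
      ∀ (t : Option κ) (r : ℕ), TrGe F₀ (rat (val G t)) r →
        ∃ t₀ : kl, Same (up kl (val G t)) (pt l t₀) ∧
          TrGe F₀ (ent (pt l t₀)) (r + Fintype.card I)

/-- relations between the coefficients of a generic conic hold for all conics of the family. -/
def SpecP {k : Type u} [Field k] (D : CData k I J) (CC : Cls k J) : Prop :=
  ∀ (F₀ k' K : Type u) [Field F₀] [Field k'] [Field K] [IsAlgClosed F₀] [IsAlgClosed k']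
    [IsAlgClosed K] [Algebra k F₀] [Algebra k k'] [Algebra k K] [Algebra F₀ k'] [Algebra F₀ K]
    [IsScalarTower k F₀ k'] [IsScalarTower k F₀ K] (H : ∀ i, J i → k'[X]) (f : ∀ i, J i → K[X]),
    Con D CC H → TrGe F₀ (coeffs H) (hc D) → Con D CC f →
    ∀ Q : MvPolynomial ((Σ i, J i) × ℕ) F₀,
      MvPolynomial.aeval (fun y : (Σ i, J i) × ℕ => (H y.1.1 y.1.2).coeff y.2) Q = 0 →
        MvPolynomial.aeval (fun y : (Σ i, J i) × ℕ => (f y.1.1 y.1.2).coeff y.2) Q = 0

theorem evv_up {F₀ A B : Type u} [Field F₀] [Field A] [Field B] [Algebra F₀ A] [Algebra F₀ B]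
    [Algebra A B] [IsScalarTower F₀ A B] (v : ∀ i, J i → A) (p : MvPolynomial (Σ i, J i) F₀) :
    evv (up B v) p = algebraMap A B (evv v p) := by
  unfold evv
  have h : (MvPolynomial.aeval (fun x : Σ i, J i => up B v x.1 x.2) :
      MvPolynomial (Σ i, J i) F₀ →ₐ[F₀] B) =
      (IsScalarTower.toAlgHom F₀ A B).comp
        (MvPolynomial.aeval (fun x : Σ i, J i => v x.1 x.2)) := by
    refine MvPolynomial.algHom_ext fun x => ?_
    rw [MvPolynomial.aeval_X, AlgHom.comp_apply, MvPolynomial.aeval_X]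
    rfl
  rw [h]
  rfl

theorem val_ne {κ : Type u} [Field κ] {G : ∀ i, J i → κ[X]} (hG : ∀ i, Cop (G i))
    (t : Option κ) (i : I) : val G t i ≠ 0 := by
  cases t with
  | none =>
    exact hi_ne_zero hG i
  | some t =>
    intro h
    obtain ⟨x, hx⟩ := cop_exists_eval (hG i) t
    exact hx (congrFun h x)

/-- **DivP** of 517. -/
theorem divP_aux {k : Type u} [Field k] [IsAlgClosed k] [CharZero k] (D : CData k I J)
    (hm : 0 < D.m) {CC : Cls k J} (hCC : CCInv D CC) (hG2 : Gen2P D CC) (hSP : SpecP D CC)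
    (hGL : GenLine D.E D.β) : DivP D CC := by
  intro F₀ F₁ k₁ L₁ _ _ _ _ _ _ _ _ _ _ _ _ _ _ _ _ _ _ _ _ _ _ _ _ _ _ _ _ x₁ H₁ u₁ f₁ a b c
    _ hx0 hxt hH hHt _ _ hf hJ O hO hno k' _ _ _ _ _ H t hHc hHtr hnt
  -- algebra structures on `O`
  let a₁ : k₁ →+* O := (algebraMap k₁ L₁).codRestrict O hO
  let i1 : Algebra k₁ O := a₁.toAlgebra
  let i2 : Algebra F₁ O := (a₁.comp (algebraMap F₁ k₁)).toAlgebra
  let i3 : Algebra F₀ O := (a₁.comp (algebraMap F₀ k₁)).toAlgebra
  let i4 : Algebra k O := (a₁.comp (algebraMap k k₁)).toAlgebra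
  have t1 : IsScalarTower k₁ O L₁ := IsScalarTower.of_algebraMap_eq fun x => rfl
  have t2 : IsScalarTower F₁ O L₁ := IsScalarTower.of_algebraMap_eq fun x =>
    IsScalarTower.algebraMap_apply F₁ k₁ L₁ x
  have t3 : IsScalarTower F₀ O L₁ := IsScalarTower.of_algebraMap_eq fun x =>
    IsScalarTower.algebraMap_apply F₀ k₁ L₁ x
  have t4 : IsScalarTower k O L₁ := IsScalarTower.of_algebraMap_eq fun x =>
    IsScalarTower.algebraMap_apply k k₁ L₁ x
  have t5 : IsScalarTower k F₀ k₁ := IsScalarTower.of_algebraMap_eq fun x => by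
    rw [IsScalarTower.algebraMap_apply k F₁ k₁, IsScalarTower.algebraMap_apply k F₀ F₁,
      ← IsScalarTower.algebraMap_apply F₀ F₁ k₁]
  have t6 : IsScalarTower k F₀ (ResidueField O) := IsScalarTower.of_algebraMap_eq fun x => by
    show residue O (a₁ (algebraMap k k₁ x)) =
      residue O (a₁ (algebraMap F₀ k₁ (algebraMap k F₀ x)))
    rw [IsScalarTower.algebraMap_apply k F₀ k₁]
  have t7 : IsScalarTower k F₁ (ResidueField O) := IsScalarTower.of_algebraMap_eq fun x => by
    show residue O (a₁ (algebraMap k k₁ x)) =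
      residue O (a₁ (algebraMap F₁ k₁ (algebraMap k F₁ x)))
    rw [IsScalarTower.algebraMap_apply k F₁ k₁]
  have t8 : IsScalarTower k k₁ (ResidueField O) := IsScalarTower.of_algebraMap_eq fun x => rfl
  have t9 : IsScalarTower F₀ F₁ (ResidueField O) := IsScalarTower.of_algebraMap_eq fun x => by
    show residue O (a₁ (algebraMap F₀ k₁ x)) =
      residue O (a₁ (algebraMap F₁ k₁ (algebraMap F₀ F₁ x)))
    rw [IsScalarTower.algebraMap_apply F₀ F₁ k₁]
  have t10 : IsScalarTower F₁ k₁ (ResidueField O) := IsScalarTower.of_algebraMap_eq fun x => rfl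
  have hac : IsAlgClosed (ResidueField O) := isAlgClosed_residueField
  -- the two lines
  obtain ⟨p, q, μ, ν, G, G', hS, hG, hG'⟩ := exists_sep D hm hCC hG2 (O := O) hx0 hxt hH hHt hf hJ
    hno
  have hfc : cls (fun i j => C (a i)⁻¹ * f₁ i j) = 2 • D.β := by
    rw [← hf.cls]
    funext i
    unfold cls vdeg
    exact Finset.sup_congr rfl fun x _ => natDegree_C_mul (inv_ne_zero (hJ.a0 i))
  -- the point of `f₁`
  have hcls : cls H = cls f₁ := hHc.cls.trans hf.cls.symm
  obtain ⟨z, hz⟩ := Crest.Agent.R260.Prop_703.proper_cls (k := F₀) hcls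
    (hSP F₀ k' L₁ H f₁ hHc hHtr hf) (some t)
  have hz' : ∀ P : MvPolynomial (Σ i, J i) F₀, MHm P → evv (pt H t) P = 0 →
      evv (val f₁ z) P = 0 := by
    intro P hP h0
    obtain ⟨d, hd⟩ := hP
    have h1 := hz P d hd h0
    have h2 : (Crest.Agent.R260.Prop_703.val (fun x : Σ i, J i => vdeg (f₁ x.1))
        (fun x => f₁ x.1 x.2) z) = fun x : Σ i, J i => val f₁ z x.1 x.2 := by
      cases z <;> rfl
    rw [h2] at h1
    exact h1
  have hsame : Same (val f₁ z) (val (fun i j => C (a i)⁻¹ * f₁ i j) z) := by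
    refine ⟨fun i => (a i)⁻¹, fun i => inv_ne_zero (hJ.a0 i), fun i x => ?_⟩
    cases z with
    | none =>
      show (C (a i)⁻¹ * f₁ i x).coeff (cls (fun i j => C (a i)⁻¹ * f₁ i j) i) =
        (a i)⁻¹ * (f₁ i x).coeff (cls f₁ i)
      rw [hfc, hf.cls, coeff_C_mul]
    | some z =>
      show (C (a i)⁻¹ * f₁ i x).eval z = (a i)⁻¹ * (f₁ i x).eval z
      rw [eval_mul, eval_C]
  obtain ⟨r, hr, hrl⟩ := hS.red hfc z
  have hI : Iso D.E D.β D.m := Crest.Agent.R260.Iso_568.iso_cdata D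
  obtain ⟨i₀⟩ := nonempty_I D
  have hβ := D.β_pos
  -- a line with the reduced point on it
  have key : ∃ (l : ∀ i, J i → (ResidueField O)[X]) (t' : Option (ResidueField O)),
      IsMap D.E l ∧ cls l = D.β ∧ TrGe F₀ (rat (hi l) ∪ rat (lo l)) (3 * D.m + 1) ∧
      Same r (val l t') := by
    rcases hrl with ⟨t', h⟩ | ⟨t', h⟩
    · exact ⟨G, t', hS.isMapG, hS.clsG, hG, h⟩
    · exact ⟨G', t', hS.isMapH, hS.clsH, hG', h⟩
  obtain ⟨l, t', hlm, hlc, hlt, hlr⟩ := key
  have hcnt := point_count hI D.hom (hβ i₀) hlm hlc hlt t'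
  obtain ⟨kl, _, _, _, _, _, _, _, l', hlm', hlc', hlt', hpts⟩ := hGL F₀ (ResidueField O) l hlm hlc
    (3 * D.m + 1) hlt
  obtain ⟨t₀, hst, htr⟩ := hpts t' (2 * D.m) hcnt
  have hfwd : ∀ P : MvPolynomial (Σ i, J i) F₀, MHm P → evv (pt H t) P = 0 →
      evv (pt l' t₀) P = 0 := by
    intro P hP h0
    have h1 := hz' P hP h0
    have h2 := evv_same hsame hP h1
    have h3 := evv_red hr hP h2
    have h4 := evv_same hlr hP h3
    have h5 : evv (up kl (val l t')) P = 0 := by
      rw [evv_up, h4, map_zero]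
    exact evv_same hst hP h5
  have hne : ∀ i, pt l' t₀ i ≠ 0 := by
    refine Crest.Agent.R270.Link_131.same_ne_zero hst fun i h0 => ?_
    refine val_ne hlm.cop t' i ?_
    funext x
    have h1 := congrFun h0 x
    exact (map_eq_zero _).mp h1
  refine ⟨kl, inferInstance, inferInstance, inferInstance, inferInstance, inferInstance, l', t₀,
    hlm', hlc', ?_, htr, fun P hP => ⟨?_, hfwd P hP⟩⟩
  · have h1 : hl D = 3 * D.m + 1 + 1 + Fintype.card I := rfl
    rw [h1]
    exact hlt'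
  · exact spec_eq (pt H t) (pt l' t₀) hne (2 * D.m) hnt (rat_of_ent hne htr) hfwd P hP

end Crest.Agent.R260.Cnt_749
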