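import Crest.Agent.R260.FamP_919
import Crest.Agent.R260.Fam1_919

/-!
# Row 260 (S0398), GENFAM leaf (F4) (helper979): `GL_2(F₀) × torus(F₀)` moves generic members to
generic members.
-/

set_option autoImplicit false
set_option linter.unusedSectionVars false

namespace Crest.Agent.R260.Gmob_979

open Polynomial
open Crest.Agent.R270.BM_360 Crest.Agent.R260.Lin_678 Crest.Agent.R260.Mob_919
open Crest.Agent.R260.Fam_919

universe u v w

variable {I : Type} {J : I → Type} [Fintype I] [∀ i, Fintype (J i)]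
variable {k : Type u} [Field k]

/-- the substitution of the coefficient ring given by a parameter `e`. -/
noncomputable def sub (N : I → ℕ) {F₀ : Type u} [Field F₀] (e : Fin 4 ⊕ I → F₀) :
    MvPolynomial (Cx J N) F₀ →ₐ[F₀] MvPolynomial (Cx J N) F₀ :=
  MvPolynomial.aeval (cfv N (act N (fun j => MvPolynomial.C (e j)) (uni F₀ N)))

theorem aeval_sub (N : I → ℕ) {F₀ : Type u} [Field F₀] {R : Type v} [CommRing R] [Algebra F₀ R]
    (e : Fin 4 ⊕ I → F₀) {F : ∀ i, J i → R[X]} (hF : ∀ i x, (F i x).natDegree ≤ N i)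
    (p : MvPolynomial (Cx J N) F₀) :
    MvPolynomial.aeval (cfv N F) (sub N e p)
      = MvPolynomial.aeval (cfv N (act N (fun j => algebraMap F₀ R (e j)) F)) p := by
  have h1 : mapT ((MvPolynomial.aeval (cfv N F) : MvPolynomial (Cx J N) F₀ →ₐ[F₀] R) :
      MvPolynomial (Cx J N) F₀ →+* R) (act N (fun j => MvPolynomial.C (e j)) (uni F₀ N))
      = act N (fun j => algebraMap F₀ R (e j)) F := by
    rw [mapT_act, mapT_uni_aeval N hF]
    congr 1
    funext j
    simp
  rw [← h1, aeval_mapT]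
  rfl

theorem map_mulE {A : Type v} {B : Type w} [CommRing A] [CommRing B] (φ : A →+* B)
    (e e' : Fin 4 ⊕ I → A) :
    mulE (fun j => φ (e j)) (fun j => φ (e' j)) = fun j => φ (mulE e e' j) := by
  funext j
  rcases j with j | j
  · fin_cases j <;> simp [mulE]
  · simp [mulE]

theorem sub_sub (N : I → ℕ) {F₀ : Type u} [Field F₀] (e e' : Fin 4 ⊕ I → F₀)
    (p : MvPolynomial (Cx J N) F₀) :
    sub N e (sub N e' p) = sub N (mulE e e') p := by
  have h1 := aeval_sub N (R := MvPolynomial (Cx J N) F₀) e'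
    (F := act N (fun j => MvPolynomial.C (e j)) (uni F₀ N))
    (fun i x => natDegree_act_le N _ _ i x) p
  have h2 : act N (fun j => algebraMap F₀ (MvPolynomial (Cx J N) F₀) (e' j))
      (act N (fun j => MvPolynomial.C (e j)) (uni F₀ N))
      = act N (fun j => MvPolynomial.C (mulE e e' j)) (uni F₀ N) := by
    rw [act_act]
    exact congrArg (fun z => act N z (uni F₀ N))
      (map_mulE (MvPolynomial.C : F₀ →+* MvPolynomial (Cx J N) F₀) e e')
  rw [h2] at h1
  exact h1

theorem sub_one (N : I → ℕ) {F₀ : Type u} [Field F₀] (p : MvPolynomial (Cx J N) F₀) :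
    sub N oneE p = p := by
  have h : (act N (fun j => MvPolynomial.C ((oneE : Fin 4 ⊕ I → F₀) j)) (uni F₀ N) :
      ∀ i, J i → (MvPolynomial (Cx J N) F₀)[X]) = uni F₀ N := by
    have h2 : (fun j => MvPolynomial.C ((oneE : Fin 4 ⊕ I → F₀) j)
        : Fin 4 ⊕ I → MvPolynomial (Cx J N) F₀) = oneE := by
      funext j
      rcases j with j | j
      · fin_cases j <;> simp [oneE]
      · simp [oneE]
    rw [h2]
    exact act_one N (natDegree_uni_le N)
  unfold sub
  rw [h, uni, cfv_univT]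
  simp

section fam

variable {D : CData k I J} {P : Ideal (MvPolynomial (Cx J (fun i => 2 * D.β i)) k)}

/-- the ideal `P F₀`. -/
noncomputable abbrev ext (N : I → ℕ) (P : Ideal (MvPolynomial (Cx J N) k)) (F₀ : Type u) [Field F₀]
    [Algebra k F₀] : Ideal (MvPolynomial (Cx J N) F₀) :=
  P.map (MvPolynomial.map (algebraMap k F₀))

/-- the universal member over `F₀[X] / P F₀`. -/
noncomputable def um (N : I → ℕ) (P : Ideal (MvPolynomial (Cx J N) k)) (F₀ : Type u) [Field F₀]
    [Algebra k F₀] : ∀ i, J i → (MvPolynomial (Cx J N) F₀ ⧸ ext N P F₀)[X] :=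
  mapT (Ideal.Quotient.mkₐ F₀ (ext N P F₀) : MvPolynomial (Cx J N) F₀ →+* _) (uni F₀ N)

theorem natDegree_um_le (N : I → ℕ) (P : Ideal (MvPolynomial (Cx J N) k)) (F₀ : Type u) [Field F₀]
    [Algebra k F₀] (i : I) (x : J i) : (um N P F₀ i x).natDegree ≤ N i :=
  natDegree_mapT_le N _ (natDegree_uni_le N) i x

theorem aeval_um (N : I → ℕ) (P : Ideal (MvPolynomial (Cx J N) k)) (F₀ : Type u) [Field F₀]
    [Algebra k F₀] (p : MvPolynomial (Cx J N) F₀) :
    MvPolynomial.aeval (cfv N (um N P F₀)) p = Ideal.Quotient.mkₐ F₀ (ext N P F₀) p := by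
  unfold um
  rw [aeval_mapT, uni, cfv_univT]
  congr 1
  exact MvPolynomial.aeval_X_left_apply p

theorem inC_um (N : I → ℕ) (P : Ideal (MvPolynomial (Cx J N) k)) (F₀ : Type u) [Field F₀]
    [Algebra k F₀] : InC N P (um N P F₀) where
  deg := natDegree_um_le N P F₀
  mem p hp := by
    rw [← MvPolynomial.aeval_map_algebraMap F₀, aeval_um, Ideal.Quotient.mkₐ_eq_mk,
      Ideal.Quotient.eq_zero_iff_mem]
    exact Ideal.mem_map_of_mem _ hp

/-- the substitutions preserve `P F₀`. -/
theorem sub_mem (hF : Fam D P) (F₀ : Type u) [Field F₀] [Algebra k F₀] (e : Fin 4 ⊕ I → F₀)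
    {p : MvPolynomial (Cx J (fun i => 2 * D.β i)) F₀} (hp : p ∈ ext _ P F₀) :
    sub _ e p ∈ ext _ P F₀ := by
  have h1 : ext (fun i => 2 * D.β i) P F₀ ≤ (ext _ P F₀).comap (sub _ e) := by
    rw [Ideal.map_le_iff_le_comap]
    intro q hq
    rw [Ideal.mem_comap, Ideal.mem_comap, ← Ideal.Quotient.eq_zero_iff_mem,
      ← Ideal.Quotient.mkₐ_eq_mk F₀, ← aeval_um,
      aeval_sub _ e (natDegree_um_le _ P F₀), MvPolynomial.aeval_map_algebraMap]
    exact (hF.inv _ _ (inC_um _ P F₀) _ _ _ _ _).mem q hq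
  exact h1 hp

theorem gen_act (hF : Fam D P) {F₀ κ : Type u} [Field F₀] [Field κ] [Algebra k F₀]
    [Algebra F₀ κ] {H : ∀ i, J i → κ[X]} (hH : Gen (fun i => 2 * D.β i) P F₀ H)
    {e e' : Fin 4 ⊕ I → F₀} (he : mulE e' e = oneE) :
    Gen (fun i => 2 * D.β i) P F₀
      (act (fun i => 2 * D.β i) (fun j => algebraMap F₀ κ (e j)) H) where
  deg := natDegree_act_le _ _ _
  iff p := by
    rw [← aeval_sub _ e hH.deg, hH.iff]
    constructor
    · intro h
      have h2 := sub_mem hF F₀ e' h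
      rwa [sub_sub, he, sub_one] at h2
    · exact sub_mem hF F₀ e

/-- **(F4)** `GL_2(F₀)` and the torus of `F₀` move generic members to generic members. -/
theorem gen_mob (hF : Fam D P) {F₀ κ : Type u} [Field F₀] [Field κ] [Algebra k F₀]
    [Algebra F₀ κ] {H : ∀ i, J i → κ[X]} (hH : Gen (fun i => 2 * D.β i) P F₀ H)
    (μ : I → F₀) (hμ : ∀ i, μ i ≠ 0) (a b c d : F₀) (hd : a * d - b * c ≠ 0) :
    Gen (fun i => 2 * D.β i) P F₀ (mobT (fun i => 2 * D.β i) (fun i => algebraMap F₀ κ (μ i))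
      (algebraMap F₀ κ a) (algebraMap F₀ κ b) (algebraMap F₀ κ c) (algebraMap F₀ κ d) H) := by
  obtain ⟨δ, hδ⟩ : ∃ δ, δ = a * d - b * c := ⟨_, rfl⟩
  have hδ0 : δ ≠ 0 := by rw [hδ]; exact hd
  have h := gen_act hF hH (e := Sum.elim ![a, b, c, d] μ)
    (e' := Sum.elim ![d / δ, -b / δ, -c / δ, a / δ] (fun i => (μ i)⁻¹)) (by
    funext j
    rcases j with j | j
    · fin_cases j
      · have h1 : d / δ * a + -b / δ * c = 1 := by
          field_simp
          rw [hδ]; ring
        simpa [mulE, oneE] using h1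
      · have h1 : d / δ * b + -b / δ * d = 0 := by
          field_simp
          ring
        simpa [mulE, oneE] using h1
      · have h1 : -c / δ * a + a / δ * c = 0 := by
          field_simp
          ring
        simpa [mulE, oneE] using h1
      · have h1 : -c / δ * b + a / δ * d = 1 := by
          field_simp
          rw [hδ]; ring
        simpa [mulE, oneE] using h1
    · simp [mulE, oneE, hμ])
  exact h

end fam

end Crest.Agent.R260.Gmob_979
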