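import Crest.Agent.R260.Fam1_919
import Crest.Agent.R260.FamP_919
import Crest.Agent.R260.Cnt1_749

/-!
# Row 260 (S0398), GENFAM (F6b) (helper516): the family has dimension at least `4m + 3 + |I|`

`gen_tr (hF : Fam D P) (h : GenRatP D P) : GenTrP D P`: to a generic member `H` over `F₀` add a
generic scaling `z ↦ λ z` and generic scalars `μ_i` of the blocks; the new member has the same
relations over `F₀` (invariance of the family), and over the field of `H` its coefficients
generate a field of transcendence degree at least `|I| + 1`, while the ratios of the points at `0`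
and at `∞` are unchanged.
-/

set_option autoImplicit false
set_option linter.unusedSectionVars false

namespace Crest.Agent.R260.Gtr_516

open Polynomial
open Crest.Agent.R270.BM_360 Crest.Agent.R260.Lin_678 Crest.Agent.R260.Mob_919
  Crest.Agent.R260.Fam_919 Crest.Agent.R260.QuadDefs_517 Crest.Agent.R260.Cnt_749
open Crest.Agent.R270.Rees_581 (cl mem_cl coe_cl subset_cl cl_le adjoin_le_cl)

universe u

variable {I : Type} {J : I → Type} [Fintype I] [∀ i, Fintype (J i)] {k : Type u} [Field k]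

/-! ### relations of members of the family over extensions of `k` -/

section rel

variable {N : I → ℕ} {P : Ideal (MvPolynomial (Cx J N) k)} {F₀ : Type u} [Field F₀] [Algebra k F₀]

/-- a member of the family satisfies the relations of the extended ideal. -/
theorem inc_map {R : Type u} [CommRing R] [Algebra k R] [Algebra F₀ R] [IsScalarTower k F₀ R]
    {G : ∀ i, J i → R[X]} (hG : InC N P G) {p : MvPolynomial (Cx J N) F₀}
    (hp : p ∈ P.map (MvPolynomial.map (algebraMap k F₀))) :
    MvPolynomial.aeval (cfv N G) p = 0 := by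
  have h : P.map (MvPolynomial.map (algebraMap k F₀)) ≤
      RingHom.ker (MvPolynomial.aeval (cfv N G) : MvPolynomial (Cx J N) F₀ →ₐ[F₀] R) := by
    rw [Ideal.map_le_iff_le_comap]
    intro q hq
    rw [Ideal.mem_comap, RingHom.mem_ker]
    change MvPolynomial.aeval (cfv N G) (MvPolynomial.map (algebraMap k F₀) q) = 0
    rw [MvPolynomial.aeval_map_algebraMap]
    exact hG.mem q hq
  exact h hp

/-- a generic member is a member. -/
theorem gen_inc {κ : Type u} [Field κ] [Algebra k κ] [Algebra F₀ κ] [IsScalarTower k F₀ κ]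
    {H : ∀ i, J i → κ[X]} (hH : Gen N P F₀ H) : InC N P H where
  deg := hH.deg
  mem p hp := by
    have h := (hH.iff (MvPolynomial.map (algebraMap k F₀) p)).2 (Ideal.mem_map_of_mem _ hp)
    rwa [MvPolynomial.aeval_map_algebraMap] at h

/-- a coefficient of the generic member vanishes only if it vanishes on all members over `k`. -/
theorem coeff_zero_of_gen {κ : Type u} [Field κ] [Algebra k κ] [Algebra F₀ κ]
    [IsScalarTower k F₀ κ] {H : ∀ i, J i → κ[X]} (hH : Gen N P F₀ H) {F : ∀ i, J i → k[X]}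
    (hF : InC N P F) (y : Cx J N) (h0 : cfv N H y = 0) : cfv N F y = 0 := by
  have h1 : (MvPolynomial.X y : MvPolynomial (Cx J N) F₀) ∈
      P.map (MvPolynomial.map (algebraMap k F₀)) := by
    rw [← hH.iff, MvPolynomial.aeval_X, h0]
  have h2 := inc_map (R := F₀) (hF.mapT N (Algebra.ofId k F₀)) h1
  rw [MvPolynomial.aeval_X, cfv_mapT] at h2
  exact (algebraMap k F₀).injective (h2.trans (map_zero _).symm)

/-- two tuples with the same relations over `F₀` have the same transcendence degree. -/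
theorem trGe_transfer {κ κ' : Type u} [Field κ] [Field κ'] [Algebra F₀ κ] [Algebra F₀ κ']
    {σ : Type} [Finite σ] {v : σ → κ} {v' : σ → κ'}
    (h : ∀ p : MvPolynomial σ F₀, MvPolynomial.aeval v p = 0 → MvPolynomial.aeval v' p = 0)
    {n : ℕ} (hv : TrGe F₀ (Set.range v') n) : TrGe F₀ (Set.range v) n := by
  obtain ⟨x, hx⟩ := Irr_33.exists_sub hv
  refine Irr_33.trge_of_sub (w := fun j => v (x j)) (fun j => ⟨x j, rfl⟩) ?_
  rw [algebraicIndependent_iff]
  intro q hq
  refine (algebraicIndependent_iff.1 hx) q ?_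
  have h1 : MvPolynomial.aeval v (MvPolynomial.rename x q) = 0 := by
    rw [MvPolynomial.aeval_rename]
    exact hq
  have h2 := h _ h1
  rw [MvPolynomial.aeval_rename] at h2
  exact h2

end rel

/-! ### the generic twist -/

section twist

variable (N : I → ℕ) {κ : Type u} [Field κ]

/-- the ring of parameters. -/
abbrev RR (I : Type) (κ : Type u) [Field κ] : Type u := MvPolynomial (Option I) κ

/-- the field of parameters. -/
abbrev KK (I : Type) (κ : Type u) [Field κ] : Type u := FractionRing (RR I κ)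

/-- the generic twist of `H`, over the ring of parameters. -/
noncomputable def tw (H : ∀ i, J i → κ[X]) : ∀ i, J i → (RR I κ)[X] :=
  mobT N (fun i => MvPolynomial.X (some i)) (MvPolynomial.X none) 0 0 1
    (mapT (MvPolynomial.C : κ →+* RR I κ) H)

/-- the generic twist of `H`. -/
noncomputable def tw' (H : ∀ i, J i → κ[X]) : ∀ i, J i → (KK I κ)[X] :=
  mapT (algebraMap (RR I κ) (KK I κ)) (tw N H)

theorem mapT_tw_one {H : ∀ i, J i → κ[X]} (hH : ∀ i x, (H i x).natDegree ≤ N i) :
    mapT ((MvPolynomial.aeval (fun _ => (1 : κ)) : RR I κ →ₐ[κ] κ) : RR I κ →+* κ) (tw N H)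
      = H := by
  funext i x
  unfold tw
  have h1 := mobT_map ((MvPolynomial.aeval (fun _ => (1 : κ)) : RR I κ →ₐ[κ] κ) : RR I κ →+* κ) N
    (fun i => MvPolynomial.X (some i)) (MvPolynomial.X none) 0 0 1
    (mapT (MvPolynomial.C : κ →+* RR I κ) H) i x
  refine h1.trans ?_
  have h2 : (fun i x => (mapT (MvPolynomial.C : κ →+* RR I κ) H i x).map
      ((MvPolynomial.aeval (fun _ => (1 : κ)) : RR I κ →ₐ[κ] κ) : RR I κ →+* κ)) = H := by
    funext i x
    change ((H i x).map _).map _ = H i x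
    rw [Polynomial.map_map]
    have h3 : (((MvPolynomial.aeval (fun _ => (1 : κ)) : RR I κ →ₐ[κ] κ) : RR I κ →+* κ).comp
        (MvPolynomial.C : κ →+* RR I κ)) = RingHom.id κ := by
      refine RingHom.ext fun a => ?_
      simp
    rw [h3, Polynomial.map_id]
  rw [h2]
  have h4 := congrFun (congrFun (mobT_id N hH) i) x
  simpa using h4

/-- the coefficients of the twist. -/
theorem coeff_tw_zero {H : ∀ i, J i → κ[X]} (hN : ∀ i x, (H i x).natDegree ≤ N i) (i : I)
    (x : J i) : (tw' N H i x).coeff 0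
      = algebraMap (RR I κ) (KK I κ) (MvPolynomial.X (some i)) * algebraMap κ (KK I κ)
        ((H i x).coeff 0) := by
  unfold tw' tw mapT mobT
  rw [coeff_map, coeff_C_mul, coeff_mob_zero, hev_t_one 0 (natDegree_map_le.trans (hN i x)),
    map_mul]
  congr 1
  rw [← coeff_zero_eq_aeval_zero', coeff_map]
  rfl

theorem coeff_tw_top {H : ∀ i, J i → κ[X]} (i : I) (x : J i) : (tw' N H i x).coeff (N i)
      = algebraMap (RR I κ) (KK I κ) (MvPolynomial.X (some i)) *
        algebraMap (RR I κ) (KK I κ) (MvPolynomial.X none) ^ N i *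
        algebraMap κ (KK I κ) ((H i x).coeff (N i)) := by
  unfold tw' tw mapT mobT
  rw [coeff_map, coeff_C_mul, coeff_mob_top, hev_t_zero, coeff_map, map_mul, map_mul, map_pow]
  have h1 : algebraMap (RR I κ) (KK I κ) (algebraMap (RR I κ) (RR I κ)
      (MvPolynomial.C ((H i x).coeff (N i)))) = algebraMap κ (KK I κ) ((H i x).coeff (N i)) := rfl
  rw [h1]
  ring

end twist

section twist2

variable {N : I → ℕ} {P : Ideal (MvPolynomial (Cx J N) k)} {F₀ : Type u} [Field F₀] [Algebra k F₀]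
  {κ : Type u} [Field κ] [Algebra k κ] [Algebra F₀ κ] [IsScalarTower k F₀ κ]

/-- relations of the twist are relations of `H`. -/
theorem rel_of_tw {H : ∀ i, J i → κ[X]} (hN : ∀ i x, (H i x).natDegree ≤ N i)
    {p : MvPolynomial (Cx J N) F₀} (h : MvPolynomial.aeval (cfv N (tw' N H)) p = 0) :
    MvPolynomial.aeval (cfv N H) p = 0 := by
  have h1 : MvPolynomial.aeval (cfv N (tw N H)) p = 0 := by
    have h2 := aeval_mapT (k := F₀) N (IsScalarTower.toAlgHom F₀ (RR I κ) (KK I κ)) (tw N H) p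
    have h3 : mapT ((IsScalarTower.toAlgHom F₀ (RR I κ) (KK I κ) : RR I κ →ₐ[F₀] KK I κ) :
        RR I κ →+* KK I κ) (tw N H) = tw' N H := rfl
    rw [h3, h] at h2
    exact (IsFractionRing.injective (RR I κ) (KK I κ)) (h2.symm.trans (map_zero _).symm)
  have h4 := aeval_mapT (k := F₀) N
    ((MvPolynomial.aeval (fun _ => (1 : κ)) : RR I κ →ₐ[κ] κ).restrictScalars F₀) (tw N H) p
  have h5 : mapT (((MvPolynomial.aeval (fun _ => (1 : κ)) : RR I κ →ₐ[κ] κ).restrictScalars F₀ :
      RR I κ →ₐ[F₀] κ) : RR I κ →+* κ) (tw N H) = H := mapT_tw_one N hN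
  rw [h5, h1, map_zero] at h4
  exact h4

end twist2

section count

variable {D : CData k I J} {P : Ideal (MvPolynomial (Cx J (fun i => 2 * D.β i)) k)}

/-- the twist is a member of the family. -/
theorem tw_inc (hF : Fam D P) {κ : Type u} [Field κ] [Algebra k κ] {H : ∀ i, J i → κ[X]}
    (hH : InC (fun i => 2 * D.β i) P H) :
    InC (fun i => 2 * D.β i) P (tw' (fun i => 2 * D.β i) H) := by
  have h1 : InC (fun i => 2 * D.β i) P (mapT (MvPolynomial.C : κ →+* RR I κ) H) :=
    hH.mapT _ (IsScalarTower.toAlgHom k κ (RR I κ))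
  have h2 := hF.inv _ _ h1 (fun i => MvPolynomial.X (some i)) (MvPolynomial.X none) 0 0 1
  exact h2.mapT _ (IsScalarTower.toAlgHom k (RR I κ) (KK I κ))

variable {F₀ κ : Type u} [Field F₀] [Field κ] [Algebra k F₀] [Algebra k κ] [Algebra F₀ κ]
  [IsScalarTower k F₀ κ]

/-- `H` and its twist have the same relations. -/
theorem rel_tw (hF : Fam D P) {H : ∀ i, J i → κ[X]} (hH : Gen (fun i => 2 * D.β i) P F₀ H)
    {p : MvPolynomial (Cx J (fun i => 2 * D.β i)) F₀}
    (h : MvPolynomial.aeval (cfv (fun i => 2 * D.β i) H) p = 0) :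
    MvPolynomial.aeval (cfv (fun i => 2 * D.β i) (tw' (fun i => 2 * D.β i) H)) p = 0 :=
  inc_map (tw_inc hF (gen_inc hH)) ((hH.iff p).1 h)

/-- the block `i` of `H(0)` is not zero. -/
theorem exists_pt_ne (hF : Fam D P) {H : ∀ i, J i → κ[X]}
    (hH : Gen (fun i => 2 * D.β i) P F₀ H) (i : I) : ∃ x, (H i x).coeff 0 ≠ 0 := by
  by_contra hcon
  push Not at hcon
  obtain ⟨F, hF1, hF2, -, -⟩ := hF.good
  have h1 : ∀ x, (F i x).coeff 0 = 0 := fun x =>
    coeff_zero_of_gen hH hF1 ⟨⟨i, x⟩, ⟨0, Nat.succ_pos _⟩⟩ (hcon x)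
  have h2 : Ideal.span (Set.range (F i)) ≤ Ideal.span {(X : k[X])} := by
    rw [Ideal.span_le]
    rintro _ ⟨x, rfl⟩
    rw [SetLike.mem_coe, Ideal.mem_span_singleton, X_dvd_iff]
    exact h1 x
  have h3 : Ideal.span (Set.range (F i)) = ⊤ := hF2.cop i
  rw [h3, top_le_iff, Ideal.span_singleton_eq_top] at h2
  exact not_isUnit_X h2

/-- the block `i` of the leading vector of `H` is not zero. -/
theorem exists_ld_ne (hF : Fam D P) {H : ∀ i, J i → κ[X]}
    (hH : Gen (fun i => 2 * D.β i) P F₀ H) (i : I) : ∃ x, (H i x).coeff (2 * D.β i) ≠ 0 := by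
  by_contra hcon
  push Not at hcon
  obtain ⟨F, hF1, hF2, hF3, -⟩ := hF.good
  have h1 : ∀ x, (F i x).coeff (2 * D.β i) = 0 := fun x =>
    coeff_zero_of_gen hH hF1 ⟨⟨i, x⟩, ⟨2 * D.β i, Nat.lt_succ_self _⟩⟩ (hcon x)
  have h2 : vdeg (F i) = 2 * D.β i := by
    have := congrFun hF3 i
    simpa [cls] using this
  have hβ := D.β_pos i
  have h3 : vdeg (F i) < 2 * D.β i := by
    unfold vdeg
    rw [Finset.sup_lt_iff (by rw [bot_eq_zero]; omega)]
    intro x _
    refine lt_of_le_of_ne ?_ ?_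
    · rw [← h2]
      exact Finset.le_sup (f := fun a => (F i a).natDegree) (Finset.mem_univ x)
    · intro h4
      have h5 := h1 x
      rw [← h4] at h5
      have h6 : F i x = 0 := leadingCoeff_eq_zero.1 h5
      rw [h6, natDegree_zero] at h4
      omega
  omega

theorem nonempty_I (D : CData k I J) : Nonempty I := by
  by_contra h
  rw [not_nonempty_iff] at h
  have := D.wβ
  rw [Finset.univ_eq_empty, Finset.sum_empty] at this
  exact zero_ne_one this

/-- the parameters are algebraic over the field of coefficients of the twist. -/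
theorem trGe_tw (hF : Fam D P) {H : ∀ i, J i → κ[X]} (hH : Gen (fun i => 2 * D.β i) P F₀ H) :
    TrGe κ (Set.range (cfv (fun i => 2 * D.β i) (tw' (fun i => 2 * D.β i) H)))
      (Fintype.card I + 1) := by
  set T : Set (KK I κ) := Set.range (cfv (fun i => 2 * D.β i) (tw' (fun i => 2 * D.β i) H))
    with hT
  let xx : Option I → KK I κ := fun o => algebraMap (RR I κ) (KK I κ) (MvPolynomial.X o)
  have hind : AlgebraicIndependent κ xx :=
    (MvPolynomial.algebraicIndependent_X (Option I) κ).map'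
      (f := IsScalarTower.toAlgHom κ (RR I κ) (KK I κ))
      (IsFractionRing.injective (RR I κ) (KK I κ))
  have hs : ∀ i, xx (some i) ∈ cl κ T := by
    intro i
    obtain ⟨x, hx⟩ := exists_pt_ne hF hH i
    have h1 : (tw' (fun i => 2 * D.β i) H i x).coeff 0 ∈ cl κ T :=
      subset_cl T ⟨⟨⟨i, x⟩, ⟨0, Nat.succ_pos _⟩⟩, rfl⟩
    rw [coeff_tw_zero _ hH.deg] at h1
    have h2 : algebraMap κ (KK I κ) ((H i x).coeff 0) ∈ cl κ T := (cl κ T).algebraMap_mem _
    have h3 : algebraMap κ (KK I κ) ((H i x).coeff 0) ≠ 0 := by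
      rw [Ne, map_eq_zero_iff _ (algebraMap κ (KK I κ)).injective]
      exact hx
    have h4 := (cl κ T).div_mem h1 h2
    rwa [mul_div_cancel_right₀ _ h3] at h4
  have hn : xx none ∈ cl κ T := by
    obtain ⟨i⟩ := nonempty_I D
    obtain ⟨x, hx⟩ := exists_ld_ne hF hH i
    have h1 : (tw' (fun i => 2 * D.β i) H i x).coeff (2 * D.β i) ∈ cl κ T :=
      subset_cl T ⟨⟨⟨i, x⟩, ⟨2 * D.β i, Nat.lt_succ_self _⟩⟩, rfl⟩
    have e := coeff_tw_top (fun i => 2 * D.β i) (H := H) i x
    rw [e] at h1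
    have h2 : algebraMap κ (KK I κ) ((H i x).coeff (2 * D.β i)) ∈ cl κ T :=
      (cl κ T).algebraMap_mem _
    have h3 : algebraMap κ (KK I κ) ((H i x).coeff (2 * D.β i)) ≠ 0 := by
      rw [Ne, map_eq_zero_iff _ (algebraMap κ (KK I κ)).injective]
      exact hx
    have h4 := (cl κ T).div_mem h1 h2
    rw [mul_div_cancel_right₀ _ h3] at h4
    have h5 : xx (some i) ≠ 0 := hind.ne_zero (some i)
    have h6 := (cl κ T).div_mem h4 (hs i)
    rw [mul_div_cancel_left₀ _ h5] at h6
    rw [mem_cl] at h6 ⊢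
    have hβ := D.β_pos i
    exact IsAlgebraic.of_pow (n := 2 * D.β i) (by omega) h6
  have h1 : TrGe κ (Set.range xx) (Fintype.card I + 1) := by
    let e : Fin (Fintype.card I + 1) ≃ Option I :=
      (finCongr (by rw [Fintype.card_option])).trans (Fintype.equivFin (Option I)).symm
    exact ⟨fun j => xx (e j), fun j => IntermediateField.subset_adjoin _ _ ⟨_, rfl⟩,
      hind.comp e e.injective⟩
  refine trGe_mono h1 ?_
  rintro _ ⟨o, rfl⟩
  cases o with
  | none => exact hn
  | some i => exact hs i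

/-- **(F6b)** -/
theorem gen_tr (hF : Fam D P) (h : GenRatP D P) : GenTrP D P := by
  intro F₀ κ _ _ _ _ _ _ H hH
  let ψ : κ →ₐ[F₀] KK I κ := IsScalarTower.toAlgHom F₀ κ (KK I κ)
  have h1 : TrGe F₀ (ψ '' (rat (pt H 0) ∪ rat (ld D H))) (4 * D.m + 2) :=
    trGe_image ψ (h F₀ κ H hH)
  have h2 := trGe_tw (F₀ := F₀) hF hH
  have h3 := trGe_tower h1 (by rintro _ ⟨a, -, rfl⟩; exact ⟨a, rfl⟩) h2
  set T : Set (KK I κ) := Set.range (cfv (fun i => 2 * D.β i) (tw' (fun i => 2 * D.β i) H))
    with hT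
  have h4 : TrGe F₀ T (4 * D.m + 2 + (Fintype.card I + 1)) := by
    refine trGe_adj h3 (Set.union_subset ?_ (IntermediateField.subset_adjoin F₀ T))
    have hx : ∀ o : Option I, algebraMap (RR I κ) (KK I κ) (MvPolynomial.X o) ≠ 0 := by
      intro o
      rw [Ne, map_eq_zero_iff _ (IsFractionRing.injective (RR I κ) (KK I κ))]
      exact MvPolynomial.X_ne_zero o
    rintro _ ⟨c, hc | hc, rfl⟩
    · obtain ⟨i, a, b, hb, rfl⟩ := hc
      have ha1 : (tw' (fun i => 2 * D.β i) H i a).coeff 0 ∈ IntermediateField.adjoin F₀ T :=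
        IntermediateField.subset_adjoin _ _ ⟨⟨⟨i, a⟩, ⟨0, Nat.succ_pos _⟩⟩, rfl⟩
      have hb1 : (tw' (fun i => 2 * D.β i) H i b).coeff 0 ∈ IntermediateField.adjoin F₀ T :=
        IntermediateField.subset_adjoin _ _ ⟨⟨⟨i, b⟩, ⟨0, Nat.succ_pos _⟩⟩, rfl⟩
      have h5 := (IntermediateField.adjoin F₀ T).div_mem ha1 hb1
      rw [coeff_tw_zero _ hH.deg, coeff_tw_zero _ hH.deg,
        mul_div_mul_left _ _ (hx (some i))] at h5
      have h6 : ψ (pt H 0 i a / pt H 0 i b) = algebraMap κ (KK I κ) ((H i a).coeff 0) /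
          algebraMap κ (KK I κ) ((H i b).coeff 0) := by
        rw [map_div₀]
        unfold pt
        rw [← coeff_zero_eq_eval_zero, ← coeff_zero_eq_eval_zero]
        rfl
      rw [h6]
      exact h5
    · obtain ⟨i, a, b, hb, rfl⟩ := hc
      have ha1 : (tw' (fun i => 2 * D.β i) H i a).coeff (2 * D.β i) ∈
          IntermediateField.adjoin F₀ T :=
        IntermediateField.subset_adjoin _ _ ⟨⟨⟨i, a⟩, ⟨2 * D.β i, Nat.lt_succ_self _⟩⟩, rfl⟩
      have hb1 : (tw' (fun i => 2 * D.β i) H i b).coeff (2 * D.β i) ∈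
          IntermediateField.adjoin F₀ T :=
        IntermediateField.subset_adjoin _ _ ⟨⟨⟨i, b⟩, ⟨2 * D.β i, Nat.lt_succ_self _⟩⟩, rfl⟩
      have h5 := (IntermediateField.adjoin F₀ T).div_mem ha1 hb1
      have ea := coeff_tw_top (fun i => 2 * D.β i) (H := H) i a
      have eb := coeff_tw_top (fun i => 2 * D.β i) (H := H) i b
      rw [ea, eb, mul_div_mul_left _ _ (mul_ne_zero (hx (some i)) (pow_ne_zero _ (hx none)))] at h5
      have h6 : ψ (ld D H i a / ld D H i b) = algebraMap κ (KK I κ) ((H i a).coeff (2 * D.β i)) /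
          algebraMap κ (KK I κ) ((H i b).coeff (2 * D.β i)) := by
        rw [map_div₀]
        rfl
      rw [h6]
      exact h5
  have h5 : TrGe F₀ (Set.range (cfv (fun i => 2 * D.β i) H))
      (4 * D.m + 2 + (Fintype.card I + 1)) :=
    trGe_transfer (fun p hp => rel_tw hF hH hp) h4
  have h6 : hc D = 4 * D.m + 2 + (Fintype.card I + 1) := by
    unfold hc
    omega
  rw [h6]
  refine trGe_sub h5 ?_
  rintro _ ⟨y, rfl⟩
  exact ⟨y.1.1, y.1.2, y.2, rfl⟩

end count

end Crest.Agent.R260.Gtr_516
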