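import Crest.Agent.R260.Gtr1_516
import Crest.Agent.R260.Gpt_33
import Crest.Agent.R260.Exm1_564
import Crest.Agent.R260.Glu1_749

/-!
# Row 260 (S0398), GENFAM (F6a) (helper516): the ratios of the two points `H(0)`, `H(∞)` of the
generic member have transcendence degree `4m + 2`

`gen_rat (hF : Fam D P) (hP : (Ideal.span D.E).IsPrime) (h : GenPairInfP D P) : GenRatP D P`.
Compare `(H(0), H(∞))` with a pair `(v, v')` of independent generic points of the cone: every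
relation between the coordinates of `(H(0), H(∞))` in a chart is, homogenised, a bihomogeneous
relation, hence holds for `(v, v')`.
-/

set_option autoImplicit false
set_option linter.unusedSectionVars false

namespace Crest.Agent.R260.Gtr_516

open Polynomial
open Crest.Agent.R270.BM_360 Crest.Agent.R260.Lin_678 Crest.Agent.R260.Mob_919
  Crest.Agent.R260.Fam_919 Crest.Agent.R260.QuadDefs_517 Crest.Agent.R260.Cnt_749
open Crest.Agent.R270.Rees_581 (cl mem_cl coe_cl subset_cl cl_le adjoin_le_cl)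

universe u

variable {I : Type} {J : I → Type} [Fintype I] [∀ i, Fintype (J i)] {k : Type u} [Field k]
  {D : CData k I J} {P : Ideal (MvPolynomial (Cx J (fun i => 2 * D.β i)) k)}

/-- there are points of the cone over `k`. -/
theorem exists_kpt (hF : Fam D P) : ∃ v : ∀ i, J i → k, OnX D.E v ∧ ∀ i, v i ≠ 0 := by
  obtain ⟨F, -, hF2, -, -⟩ := hF.good
  refine ⟨fun i x => (F i x).eval 0, ?_, fun i h0 => ?_⟩
  · intro p hp
    have h1 := hF2.on p hp
    have h2 : MvPolynomial.aeval (fun x : Σ i, J i => (F x.1 x.2).eval 0) p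
        = (Polynomial.aeval (0 : k)) (MvPolynomial.aeval (fun x : Σ i, J i => F x.1 x.2) p) := by
      rw [← AlgHom.restrictScalars_apply k (Polynomial.aeval (0 : k)), ← AlgHom.comp_apply]
      congr 1
      refine MvPolynomial.algHom_ext fun y => ?_
      simp
    rw [h2, h1, map_zero]
  · have h2 : Ideal.span (Set.range (F i)) ≤ Ideal.span {(X : k[X])} := by
      rw [Ideal.span_le]
      rintro _ ⟨x, rfl⟩
      rw [SetLike.mem_coe, Ideal.mem_span_singleton, X_dvd_iff, coeff_zero_eq_eval_zero]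
      exact congrFun h0 x
    have h3 : Ideal.span (Set.range (F i)) = ⊤ := hF2.cop i
    rw [h3, top_le_iff, Ideal.span_singleton_eq_top] at h2
    exact not_isUnit_X h2

/-- pairs of vectors as one vector. -/
def pr2 {A : Type u} (v v' : ∀ i, J i → A) : (Σ i, J i) ⊕ (Σ i, J i) → A :=
  Sum.elim (fun x => v x.1 x.2) (fun x => v' x.1 x.2)

/-- a linear form in one block is bihomogeneous. -/
theorem bh_X {F₀ : Type u} [Field F₀] (x : (Σ i, J i) ⊕ (Σ i, J i)) :
    BH (MvPolynomial.X x : MvPolynomial ((Σ i, J i) ⊕ (Σ i, J i)) F₀) :=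
  ⟨_, MvPolynomial.isWeightedHomogeneous_X _ _ _⟩

/-- **(F6a)** -/
theorem gen_rat [IsAlgClosed k] [CharZero k] (hF : Fam D P) (hP : (Ideal.span D.E).IsPrime)
    (h : GenPairInfP D P) : GenRatP D P := by
  classical
  intro F₀ κ _ _ _ _ _ _ H hH
  obtain ⟨κ₁, _, _, _, _, _, v, hv1, hv2, hv3, -⟩ :=
    Gpt_33.exists_gen_pt D hP (exists_kpt hF) F₀
  obtain ⟨κ₂, _, _, _, _, _, v', hv1', hv2', hv3', -⟩ :=
    Gpt_33.exists_gen_pt D hP (exists_kpt hF) κ₁
  let _ : Algebra F₀ κ₂ := ((algebraMap κ₁ κ₂).comp (algebraMap F₀ κ₁)).toAlgebra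
  have t1 : IsScalarTower F₀ κ₁ κ₂ := IsScalarTower.of_algebraMap_eq fun _ => rfl
  have t2 : IsScalarTower k F₀ κ₂ := IsScalarTower.of_algebraMap_eq fun a => by
    rw [IsScalarTower.algebraMap_apply k κ₁ κ₂, IsScalarTower.algebraMap_apply k F₀ κ₁]
    rfl
  let ψ : κ₁ →ₐ[F₀] κ₂ := IsScalarTower.toAlgHom F₀ κ₁ κ₂
  let vv : ∀ i, J i → κ₂ := fun i x => ψ (v i x)
  have hinj : Function.Injective ψ := ψ.injective
  have hvv1 : OnX D.E vv := by
    intro p hp
    have h1 := hv1 p hp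
    have h2 : MvPolynomial.aeval (fun x : Σ i, J i => vv x.1 x.2) p
        = (IsScalarTower.toAlgHom k κ₁ κ₂)
          (MvPolynomial.aeval (fun x : Σ i, J i => v x.1 x.2) p) := by
      rw [← AlgHom.comp_apply]
      congr 1
      refine MvPolynomial.algHom_ext fun y => ?_
      simp [vv, ψ]
    rw [h2, h1, map_zero]
  have hvv2 : ∀ i, vv i ≠ 0 := by
    intro i h0
    apply hv2 i
    funext x
    exact hinj ((congrFun h0 x).trans (map_zero ψ).symm)
  -- the transcendence degree of the ratios of `(v, v')`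
  have a1 : TrGe F₀ (rat v) (2 * D.m + 1) := rat_of_ent hv2 hv3
  have a2 : TrGe κ₁ (rat v') (2 * D.m + 1) := rat_of_ent hv2' hv3'
  have a3 : TrGe F₀ (ψ '' rat v ∪ rat v') (2 * D.m + 1 + (2 * D.m + 1)) :=
    trGe_tower (trGe_image ψ a1) (by rintro _ ⟨a, -, rfl⟩; exact ⟨a, rfl⟩) a2
  -- the chart
  have hc1 : ∀ i, ∃ b, vv i b ≠ 0 := fun i => by
    obtain ⟨b, hb⟩ := Function.ne_iff.mp (hvv2 i)
    exact ⟨b, hb⟩
  have hc2 : ∀ i, ∃ b, v' i b ≠ 0 := fun i => by
    obtain ⟨b, hb⟩ := Function.ne_iff.mp (hv2' i)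
    exact ⟨b, hb⟩
  choose b hb using hc1
  choose b' hb' using hc2
  let τ : Type := (Σ i, J i) ⊕ (Σ i, J i)
  let blk : τ → I ⊕ I := Sum.map Sigma.fst Sigma.fst
  let cc : I ⊕ I → τ := Sum.elim (fun i => Sum.inl ⟨i, b i⟩) (fun i => Sum.inr ⟨i, b' i⟩)
  have hcc : ∀ c, blk (cc c) = c := by
    rintro (i | i) <;> rfl
  let z : τ → κ := pr2 (pt H 0) (ld D H)
  let zz : τ → κ₂ := pr2 vv v'
  have hzz : ∀ c, zz (cc c) ≠ 0 := by
    rintro (i | i)
    · exact hb i
    · exact hb' i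
  -- every bihomogeneous relation of `z` is a relation of `zz`
  have key : ∀ Δ : MvPolynomial τ F₀, BH Δ → MvPolynomial.aeval z Δ = 0 →
      MvPolynomial.aeval zz Δ = 0 := fun Δ hΔ h0 =>
    h F₀ κ H hH Δ hΔ h0 κ₂ vv v' hvv1 hvv2 hv1' hv2'
  have hz : ∀ c, z (cc c) ≠ 0 := by
    intro c h0
    apply hzz c
    have h1 := key (MvPolynomial.X (cc c)) (bh_X _) (by rw [MvPolynomial.aeval_X, h0])
    rwa [MvPolynomial.aeval_X] at h1
  have key2 : ∀ p : MvPolynomial τ F₀,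
      MvPolynomial.aeval (fun x => z x / z (cc (blk x))) p = 0 →
      MvPolynomial.aeval (fun x => zz x / zz (cc (blk x))) p = 0 := by
    intro p hp
    obtain ⟨N0, hN⟩ := Exm_564.hmg blk cc hcc p
    obtain ⟨q, hq, hq2⟩ := hN (fun _ => N0) fun _ => le_rfl
    have h1 := hq2 κ z hz
    rw [hp, mul_zero] at h1
    have h2 := key q ⟨_, by convert hq⟩ h1
    rw [hq2 κ₂ zz hzz, mul_eq_zero] at h2
    refine h2.resolve_left ?_
    exact Finset.prod_ne_zero_iff.2 fun c _ => pow_ne_zero _ (hzz c)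
  -- transfer
  have a4 : TrGe F₀ (Set.range fun x => zz x / zz (cc (blk x)))
      (2 * D.m + 1 + (2 * D.m + 1)) := by
    refine trGe_adj a3 (Set.union_subset ?_ ?_)
    · rintro _ ⟨_, ⟨i, a, c, hc, rfl⟩, rfl⟩
      have h1 : ψ (v i a / v i c) = (zz (Sum.inl ⟨i, a⟩) / zz (cc (blk (Sum.inl ⟨i, a⟩)))) /
          (zz (Sum.inl ⟨i, c⟩) / zz (cc (blk (Sum.inl ⟨i, c⟩)))) := by
        have h2 : zz (cc (blk (Sum.inl ⟨i, a⟩))) = vv i (b i) := rfl
        have h3 : zz (cc (blk (Sum.inl ⟨i, c⟩))) = vv i (b i) := rfl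
        rw [h2, h3, div_div_div_cancel_right₀ (hb i), map_div₀]
        rfl
      rw [h1]
      exact div_mem (IntermediateField.subset_adjoin _ _ ⟨_, rfl⟩)
        (IntermediateField.subset_adjoin _ _ ⟨_, rfl⟩)
    · rintro _ ⟨i, a, c, hc, rfl⟩
      have h1 : v' i a / v' i c = (zz (Sum.inr ⟨i, a⟩) / zz (cc (blk (Sum.inr ⟨i, a⟩)))) /
          (zz (Sum.inr ⟨i, c⟩) / zz (cc (blk (Sum.inr ⟨i, c⟩)))) := by
        have h2 : zz (cc (blk (Sum.inr ⟨i, a⟩))) = v' i (b' i) := rfl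
        have h3 : zz (cc (blk (Sum.inr ⟨i, c⟩))) = v' i (b' i) := rfl
        rw [h2, h3, div_div_div_cancel_right₀ (hb' i)]
        rfl
      rw [h1]
      exact div_mem (IntermediateField.subset_adjoin _ _ ⟨_, rfl⟩)
        (IntermediateField.subset_adjoin _ _ ⟨_, rfl⟩)
  have a5 : TrGe F₀ (Set.range fun x => z x / z (cc (blk x)))
      (2 * D.m + 1 + (2 * D.m + 1)) := trGe_transfer key2 a4
  have e1 : 4 * D.m + 2 = 2 * D.m + 1 + (2 * D.m + 1) := by omega
  rw [e1]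
  refine trGe_sub a5 ?_
  rintro _ ⟨x, rfl⟩
  rcases x with ⟨i, a⟩ | ⟨i, a⟩
  · exact Or.inl ⟨i, a, b i, hz (Sum.inl i), rfl⟩
  · exact Or.inr ⟨i, a, b' i, hz (Sum.inr i), rfl⟩

end Crest.Agent.R260.Gtr_516
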