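import Crest.Agent.R260.OutDefs_516
import Crest.Agent.R260.Hmg1_516
import Crest.Agent.R260.FinDefs_600

/-!
# R260 (S0398), HOMOG part 2 (helper516): from the chart-normalised AG-FINAL to `AgIn`

`AgNrm E w c c' R P Dn` : 600's `AgFinal` for the maps of a class `R` (with contact constants).
`agIn_of_nrm`           : `AgNrm` ⟹ bihomogeneous data `P~`, `D~`, and `AgIn` for every family of
                          tuples of the class `R`.
-/

set_option autoImplicit false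
set_option linter.unusedSectionVars false

open Set Filter Topology Metric
open scoped ContDiff
open Crest.Agent.R270.BM_360 Crest.Agent.R260.Out_516 Crest.Agent.R260.Fin_600

noncomputable section

namespace Crest.Agent.R260.Hmg_516

variable {I : Type} [Fintype I] {J : I → Type} [∀ i, Fintype (J i)]

/-- **AG-FINAL** of helper600 for the charts `c`, `c'` and the maps of the class `R`
(`R F q`: `F` belongs to the family and `θ (F') = q`). -/
structure AgNrm (E : Set (MvPolynomial (Σ i, J i) ℂ)) (w : I → ℤ) (c c' : ∀ i, J i)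
    (R : (∀ i, J i → Polynomial ℂ) → ℂ → Prop) (P : Polynomial (MvPolynomial (PIdx J) ℂ))
    (Dn : MvPolynomial (PIdx J) ℂ) : Prop where
  nz : ∃ v w : ∀ i, J i → ℂ, NPt E c v ∧ NPt E c' w ∧ MvPolynomial.aeval (pr v w) Dn ≠ 0
  simple : ∀ v w : ∀ i, J i → ℂ, NPt E c v → NPt E c' w →
    MvPolynomial.aeval (pr v w) Dn ≠ 0 →
    ∀ t, (PT P v w).IsRoot t → ¬ (Polynomial.derivative (PT P v w)).IsRoot t
  root : ∀ (F : ∀ i, J i → Polynomial ℂ) (q : ℂ), R F q →
    ∀ u₁ u₂ : ℂ, u₁ ≠ u₂ → (∀ i, (F i (c i)).eval u₁ ≠ 0) → (∀ i, (F i (c' i)).eval u₂ ≠ 0) →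
    MvPolynomial.aeval (pr (nrm c F u₁) (nrm c' F u₂)) Dn ≠ 0 →
    (PT P (nrm c F u₁) (nrm c' F u₂)).IsRoot ((u₁ - u₂) ^ 2 * q ^ 2 *
      (∏ i, (F i (c i)).eval u₁ ^ (-w i)) * ∏ i, (F i (c' i)).eval u₂ ^ (-w i))
  quad : ∀ (H : ∀ i, J i → Polynomial ℂ) (q : ℂ), R H q →
    ∀ v : ∀ i, J i → ℂ, NPt E c v → ∀ V : Set ℂ, IsOpen V → IsPreconnected V →
    (∀ u ∈ V, ∀ i, (H i (c' i)).eval u ≠ 0) →
    (∃ u ∈ V, MvPolynomial.aeval (pr v (nrm c' H u)) Dn ≠ 0) →
    ∀ f : ℂ → ℂ, AnalyticOnNhd ℂ f V → (∀ u ∈ V, (PT P v (nrm c' H u)).IsRoot (f u)) →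
    ∃ p : Polynomial ℂ, p.natDegree ≤ 2 ∧
      ∀ u ∈ V, f u * ∏ i, (H i (c' i)).eval u ^ w i = p.eval u
  quad' : ∀ (H : ∀ i, J i → Polynomial ℂ) (q : ℂ), R H q →
    ∀ v : ∀ i, J i → ℂ, NPt E c' v → ∀ V : Set ℂ, IsOpen V → IsPreconnected V →
    (∀ u ∈ V, ∀ i, (H i (c i)).eval u ≠ 0) →
    (∃ u ∈ V, MvPolynomial.aeval (pr (nrm c H u) v) Dn ≠ 0) →
    ∀ f : ℂ → ℂ, AnalyticOnNhd ℂ f V → (∀ u ∈ V, (PT P (nrm c H u) v).IsRoot (f u)) →
    ∃ p : Polynomial ℂ, p.natDegree ≤ 2 ∧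
      ∀ u ∈ V, f u * ∏ i, (H i (c i)).eval u ^ w i = p.eval u

/-- block of a variable of the pair -/
def bk : PIdx J → I ⊕ I := Sum.map Sigma.fst Sigma.fst

/-- distinguished variables -/
def ck (c c' : ∀ i, J i) : I ⊕ I → PIdx J := Sum.map (fun i => ⟨i, c i⟩) (fun i => ⟨i, c' i⟩)

theorem bk_ck (c c' : ∀ i, J i) (b : I ⊕ I) : bk (ck c c' b) = b := by
  rcases b with i | i <;> rfl

/-- normalised vector -/
def nv (c : ∀ i, J i) (a : Pt J) : ∀ i, J i → ℂ := fun i x => a ⟨i, x⟩ / a ⟨i, c i⟩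

theorem nv_pair (c c' : ∀ i, J i) (a b : Pt J) :
    (fun x : PIdx J => (Sum.elim a b : PIdx J → ℂ) x / (Sum.elim a b : PIdx J → ℂ) (ck c c' (bk x))) =
      pr (nv c a) (nv c' b) := by
  funext x
  rcases x with x | x <;> rfl

theorem nv_evt (c : ∀ i, J i) (F : ∀ i, J i → Polynomial ℂ) (u : ℂ) : nv c (evt F u) = nrm c F u :=
  rfl

/-- the cone is stable under scaling -/
theorem onX_scale {E : Set (MvPolynomial (Σ i, J i) ℂ)} (hE : MHom E) {v : ∀ i, J i → ℂ}
    (hv : OnX E v) (l : I → ℂ) : OnX E (fun i a => l i * v i a) := by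
  classical
  intro p hp
  obtain ⟨d, hd⟩ := hE p hp
  have := wh_scale (τ := Σ i, J i) (B := I) Sigma.fst hd l (fun x => v x.1 x.2)
  rw [this, hv p hp, mul_zero]

theorem npt_nv {E : Set (MvPolynomial (Σ i, J i) ℂ)} (hE : MHom E) {a : Pt J}
    (ha : OnX E (fun i x => a ⟨i, x⟩)) {c : ∀ i, J i} (hc : ∀ i, a ⟨i, c i⟩ ≠ 0) :
    NPt E c (nv c a) := by
  refine ⟨?_, fun i => div_self (hc i)⟩
  have := onX_scale hE ha (fun i => (a ⟨i, c i⟩)⁻¹)
  have e : (fun i x => (a ⟨i, c i⟩)⁻¹ * a ⟨i, x⟩) = nv c a := by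
    funext i x
    unfold nv
    rw [div_eq_inv_mul]
  rw [← e]
  exact this

theorem onX_evt {E : Set (MvPolynomial (Σ i, J i) ℂ)} {F : ∀ i, J i → Polynomial ℂ}
    (hF : OnX E F) (u : ℂ) : OnX E (fun i x => evt F u ⟨i, x⟩) := by
  intro p hp
  have h := hF p hp
  have h2 := congrArg (Polynomial.aeval (R := ℂ) u) h
  rw [map_zero] at h2
  have h3 := AlgHom.congr_fun (MvPolynomial.comp_aeval (R := ℂ)
    (f := fun x : Σ i, J i => F x.1 x.2) (Polynomial.aeval (R := ℂ) u)) p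
  rw [AlgHom.comp_apply, h2] at h3
  rw [h3]
  rfl

theorem exists_hmgD [DecidableEq (I ⊕ I)] (c c' : ∀ i, J i) (Dn : MvPolynomial (PIdx J) ℂ) :
    ∃ (D : MvPolynomial (PIdx J) ℂ) (dd : I ⊕ I → ℕ),
      MvPolynomial.IsWeightedHomogeneous
        (fun x : PIdx J => (Pi.single (Sum.map Sigma.fst Sigma.fst x) 1 : I ⊕ I → ℕ)) D dd ∧
      (∀ a b : Pt J, valD D a b ≠ 0 → (∀ i, a ⟨i, c i⟩ ≠ 0) ∧ (∀ i, b ⟨i, c' i⟩ ≠ 0) ∧
        MvPolynomial.aeval (pr (nv c a) (nv c' b)) Dn ≠ 0) ∧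
      (∀ a b : Pt J, (∀ i, a ⟨i, c i⟩ ≠ 0) → (∀ i, b ⟨i, c' i⟩ ≠ 0) →
        MvPolynomial.aeval (pr (nv c a) (nv c' b)) Dn ≠ 0 → valD D a b ≠ 0) := by
  obtain ⟨N0, hN0⟩ := hmg (B := I ⊕ I) bk (ck c c') (bk_ck c c') Dn
  obtain ⟨q, hq1, hq2⟩ := hN0 (fun _ => N0) (fun _ => le_rfl)
  have hval : ∀ a b : Pt J, (∀ i, a ⟨i, c i⟩ ≠ 0) → (∀ i, b ⟨i, c' i⟩ ≠ 0) →
      MvPolynomial.aeval (Sum.elim a b) q =
        (∏ k : I ⊕ I, (Sum.elim a b : PIdx J → ℂ) (ck c c' k) ^ N0) *
          MvPolynomial.aeval (pr (nv c a) (nv c' b)) Dn := by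
    intro a b ha hb
    have hz : ∀ k : I ⊕ I, (Sum.elim a b : PIdx J → ℂ) (ck c c' k) ≠ 0 := by
      rintro (i | i)
      · exact ha i
      · exact hb i
    rw [hq2 _ hz, nv_pair]
  refine ⟨q * ∏ k : I ⊕ I, MvPolynomial.X (ck c c' k),
    (fun _ => N0) + ∑ k : I ⊕ I, (Pi.single k 1 : I ⊕ I → ℕ), ?_, ?_, ?_⟩
  · refine MvPolynomial.IsWeightedHomogeneous.mul hq1 ?_
    refine MvPolynomial.IsWeightedHomogeneous.prod _ _ _ fun k _ => ?_
    have := MvPolynomial.isWeightedHomogeneous_X ℂ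
      (fun x : PIdx J => (Pi.single (bk x) 1 : I ⊕ I → ℕ)) (ck c c' k)
    rw [bk_ck] at this
    exact this
  · intro a b h
    unfold valD at h
    rw [map_mul, map_prod] at h
    have h1 := left_ne_zero_of_mul h
    have h2 := right_ne_zero_of_mul h
    have h3 : ∀ k : I ⊕ I, (Sum.elim a b : PIdx J → ℂ) (ck c c' k) ≠ 0 := by
      intro k hk
      apply h2
      apply Finset.prod_eq_zero (Finset.mem_univ k)
      rw [MvPolynomial.aeval_X]
      exact hk
    have ha : ∀ i, a ⟨i, c i⟩ ≠ 0 := fun i => h3 (Sum.inl i)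
    have hb : ∀ i, b ⟨i, c' i⟩ ≠ 0 := fun i => h3 (Sum.inr i)
    refine ⟨ha, hb, ?_⟩
    rw [hval a b ha hb] at h1
    exact right_ne_zero_of_mul h1
  · intro a b ha hb h
    unfold valD
    rw [map_mul, map_prod, hval a b ha hb]
    have h3 : ∀ k : I ⊕ I, (Sum.elim a b : PIdx J → ℂ) (ck c c' k) ≠ 0 := by
      rintro (i | i)
      · exact ha i
      · exact hb i
    refine mul_ne_zero (mul_ne_zero (Finset.prod_ne_zero_iff.2 fun k _ => pow_ne_zero _ (h3 k)) h) ?_
    refine Finset.prod_ne_zero_iff.2 fun k _ => ?_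
    rw [MvPolynomial.aeval_X]
    exact h3 k

/-- the factor between the exact and the normalised value -/
def rho (w : I → ℤ) (c c' : ∀ i, J i) (a b : Pt J) : ℂ :=
  (∏ i, a ⟨i, c i⟩ ^ (-w i)) * ∏ i, b ⟨i, c' i⟩ ^ (-w i)

theorem rho_ne {w : I → ℤ} {c c' : ∀ i, J i} {a b : Pt J} (ha : ∀ i, a ⟨i, c i⟩ ≠ 0)
    (hb : ∀ i, b ⟨i, c' i⟩ ≠ 0) : rho w c c' a b ≠ 0 :=
  mul_ne_zero (Finset.prod_ne_zero_iff.2 fun i _ => zpow_ne_zero _ (ha i))
    (Finset.prod_ne_zero_iff.2 fun i _ => zpow_ne_zero _ (hb i))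

theorem exists_hmgP (w : I → ℤ) (c c' : ∀ i, J i) (P : Polynomial (MvPolynomial (PIdx J) ℂ)) :
    ∃ Q : Polynomial (MvPolynomial (PIdx J) ℂ),
      (∀ (a b : Pt J) (l m : I → ℂ) (t : ℂ), (∀ i, l i ≠ 0) → (∀ i, m i ≠ 0) →
        (evP Q (a, b)).eval t = 0 →
          (evP Q (scl l a, scl m b)).eval ((∏ i, l i ^ w i) * (∏ i, m i ^ w i) * t) = 0) ∧
      ∀ a b : Pt J, (∀ i, a ⟨i, c i⟩ ≠ 0) → (∀ i, b ⟨i, c' i⟩ ≠ 0) → ∃ A : ℂ, A ≠ 0 ∧
        evP Q (a, b) = Polynomial.C A *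
          (PT P (nv c a) (nv c' b)).comp (Polynomial.C (rho w c c' a b) * Polynomial.X) := by
  classical
  obtain ⟨M, Q, hQ1, hQ2⟩ := hmgP (B := I ⊕ I) bk (ck c c') (bk_ck c c') (Sum.elim w w) P
  refine ⟨Q, ?_, ?_⟩
  · intro a b l m t hl hm ht
    have hlm : ∀ k : I ⊕ I, Sum.elim l m k ≠ 0 := by
      rintro (i | i)
      · exact hl i
      · exact hm i
    have h := hQ1 (Sum.elim l m) (Sum.elim a b) t hlm
    have e1 : (fun x : PIdx J => Sum.elim l m (bk x) * (Sum.elim a b : PIdx J → ℂ) x) =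
        Sum.elim (scl l a) (scl m b) := by
      funext x
      rcases x with x | x <;> rfl
    have e2 : ∏ k : I ⊕ I, Sum.elim l m k ^ (Sum.elim w w k) =
        (∏ i, l i ^ w i) * ∏ i, m i ^ w i := by
      rw [Fintype.prod_sum_type]
      rfl
    rw [e1, e2] at h
    unfold evP at ht ⊢
    rw [h, ht, mul_zero]
  · intro a b ha hb
    have hz : ∀ k : I ⊕ I, (Sum.elim a b : PIdx J → ℂ) (ck c c' k) ≠ 0 := by
      rintro (i | i)
      · exact ha i
      · exact hb i
    refine ⟨∏ k : I ⊕ I, (Sum.elim a b : PIdx J → ℂ) (ck c c' k) ^ M,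
      Finset.prod_ne_zero_iff.2 fun k _ => pow_ne_zero _ (hz k), ?_⟩
    have h := hQ2 (Sum.elim a b) hz
    rw [nv_pair] at h
    have e2 : ∏ k : I ⊕ I, (Sum.elim a b : PIdx J → ℂ) (ck c c' k) ^ (-(Sum.elim w w k : ℤ)) =
        rho w c c' a b := by
      rw [Fintype.prod_sum_type]
      rfl
    rw [e2] at h
    exact h

/-- the polynomial `v ↦ D (a, H v)` and a non-zero in a ball -/
theorem exists_ne_ball (D : MvPolynomial (PIdx J) ℂ) (f : PIdx J → Polynomial ℂ) {v0 : ℂ}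
    (h0 : MvPolynomial.aeval (fun x => (f x).eval v0) D ≠ 0) (v1 : ℂ) {r : ℝ} (hr : 0 < r) :
    ∃ v2 : ℂ, ∃ ε > 0, ball v2 ε ⊆ ball v1 r ∧
      ∀ v ∈ ball v2 ε, MvPolynomial.aeval (fun x => (f x).eval v) D ≠ 0 := by
  set p : Polynomial ℂ := MvPolynomial.aeval f D with hp
  have hpe : ∀ v : ℂ, p.eval v = MvPolynomial.aeval (fun x => (f x).eval v) D := by
    intro v
    have h3 := AlgHom.congr_fun (MvPolynomial.comp_aeval (R := ℂ) (f := f)
      (Polynomial.aeval (R := ℂ) v)) D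
    rw [AlgHom.comp_apply] at h3
    exact h3
  have hp0 : p ≠ 0 := by
    intro h
    apply h0
    rw [← hpe, h, Polynomial.eval_zero]
  have hinf : (ball v1 r).Infinite := by
    refine (infinite_seg r hr v1 1 one_ne_zero).mono ?_
    rintro _ ⟨t, ht, rfl⟩
    rw [mem_ball, dist_eq_norm]
    simpa using ht
  obtain ⟨v2, hv2, hne⟩ : ∃ v2 ∈ ball v1 r, p.eval v2 ≠ 0 := by
    by_contra hcon
    push Not at hcon
    exact hp0 (Polynomial.eq_zero_of_infinite_isRoot p (hinf.mono fun v hv => hcon v hv))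
  have hopen : IsOpen (ball v1 r ∩ {v | p.eval v ≠ 0}) :=
    isOpen_ball.inter (isOpen_ne_fun p.continuous continuous_const)
  obtain ⟨ε, hε, hball⟩ := Metric.isOpen_iff.1 hopen v2 ⟨hv2, hne⟩
  refine ⟨v2, ε, hε, fun v hv => (hball hv).1, fun v hv => ?_⟩
  rw [← hpe]
  exact (hball hv).2

theorem rho_diff (c : ∀ i, J i) (H : ∀ i, J i → Polynomial ℂ) {V : Set ℂ}
    (hV : ∀ u ∈ V, ∀ i, (H i (c i)).eval u ≠ 0) (m : I → ℤ) :
    DifferentiableOn ℂ (fun u => ∏ i, (H i (c i)).eval u ^ (m i)) V := by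
  refine DifferentiableOn.fun_finsetProd fun i _ => ?_
  intro u hu
  exact (DifferentiableAt.zpow (H i (c i)).differentiable.differentiableAt
    (Or.inl (hV u hu i))).differentiableWithinAt

/-- a holomorphic function on a ball which is a quadratic polynomial on a smaller ball -/
theorem quad_ident {v1 v2 : ℂ} {r ε : ℝ} (hε : 0 < ε) (hsub : ball v2 ε ⊆ ball v1 r) {f : ℂ → ℂ}
    (hf : DifferentiableOn ℂ f (ball v1 r)) {q : Polynomial ℂ}
    (h : ∀ v ∈ ball v2 ε, f v = q.eval v) : ∀ v ∈ ball v1 r, f v = q.eval v := by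
  have hfa : AnalyticOnNhd ℂ f (ball v1 r) := hf.analyticOnNhd isOpen_ball
  have hqa : AnalyticOnNhd ℂ (fun v => q.eval v) (ball v1 r) :=
    q.differentiable.differentiableOn.analyticOnNhd isOpen_ball
  exact hfa.eqOn_of_preconnected_of_eventuallyEq hqa (convex_ball v1 r).isPreconnected
    (hsub (mem_ball_self hε))
    (by filter_upwards [isOpen_ball.mem_nhds (mem_ball_self hε)] with v hv using h v hv)

/-- **HOMOG**: from the chart-normalised AG-FINAL to `AgIn`. -/
theorem agIn_of_nrm [DecidableEq (I ⊕ I)] {E : Set (MvPolynomial (Σ i, J i) ℂ)} {w : I → ℤ}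
    {c c' : ∀ i, J i} {R : (∀ i, J i → Polynomial ℂ) → ℂ → Prop}
    {P : Polynomial (MvPolynomial (PIdx J) ℂ)} {Dn : MvPolynomial (PIdx J) ℂ} (hE : MHom E)
    (h : AgNrm E w c c' R P Dn) :
    ∃ (P' : Polynomial (MvPolynomial (PIdx J) ℂ)) (D : MvPolynomial (PIdx J) ℂ) (dd : I ⊕ I → ℕ),
      MvPolynomial.IsWeightedHomogeneous
        (fun x : PIdx J => (Pi.single (Sum.map Sigma.fst Sigma.fst x) 1 : I ⊕ I → ℕ)) D dd ∧
      (∃ a b, OnZ E a ∧ OnZ E b ∧ valD D a b ≠ 0) ∧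
      ∀ {n : ℕ} (U : Set (EuclideanSpace ℝ (Fin n)))
        (F : EuclideanSpace ℝ (Fin n) → ∀ i, J i → Polynomial ℂ) (q : ℂ), q ≠ 0 →
        (∀ x ∈ U, R (F x) q) → (∀ x ∈ U, OnX E (F x)) → Dens U (fun x => evt (F x)) D →
          AgIn U w (fun x => evt (F x)) (q ^ 2) P' D := by
  obtain ⟨D, dd, hD1, hD2, hD3⟩ := exists_hmgD c c' Dn
  obtain ⟨Q, hQ1, hQ2⟩ := exists_hmgP w c c' P
  refine ⟨Q, D, dd, hD1, ?_, ?_⟩
  · obtain ⟨a, b, ha, hb, hab⟩ := h.nz
    have ea : nv c (fun x : Σ i, J i => a x.1 x.2) = a := by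
      funext i x
      unfold nv
      simp only
      rw [ha.2 i, div_one]
    have eb : nv c' (fun x : Σ i, J i => b x.1 x.2) = b := by
      funext i x
      unfold nv
      simp only
      rw [hb.2 i, div_one]
    refine ⟨fun x => a x.1 x.2, fun x => b x.1 x.2, ⟨ha.1, fun i => ⟨c i, ?_⟩⟩,
      ⟨hb.1, fun i => ⟨c' i, ?_⟩⟩, ?_⟩
    · change a i (c i) ≠ 0
      rw [ha.2 i]
      exact one_ne_zero
    · change b i (c' i) ≠ 0
      rw [hb.2 i]
      exact one_ne_zero
    · refine hD3 _ _ (fun i => ?_) (fun i => ?_) ?_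
      · change a i (c i) ≠ 0
        rw [ha.2 i]
        exact one_ne_zero
      · change b i (c' i) ≠ 0
        rw [hb.2 i]
        exact one_ne_zero
      · rw [ea, eb]
        exact hab
  · intro n U F q hq hR hF hDens
    have hZ : ∀ x ∈ U, ∀ u, OnX E (fun i y => evt (F x) u ⟨i, y⟩) := fun x hx u =>
      onX_evt (hF x hx) u
    refine ⟨pow_ne_zero 2 hq, ?_, ?_, ?_, ?_, ?_, hDens⟩
    · intro x hx y hy u v l m hl hm t ht
      exact hQ1 _ _ l m t hl hm ht
    · -- simple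
      intro x hx y hy u v hne t ht
      obtain ⟨ha, hb, hn⟩ := hD2 _ _ hne
      obtain ⟨A, hA, hQe⟩ := hQ2 _ _ ha hb
      have hρ := rho_ne (w := w) ha hb
      have hs := h.simple _ _ (npt_nv hE (hZ x hx u) ha) (npt_nv hE (hZ y hy v) hb) hn
        (rho w c c' (evt (F x) u) (evt (F y) v) * t)
      rw [hQe] at ht ⊢
      simp only [Polynomial.eval_mul, Polynomial.eval_C, Polynomial.eval_comp,
        Polynomial.eval_X] at ht
      have ht' := (mul_eq_zero.1 ht).resolve_left hA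
      have hs' := hs ht'
      rw [Polynomial.derivative_mul, Polynomial.derivative_C, zero_mul, zero_add,
        Polynomial.derivative_comp]
      simp only [Polynomial.eval_mul, Polynomial.eval_C, Polynomial.eval_comp,
        Polynomial.eval_X, Polynomial.derivative_mul, Polynomial.derivative_C,
        Polynomial.derivative_X, zero_mul, zero_add, mul_one]
      exact mul_ne_zero hA (mul_ne_zero hρ hs')
    · -- root
      intro x hx u v huv hne
      obtain ⟨ha, hb, hn⟩ := hD2 _ _ hne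
      obtain ⟨A, hA, hQe⟩ := hQ2 _ _ ha hb
      have hr := h.root (F x) q (hR x hx) u v huv ha hb hn
      rw [hQe]
      simp only [Polynomial.eval_mul, Polynomial.eval_C, Polynomial.eval_comp,
        Polynomial.eval_X]
      have e : rho w c c' (evt (F x) u) (evt (F x) v) * (q ^ 2 * (u - v) ^ 2) =
          (u - v) ^ 2 * q ^ 2 * (∏ i, (F x i (c i)).eval u ^ (-w i)) *
            ∏ i, (F x i (c' i)).eval v ^ (-w i) := by
        unfold rho evt
        ring
      rw [e]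
      have hr' := hr
      rw [Polynomial.IsRoot.def] at hr'
      change A * (PT P (nrm c (F x) u) (nrm c' (F x) v)).eval _ = 0
      rw [hr', mul_zero]
    · -- quad2
      rintro x hx y hy u ⟨v0, hv0⟩ v1 r hr f hf hroot
      have ha : ∀ i, evt (F x) u ⟨i, c i⟩ ≠ 0 := (hD2 _ _ hv0).1
      obtain ⟨v2, ε, hε, hsub, hnz⟩ := exists_ne_ball D
        (Sum.elim (fun x' => Polynomial.C (evt (F x) u x')) (fun y' => F y y'.1 y'.2)) (v0 := v0) (by
          have : (fun z => (Sum.elim (fun x' => Polynomial.C (evt (F x) u x'))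
              (fun y' => F y y'.1 y'.2) z).eval v0) = Sum.elim (evt (F x) u) (evt (F y) v0) := by
            funext z
            rcases z with z | z
            · simp
            · rfl
          rw [this]
          exact hv0) v1 hr
      have hnz' : ∀ v ∈ ball v2 ε, valD D (evt (F x) u) (evt (F y) v) ≠ 0 := by
        intro v hv
        have h1 := hnz v hv
        have : (fun z => (Sum.elim (fun x' => Polynomial.C (evt (F x) u x'))
              (fun y' => F y y'.1 y'.2) z).eval v) = Sum.elim (evt (F x) u) (evt (F y) v) := by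
          funext z
          rcases z with z | z
          · simp
          · rfl
        rw [this] at h1
        exact h1
      have hb : ∀ v ∈ ball v2 ε, ∀ i, (F y i (c' i)).eval v ≠ 0 := fun v hv =>
        (hD2 _ _ (hnz' v hv)).2.1
      set Ra : ℂ := ∏ i, evt (F x) u ⟨i, c i⟩ ^ (-w i) with hRa
      have hRa0 : Ra ≠ 0 := Finset.prod_ne_zero_iff.2 fun i _ => zpow_ne_zero _ (ha i)
      obtain ⟨p, hp, hpe⟩ := h.quad (F y) q (hR y hy) (nv c (evt (F x) u))
        (npt_nv hE (hZ x hx u) ha) (ball v2 ε) isOpen_ball (convex_ball v2 ε).isPreconnected hb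
        ⟨v2, mem_ball_self hε, (hD2 _ _ (hnz' v2 (mem_ball_self hε))).2.2⟩
        (fun v => Ra * (∏ i, (F y i (c' i)).eval v ^ (-w i)) * f v)
        (DifferentiableOn.analyticOnNhd
          (((rho_diff c' (F y) hb fun i => -w i).const_mul Ra).mul (hf.mono hsub)) isOpen_ball)
        (by
          intro v hv
          obtain ⟨A, hA, hQe⟩ := hQ2 (evt (F x) u) (evt (F y) v) ha (hb v hv)
          have h1 := hroot v (hsub hv)
          change (evP Q (evt (F x) u, evt (F y) v)).eval (f v) = 0 at h1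
          rw [hQe] at h1
          simp only [Polynomial.eval_mul, Polynomial.eval_C, Polynomial.eval_comp,
            Polynomial.eval_X] at h1
          have h3 := (mul_eq_zero.1 h1).resolve_left hA
          rw [Polynomial.IsRoot.def]
          exact h3)
      refine ⟨Polynomial.C Ra⁻¹ * p, (Polynomial.natDegree_C_mul_le _ _).trans hp,
        quad_ident hε hsub hf fun v hv => ?_⟩
      have h1 := hpe v hv
      rw [Polynomial.eval_mul, Polynomial.eval_C, ← h1]
      have h2 : (∏ i, (F y i (c' i)).eval v ^ (-w i)) * (∏ i, (F y i (c' i)).eval v ^ (w i)) = 1 := by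
        rw [← Finset.prod_mul_distrib]
        refine Finset.prod_eq_one fun i _ => ?_
        rw [← zpow_add₀ (hb v hv i), neg_add_cancel, zpow_zero]
      have h3 : Ra⁻¹ * (Ra * (∏ i, (F y i (c' i)).eval v ^ (-w i)) * f v *
          ∏ i, (F y i (c' i)).eval v ^ (w i)) = (Ra⁻¹ * Ra) * f v *
          ((∏ i, (F y i (c' i)).eval v ^ (-w i)) * (∏ i, (F y i (c' i)).eval v ^ (w i))) := by
        ring
      rw [h3, h2, inv_mul_cancel₀ hRa0]
      ring
    · -- quad1
      rintro x hx y hy v ⟨u0, hu0⟩ u1 r hr f hf hroot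
      have hb : ∀ i, evt (F y) v ⟨i, c' i⟩ ≠ 0 := (hD2 _ _ hu0).2.1
      obtain ⟨u2, ε, hε, hsub, hnz⟩ := exists_ne_ball D
        (Sum.elim (fun x' => F x x'.1 x'.2) (fun y' => Polynomial.C (evt (F y) v y'))) (v0 := u0) (by
          have : (fun z => (Sum.elim (fun x' => F x x'.1 x'.2)
              (fun y' => Polynomial.C (evt (F y) v y')) z).eval u0) =
              Sum.elim (evt (F x) u0) (evt (F y) v) := by
            funext z
            rcases z with z | z
            · rfl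
            · simp
          rw [this]
          exact hu0) u1 hr
      have hnz' : ∀ u ∈ ball u2 ε, valD D (evt (F x) u) (evt (F y) v) ≠ 0 := by
        intro u hu
        have h1 := hnz u hu
        have : (fun z => (Sum.elim (fun x' => F x x'.1 x'.2)
              (fun y' => Polynomial.C (evt (F y) v y')) z).eval u) =
              Sum.elim (evt (F x) u) (evt (F y) v) := by
          funext z
          rcases z with z | z
          · rfl
          · simp
        rw [this] at h1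
        exact h1
      have ha : ∀ u ∈ ball u2 ε, ∀ i, (F x i (c i)).eval u ≠ 0 := fun u hu =>
        (hD2 _ _ (hnz' u hu)).1
      set Rb : ℂ := ∏ i, evt (F y) v ⟨i, c' i⟩ ^ (-w i) with hRb
      have hRb0 : Rb ≠ 0 := Finset.prod_ne_zero_iff.2 fun i _ => zpow_ne_zero _ (hb i)
      obtain ⟨p, hp, hpe⟩ := h.quad' (F x) q (hR x hx) (nv c' (evt (F y) v))
        (npt_nv hE (hZ y hy v) hb) (ball u2 ε) isOpen_ball (convex_ball u2 ε).isPreconnected ha
        ⟨u2, mem_ball_self hε, (hD2 _ _ (hnz' u2 (mem_ball_self hε))).2.2⟩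
        (fun u => Rb * (∏ i, (F x i (c i)).eval u ^ (-w i)) * f u)
        (DifferentiableOn.analyticOnNhd
          (((rho_diff c (F x) ha fun i => -w i).const_mul Rb).mul (hf.mono hsub)) isOpen_ball)
        (by
          intro u hu
          obtain ⟨A, hA, hQe⟩ := hQ2 (evt (F x) u) (evt (F y) v) (ha u hu) hb
          have h1 := hroot u (hsub hu)
          change (evP Q (evt (F x) u, evt (F y) v)).eval (f u) = 0 at h1
          rw [hQe] at h1
          simp only [Polynomial.eval_mul, Polynomial.eval_C, Polynomial.eval_comp,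
            Polynomial.eval_X] at h1
          have h3 := (mul_eq_zero.1 h1).resolve_left hA
          rw [Polynomial.IsRoot.def]
          have e : Rb * (∏ i, (F x i (c i)).eval u ^ (-w i)) * f u =
              rho w c c' (fun x' => (F x x'.1 x'.2).eval u) (evt (F y) v) * f u := by
            unfold rho
            rw [hRb]
            ring
          rw [e]
          exact h3)
      refine ⟨Polynomial.C Rb⁻¹ * p, (Polynomial.natDegree_C_mul_le _ _).trans hp,
        quad_ident hε hsub hf fun u hu => ?_⟩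
      have h1 := hpe u hu
      rw [Polynomial.eval_mul, Polynomial.eval_C, ← h1]
      have h2 : (∏ i, (F x i (c i)).eval u ^ (-w i)) * (∏ i, (F x i (c i)).eval u ^ (w i)) = 1 := by
        rw [← Finset.prod_mul_distrib]
        refine Finset.prod_eq_one fun i _ => ?_
        rw [← zpow_add₀ (ha u hu i), neg_add_cancel, zpow_zero]
      have h3 : Rb⁻¹ * (Rb * (∏ i, (F x i (c i)).eval u ^ (-w i)) * f u *
          ∏ i, (F x i (c i)).eval u ^ (w i)) = (Rb⁻¹ * Rb) * f u *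
          ((∏ i, (F x i (c i)).eval u ^ (-w i)) * (∏ i, (F x i (c i)).eval u ^ (w i))) := by
        ring
      rw [h3, h2, inv_mul_cancel₀ hRb0]
      ring

end Crest.Agent.R260.Hmg_516
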