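import Crest.Agent.R260.QuadDefs_517
import Crest.Agent.R260.Der_169
import Crest.Agent.R270.Tail1_451
import Crest.Agent.R270.Cramer_491

/-!
# Row 260, (IRR) (helper564)

Two generic points of the cone over an algebraically closed extension `F₀` of `k` have the same
ideal over `F₀`: the ideal of `F₀[X]` generated by the (prime) ideal of the cone is prime, since the
tensor product of two domains over an algebraically closed field is a domain; a relation of a
generic point outside this ideal would make the generic point of the cone more generic than the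
dimension of its tangent space allows.
-/

set_option autoImplicit false

namespace Crest.Agent.R260.Irr_564

open scoped TensorProduct
open Polynomial Crest.Agent.R270.BM_360 Crest.Agent.R260.Lin_678 Crest.Agent.R260.QuadDefs_517
open Crest.Agent.R270.Tail_451

universe u

variable {I : Type} {J : I → Type} [Fintype I] [∀ i, Fintype (J i)]

/-- a point of the cone over a field extension has at most `dim TanSp` independent entries. -/
theorem trGe_le {k : Type u} [Field k] (E : Set (MvPolynomial (Σ i, J i) k)) {F₀ Om : Type u}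
    [Field F₀] [CharZero F₀] [Field Om] [Algebra k F₀] [Algebra k Om] [Algebra F₀ Om]
    [IsScalarTower k F₀ Om] (v : ∀ i, J i → Om) (hv : OnX E v) {m : ℕ}
    (h : TrGe F₀ (ent v) m) : m ≤ Module.finrank Om (TanSp E v) := by
  by_contra hlt
  push Not at hlt
  let φ : Derivation F₀ Om Om →ₗ[Om] (∀ i, J i → Om) :=
    { toFun := fun δ i j => δ (v i j)
      map_add' := fun δ δ' => rfl
      map_smul' := fun c δ => rfl }
  have h1 := (Der_169.exists_der (k := F₀) (κ := Om) φ (ent v) (fun δ hδ s hs => by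
    obtain ⟨i, j, rfl⟩ := hs
    exact congrFun (congrFun hδ i) j) (TanSp E v) (fun δ => by
      have h2 := Crest.Agent.R270.Cramer_491.JacT.of_der (δ.restrictScalars k) hv
      exact h2) hlt.le h).1
  omega

/-- the point given by the coordinates of the coordinate ring. -/
theorem irr_aux {k : Type u} [Field k] [IsAlgClosed k] [CharZero k] (D : CData k I J)
    (hE : (Ideal.span D.E).IsPrime) (F₀ A : Type u) [Field F₀] [Field A]
    [Algebra k F₀] [Algebra k A] [Algebra F₀ A] [IsScalarTower k F₀ A] (y : ∀ i, J i → A)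
    (hy : OnX D.E y) (hy0 : ∀ i, y i ≠ 0) (hyt : TrGe F₀ (ent y) (nn D))
    (p : MvPolynomial (Σ i, J i) F₀) (hp : evv y p = 0) :
    MvPolynomial.aeval (fun x : Σ i, J i => (1 : F₀) ⊗ₜ[k]
      (Ideal.Quotient.mk (Ideal.span D.E) (MvPolynomial.X x))) p = 0 := by
  have hP : IsDomain (MvPolynomial (Σ i, J i) k ⧸ Ideal.span D.E) :=
    Ideal.Quotient.isDomain _
  have hR : IsDomain (F₀ ⊗[k] (MvPolynomial (Σ i, J i) k ⧸ Ideal.span D.E)) :=
    isDomain_tensor (k₀ := k) F₀ (MvPolynomial (Σ i, J i) k ⧸ Ideal.span D.E)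
  have hch : CharZero F₀ := charZero_of_injective_algebraMap (algebraMap k F₀).injective
  let P := MvPolynomial (Σ i, J i) k ⧸ Ideal.span D.E
  let R := F₀ ⊗[k] P
  let v₀ : ∀ i, J i → R := fun i j => (1 : F₀) ⊗ₜ[k]
      (Ideal.Quotient.mk (Ideal.span D.E) (MvPolynomial.X ⟨i, j⟩))
  let π : P →ₐ[k] A := Ideal.Quotient.liftₐ (Ideal.span D.E)
    (MvPolynomial.aeval (fun x : Σ i, J i => y x.1 x.2)) (by
      intro a ha
      have h1 : Ideal.span D.E ≤ RingHom.ker
          (MvPolynomial.aeval (fun x : Σ i, J i => y x.1 x.2) : MvPolynomial (Σ i, J i) k →ₐ[k] A) := by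
        rw [Ideal.span_le]
        intro q hq
        exact hy q hq
      exact h1 ha)
  let φ : R →ₐ[F₀] A := Algebra.TensorProduct.lift (Algebra.ofId F₀ A) π
    (fun _ _ => Commute.all _ _)
  have hφ : ∀ i j, φ (v₀ i j) = y i j := by
    intro i j
    change φ ((1 : F₀) ⊗ₜ[k] (Ideal.Quotient.mk (Ideal.span D.E) (MvPolynomial.X ⟨i, j⟩))) = _
    rw [Algebra.TensorProduct.lift_tmul, map_one, one_mul]
    change (MvPolynomial.aeval (fun x : Σ i, J i => y x.1 x.2)) (MvPolynomial.X ⟨i, j⟩) = _
    rw [MvPolynomial.aeval_X]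
  have hev : ∀ (B : Type u) [CommRing B] [Algebra F₀ B] (ψ : R →ₐ[F₀] B),
      ψ (MvPolynomial.aeval (fun x : Σ i, J i => v₀ x.1 x.2) p) =
        evv (fun i j => ψ (v₀ i j)) p := by
    intro B _ _ ψ
    have h := MvPolynomial.comp_aeval_apply (S₁ := F₀ ⊗[k] (MvPolynomial (Σ i, J i) k ⧸ Ideal.span D.E))
      (fun x : Σ i, J i => v₀ x.1 x.2) ψ p
    exact h
  change MvPolynomial.aeval (fun x : Σ i, J i => v₀ x.1 x.2) p = 0
  by_contra ha
  have ha0 : φ (MvPolynomial.aeval (fun x : Σ i, J i => v₀ x.1 x.2) p) = 0 := by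
    rw [hev]
    rw [show (fun i j => φ (v₀ i j)) = y from funext fun i => funext fun j => hφ i j]
    exact hp
  obtain ⟨Om, _, _, _, _, _, ψ, hψ⟩ := exists_embed_domain k F₀ R
  let v : ∀ i, J i → Om := fun i j => ψ (v₀ i j)
  have hv : OnX D.E v := by
    intro q hq
    let τ : P →ₐ[k] Om := (ψ.restrictScalars k).comp Algebra.TensorProduct.includeRight
    have h1 : τ (Ideal.Quotient.mk (Ideal.span D.E) q) =
        MvPolynomial.aeval (fun x : Σ i, J i => v x.1 x.2) q := by
      have h2 : (τ.comp (Ideal.Quotient.mkₐ k (Ideal.span D.E))) =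
          MvPolynomial.aeval (fun x : Σ i, J i => v x.1 x.2) := by
        apply MvPolynomial.algHom_ext
        intro x
        rw [MvPolynomial.aeval_X]
        rfl
      exact congrArg (fun f : MvPolynomial (Σ i, J i) k →ₐ[k] Om => f q) h2
    rw [← h1, Ideal.Quotient.eq_zero_iff_mem.mpr (Ideal.subset_span hq), map_zero]
  have hv0 : ∀ i, v i ≠ 0 := by
    intro i
    obtain ⟨j, hj⟩ := Function.ne_iff.mp (hy0 i)
    refine Function.ne_iff.mpr ⟨j, ?_⟩
    change ψ (v₀ i j) ≠ 0
    intro h
    have h1 : v₀ i j = 0 := hψ (by rw [h, map_zero])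
    apply hj
    rw [← hφ, h1, map_zero]
    rfl
  obtain ⟨w, hw, hwi⟩ := exists_indep hyt
  choose i s hw using hw
  let x : Fin (nn D) → R := fun j => v₀ (i j) (s j)
  have hφx : φ ∘ x = w := by
    funext j
    change φ (v₀ (i j) (s j)) = w j
    rw [hφ, hw j]
  have h1 := indep_of_spec φ (x := x) (by rw [hφx]; exact hwi) ha ha0
  have h2 := h1.map' (f := ψ) hψ
  have h3 : TrGe F₀ (ent v) (nn D + 1) := by
    refine trGe_of_option h2 fun o => ?_
    cases o with
    | none =>
      change ψ (MvPolynomial.aeval (fun x : Σ i, J i => v₀ x.1 x.2) p) ∈ _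
      rw [hev]
      have h4 : ∀ q : MvPolynomial (Σ i, J i) F₀,
          evv v q ∈ IntermediateField.adjoin F₀ (ent v) := by
        intro q
        induction q using MvPolynomial.induction_on with
        | C a =>
          rw [evv, MvPolynomial.aeval_C]
          exact IntermediateField.algebraMap_mem _ _
        | add q r hq hr =>
          rw [evv, map_add]
          exact add_mem hq hr
        | mul_X q n hq =>
          rw [evv, map_mul, MvPolynomial.aeval_X]
          exact mul_mem hq (IntermediateField.subset_adjoin _ _ ⟨n.1, n.2, rfl⟩)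
      exact h4 p
    | some j => exact IntermediateField.subset_adjoin _ _ ⟨i j, s j, rfl⟩
  have h4 := trGe_le D.E v hv h3
  have h5 := D.tan_dim Om v hv hv0
  rw [h5] at h4
  unfold nn at h4
  omega

/-- **(IRR)** -/
theorem irrP {k : Type u} [Field k] [IsAlgClosed k] [CharZero k] (D : CData k I J)
    (hE : (Ideal.span D.E).IsPrime) : IrrP D := by
  intro F₀ A B _ _ _ _ _ _ _ _ _ _ _ y z hy hz hy0 _ hyt _ p hp
  have h1 := irr_aux D hE F₀ A y hy hy0 hyt p hp
  let P := MvPolynomial (Σ i, J i) k ⧸ Ideal.span D.E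
  let R := F₀ ⊗[k] P
  let π : P →ₐ[k] B := Ideal.Quotient.liftₐ (Ideal.span D.E)
    (MvPolynomial.aeval (fun x : Σ i, J i => z x.1 x.2)) (by
      intro a ha
      have h1 : Ideal.span D.E ≤ RingHom.ker
          (MvPolynomial.aeval (fun x : Σ i, J i => z x.1 x.2) : MvPolynomial (Σ i, J i) k →ₐ[k] B) := by
        rw [Ideal.span_le]
        intro q hq
        exact hz q hq
      exact h1 ha)
  let φ : R →ₐ[F₀] B := Algebra.TensorProduct.lift (Algebra.ofId F₀ B) π
    (fun _ _ => Commute.all _ _)
  have h2 := congrArg φ h1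
  rw [map_zero] at h2
  have h3 := MvPolynomial.comp_aeval_apply (fun x : Σ i, J i => (1 : F₀) ⊗ₜ[k]
      (Ideal.Quotient.mk (Ideal.span D.E) (MvPolynomial.X x))) φ p
  have h4 : (fun x : Σ i, J i => φ ((1 : F₀) ⊗ₜ[k]
      (Ideal.Quotient.mk (Ideal.span D.E) (MvPolynomial.X x)))) = fun x => z x.1 x.2 := by
    funext x
    rw [Algebra.TensorProduct.lift_tmul, map_one, one_mul]
    change (MvPolynomial.aeval (fun x : Σ i, J i => z x.1 x.2)) (MvPolynomial.X x) = _
    rw [MvPolynomial.aeval_X]
  rw [h4] at h3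
  exact h3.symm.trans h2

end Crest.Agent.R260.Irr_564
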