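import Mathlib
import Crest.Agent.R270.Fr4_928
import Crest.Agent.R260.Der3_169

/-!
# Row 260 (helper571): points of codimension at most one with the right tangent dimension are
regular (backup of LocP)
-/

set_option autoImplicit false

noncomputable section

namespace Crest.Agent.R260.Lc_571

open IsLocalRing Crest.Agent.R270.BM_360 Crest.Agent.R260.Der_169

universe u v w

/-! ### the derivation onto the cotangent space -/

section CT

variable {F : Type u} {R : Type v} [Field F] [CommRing R] [IsLocalRing R] [Algebra F R]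

theorem exists_E [Algebra.FormallySmooth F (ResidueField R)] :
    ∃ E : R →+ CotangentSpace R, (∀ a b : R, E (a * b) = a • E b + b • E a) ∧
      (∀ c : F, E (algebraMap F R c) = 0) ∧
      ∀ x : maximalIdeal R, E (x : R) = (maximalIdeal R).toCotangent x := by
  set m := maximalIdeal R with hm
  have hle : m ^ 2 ≤ m := Ideal.pow_le_self two_ne_zero
  let g0 : (R ⧸ m ^ 2) →ₐ[F] ResidueField R := Ideal.Quotient.liftₐ (m ^ 2)
    (IsScalarTower.toAlgHom F R (ResidueField R)) (fun a ha => by
      have h1 : a ∈ m := hle ha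
      change residue R a = 0
      exact (residue_eq_zero_iff a).2 h1)
  have hg0 : ∀ r : R, g0 (Ideal.Quotient.mk (m ^ 2) r) = residue R r := fun r => rfl
  have hsurj : Function.Surjective g0 := fun y => by
    obtain ⟨r, rfl⟩ := residue_surjective (R := R) y
    exact ⟨Ideal.Quotient.mk (m ^ 2) r, rfl⟩
  have hker : ∀ z : R ⧸ m ^ 2, g0 z = 0 → z ∈ m.cotangentIdeal := by
    intro z hz
    obtain ⟨r, rfl⟩ := Ideal.Quotient.mk_surjective z
    rw [hg0, residue_eq_zero_iff] at hz
    exact Submodule.mem_map_of_mem (f := (Ideal.Quotient.mk (m ^ 2)).toSemilinearMap) hz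
  have hker2 : ∀ z z' : R ⧸ m ^ 2, g0 z = 0 → g0 z' = 0 → z * z' = 0 := by
    intro z z' hz hz'
    obtain ⟨r, rfl⟩ := Ideal.Quotient.mk_surjective z
    obtain ⟨r', rfl⟩ := Ideal.Quotient.mk_surjective z'
    rw [hg0, residue_eq_zero_iff] at hz hz'
    rw [← map_mul, Ideal.Quotient.eq_zero_iff_mem, pow_two]
    exact Ideal.mul_mem_mul hz hz'
  have hnil : IsNilpotent (RingHom.ker (g0 : (R ⧸ m ^ 2) →+* ResidueField R)) := by
    refine ⟨2, ?_⟩
    have h1 : RingHom.ker (g0 : (R ⧸ m ^ 2) →+* ResidueField R) *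
        RingHom.ker (g0 : (R ⧸ m ^ 2) →+* ResidueField R) ≤ ⊥ := by
      rw [Ideal.mul_le]
      intro a ha b hb
      rw [Ideal.mem_bot]
      exact hker2 a b ha hb
    have h2 := sq (RingHom.ker (g0 : (R ⧸ m ^ 2) →+* ResidueField R))
    exact h2.trans (le_bot_iff.1 h1)
  let s : ResidueField R →ₐ[F] R ⧸ m ^ 2 :=
    Algebra.FormallySmooth.liftOfSurjective (AlgHom.id F (ResidueField R)) g0 hsurj hnil
  have hs : ∀ x, g0 (s x) = x := fun x =>
    Algebra.FormallySmooth.liftOfSurjective_apply (AlgHom.id F (ResidueField R)) g0 hsurj hnil x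
  let e : R → R ⧸ m ^ 2 := fun r => Ideal.Quotient.mk _ r - s (residue R r)
  have he : ∀ r, g0 (e r) = 0 := fun r => by
    change g0 (_ - _) = 0
    rw [map_sub, hs, hg0, sub_self]
  let E0 : R → m.Cotangent := fun r => m.cotangentEquivIdeal.symm ⟨e r, hker _ (he r)⟩
  have hE0 : ∀ r, ((m.cotangentEquivIdeal (E0 r) : m.cotangentIdeal) : R ⧸ m ^ 2) = e r := by
    intro r
    change ((m.cotangentEquivIdeal (m.cotangentEquivIdeal.symm _) : m.cotangentIdeal) :
      R ⧸ m ^ 2) = e r
    rw [LinearEquiv.apply_symm_apply]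
  have hinj : ∀ a b : m.Cotangent, ((m.cotangentEquivIdeal a : m.cotangentIdeal) : R ⧸ m ^ 2) =
      ((m.cotangentEquivIdeal b : m.cotangentIdeal) : R ⧸ m ^ 2) → a = b := fun a b h =>
    m.cotangentEquivIdeal.injective (Subtype.ext h)
  refine ⟨{ toFun := E0, map_zero' := ?_, map_add' := ?_ }, ?_, ?_, ?_⟩
  · apply hinj
    rw [hE0, map_zero]
    change Ideal.Quotient.mk _ (0 : R) - s (residue R 0) = 0
    simp
  · intro a b
    apply hinj
    rw [hE0, map_add]
    change _ = ((m.cotangentEquivIdeal (E0 a) : m.cotangentIdeal) : R ⧸ m ^ 2) +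
      ((m.cotangentEquivIdeal (E0 b) : m.cotangentIdeal) : R ⧸ m ^ 2)
    rw [hE0, hE0]
    change Ideal.Quotient.mk _ (a + b) - s (residue R (a + b)) = (Ideal.Quotient.mk _ a -
      s (residue R a)) + (Ideal.Quotient.mk _ b - s (residue R b))
    rw [map_add, map_add, map_add]
    ring
  · intro a b
    change E0 (a * b) = a • E0 b + b • E0 a
    apply hinj
    rw [hE0, map_add, LinearEquiv.map_smul, LinearEquiv.map_smul]
    change _ = a • ((m.cotangentEquivIdeal (E0 b) : m.cotangentIdeal) : R ⧸ m ^ 2) +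
      b • ((m.cotangentEquivIdeal (E0 a) : m.cotangentIdeal) : R ⧸ m ^ 2)
    rw [hE0, hE0]
    have h1 := hker2 (e a) (e b) (he a) (he b)
    have h2 : ∀ (r : R) (z : R ⧸ m ^ 2), r • z = Ideal.Quotient.mk _ r * z := fun r z => by
      rw [Algebra.smul_def]; rfl
    rw [h2, h2]
    change Ideal.Quotient.mk _ (a * b) - s (residue R (a * b)) = _
    rw [map_mul, map_mul, map_mul]
    change Ideal.Quotient.mk _ a * Ideal.Quotient.mk _ b - s (residue R a) * s (residue R b) =
      Ideal.Quotient.mk _ a * (Ideal.Quotient.mk _ b - s (residue R b)) +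
      Ideal.Quotient.mk _ b * (Ideal.Quotient.mk _ a - s (residue R a))
    have h3 : (Ideal.Quotient.mk _ a - s (residue R a)) *
      (Ideal.Quotient.mk _ b - s (residue R b)) = 0 := h1
    linear_combination (-1 : R ⧸ m ^ 2) * h3
  · intro c
    change E0 (algebraMap F R c) = 0
    apply hinj
    rw [hE0, map_zero]
    change Ideal.Quotient.mk _ (algebraMap F R c) - s (residue R (algebraMap F R c)) = 0
    have h1 : residue R (algebraMap F R c) = algebraMap F (ResidueField R) c := rfl
    rw [h1, s.commutes]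
    exact sub_self _
  · intro x
    change E0 (x : R) = m.toCotangent x
    apply hinj
    rw [hE0]
    change Ideal.Quotient.mk _ (x : R) - s (residue R (x : R)) = _
    have h1 : residue R (x : R) = 0 := (residue_eq_zero_iff _).2 x.2
    rw [h1, map_zero, sub_zero]
    rfl

end CT

/-! ### chain rule -/

theorem chain {F : Type u} [Field F] {R : Type v} [CommRing R] [Algebra F R] {κ : Type w} [Field κ]
    [Algebra F κ] {σ : Type} [Fintype σ] (ρ : R →ₐ[F] κ) (δ : R →+ κ)
    (hmul : ∀ a b, δ (a * b) = ρ a * δ b + ρ b * δ a) (hF : ∀ c : F, δ (algebraMap F R c) = 0)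
    (x : σ → R) (p : MvPolynomial σ F) :
    δ (MvPolynomial.aeval x p) =
      ∑ i, MvPolynomial.aeval (fun i => ρ (x i)) (MvPolynomial.pderiv i p) * δ (x i) := by
  classical
  induction p using MvPolynomial.induction_on with
  | C c =>
    rw [← MvPolynomial.algebraMap_eq, AlgHom.commutes, hF]
    symm
    refine Finset.sum_eq_zero fun i _ => ?_
    rw [MvPolynomial.algebraMap_eq, MvPolynomial.pderiv_C, map_zero, zero_mul]
  | add p r hp hr =>
    rw [map_add, map_add, hp, hr, ← Finset.sum_add_distrib]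
    refine Finset.sum_congr rfl fun i _ => ?_
    rw [map_add, map_add, add_mul]
  | mul_X p n hp =>
    rw [map_mul, MvPolynomial.aeval_X, hmul, hp]
    have h1 : ρ (MvPolynomial.aeval x p) = MvPolynomial.aeval (fun i => ρ (x i)) p := by
      rw [MvPolynomial.comp_aeval_apply]
    have h2 : ∀ i, MvPolynomial.aeval (fun i => ρ (x i)) (MvPolynomial.pderiv i
        (p * MvPolynomial.X n)) * δ (x i) = ρ (x n) *
        (MvPolynomial.aeval (fun i => ρ (x i)) (MvPolynomial.pderiv i p) * δ (x i)) +
        (if n = i then MvPolynomial.aeval (fun i => ρ (x i)) p * δ (x i) else 0) := by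
      intro i
      rw [Derivation.leibniz, smul_eq_mul, smul_eq_mul, map_add, map_mul, map_mul,
        MvPolynomial.aeval_X, MvPolynomial.pderiv_X]
      by_cases hni : n = i
      · subst hni
        simp only [Pi.single_eq_same, map_one, if_true]
        ring
      · have h3 : (Pi.single i 1 : σ → MvPolynomial σ F) n = 0 := Pi.single_eq_of_ne hni 1
        rw [h3, map_zero, if_neg hni]
        ring
    rw [Finset.sum_congr rfl fun i _ => h2 i, Finset.sum_add_distrib, ← Finset.mul_sum,
      Finset.sum_ite_eq, if_pos (Finset.mem_univ n), h1]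
    ring

end Crest.Agent.R260.Lc_571
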