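import Crest.Agent.R260.Lc1_571

/-!
# Row 260 (helper571): the cotangent space has dimension at most one
-/

set_option autoImplicit false

noncomputable section

namespace Crest.Agent.R260.Lc_571

open IsLocalRing Module Crest.Agent.R270.BM_360 Crest.Agent.R260.Der_169

universe u v w

/-- additive maps with the Leibniz rule along `ρ` which kill constants -/
structure IsDer {F : Type u} [Field F] {R : Type v} [CommRing R] [Algebra F R] {κ : Type w}
    [Field κ] [Algebra F κ] (ρ : R →ₐ[F] κ) (δ : R → κ) : Prop where
  add : ∀ a b, δ (a + b) = δ a + δ b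
  mul : ∀ a b, δ (a * b) = ρ a * δ b + ρ b * δ a
  const : ∀ c : F, δ (algebraMap F R c) = 0

theorem IsDer.sum {F : Type u} [Field F] {R : Type v} [CommRing R] [Algebra F R] {κ : Type w}
    [Field κ] [Algebra F κ] {ρ : R →ₐ[F] κ} {ι : Type} (s : Finset ι) {δ : ι → R → κ} (g : ι → κ)
    (h : ∀ i, IsDer ρ (δ i)) : IsDer ρ (fun r => ∑ i ∈ s, g i * δ i r) where
  add a b := by
    rw [← Finset.sum_add_distrib]
    exact Finset.sum_congr rfl fun i _ => by rw [(h i).add]; ring
  mul a b := by
    rw [Finset.mul_sum, Finset.mul_sum, ← Finset.sum_add_distrib]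
    exact Finset.sum_congr rfl fun i _ => by rw [(h i).mul]; ring
  const c := Finset.sum_eq_zero fun i _ => by rw [(h i).const, mul_zero]

theorem IsDer.chain {F : Type u} [Field F] {R : Type v} [CommRing R] [Algebra F R] {κ : Type w}
    [Field κ] [Algebra F κ] {ρ : R →ₐ[F] κ} {δ : R → κ} (h : IsDer ρ δ) {σ : Type} [Fintype σ]
    (x : σ → R) (p : MvPolynomial σ F) :
    δ (MvPolynomial.aeval x p) =
      ∑ i, MvPolynomial.aeval (fun i => ρ (x i)) (MvPolynomial.pderiv i p) * δ (x i) :=
  Lc_571.chain ρ (AddMonoidHom.mk' δ h.add) h.mul h.const x p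

theorem finrank_cot_le {F : Type u} [Field F] [CharZero F] {R : Type u} [CommRing R]
    [IsLocalRing R] [IsNoetherianRing R] [Algebra F R] {κ : Type u} [Field κ] [Algebra F κ]
    {σ : Type} [Fintype σ] (E : Set (MvPolynomial σ F)) (ρ : R →ₐ[F] κ)
    (hρ : ∀ r ∈ maximalIdeal R, ρ r = 0) (x : σ → R)
    (hx : ∀ p ∈ E, MvPolynomial.aeval x p = 0)
    (hgen : ∀ δ : R → κ, IsDer ρ δ → (∀ i, δ (x i) = 0) → ∀ r, δ r = 0) (N : ℕ)
    (hT : finrank κ (TanS E (fun i => ρ (x i))) ≤ N)
    (htr : TrGe F (Set.range fun i => ρ (x i)) (N - 1)) :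
    finrank (ResidueField R) (CotangentSpace R) ≤ 1 := by
  classical
  by_contra hcon
  push Not at hcon
  have : CharZero κ := charZero_of_injective_algebraMap (algebraMap F κ).injective
  have : Algebra.FormallySmooth F (ResidueField R) := Crest.Agent.R270.Fr_928.fs_charZero _ _
  obtain ⟨Ed, hEmul, hEc, hEm⟩ := exists_E (F := F) (R := R)
  -- the map of the residue field
  have hloc : IsLocalHom (ρ : R →+* κ) := ⟨fun r hr => by
    by_contra hnu
    have h1 : r ∈ maximalIdeal R := (mem_maximalIdeal r).2 hnu
    have h2 : (ρ : R →+* κ) r = 0 := hρ r h1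
    rw [h2] at hr
    exact not_isUnit_zero hr⟩
  let ι : ResidueField R →+* κ := ResidueField.lift (ρ : R →+* κ)
  have hι : ∀ r, ι (residue R r) = ρ r := fun r => ResidueField.lift_residue_apply _ _
  let b := Module.finBasis (ResidueField R) (CotangentSpace R)
  let f : Fin 2 → Fin (finrank (ResidueField R) (CotangentSpace R)) := Fin.castLE hcon
  have hfinj : Function.Injective f := Fin.castLE_injective hcon
  let dl : Fin 2 → R → κ := fun a r => ι (b.coord (f a) (Ed r))
  have hsm : ∀ (r : R) (y : CotangentSpace R) a, b.coord (f a) (r • y) =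
      residue R r * b.coord (f a) y := by
    intro r y a
    have h1 : r • y = (residue R r) • y := (algebraMap_smul (ResidueField R) r y).symm
    rw [h1, LinearMap.map_smul, smul_eq_mul]
  have hdl : ∀ a, IsDer ρ (dl a) := fun a =>
    { add := fun r s => by
        change ι (b.coord (f a) (Ed (r + s))) = _
        rw [map_add, map_add, map_add]
      mul := fun r s => by
        change ι (b.coord (f a) (Ed (r * s))) = _
        rw [hEmul, map_add, map_add, hsm, hsm, map_mul, map_mul, hι, hι]
      const := fun c => by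
        change ι (b.coord (f a) (Ed (algebraMap F R c))) = _
        rw [hEc, map_zero, map_zero] }
  choose μ hμ using fun a : Fin 2 => (maximalIdeal R).toCotangent_surjective (b (f a))
  have hdlμ : ∀ a c, dl a (μ c) = if a = c then 1 else 0 := by
    intro a c
    change ι (b.coord (f a) (Ed (μ c : R))) = _
    rw [hEm, hμ, Basis.coord_apply, Basis.repr_self, Finsupp.single_apply]
    by_cases h : a = c
    · subst h; simp
    · rw [if_neg (fun h1 => h (hfinj h1).symm), if_neg h, map_zero]
  -- derivations of `κ`
  obtain ⟨w, hw, hwi⟩ := htr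
  obtain ⟨D, hD⟩ := Crest.Agent.R270.Fr_928.exists_der_indep w hwi
  let th : Fin (N - 1) → R → κ := fun j r => D j (ρ r)
  have hth : ∀ j, IsDer ρ (th j) := fun j =>
    { add := fun r s => by change D j (ρ (r + s)) = _; rw [map_add, map_add]
      mul := fun r s => by
        change D j (ρ (r * s)) = _
        rw [map_mul, Derivation.leibniz, smul_eq_mul, smul_eq_mul]
      const := fun c => by
        change D j (ρ (algebraMap F R c)) = 0
        rw [ρ.commutes, Derivation.map_algebraMap] }
  let Dl : Fin (N - 1) ⊕ Fin 2 → R → κ := Sum.elim th dl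
  have hDl : ∀ k, IsDer ρ (Dl k) := fun k => by
    rcases k with j | a
    · exact hth j
    · exact hdl a
  let V : Fin (N - 1) ⊕ Fin 2 → σ → κ := fun k i => Dl k (x i)
  have hV : ∀ k, V k ∈ TanS E (fun i => ρ (x i)) := by
    intro k
    rw [mem_TanS]
    intro p hp
    have h1 := (hDl k).chain x p
    rw [hx p hp] at h1
    have h2 : Dl k 0 = 0 := by
      have := (hDl k).const 0
      rwa [map_zero] at this
    rw [h2] at h1
    exact h1.symm
  have hli : LinearIndependent κ V := by
    rw [Fintype.linearIndependent_iff]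
    intro g hg
    have h1 := hgen _ (IsDer.sum Finset.univ g hDl) (fun i => by
      have := congrFun hg i
      rw [Finset.sum_apply] at this
      exact this)
    have h2 : ∀ a, g (Sum.inr a) = 0 := by
      intro a
      have h3 := h1 (μ a : R)
      rw [Fintype.sum_sum_type] at h3
      have h4 : ∀ j, Dl (Sum.inl j) (μ a : R) = 0 := fun j => by
        change D j (ρ (μ a : R)) = 0
        rw [hρ _ (μ a).2, map_zero]
      have h5 : ∀ c, Dl (Sum.inr c) (μ a : R) = if c = a then 1 else 0 := fun c => hdlμ c a
      simp only [h4, h5, mul_zero, Finset.sum_const_zero, zero_add, mul_ite, mul_one,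
        Finset.sum_ite_eq', Finset.mem_univ, if_true] at h3
      exact h3
    have h6 : ∀ j, g (Sum.inl j) = 0 := by
      intro j
      let Δ : Derivation F κ κ := ∑ j, g (Sum.inl j) • D j
      have hΔ : ∀ z, Δ z = ∑ j, g (Sum.inl j) * D j z := fun z => by
        have h := congrFun (map_sum (Derivation.coeFnAddMonoidHom (R := F) (A := κ) (M := κ))
          (fun j => g (Sum.inl j) • D j) Finset.univ) z
        rw [Finset.sum_apply] at h
        exact h
      have h7 : ∀ z ∈ Set.range (fun i => ρ (x i)), Δ z = 0 := by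
        rintro _ ⟨i, rfl⟩
        rw [hΔ]
        have h3 := h1 (x i)
        rw [Fintype.sum_sum_type] at h3
        have h8 : ∑ a, g (Sum.inr a) * Dl (Sum.inr a) (x i) = 0 :=
          Finset.sum_eq_zero fun a _ => by rw [h2, zero_mul]
        rw [h8, add_zero] at h3
        exact h3
      have h9 := Crest.Agent.R270.Fr_928.der_adjoin Δ _ h7 (w j) (hw j)
      rw [hΔ] at h9
      simp only [hD, mul_ite, mul_one, mul_zero, Finset.sum_ite_eq', Finset.mem_univ, if_true]
        at h9
      exact h9
    intro k
    rcases k with j | a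
    · exact h6 j
    · exact h2 a
  have hli' : LinearIndependent κ (fun k => (⟨V k, hV k⟩ : TanS E (fun i => ρ (x i)))) := by
    apply LinearIndependent.of_comp (TanS E (fun i => ρ (x i))).subtype
    exact hli
  have hcard := hli'.fintype_card_le_finrank
  rw [Fintype.card_sum, Fintype.card_fin, Fintype.card_fin] at hcard
  omega

end Crest.Agent.R260.Lc_571
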