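import Crest.Agent.R260.Lc2_571

/-!
# Row 260 (helper571): the local ring of a point of codimension at most one with the right tangent
dimension is a valuation ring (LocP of helper517)
-/

set_option autoImplicit false

noncomputable section

namespace Crest.Agent.R260.Lc_571

open IsLocalRing Module Crest.Agent.R270.BM_360 Crest.Agent.R260.Der_169 MvPolynomial

universe u

theorem loc_val {F : Type u} [Field F] [CharZero F] {K κ : Type u} [Field K] [Field κ]
    [Algebra F K] [Algebra F κ] {σ : Type} [Fintype σ] (E : Set (MvPolynomial σ F)) (v : σ → K)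
    (q : σ → κ) (N : ℕ)
    (hspec : ∀ p : MvPolynomial σ F, aeval v p = 0 → aeval q p = 0)
    (hgen : IntermediateField.adjoin F (Set.range v) = ⊤)
    (hv : ∀ p ∈ E, aeval v p = 0)
    (hT : finrank κ (TanS E q) ≤ N) (htr : TrGe F (Set.range q) (N - 1)) (b : K) :
    ∃ P Q : MvPolynomial σ F, aeval v Q ≠ 0 ∧ b * aeval v Q = aeval v P ∧
      (aeval q Q ≠ 0 ∨ aeval q P ≠ 0) := by
  classical
  by_cases hb0 : b = 0
  · refine ⟨0, 1, ?_, ?_, Or.inl ?_⟩
    · rw [map_one]; exact one_ne_zero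
    · rw [hb0, map_zero, zero_mul]
    · rw [map_one]; exact one_ne_zero
  have hb : b ∈ IntermediateField.adjoin F (Set.range v) := by rw [hgen]; trivial
  rw [IntermediateField.mem_adjoin_range_iff] at hb
  obtain ⟨r0, s0, hb⟩ := hb
  have hs0 : aeval v s0 ≠ 0 := fun h => hb0 (by rw [hb, h, div_zero])
  have hbs : b * aeval v s0 = aeval v r0 := by rw [hb, div_mul_cancel₀ _ hs0]
  -- the coordinate ring
  let I0 : Ideal (MvPolynomial σ F) := RingHom.ker (aeval v : MvPolynomial σ F →ₐ[F] K)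
  have hI0 : I0.IsPrime := RingHom.ker_isPrime _
  let A := MvPolynomial σ F ⧸ I0
  let ψ : A →ₐ[F] κ := Ideal.Quotient.liftₐ I0 (aeval q) (fun p hp => hspec p hp)
  let φ : A →ₐ[F] K := Ideal.Quotient.liftₐ I0 (aeval v) (fun p hp => hp)
  have hψ : ∀ p, ψ (Ideal.Quotient.mk I0 p) = aeval q p := fun p => rfl
  have hφ : ∀ p, φ (Ideal.Quotient.mk I0 p) = aeval v p := fun p => rfl
  have hφi : ∀ a, φ a = 0 → a = 0 := by
    intro a ha
    obtain ⟨p, rfl⟩ := Ideal.Quotient.mk_surjective a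
    rw [hφ] at ha
    exact Ideal.Quotient.eq_zero_iff_mem.2 ha
  let 𝔭 : Ideal A := RingHom.ker (ψ : A →ₐ[F] κ)
  have h𝔭 : 𝔭.IsPrime := RingHom.ker_isPrime _
  have hψ𝔭 : ∀ a : A, a ∈ 𝔭 ↔ ψ a = 0 := fun a => Iff.rfl
  let R := Localization.AtPrime 𝔭
  have hu : ∀ y : 𝔭.primeCompl, IsUnit (ψ (y : A)) := fun y =>
    isUnit_iff_ne_zero.2 fun h => y.2 ((hψ𝔭 _).2 h)
  let ρ : R →ₐ[F] κ := IsLocalization.liftAlgHom (M := 𝔭.primeCompl) (f := ψ) hu
  have hρa : ∀ a : A, ρ (algebraMap A R a) = ψ a := fun a => IsLocalization.lift_eq _ _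
  have hρm : ∀ r ∈ maximalIdeal R, ρ r = 0 := by
    intro r hr
    obtain ⟨a, s, rfl⟩ := IsLocalization.exists_mk'_eq 𝔭.primeCompl r
    have h1 : a ∈ 𝔭 := (IsLocalization.AtPrime.mk'_mem_maximal_iff R 𝔭 a s).1 hr
    have h2 : ρ (IsLocalization.mk' R a s) * ψ (s : A) = ψ a := by
      rw [← hρa, ← hρa, ← map_mul, IsLocalization.mk'_spec]
    rw [(hψ𝔭 a).1 h1] at h2
    exact (mul_eq_zero.1 h2).resolve_right (fun h => s.2 ((hψ𝔭 _).2 h))
  let x : σ → R := fun i => algebraMap A R (Ideal.Quotient.mk I0 (X i))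
  have hxp : ∀ p, aeval x p = algebraMap A R (Ideal.Quotient.mk I0 p) := by
    intro p
    have h1 : (aeval x : MvPolynomial σ F →ₐ[F] R) =
        (IsScalarTower.toAlgHom F A R).comp (Ideal.Quotient.mkₐ F I0) := by
      apply MvPolynomial.algHom_ext
      intro i
      rw [aeval_X]
      rfl
    rw [h1]
    rfl
  have hρx : (fun i => ρ (x i)) = q := by
    funext i
    change ρ (algebraMap A R _) = q i
    rw [hρa, hψ, aeval_X]
  have hnoeth : IsNoetherianRing R := IsLocalization.isNoetherianRing 𝔭.primeCompl R inferInstance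
  have hdom : IsDomain R := IsLocalization.isDomain_localization 𝔭.primeCompl_le_nonZeroDivisors
  have hfin : finrank (ResidueField R) (CotangentSpace R) ≤ 1 := by
    refine finrank_cot_le E ρ hρm x ?_ ?_ N ?_ ?_
    · intro p hp
      rw [hxp, Ideal.Quotient.eq_zero_iff_mem.2 (show p ∈ I0 from hv p hp), map_zero]
    · intro δ hδ hδx
      have h1 : ∀ a : A, δ (algebraMap A R a) = 0 := by
        intro a
        obtain ⟨p, rfl⟩ := Ideal.Quotient.mk_surjective a
        rw [← hxp, hδ.chain]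
        exact Finset.sum_eq_zero fun i _ => by rw [hδx, mul_zero]
      intro r
      obtain ⟨a, s, rfl⟩ := IsLocalization.exists_mk'_eq 𝔭.primeCompl r
      have h2 := hδ.mul (IsLocalization.mk' R a s) (algebraMap A R (s : A))
      rw [IsLocalization.mk'_spec, h1, h1, mul_zero, zero_add, hρa] at h2
      exact (mul_eq_zero.1 h2.symm).resolve_left (fun h => s.2 ((hψ𝔭 _).2 h))
    · rw [hρx]; exact hT
    · rw [hρx]; exact htr
  have hval : ValuationRing R :=
    ((tfae_of_isNoetherianRing_of_isLocalRing_of_isDomain R).out 5 1).1 hfin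
  have hpre : PreValuationRing R := hval.toPreValuationRing
  have hinj : Function.Injective (algebraMap A R) :=
    IsLocalization.injective R 𝔭.primeCompl_le_nonZeroDivisors
  obtain ⟨c, hc⟩ := ValuationRing.cond (algebraMap A R (Ideal.Quotient.mk I0 r0))
    (algebraMap A R (Ideal.Quotient.mk I0 s0))
  obtain ⟨a, s, rfl⟩ := IsLocalization.exists_mk'_eq 𝔭.primeCompl c
  obtain ⟨P, rfl⟩ := Ideal.Quotient.mk_surjective a
  obtain ⟨s, hs⟩ := s
  obtain ⟨Q, rfl⟩ := Ideal.Quotient.mk_surjective s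
  have hQq : aeval q Q ≠ 0 := fun h => hs ((hψ𝔭 _).2 h)
  have hQv : aeval v Q ≠ 0 := fun h => hQq (hspec Q h)
  have key : ∀ y z : MvPolynomial σ F, algebraMap A R (Ideal.Quotient.mk I0 y) *
      IsLocalization.mk' R (Ideal.Quotient.mk I0 P) ⟨Ideal.Quotient.mk I0 Q, hs⟩ =
      algebraMap A R (Ideal.Quotient.mk I0 z) → aeval v y * aeval v P = aeval v z * aeval v Q := by
    intro y z h
    have h1 : algebraMap A R (Ideal.Quotient.mk I0 y * Ideal.Quotient.mk I0 P) =
        algebraMap A R (Ideal.Quotient.mk I0 z * Ideal.Quotient.mk I0 Q) := by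
      have h2 : IsLocalization.mk' R (Ideal.Quotient.mk I0 P) ⟨Ideal.Quotient.mk I0 Q, hs⟩ *
          algebraMap A R (Ideal.Quotient.mk I0 Q) = algebraMap A R (Ideal.Quotient.mk I0 P) :=
        IsLocalization.mk'_spec R (Ideal.Quotient.mk I0 P)
          (⟨Ideal.Quotient.mk I0 Q, hs⟩ : 𝔭.primeCompl)
      rw [map_mul, map_mul, ← h, mul_assoc, h2]
    have h3 := congrArg φ (hinj h1)
    rw [map_mul, map_mul, hφ, hφ, hφ, hφ] at h3
    exact h3
  rcases hc with hc | hc
  · -- `r0 P = s0 Q`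
    have h1 := key _ _ hc
    have hP : aeval v P ≠ 0 := fun h => by
      rw [h, mul_zero] at h1
      exact mul_ne_zero hs0 hQv h1.symm
    refine ⟨Q, P, hP, ?_, Or.inr hQq⟩
    apply mul_left_cancel₀ hs0
    rw [← h1, ← hbs]
    ring
  · have h1 := key _ _ hc
    refine ⟨P, Q, hQv, ?_, Or.inl hQq⟩
    apply mul_left_cancel₀ hs0
    rw [h1, ← hbs]
    ring

end Crest.Agent.R260.Lc_571
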