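import Mathlib
import Crest.Agent.R260.Der3_169

/-!
# Row 260, A-QUAD (helper920): the local ring of the cone at a point of codimension one

`loc_val`: the point `q` is a specialisation of `v` (every relation of `v` holds for `q`), the
tangent space at `q` has dimension `≤ N`, the transcendence degree of `q` is at least `N - 1`.
Then the local ring of `v` at `q` is a valuation ring: every `b` in the field generated by `v` is
`P(v)/Q(v)` with `P(q) ≠ 0` or `Q(q) ≠ 0`.

Proof: the cotangent space of the local ring has dimension at most one, since two independent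
functionals on it and the derivations of the residue field give too many tangent vectors at `q`.
-/

set_option autoImplicit false
set_option linter.unusedSectionVars false

namespace Crest.Agent.R260.Loc920

open Module IsLocalRing
open Crest.Agent.R270.BM_360 Crest.Agent.R270.Fr_928 Crest.Agent.R260.Der_169

universe u v w

section chain

variable {F : Type*} [Field F] {σ : Type*} [Fintype σ] {κ : Type*} [Field κ] [Algebra F κ]

theorem chain (q : σ → κ) (g : MvPolynomial σ F → κ) (h0 : ∀ c, g (MvPolynomial.C c) = 0)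
    (ha : ∀ a b, g (a + b) = g a + g b)
    (hm : ∀ a b, g (a * b) = MvPolynomial.aeval q a * g b + MvPolynomial.aeval q b * g a)
    (p : MvPolynomial σ F) :
    g p = ∑ x, MvPolynomial.aeval q (MvPolynomial.pderiv x p) * g (MvPolynomial.X x) := by
  classical
  induction p using MvPolynomial.induction_on with
  | C r => simp [h0]
  | add p q hp hq => simp only [ha, hp, hq, map_add, add_mul, Finset.sum_add_distrib]
  | mul_X p n hp =>
    rw [hm, MvPolynomial.aeval_X, hp]
    simp only [Derivation.leibniz, map_add, smul_eq_mul, map_mul, MvPolynomial.aeval_X,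
      MvPolynomial.pderiv_X, add_mul, Finset.sum_add_distrib]
    congr 1
    · rw [Finset.sum_eq_single n]
      · simp
      · intro b _ hb
        simp [hb.symm]
      · simp
    · rw [Finset.mul_sum]
      refine Finset.sum_congr rfl fun l _ => by ring

end chain

theorem der_adj {F : Type*} [Field F] {κ : Type*} [Field κ] [Algebra F κ]
    (δ : Derivation F κ κ) (S : Set κ)
    (hS : ∀ c ∈ S, δ c = 0) (x : κ) (hx : x ∈ IntermediateField.adjoin F S) : δ x = 0 := by
  induction hx using IntermediateField.adjoin_induction with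
  | mem c hc => exact hS c hc
  | algebraMap c => exact δ.map_algebraMap c
  | add x y _ _ hx hy => rw [map_add, hx, hy, add_zero]
  | inv x _ hx => rw [δ.leibniz_inv, hx, smul_zero]
  | mul x y _ _ hx hy => rw [δ.leibniz, hx, hy, smul_zero, smul_zero, add_zero]

section der

variable {F : Type u} [Field F] [CharZero F] {R : Type v} [CommRing R] [IsLocalRing R]
  [Algebra F R]

/-- the derivation of a local ring over a field of characteristic zero into the cotangent space. -/
theorem exists_der_cot : ∃ Δ : Derivation F R (CotangentSpace R),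
    ∀ r (hr : r ∈ maximalIdeal R), Δ r = (maximalIdeal R).toCotangent ⟨r, hr⟩ := by
  have hfs : Algebra.FormallySmooth F (ResidueField R) := fs_charZero F (ResidueField R)
  let m := maximalIdeal R
  have hfs2 : Algebra.FormallySmooth F (R ⧸ m) := hfs
  let g : (R ⧸ m ^ 2) →ₐ[F] (R ⧸ m) := Ideal.Quotient.factorₐ F (Ideal.pow_le_self two_ne_zero)
  have hg : Function.Surjective g :=
    Ideal.Quotient.factor_surjective (Ideal.pow_le_self two_ne_zero : m ^ 2 ≤ m)
  have hker : RingHom.ker (g : (R ⧸ m ^ 2) →+* (R ⧸ m)) = m.cotangentIdeal := by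
    ext z
    obtain ⟨z, rfl⟩ := Ideal.Quotient.mk_surjective z
    rw [Ideal.mk_mem_cotangentIdeal, RingHom.mem_ker]
    exact Ideal.Quotient.eq_zero_iff_mem
  have hnil : IsNilpotent (RingHom.ker (g : (R ⧸ m ^ 2) →+* (R ⧸ m))) := by
    rw [hker]
    exact ⟨2, m.cotangentIdeal_square⟩
  let s : (R ⧸ m) →ₐ[F] (R ⧸ m ^ 2) :=
    Algebra.FormallySmooth.liftOfSurjective (AlgHom.id F (R ⧸ m)) g hg hnil
  have hs : ∀ x, g (s x) = x := fun x =>
    Algebra.FormallySmooth.liftOfSurjective_apply (AlgHom.id F (R ⧸ m)) g hg hnil x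
  let f : R →ₐ[F] (R ⧸ m ^ 2) := s.comp (Ideal.Quotient.mkₐ F m)
  have hf : (Ideal.Quotient.mkₐ F m.cotangentIdeal).comp f =
      IsScalarTower.toAlgHom F R ((R ⧸ m ^ 2) ⧸ m.cotangentIdeal) := by
    ext r
    change Ideal.Quotient.mk m.cotangentIdeal (s (Ideal.Quotient.mk m r)) =
      Ideal.Quotient.mk m.cotangentIdeal (Ideal.Quotient.mk (m ^ 2) r)
    rw [Ideal.Quotient.eq, ← hker, RingHom.mem_ker, map_sub, sub_eq_zero]
    exact hs _
  let Δ₁ : Derivation F R m.cotangentIdeal :=
    derivationToSquareZeroOfLift m.cotangentIdeal m.cotangentIdeal_square f hf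
  let Δ₂ : Derivation F R (CotangentSpace R) :=
    (m.cotangentEquivIdeal.symm : m.cotangentIdeal →ₗ[R] m.Cotangent).compDer Δ₁
  refine ⟨-Δ₂, fun r hr => ?_⟩
  rw [Derivation.neg_apply]
  change -(m.cotangentEquivIdeal.symm (Δ₁ r)) = _
  rw [neg_eq_iff_eq_neg, LinearEquiv.symm_apply_eq, map_neg]
  apply Subtype.ext
  rw [Submodule.coe_neg, Ideal.cotangentEquivIdeal_apply, derivationToSquareZeroOfLift_apply]
  have h1 : f r = 0 := by
    change s (Ideal.Quotient.mk m r) = 0
    rw [Ideal.Quotient.eq_zero_iff_mem.2 hr, map_zero]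
  rw [h1, zero_sub]
  rfl

end der

section bound

variable {F : Type u} [Field F] [CharZero F] {R : Type v} [CommRing R] [IsLocalRing R]
  [IsNoetherianRing R] [Algebra F R] {κ : Type u} [Field κ] [Algebra F κ]

/-- dimension of the cotangent space + transcendence degree of the residue field is at most the
dimension of the tangent space. -/
theorem cot_bound (Φ : R →ₐ[F] κ) (hΦ : ∀ r ∈ maximalIdeal R, Φ r = 0) {σ : Type*} [Fintype σ]
    (y : σ → R) (hgen : ∀ r : R, ∃ s p : MvPolynomial σ F,
      Φ (MvPolynomial.aeval y s) ≠ 0 ∧ MvPolynomial.aeval y s * r = MvPolynomial.aeval y p)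
    (E : Set (MvPolynomial σ F)) (hE : ∀ p ∈ E, MvPolynomial.aeval y p = 0) (q : σ → κ)
    (hq : ∀ x, q x = Φ (y x)) {m : ℕ} (htr : TrGe F (Set.range q) m) :
    finrank (ResidueField R) (CotangentSpace R) + m ≤ finrank κ (TanS E q) := by
  classical
  let i1 : Algebra (ResidueField R) κ :=
    (Ideal.Quotient.lift (maximalIdeal R) (Φ : R →+* κ) hΦ).toAlgebra
  have halg : ∀ r, algebraMap (ResidueField R) κ (residue R r) = Φ r := fun r => rfl
  have hqp : ∀ p : MvPolynomial σ F, Φ (MvPolynomial.aeval y p) = MvPolynomial.aeval q p := by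
    intro p
    have h1 : (Φ.comp (MvPolynomial.aeval y)) = MvPolynomial.aeval q := by
      apply MvPolynomial.algHom_ext
      intro x
      rw [AlgHom.comp_apply, MvPolynomial.aeval_X, MvPolynomial.aeval_X, hq]
    exact DFunLike.congr_fun h1 p
  obtain ⟨Δ, hΔ⟩ := exists_der_cot (F := F) (R := R)
  have hmul : ∀ (l : CotangentSpace R →ₗ[ResidueField R] κ) (a b : R),
      l (Δ (a * b)) = Φ a * l (Δ b) + Φ b * l (Δ a) := by
    intro l a b
    have h1 : ∀ (a : R) (w : CotangentSpace R), l (a • w) = Φ a * l w := by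
      intro a w
      have h2 : a • w = residue R a • w := (algebraMap_smul (ResidueField R) a w).symm
      rw [h2, l.map_smul, Algebra.smul_def, halg]
    rw [Δ.leibniz, map_add, h1, h1]
  -- the key
  have key : ∀ (l : CotangentSpace R →ₗ[ResidueField R] κ) (δ : Derivation F κ κ),
      (∀ x, l (Δ (y x)) = δ (q x)) → l = 0 := by
    intro l δ h
    have h1 : ∀ p : MvPolynomial σ F, l (Δ (MvPolynomial.aeval y p)) =
        δ (MvPolynomial.aeval q p) := by
      intro p
      rw [chain q (fun p => l (Δ (MvPolynomial.aeval y p))) (fun c => by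
          rw [MvPolynomial.aeval_C, Δ.map_algebraMap, map_zero])
        (fun a b => by simp only [map_add])
        (fun a b => by simp only [map_mul, hmul, hqp]) p,
        chain q (fun p => δ (MvPolynomial.aeval q p)) (fun c => by
          rw [MvPolynomial.aeval_C, δ.map_algebraMap])
        (fun a b => by simp only [map_add])
        (fun a b => by simp only [map_mul, δ.leibniz, smul_eq_mul]) p]
      simp only [MvPolynomial.aeval_X, h]
    apply LinearMap.ext
    intro w
    obtain ⟨⟨r, hr⟩, rfl⟩ := (maximalIdeal R).toCotangent_surjective w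
    rw [← hΔ r hr, LinearMap.zero_apply]
    obtain ⟨s, p, hs, hsp⟩ := hgen r
    have h2 := hmul l (MvPolynomial.aeval y s) r
    rw [hsp, h1 p, ← hqp p, ← hsp, map_mul, hΦ r hr, mul_zero, map_zero, zero_mul, add_zero] at h2
    exact (mul_eq_zero.1 h2.symm).resolve_left hs
  let Θ : (CotangentSpace R →ₗ[ResidueField R] κ) →ₗ[κ] (σ → κ) :=
    { toFun := fun l x => l (Δ (y x))
      map_add' := fun l l' => by
        funext x
        simp only [LinearMap.add_apply, Pi.add_apply]
      map_smul' := fun c l => by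
        funext x
        simp only [LinearMap.smul_apply, Pi.smul_apply, RingHom.id_apply] }
  let Ψ : Derivation F κ κ →ₗ[κ] (σ → κ) :=
    { toFun := fun δ x => δ (q x)
      map_add' := fun δ δ' => by
        funext x
        simp [Derivation.add_apply]
      map_smul' := fun c δ => by
        funext x
        simp [Derivation.smul_apply] }
  have hΘ : Function.Injective Θ := by
    rw [← LinearMap.ker_eq_bot, LinearMap.ker_eq_bot']
    intro l hl
    exact key l 0 (fun x => by rw [Derivation.zero_apply]; exact congrFun hl x)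
  have hinf : LinearMap.range Θ ⊓ LinearMap.range Ψ = ⊥ := by
    rw [eq_bot_iff]
    rintro t ⟨⟨l, hl⟩, ⟨δ, hδ⟩⟩
    have h1 : l = 0 := key l δ (fun x => by
      have := congrFun (hl.trans hδ.symm) x
      exact this)
    rw [Submodule.mem_bot, ← hl, h1, map_zero]
  have hle : LinearMap.range Θ ⊔ LinearMap.range Ψ ≤ TanS E q := by
    rw [sup_le_iff]
    constructor
    · rintro _ ⟨l, rfl⟩ p hp
      have h1 := chain q (fun p => l (Δ (MvPolynomial.aeval y p))) (fun c => by
          rw [MvPolynomial.aeval_C, Δ.map_algebraMap, map_zero])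
        (fun a b => by simp only [map_add])
        (fun a b => by simp only [map_mul, hmul, hqp]) p
      simp only [MvPolynomial.aeval_X, hE p hp, map_zero] at h1
      exact h1.symm
    · rintro _ ⟨δ, rfl⟩ p hp
      have h1 := der_aeval δ q p
      rw [← hqp p, hE p hp, map_zero, map_zero] at h1
      exact h1.symm
  have h1 : finrank κ (LinearMap.range Θ) = finrank (ResidueField R) (CotangentSpace R) := by
    rw [LinearMap.finrank_range_of_inj hΘ]
    exact Module.finrank_linearMap_self _ _ _
  have h2 : m ≤ finrank κ (LinearMap.range Ψ) := by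
    obtain ⟨w, hw, hwi⟩ := htr
    obtain ⟨d, hd⟩ := exists_der_indep w hwi
    let t : Fin m → LinearMap.range Ψ := fun j => ⟨Ψ (d j), d j, rfl⟩
    have ht : LinearIndependent κ t := by
      rw [Fintype.linearIndependent_iff]
      intro g hg l
      have h1 : Ψ (∑ j, g j • d j) = 0 := by
        rw [map_sum]
        have h5 : ((∑ j, g j • t j : LinearMap.range Ψ) : σ → κ) = 0 := by rw [hg]; rfl
        rw [Submodule.coe_sum] at h5
        rw [← h5]
        refine Finset.sum_congr rfl fun j _ => ?_
        rw [map_smul]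
        rfl
      have h3 : (∑ j, g j • d j) (w l) = 0 :=
        der_adj _ _ (by
          rintro _ ⟨x, rfl⟩
          exact congrFun h1 x) _ (hw l)
      have h4 : (∑ j, g j • d j) (w l) = ∑ j, g j * d j (w l) := by
        have : ∀ s : Finset (Fin m), (∑ j ∈ s, g j • d j) (w l) = ∑ j ∈ s, g j * d j (w l) := by
          intro s
          induction s using Finset.induction_on with
          | empty => simp
          | insert j s hj ih =>
            rw [Finset.sum_insert hj, Finset.sum_insert hj, Derivation.add_apply, ih]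
            rfl
        exact this _
      rw [h4, Finset.sum_eq_single l] at h3
      · rwa [hd, if_pos rfl, mul_one] at h3
      · intro b _ hb
        rw [hd, if_neg hb, mul_zero]
      · intro h; exact absurd (Finset.mem_univ _) h
    have h4 := ht.fintype_card_le_finrank
    rwa [Fintype.card_fin] at h4
  have h3 := Submodule.finrank_sup_add_finrank_inf_eq (LinearMap.range Θ) (LinearMap.range Ψ)
  rw [hinf, finrank_bot, add_zero, h1] at h3
  have h4 := Submodule.finrank_mono hle
  omega

end bound

section val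

variable {F : Type u} [Field F] [CharZero F] {σ : Type v} [Fintype σ] {K : Type w} {κ : Type u}
  [Field K] [Field κ] [Algebra F K] [Algebra F κ]

/-- **LOC1**: the local ring of the cone at `q` is a valuation ring. -/
theorem loc_val (v : σ → K) (q : σ → κ)
    (hspec : ∀ p : MvPolynomial σ F, MvPolynomial.aeval v p = 0 → MvPolynomial.aeval q p = 0)
    (E : Set (MvPolynomial σ F)) (hE : ∀ p ∈ E, MvPolynomial.aeval v p = 0) {N : ℕ}
    (hN : finrank κ (TanS E q) ≤ N) (htr : TrGe F (Set.range q) (N - 1)) (b : K)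
    (hb : b ∈ IntermediateField.adjoin F (Set.range v)) :
    ∃ P Q : MvPolynomial σ F, MvPolynomial.aeval v Q ≠ 0 ∧
      b * MvPolynomial.aeval v Q = MvPolynomial.aeval v P ∧
      (MvPolynomial.aeval q Q ≠ 0 ∨ MvPolynomial.aeval q P ≠ 0) := by
  classical
  -- the coordinate ring
  let ev : MvPolynomial σ F →ₐ[F] K := MvPolynomial.aeval v
  let I : Ideal (MvPolynomial σ F) := RingHom.ker (ev : MvPolynomial σ F →+* K)
  have hI : I.IsPrime := RingHom.ker_isPrime _
  have hmI : ∀ p, p ∈ I ↔ MvPolynomial.aeval v p = 0 := fun p => RingHom.mem_ker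
  let A := MvPolynomial σ F ⧸ I
  have hAd : IsDomain A := Ideal.Quotient.isDomain I
  let φ : A →ₐ[F] κ := Ideal.Quotient.liftₐ I (MvPolynomial.aeval q) (fun p hp => hspec p ((hmI p).1 hp))
  have hφ : ∀ p : MvPolynomial σ F, φ (Ideal.Quotient.mk I p) = MvPolynomial.aeval q p := fun p => rfl
  let P : Ideal A := RingHom.ker (φ : A →+* κ)
  have hP : P.IsPrime := RingHom.ker_isPrime _
  let R := Localization.AtPrime P
  have hRd : IsDomain R := IsLocalization.isDomain_localization (Ideal.primeCompl_le_nonZeroDivisors P)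
  have hRn : IsNoetherianRing R := IsLocalization.isNoetherianRing P.primeCompl R inferInstance
  have hinj : Function.Injective (algebraMap A R) :=
    IsLocalization.injective R (Ideal.primeCompl_le_nonZeroDivisors P)
  have hunit : ∀ s : P.primeCompl, IsUnit (φ s) := fun s =>
    isUnit_iff_ne_zero.2 (fun h => s.2 (RingHom.mem_ker.2 h))
  let Φ : R →ₐ[F] κ := IsLocalization.liftAlgHom (M := P.primeCompl) (f := φ) hunit
  have hΦ : ∀ a : A, Φ (algebraMap A R a) = φ a := fun a =>
    IsLocalization.lift_eq (M := P.primeCompl) (g := (φ : A →+* κ)) hunit a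
  let y : σ → R := fun x => algebraMap A R (Ideal.Quotient.mk I (MvPolynomial.X x))
  have hy : ∀ p : MvPolynomial σ F, MvPolynomial.aeval y p = algebraMap A R (Ideal.Quotient.mk I p) := by
    intro p
    have h1 : MvPolynomial.aeval y =
        (IsScalarTower.toAlgHom F A R).comp (Ideal.Quotient.mkₐ F I) := by
      apply MvPolynomial.algHom_ext
      intro x
      rw [MvPolynomial.aeval_X]
      rfl
    exact DFunLike.congr_fun h1 p
  have hΦm : ∀ r ∈ maximalIdeal R, Φ r = 0 := by
    intro r hr
    by_contra h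
    obtain ⟨a, s, rfl⟩ := IsLocalization.exists_mk'_eq P.primeCompl r
    have h1 : IsLocalization.mk' R a s * algebraMap A R s = algebraMap A R a :=
      IsLocalization.mk'_spec R a s
    have h2 : φ a ≠ 0 := by
      rw [← hΦ, ← h1, map_mul, hΦ]
      exact mul_ne_zero h (hunit s).ne_zero
    have h3 : IsUnit (algebraMap A R a) :=
      IsLocalization.map_units R (⟨a, fun h => h2 (RingHom.mem_ker.1 h)⟩ : P.primeCompl)
    rw [← h1] at h3
    exact (IsLocalRing.mem_maximalIdeal _).1 hr (isUnit_of_mul_isUnit_left h3)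
  have hgen : ∀ r : R, ∃ s p : MvPolynomial σ F,
      Φ (MvPolynomial.aeval y s) ≠ 0 ∧ MvPolynomial.aeval y s * r = MvPolynomial.aeval y p := by
    intro r
    obtain ⟨a, s, rfl⟩ := IsLocalization.exists_mk'_eq P.primeCompl r
    obtain ⟨p, rfl⟩ := Ideal.Quotient.mk_surjective a
    obtain ⟨s, hs⟩ := s
    obtain ⟨s, rfl⟩ := Ideal.Quotient.mk_surjective s
    refine ⟨s, p, ?_, ?_⟩
    · rw [hy, hΦ]
      exact fun h => hs (RingHom.mem_ker.2 h)
    · rw [hy, hy, mul_comm]
      exact IsLocalization.mk'_spec R _ _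
  have h1 := cot_bound Φ hΦm y hgen E (fun p hp => by
    rw [hy, Ideal.Quotient.eq_zero_iff_mem.2 ((hmI p).2 (hE p hp)), map_zero]) q (fun x => by
      rw [hΦ, hφ, MvPolynomial.aeval_X]) htr
  have h2 : finrank (ResidueField R) (CotangentSpace R) ≤ 1 := by omega
  have h3 : ValuationRing R := ((tfae_of_isNoetherianRing_of_isLocalRing_of_isDomain R).out 5 1).1 h2
  -- conclusion
  obtain ⟨n, d, hnd⟩ := (IntermediateField.mem_adjoin_range_iff F v b).1 hb
  by_cases hd : MvPolynomial.aeval v d = 0
  · refine ⟨0, 1, ?_, ?_, Or.inl ?_⟩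
    · rw [map_one]; exact one_ne_zero
    · rw [hnd, hd, div_zero, zero_mul, map_zero]
    · rw [map_one]; exact one_ne_zero
  have hmk : ∀ p p' : MvPolynomial σ F, algebraMap A R (Ideal.Quotient.mk I p) =
      algebraMap A R (Ideal.Quotient.mk I p') → MvPolynomial.aeval v p = MvPolynomial.aeval v p' := by
    intro p p' h
    have h1 := (Ideal.Quotient.eq (I := I)).1 (hinj h)
    rw [hmI, map_sub, sub_eq_zero] at h1
    exact h1
  obtain ⟨c, hc⟩ := h3.toPreValuationRing.cond' (algebraMap A R (Ideal.Quotient.mk I n))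
    (algebraMap A R (Ideal.Quotient.mk I d))
  obtain ⟨u, w, rfl⟩ := IsLocalization.exists_mk'_eq P.primeCompl c
  obtain ⟨u, rfl⟩ := Ideal.Quotient.mk_surjective u
  obtain ⟨w, hw⟩ := w
  obtain ⟨w, rfl⟩ := Ideal.Quotient.mk_surjective w
  have hwq : MvPolynomial.aeval q w ≠ 0 := fun h => hw (RingHom.mem_ker.2 h)
  have hwv : MvPolynomial.aeval v w ≠ 0 := fun h => hwq (hspec w h)
  have hspec' : IsLocalization.mk' R (Ideal.Quotient.mk I u)
      (⟨Ideal.Quotient.mk I w, hw⟩ : P.primeCompl) * algebraMap A R (Ideal.Quotient.mk I w) =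
      algebraMap A R (Ideal.Quotient.mk I u) := IsLocalization.mk'_spec R _ _
  rcases hc with hc | hc
  · have h4 := hmk (n * u) (d * w) (by
      rw [map_mul, map_mul, map_mul, map_mul, ← hspec', ← hc]
      ring)
    rw [map_mul, map_mul] at h4
    have hu : MvPolynomial.aeval v u ≠ 0 := by
      intro h
      rw [h, mul_zero] at h4
      exact mul_ne_zero hd hwv h4.symm
    refine ⟨w, u, hu, ?_, Or.inr hwq⟩
    rw [hnd, div_mul_eq_mul_div, h4, mul_div_cancel_left₀ _ hd]
  · have h4 := hmk (d * u) (n * w) (by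
      rw [map_mul, map_mul, map_mul, map_mul, ← hspec', ← hc]
      ring)
    rw [map_mul, map_mul] at h4
    refine ⟨u, w, hwv, ?_, Or.inl hwq⟩
    rw [hnd, div_mul_eq_mul_div, ← h4, mul_div_cancel_left₀ _ hd]

/-- the literal form of 517's `LocP`. -/
theorem locP (v : σ → K) (q : σ → κ) (E : Set (MvPolynomial σ F)) {N : ℕ}
    (hspec : ∀ p : MvPolynomial σ F, MvPolynomial.aeval v p = 0 → MvPolynomial.aeval q p = 0)
    (htop : IntermediateField.adjoin F (Set.range v) = ⊤)
    (hE : ∀ p ∈ E, MvPolynomial.aeval v p = 0) (hN : finrank κ (TanS E q) = N)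
    (htr : TrGe F (Set.range q) (N - 1)) (b : K) :
    ∃ P Q : MvPolynomial σ F, MvPolynomial.aeval v Q ≠ 0 ∧
      b * MvPolynomial.aeval v Q = MvPolynomial.aeval v P ∧
      (MvPolynomial.aeval q Q ≠ 0 ∨ MvPolynomial.aeval q P ≠ 0) :=
  loc_val v q hspec E hE hN.le htr b (by rw [htop]; exact IntermediateField.mem_top)

end val

end Crest.Agent.R260.Loc920
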