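import Crest.Agent.R260.MainDefs_803

/-!
# Row 260 (S0398), MAIN (helper803): from `OutP` to `∇R = 0` on one chart
-/

set_option autoImplicit false

open Set Filter Topology Polynomial
open scoped ContDiff Matrix
open Crest.GeometryTopology.CoordMetric Crest.GeometryTopology.ChartRiem
open Crest.Agent.R270.BM_360 Crest.Agent.R260.Lin_678 Crest.Agent.R260.KEnd_361

noncomputable section

namespace Crest.Agent.R260.Main_803

variable {n : ℕ} {g : MetricField n} {U : Set (EuclideanSpace ℝ (Fin n))}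

theorem sm_Nm (hg : IsRiemannianOn g U) (m i j : Fin n) : SmM U (Nm g m i j) := by
  have h1 : ∀ i j, SmM U (Rm g i j) := sm_Rm hg
  have h2 : ∀ i, SmM U (Gm g i) := sm_Gm hg
  have h : SmM U (fun x => pdM m (Rm g i j) x + (Gm g m x * Rm g i j x - Rm g i j x * Gm g m x)
      - ∑ p, Gm g m x p i • Rm g p j x - ∑ p, Gm g m x p j • Rm g i p x) :=
    ((((h1 i j).pd hg.isOpen m).add (((h2 m).mul (h1 i j)).sub ((h1 i j).mul (h2 m)))).sub
      (SmM.sum fun p _ => SmM.smul (h2 m p i) (h1 p j))).sub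
      (SmM.sum fun p _ => SmM.smul (h2 m p j) (h1 i p))
  exact h.congr fun y _ => Nm_eq g m i j y

/-- `∇R` is continuous -/
theorem continuousOn_cov (hg : IsRiemannianOn g U) (m l i j k : Fin n) :
    ContinuousOn (fun x => covDerivRiemann g x m l i j k) U :=
  (sm_Nm hg m i j l k).continuousOn

/-- a continuous function which vanishes on a dense set of points of `U` -/
theorem zero_of_dense {f : EuclideanSpace ℝ (Fin n) → ℝ} (hU : IsOpen U) (hf : ContinuousOn f U)
    (h : ∀ V ⊆ U, IsOpen V → V.Nonempty → ∃ p ∈ V, f p = 0) : ∀ x ∈ U, f x = 0 := by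
  intro x hx
  by_contra hne
  have hV : IsOpen (U ∩ f ⁻¹' {y | y ≠ 0}) := hf.isOpen_inter_preimage hU isOpen_ne
  obtain ⟨p, hp, h0⟩ := h _ inter_subset_left hV ⟨x, hx, hne⟩
  exact hp.2 h0

variable {J : Fin 3 → EuclideanSpace ℝ (Fin n) → Matrix (Fin n) (Fin n) ℝ}
  {c : EuclideanSpace ℝ (Fin n) → Fin n → Fin 3 → Fin 3 → ℝ} {lam : ℝ}

/-- `∇R = 0` on the chart from `OutP` -/
theorem cov_zero (hO : OutP) (h : QKm_838.Dat g U J c lam) (hl : lam ≠ 0)
    {I : Type} {Jt : I → Type} [Fintype I] [∀ i, Fintype (Jt i)] {D : CData ℂ I Jt}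
    {VF : (∀ i, Jt i → ℂ[X]) → Prop} (AG : AGOut D VF)
    {F : EuclideanSpace ℝ (Fin n) → ∀ i, Jt i → ℂ[X]} (hF : TwAlg J c U D VF F)
    (m l i j k : Fin n) : ∀ x ∈ U, covDerivRiemann g x m l i j k = 0 := by
  refine zero_of_dense h.riem.isOpen (continuousOn_cov h.riem m l i j k) fun V hV hVo hVn => ?_
  obtain ⟨p, hp, W, hWU, hWo, hpW, G, hG⟩ := hO n g J c U lam h I Jt D VF AG F hF V hV hVo hVn
  refine ⟨p, hp, ?_⟩
  have hW : QKm_838.Dat g W J c lam := by
    exact {
      riem := ⟨hWo, fun i j => (h.riem.contDiffOn i j).mono hWU, fun x hx => h.riem.posDef x (hWU hx)⟩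
      smJ := fun a l p => (h.smJ a l p).mono hWU
      sq := fun x hx => h.sq x (hWU hx)
      mul := fun x hx => h.mul x (hWU hx)
      orth := fun x hx => h.orth x (hWU hx)
      cov := fun x hx => h.cov x (hWU hx)
      smc := fun i a b => (h.smc i a b).mono hWU
      skc := fun x hx => h.skc x (hWU hx)
      curv := fun x hx => h.curv x (hWU hx) }
  exact End_919.end2pt hW hl hG p hpW m l i j k

end Crest.Agent.R260.Main_803
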