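import Crest.Agent.R260.Out3_516

/-!
# R260 (S0398), AG-OUT part 4 (helper516): from the germ to the two-point tensor

`out_of_in` : `TwIn` and `AgIn` ⟹ `OutProp`.
-/

set_option autoImplicit false
set_option linter.unusedSectionVars false

open Set Filter Topology Metric Complex
open scoped ContDiff
open Crest.GeometryTopology.CoordMetric Crest.GeometryTopology.ChartRiem
open Crest.Agent.R260.Tw_979 Crest.Agent.R260.TwPen_389 Crest.Agent.R260.End_919
open Crest.Agent.R270.BM_360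

noncomputable section

namespace Crest.Agent.R260.Out_516

variable {n : ℕ} {I : Type} [Fintype I] {Jt : I → Type} [∀ i, Fintype (Jt i)]

/-- from monomials to `nn` -/
def Bm : Fin 3 → Fin 3 → ℂ :=
  ![![0, 1 / 2, -Complex.I / 2], ![-1 / 2, 0, 0], ![0, -1 / 2, -Complex.I / 2]]

theorem sum_Bm (i : Fin 3) (u : ℂ) : ∑ a, Bm i a * nn u a = u ^ (i : ℕ) := by
  fin_cases i
  · simp [Bm, nn, Fin.sum_univ_three]
    ring_nf
    simp
    ring
  · simp [Bm, nn, Fin.sum_univ_three]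
    ring
  · simp [Bm, nn, Fin.sum_univ_three]
    ring_nf
    simp
    ring

/-- tensor of a biquadratic polynomial -/
def tn (m : Fin 3 → Fin 3 → ℂ) (a b : Fin 3) : ℂ := ∑ i, ∑ j, m i j * (Bm i a * Bm j b)

theorem sum_tn (m : Fin 3 → Fin 3 → ℂ) (u v : ℂ) :
    ∑ a, (∑ b, nn v b * tn m a b) * nn u a = bq m u v := by
  unfold bq
  simp only [← sum_Bm, tn, Fin.sum_univ_three]
  ring

theorem tn_sqm (κ : ℂ) (a b : Fin 3) :
    tn (fun i j => κ * sqm i j) a b = if a = b then -κ / 2 else 0 := by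
  fin_cases a <;> fin_cases b <;>
    (simp [tn, sqm, Bm, Fin.sum_univ_three]; try ring_nf; try (simp; ring))

theorem tn_swap (m : Fin 3 → Fin 3 → ℂ) (a b : Fin 3) :
    tn (fun i j => m j i) a b = tn m b a := by
  unfold tn
  rw [Finset.sum_comm]
  refine Finset.sum_congr rfl fun i _ => Finset.sum_congr rfl fun j _ => ?_
  ring

theorem nn_comb_zero {X : Fin 3 → ℂ} {v1 : ℂ} {r : ℝ} (hr : 0 < r)
    (h : ∀ v ∈ ball v1 r, ∑ b, nn v b * X b = 0) : ∀ b, X b = 0 := by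
  have hinf : (ball v1 r).Infinite := by
    refine (infinite_seg r hr v1 1 one_ne_zero).mono ?_
    rintro _ ⟨t, ht, rfl⟩
    rw [mem_ball, dist_eq_norm]
    simpa using ht
  have hc := coef_zero (n := 3) ![X 1 + Complex.I * X 2, -2 * X 0, -X 1 + Complex.I * X 2]
    (ball v1 r) hinf (by
      intro v hv
      have := h v hv
      simp [Fin.sum_univ_three, nn] at this ⊢
      linear_combination this)
  have h0 := hc 0
  have h1 := hc 1
  have h2 := hc 2
  simp at h0 h1 h2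
  have hI : Complex.I ≠ 0 := Complex.I_ne_zero
  have h3 : Complex.I * X 2 = 0 := by linear_combination (h0 + h2) / 2
  have h4 : X 2 = 0 := by
    rcases mul_eq_zero.1 h3 with h | h
    · exact absurd h hI
    · exact h
  intro b
  fin_cases b
  · exact h1
  · simp
    linear_combination h0 - Complex.I * h4
  · exact h4

/-- a quadratic expression in `nn u` vanishing on a ball vanishes -/
theorem nn_quad_zero {X : Fin 3 → Fin 3 → ℂ} {u1 : ℂ} {r : ℝ} (hr : 0 < r)
    (h : ∀ u ∈ ball u1 r, ∑ a, ∑ b, nn u a * nn u b * X a b = 0) (u : ℂ) :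
    ∑ a, ∑ b, nn u a * nn u b * X a b = 0 := by
  have hinf : (ball u1 r).Infinite := by
    refine (infinite_seg r hr u1 1 one_ne_zero).mono ?_
    rintro _ ⟨t, ht, rfl⟩
    rw [mem_ball, dist_eq_norm]
    simpa using ht
  let np : Fin 3 → Polynomial ℂ :=
    ![Polynomial.C (-2) * Polynomial.X, 1 - Polynomial.X ^ 2,
      Polynomial.C Complex.I * (1 + Polynomial.X ^ 2)]
  have hnp : ∀ (u : ℂ) a, (np a).eval u = nn u a := by
    intro u a
    fin_cases a
    · simp [np, nn]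
    · simp [np, nn]
    · simp [np, nn]
  set p : Polynomial ℂ := ∑ a, ∑ b, np a * np b * Polynomial.C (X a b) with hp
  have hpe : ∀ u : ℂ, p.eval u = ∑ a, ∑ b, nn u a * nn u b * X a b := by
    intro u
    rw [hp]
    simp only [Polynomial.eval_finsetSum, Polynomial.eval_mul, Polynomial.eval_C, hnp]
  have hp0 : p = 0 := by
    apply Polynomial.eq_zero_of_infinite_isRoot
    refine hinf.mono ?_
    intro u hu
    change p.eval u = 0
    rw [hpe]
    exact h u hu
  rw [← hpe, hp0, Polynomial.eval_zero]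

theorem qd_nn_zero {ι : Type*} [Fintype ι] [DecidableEq ι] (J : Fin 3 → Matrix ι ι ℂ) (τ : Fin 3 → ι → ℂ) {u1 : ℂ} {r : ℝ}
    (hr : 0 < r) (h : ∀ u ∈ ball u1 r, qd J τ (nn u) = 0) (u : ℂ) : qd J τ (nn u) = 0 := by
  have he : ∀ (u : ℂ) j, qd J τ (nn u) j =
      ∑ a, ∑ b, nn u a * nn u b * (∑ i, J a i j * τ b i) := by
    intro u j
    rw [qd_apply]
    have e1 : ∀ i, Nq J (nn u) i j * ∑ b, nn u b * τ b i =
        ∑ a, ∑ b, (nn u a * J a i j) * (nn u b * τ b i) := by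
      intro i
      rw [Nq_apply, Finset.sum_mul_sum]
    rw [Finset.sum_congr rfl fun i _ => e1 i, Finset.sum_comm]
    refine Finset.sum_congr rfl fun a _ => ?_
    rw [Finset.sum_comm]
    refine Finset.sum_congr rfl fun b _ => ?_
    rw [Finset.mul_sum]
    refine Finset.sum_congr rfl fun i _ => ?_
    ring
  funext j
  rw [he u j, Pi.zero_apply]
  refine nn_quad_zero (u1 := u1) (X := fun a b => ∑ i, J a i j * τ b i) hr (fun u hu => ?_) u
  rw [← he u j, h u hu]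
  rfl

section Main

variable {g : MetricField n} {J : Fin 3 → EuclideanSpace ℝ (Fin n) → Matrix (Fin n) (Fin n) ℝ}
  {c : EuclideanSpace ℝ (Fin n) → Fin n → Fin 3 → Fin 3 → ℝ}
  {U V : Set (EuclideanSpace ℝ (Fin n))} {w : I → ℤ}
  {S : EuclideanSpace ℝ (Fin n) → ℂ → Pt Jt} {κ : ℂ} {u1 v1 : ℂ} {r : ℝ}
  {Φ : Pt Jt × Pt Jt → ℂ}

/-- the coefficients of the germ -/
def gm (S : EuclideanSpace ℝ (Fin n) → ℂ → Pt Jt) (u1 v1 : ℂ) (r : ℝ) (Φ : Pt Jt × Pt Jt → ℂ)
    (x y : EuclideanSpace ℝ (Fin n)) (i j : Fin 3) : ℂ :=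
  ∑ a, ∑ b, Φ (S x (nd u1 r a), S y (nd v1 r b)) * ((lg u1 r a).coeff i * (lg v1 r b).coeff j)

/-- the complex two-point tensor of the germ -/
def gc (S : EuclideanSpace ℝ (Fin n) → ℂ → Pt Jt) (u1 v1 : ℂ) (r : ℝ) (Φ : Pt Jt × Pt Jt → ℂ)
    (a b : Fin 3) (x y : EuclideanSpace ℝ (Fin n)) : ℂ :=
  tn (gm S u1 v1 r Φ x y) a b

theorem Germ.eq_bq (h : Germ w S κ V u1 v1 r Φ) (hr : 0 < r) {x y : EuclideanSpace ℝ (Fin n)}
    (hx : x ∈ V) (hy : y ∈ V) : ∀ u ∈ ball u1 r, ∀ v ∈ ball v1 r,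
      Φ (S x u, S y v) = bq (gm S u1 v1 r Φ x y) u v :=
  bq_interp hr (fun u v => Φ (S x u, S y v)) (h.quad2 x hx y hy) (h.quad1 x hx y hy)

theorem Germ.eq_gc (h : Germ w S κ V u1 v1 r Φ) (hr : 0 < r) {x y : EuclideanSpace ℝ (Fin n)}
    (hx : x ∈ V) (hy : y ∈ V) : ∀ u ∈ ball u1 r, ∀ v ∈ ball v1 r,
      Φ (S x u, S y v) = ∑ a, (∑ b, nn v b * gc S u1 v1 r Φ a b x y) * nn u a := by
  intro u hu v hv
  rw [h.eq_bq hr hx hy u hu v hv, ← sum_tn]
  rfl

/-- swapping the two slots -/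
theorem Germ.swap (h : Germ w S κ V u1 v1 r Φ) :
    Germ w S κ V v1 u1 r (fun q => Φ (q.2, q.1)) where
  ana x hx y hy u hu v hv := ContDiffAt.comp (g := Φ) (f := fun q : Pt Jt × Pt Jt => (q.2, q.1))
    (S x u, S y v) (h.ana y hy x hx v hv u hu) (contDiffAt_snd.prodMk contDiffAt_fst)
  quad2 x hx y hy u hu := h.quad1 y hy x hx u hu
  quad1 x hx y hy v hv := h.quad2 y hy x hx v hv
  diag x hx u hu v hv := by
    change Φ (S x v, S x u) = _
    rw [h.diag x hx v hv u hu]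
    ring
  hom1 x hx y hy u hu v hv := h.hom2 y hy x hx v hv u hu
  hom2 x hx y hy u hu v hv := h.hom1 y hy x hx v hv u hu

theorem gm_swap (x y : EuclideanSpace ℝ (Fin n)) (i j : Fin 3) :
    gm S v1 u1 r (fun q => Φ (q.2, q.1)) x y i j = gm S u1 v1 r Φ y x j i := by
  unfold gm
  rw [Finset.sum_comm]
  refine Finset.sum_congr rfl fun a _ => Finset.sum_congr rfl fun b _ => ?_
  ring

theorem gc_swap (a b : Fin 3) (x y : EuclideanSpace ℝ (Fin n)) :
    gc S v1 u1 r (fun q => Φ (q.2, q.1)) a b x y = gc S u1 v1 r Φ b a y x := by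
  have h : gm S v1 u1 r (fun q => Φ (q.2, q.1)) x y = fun i j => gm S u1 v1 r Φ y x j i := by
    funext i j
    exact gm_swap x y i j
  unfold gc
  rw [h]
  exact tn_swap _ a b

/-- diagonal values -/
theorem Germ.gc_diag (h : Germ w S κ V u1 v1 r Φ) (hr : 0 < r) {x : EuclideanSpace ℝ (Fin n)}
    (hx : x ∈ V) (a b : Fin 3) : gc S u1 v1 r Φ a b x x = if a = b then -κ / 2 else 0 := by
  have h1 : ∀ i j, gm S u1 v1 r Φ x x i j - κ * sqm i j = 0 := by
    refine bq_zero_of_balls (fun i j => gm S u1 v1 r Φ x x i j - κ * sqm i j) (u1 := u1) (v1 := v1)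
      hr (fun u hu v hv => ?_)
    have h2 := h.eq_bq hr hx hx u hu v hv
    have h3 := h.diag x hx u hu v hv
    have h4 := bq_sqm κ u v
    have h5 : bq (fun i j => gm S u1 v1 r Φ x x i j - κ * sqm i j) u v =
        bq (gm S u1 v1 r Φ x x) u v - bq (fun i j => κ * sqm i j) u v := by
      unfold bq
      rw [← Finset.sum_sub_distrib]
      refine Finset.sum_congr rfl fun i _ => ?_
      rw [← Finset.sum_sub_distrib]
      refine Finset.sum_congr rfl fun j _ => ?_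
      ring
    rw [h5, h4, ← h2, h3, sub_self]
  have h2 : gm S u1 v1 r Φ x x = fun i j => κ * sqm i j := by
    funext i j
    exact sub_eq_zero.1 (h1 i j)
  unfold gc
  rw [h2, tn_sqm]

/-- smoothness -/
theorem Germ.sm_phi (h : Germ w S κ V u1 v1 r Φ) (hT : TwIn g J c U w S) (hVU : V ⊆ U)
    {u v : ℂ} (hu : u ∈ ball u1 r) (hv : v ∈ ball v1 r) :
    ContDiffOn ℝ ∞ (fun z : EuclideanSpace ℝ (Fin n) × EuclideanSpace ℝ (Fin n) =>
      Φ (S z.1 u, S z.2 v)) (V ×ˢ V) := by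
  rintro ⟨x, y⟩ ⟨hx, hy⟩
  have h1 : ContDiffAt ℝ ∞ Φ (S x u, S y v) :=
    ((h.ana x hx y hy u hu v hv).restrict_scalars ℝ).of_le (by simp)
  have h2 : ContDiffAt ℝ ∞ (fun z : EuclideanSpace ℝ (Fin n) × EuclideanSpace ℝ (Fin n) =>
      prS S ((z.1, u), (z.2, v))) (x, y) := by
    refine ContDiffAt.comp (g := prS S) (x, y) (hT.contDiffAt_prS (hVU hx) (hVU hy) u v) ?_
    exact (contDiffAt_fst.prodMk contDiffAt_const).prodMk (contDiffAt_snd.prodMk contDiffAt_const)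
  exact (ContDiffAt.comp (g := Φ) (x, y) h1 h2).contDiffWithinAt

theorem Germ.sm_gc (h : Germ w S κ V u1 v1 r Φ) (hr : 0 < r) (hT : TwIn g J c U w S) (hVU : V ⊆ U)
    (a b : Fin 3) : ContDiffOn ℝ ∞ (fun z : EuclideanSpace ℝ (Fin n) × EuclideanSpace ℝ (Fin n) =>
      gc S u1 v1 r Φ a b z.1 z.2) (V ×ˢ V) := by
  unfold gc tn gm
  refine ContDiffOn.sum fun i _ => ContDiffOn.sum fun j _ => ContDiffOn.mul ?_ contDiffOn_const
  refine ContDiffOn.sum fun a' _ => ContDiffOn.sum fun b' _ => ContDiffOn.mul ?_ contDiffOn_const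
  exact h.sm_phi hT hVU (nd_mem u1 hr a') (nd_mem v1 hr b')

theorem Germ.sm_gc1 (h : Germ w S κ V u1 v1 r Φ) (hr : 0 < r) (hT : TwIn g J c U w S)
    (hVU : V ⊆ U) (a b : Fin 3) {y : EuclideanSpace ℝ (Fin n)} (hy : y ∈ V) :
    ContDiffOn ℝ ∞ (fun x => gc S u1 v1 r Φ a b x y) V :=
  ContDiffOn.comp (g := fun z : EuclideanSpace ℝ (Fin n) × EuclideanSpace ℝ (Fin n) =>
      gc S u1 v1 r Φ a b z.1 z.2) (f := fun x => (x, y)) (h.sm_gc hr hT hVU a b)
    (contDiffOn_id.prodMk contDiffOn_const) (fun x hx => ⟨hx, hy⟩)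

/-- `hor` is local -/
theorem hor_congr {f f' : EuclideanSpace ℝ (Fin n) → ℂ → ℂ} (hV : IsOpen V)
    (hf : ∀ x ∈ V, ∀ u ∈ ball u1 r, f x u = f' x u) {x : EuclideanSpace ℝ (Fin n)} (hx : x ∈ V)
    {u : ℂ} (hu : u ∈ ball u1 r) (i : Fin n) : hor c f x u i = hor c f' x u i := by
  have h1 : cpd i (fun y => f y u) x = cpd i (fun y => f' y u) x := by
    apply cpd_congr
    filter_upwards [hV.mem_nhds hx] with y hy
    exact hf y hy u hu
  have h2 : deriv (f x) u = deriv (f' x) u := by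
    apply Filter.EventuallyEq.deriv_eq
    filter_upwards [isOpen_ball.mem_nhds hu] with v hv
    exact hf x hx v hv
  unfold hor
  rw [h1, h2, hf x hx u hu]

/-- **(T1)**, complex form -/
theorem Germ.tw1 (h : Germ w S κ V u1 v1 r Φ) (hr : 0 < r) (hT : TwIn g J c U w S) (hV : IsOpen V)
    (hVU : V ⊆ U) {x y : EuclideanSpace ℝ (Fin n)} (hx : x ∈ V) (hy : y ∈ V) (b a : Fin 3)
    (i : Fin n) :
    nab c (fun a x' => gc S u1 v1 r Φ a b x' y) x a i =
      ∑ k, ((g x * J a x) i k : ℂ) * KK g J c (fun a x' => gc S u1 v1 r Φ a b x' y) x k := by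
  refine tw_of_qd (hT.qh.mono hV hVU) hx (fun u => ?_) a i
  refine qd_nn_zero (u1 := u1) _ _ hr (fun u hu => ?_) u
  have hdiff : ∀ a b, DifferentiableAt ℝ (fun x' => gc S u1 v1 r Φ a b x' y) x := fun a b =>
    ((h.sm_gc1 hr hT hVU a b hy).contDiffAt (hV.mem_nhds hx)).differentiableAt (by simp)
  -- the equation for `∑ b, nn v b * gc a b`
  have key : ∀ v ∈ ball v1 r, ∀ j, ∑ b, nn v b *
      qd (fun a => cm (J a x)) (fun a => nab c (fun a x' => gc S u1 v1 r Φ a b x' y) x a)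
        (nn u) j = 0 := by
    intro v hv j
    set s : Fin 3 → EuclideanSpace ℝ (Fin n) → ℂ :=
      fun a x' => ∑ b, nn v b * gc S u1 v1 r Φ a b x' y with hs
    have hcr := hT.cr x (hVU hx) u (fun q => Φ (q, S y v))
      (ContDiffAt.comp (g := Φ) (f := fun q : Pt Jt => (q, S y v)) (S x u)
        (h.ana x hx y hy u hu v hv) (contDiffAt_id.prodMk contDiffAt_const))
      (h.hom1 x hx y hy u hu v hv) j
    have hsd : ∀ a, DifferentiableAt ℝ (s a) x := fun a =>
      DifferentiableAt.fun_sum fun b _ => (hdiff a b).const_mul (nn v b)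
    have e1 : ∀ i, hor c (fun y' v' => Φ (S y' v', S y v)) x u i =
        ∑ a, nn u a * nab c s x a i := by
      intro i
      rw [hor_congr (f' := fun x' u' => ∑ a, s a x' * nn u' a) hV
        (fun x' hx' u' hu' => h.eq_gc hr hx' hy u' hu' v hv) hx hu i]
      exact hor_sum hV (fun _ _ _ => rfl) hx hsd (fun i a b => hT.qh.skew x (hVU hx) i a b) u i
    have e2 : ∀ a i, nab c s x a i =
        ∑ b, nn v b * nab c (fun a x' => gc S u1 v1 r Φ a b x' y) x a i := by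
      intro a i
      have e3 : cpd i (s a) x = ∑ b, nn v b * cpd i (fun x' => gc S u1 v1 r Φ a b x' y) x := by
        have := cpd_sum (s := fun b x' => gc S u1 v1 r Φ a b x' y) (x := x)
          (fun b => hdiff a b) i (fun b => nn v b)
        have e4 : s a = fun x' => ∑ b, gc S u1 v1 r Φ a b x' y * nn v b := by
          funext x'
          exact Finset.sum_congr rfl fun b _ => mul_comm _ _
        rw [e4, this]
        exact Finset.sum_congr rfl fun b _ => mul_comm _ _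
      unfold nab
      rw [e3]
      simp only [mul_add, Finset.sum_add_distrib, hs]
      congr 1
      simp only [Finset.sum_mul, Finset.mul_sum]
      rw [Finset.sum_comm]
      refine Finset.sum_congr rfl fun b _ => Finset.sum_congr rfl fun d _ => ?_
      ring
    have e5 : ∑ i, Nq (fun a => cm (J a x)) (nn u) i j * ∑ a, nn u a * nab c s x a i = 0 := by
      rw [← hcr]
      exact Finset.sum_congr rfl fun i _ => by rw [e1 i]
    rw [← e5]
    simp only [qd_apply, e2, Finset.mul_sum]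
    rw [Finset.sum_comm]
    refine Finset.sum_congr rfl fun i _ => ?_
    rw [Finset.sum_comm]
    refine Finset.sum_congr rfl fun a _ => Finset.sum_congr rfl fun b _ => ?_
    ring
  funext j
  exact nn_comb_zero hr (fun v hv => key v hv j) b

/-- the real two-point tensor -/
def gr (κ : ℂ) (S : EuclideanSpace ℝ (Fin n) → ℂ → Pt Jt) (u1 v1 : ℂ) (r : ℝ)
    (Φ : Pt Jt × Pt Jt → ℂ) (a b : Fin 3) (x y : EuclideanSpace ℝ (Fin n)) : ℝ :=
  ((-2 / κ) * gc S u1 v1 r Φ a b x y).re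

theorem gr_swap (a b : Fin 3) (x y : EuclideanSpace ℝ (Fin n)) :
    gr κ S v1 u1 r (fun q => Φ (q.2, q.1)) a b x y = gr κ S u1 v1 r Φ b a y x := by
  unfold gr
  rw [gc_swap]

theorem pderiv_re (e : ℂ) {f : EuclideanSpace ℝ (Fin n) → ℂ} {x : EuclideanSpace ℝ (Fin n)}
    (hf : DifferentiableAt ℝ f x) (i : Fin n) :
    pderiv i (fun x' => (e * f x').re) x = (e * cpd i f x).re := by
  have h1 : HasFDerivAt (fun x' => e * f x') (e • fderiv ℝ f x) x := hf.hasFDerivAt.const_mul e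
  have h2 : HasFDerivAt (fun x' => (e * f x').re) (Complex.reCLM.comp (e • fderiv ℝ f x)) x :=
    Complex.reCLM.hasFDerivAt.comp x h1
  unfold pderiv cpd
  rw [h2.fderiv]
  simp

/-- **(T1)**, real form -/
theorem Germ.twr (h : Germ w S κ V u1 v1 r Φ) (hr : 0 < r) (hT : TwIn g J c U w S) (hV : IsOpen V)
    (hVU : V ⊆ U) {x y : EuclideanSpace ℝ (Fin n)} (hx : x ∈ V) (hy : y ∈ V) (b : Fin 3) :
    ∃ K : Fin n → ℝ, ∀ i a,
      pderiv i (fun x' => gr κ S u1 v1 r Φ a b x' y) x +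
        ∑ d, gr κ S u1 v1 r Φ d b x y * c x i d a = ∑ l, ∑ p, g x i l * J a x l p * K p := by
  refine ⟨fun k => ((-2 / κ) * KK g J c (fun a x' => gc S u1 v1 r Φ a b x' y) x k).re,
    fun i a => ?_⟩
  have h1 := h.tw1 hr hT hV hVU hx hy b a i
  have hdiff : ∀ a b, DifferentiableAt ℝ (fun x' => gc S u1 v1 r Φ a b x' y) x := fun a b =>
    ((h.sm_gc1 hr hT hVU a b hy).contDiffAt (hV.mem_nhds hx)).differentiableAt (by simp)
  have h2 : pderiv i (fun x' => gr κ S u1 v1 r Φ a b x' y) x =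
      ((-2 / κ) * cpd i (fun x' => gc S u1 v1 r Φ a b x' y) x).re :=
    pderiv_re _ (hdiff a b) i
  have h3 := congrArg (fun z : ℂ => ((-2 / κ) * z).re) h1
  simp only [nab] at h3
  rw [mul_add, Complex.add_re, Finset.mul_sum, Complex.re_sum, Finset.mul_sum,
    Complex.re_sum] at h3
  rw [h2]
  have h4 : ∀ d, gr κ S u1 v1 r Φ d b x y * c x i d a =
      ((-2 / κ) * (gc S u1 v1 r Φ d b x y * (c x i d a : ℂ))).re := by
    intro d
    rw [← mul_assoc, Complex.re_mul_ofReal]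
    rfl
  rw [Finset.sum_congr rfl fun d _ => h4 d, h3, Finset.sum_comm]
  refine Finset.sum_congr rfl fun k _ => ?_
  rw [← mul_assoc, mul_comm (-2 / κ), mul_assoc, Complex.re_ofReal_mul, Matrix.mul_apply,
    Finset.sum_mul]

theorem Germ.twoPt (h : Germ w S κ V u1 v1 r Φ) (hκ : κ ≠ 0) (hr : 0 < r)
    (hT : TwIn g J c U w S) (hV : IsOpen V) (hVU : V ⊆ U) :
    TwoPt g V J c (gr κ S u1 v1 r Φ) where
  smG a b := Complex.reCLM.contDiff.comp_contDiffOn
    (contDiffOn_const.mul (h.sm_gc hr hT hVU a b))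
  t1 x hx y hy b := h.twr hr hT hV hVU hx hy b
  t2 x hx y hy a := by
    obtain ⟨K, hK⟩ := h.swap.twr hr hT hV hVU hy hx a
    refine ⟨K, fun i b => ?_⟩
    have := hK i b
    simp only [gr_swap] at this
    exact this
  diag x hx a b := by
    unfold gr
    rw [h.gc_diag hr hx]
    by_cases hab : a = b
    · rw [if_pos hab, if_pos hab]
      have : -2 / κ * (-κ / 2) = 1 := by field_simp
      rw [this]
      rfl
    · rw [if_neg hab, if_neg hab, mul_zero]
      rfl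

end Main

/-- **AG-OUT.** -/
theorem out_of_in {g : MetricField n}
    {J : Fin 3 → EuclideanSpace ℝ (Fin n) → Matrix (Fin n) (Fin n) ℝ}
    {c : EuclideanSpace ℝ (Fin n) → Fin n → Fin 3 → Fin 3 → ℝ}
    {U : Set (EuclideanSpace ℝ (Fin n))} {w : I → ℤ}
    {S : EuclideanSpace ℝ (Fin n) → ℂ → Pt Jt} {κ : ℂ}
    {P : Polynomial (MvPolynomial ((Σ i, Jt i) ⊕ (Σ i, Jt i)) ℂ)}
    {D : MvPolynomial ((Σ i, Jt i) ⊕ (Σ i, Jt i)) ℂ}
    (hT : TwIn g J c U w S) (hA : AgIn U w S κ P D) : OutProp g J c U := by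
  intro W hW hne hWU
  obtain ⟨V, hV, hVn, hVW, u1, v1, r, Φ, hr, h⟩ := exists_germ hT hA hW hne hWU
  exact ⟨V, hV, hVn, hVW, _, h.twoPt hA.κ0 hr hT hV (hVW.trans hWU)⟩

end Crest.Agent.R260.Out_516
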