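import Crest.Agent.R260.MainC_803
import Crest.Agent.R260.Qk9_151
import Crest.Agent.R260.Out4_516

/-!
# Row 260 (S0398), MAIN (helper803): the closed Props `DatAll` (151) and `OutT` (516)
-/

set_option autoImplicit false

open Set Filter Topology Polynomial
open scoped ContDiff Matrix Manifold

namespace Crest.Agent.R260.MainC_803

theorem datAll : DatAll := by
  intro m hm M _ _ _ _ _ _ G Q hpos
  exact Qk9_151.dat_all hm rfl G Q hpos

theorem outT : OutT := by
  intro I _ Jt _ n g J c U w S κ P Dn _ hT hA
  exact Out_516.out_of_in hT hA

end Crest.Agent.R260.MainC_803
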