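import Crest.Agent.R260.Tup1_45
import Crest.Agent.R260.OutDefs_516

/-!
Row 260, leaf TUP (helper45), part 3: a smooth family of twistor tuples (`TwFam`) gives the input
`TwIn` of AG-OUT (helper516).

* `euler_of_hom` : Euler's identity for a function of weight `w` near a point
* `TwFam.twIn`
-/

set_option autoImplicit false
set_option linter.unusedSectionVars false

open Complex Matrix Set Filter
open scoped ContDiff Topology
open Crest.GeometryTopology.CoordMetric Crest.GeometryTopology.ChartRiem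
open Crest.Agent.R260.Tw_979 Crest.Agent.R260.TwPen_389 Crest.Agent.R260.Out_516
open Crest.Agent.R270.BM_360

noncomputable section

namespace Crest.Agent.R260.Tup_45

variable {n : ℕ} {I : Type} [Fintype I] {Jt : I → Type} [∀ i, Fintype (Jt i)]

/-- Euler's identity -/
theorem euler_of_hom {β : I → ℕ} {w : I → ℤ} (hw : ∑ i, w i * (β i : ℤ) = 1) {Ψ : Pt Jt → ℂ}
    {v : Pt Jt} (hΨ : DifferentiableAt ℂ Ψ v)
    (hh : ∀ᶠ l in 𝓝 (1 : I → ℂ), Ψ (scl l v) = (∏ i, l i ^ w i) * Ψ v) :
    fderiv ℂ Ψ v (fun y => (β y.1 : ℂ) * v y) = Ψ v := by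
  -- the curve `t ↦ exp (t β)`
  set l : ℂ → I → ℂ := fun t i => Complex.exp (t * β i) with hl
  have hl0 : l 0 = 1 := by funext i; simp [hl]
  have hlc : Continuous l := by
    refine continuous_pi fun i => ?_
    exact Complex.continuous_exp.comp (continuous_id.mul continuous_const)
  have hev : ∀ᶠ t in 𝓝 (0 : ℂ), Ψ (scl (l t) v) = Complex.exp t * Ψ v := by
    have h1 : Tendsto l (𝓝 0) (𝓝 (1 : I → ℂ)) := by
      have := hlc.tendsto 0
      rwa [hl0] at this
    filter_upwards [h1.eventually hh] with t ht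
    rw [ht]
    congr 1
    have h2 : ∀ i, l t i ^ w i = Complex.exp (t * ((w i * (β i : ℤ) : ℤ) : ℂ)) := by
      intro i
      simp only [hl]
      rw [← Complex.exp_int_mul]
      congr 1
      push_cast
      ring
    rw [Finset.prod_congr rfl fun i _ => h2 i, ← Complex.exp_sum, ← Finset.mul_sum]
    congr 1
    have h3 : (∑ i, ((w i * (β i : ℤ) : ℤ) : ℂ)) = 1 := by
      rw [← Int.cast_sum, hw, Int.cast_one]
    rw [h3, mul_one]
  have hd1 : HasDerivAt (fun t => scl (l t) v) (fun y => (β y.1 : ℂ) * v y) 0 := by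
    rw [hasDerivAt_pi]
    intro y
    have h1 : HasDerivAt (fun t : ℂ => Complex.exp (t * β y.1)) (β y.1 : ℂ) 0 := by
      have h2 : HasDerivAt (fun t : ℂ => t * (β y.1 : ℂ)) (β y.1 : ℂ) 0 := by
        simpa using (hasDerivAt_id (0 : ℂ)).mul_const (β y.1 : ℂ)
      have h3 := h2.cexp
      simpa using h3
    exact h1.mul_const (v y)
  have h0 : scl (l 0) v = v := by
    funext y; simp [scl, hl0]
  have hd2 : HasDerivAt (fun t => Ψ (scl (l t) v)) (fderiv ℂ Ψ v (fun y => (β y.1 : ℂ) * v y)) 0 := by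
    have h4 : HasFDerivAt Ψ (fderiv ℂ Ψ v) (scl (l 0) v) := by
      rw [h0]; exact hΨ.hasFDerivAt
    exact h4.comp_hasDerivAt 0 hd1
  have hd3 : HasDerivAt (fun t => Complex.exp t * Ψ v) (Ψ v) 0 := by
    have := (Complex.hasDerivAt_exp 0).mul_const (Ψ v)
    simpa using this
  exact hd2.unique (hd3.congr_of_eventuallyEq hev)

variable {g : MetricField n} {J : Fin 3 → EuclideanSpace ℝ (Fin n) → Matrix (Fin n) (Fin n) ℝ}
  {c : EuclideanSpace ℝ (Fin n) → Fin n → Fin 3 → Fin 3 → ℝ}
  {U : Set (EuclideanSpace ℝ (Fin n))} {E : Set (MvPolynomial (Σ i, Jt i) ℂ)} {β : I → ℕ}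
  {F : EuclideanSpace ℝ (Fin n) → ∀ i, Jt i → Polynomial ℂ}

theorem TwFam.deg (h : TwFam J c U E β F) {x : EuclideanSpace ℝ (Fin n)} (hx : x ∈ U) (i : I)
    (a : Jt i) : (F x i a).natDegree ≤ 2 * β i := by
  have h1 : vdeg (F x i) = 2 * β i := congrFun (h.cls x hx) i
  rw [← h1]
  exact Finset.le_sup (f := fun a => (F x i a).natDegree) (Finset.mem_univ a)

theorem TwFam.evt_eq (h : TwFam J c U E β F) {x : EuclideanSpace ℝ (Fin n)} (hx : x ∈ U) (u : ℂ)
    (y : Σ i, Jt i) : evt (F x) u y =
      ∑ k ∈ Finset.range (2 * β y.1 + 1), (F x y.1 y.2).coeff k * u ^ k := by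
  show (F x y.1 y.2).eval u = _
  exact Polynomial.eval_eq_sum_range' (Nat.lt_succ_of_le (h.deg hx y.1 y.2)) u

theorem TwFam.smooth (h : TwFam J c U E β F) (y : Σ i, Jt i) :
    ContDiffOn ℝ ∞ (fun z : EuclideanSpace ℝ (Fin n) × ℂ => evt (F z.1) z.2 y) (U ×ˢ univ) := by
  have h1 : ContDiffOn ℝ ∞ (fun z : EuclideanSpace ℝ (Fin n) × ℂ =>
      ∑ k ∈ Finset.range (2 * β y.1 + 1), (F z.1 y.1 y.2).coeff k * z.2 ^ k) (U ×ˢ univ) := by
    refine ContDiffOn.sum fun k _ => ?_
    refine ContDiffOn.mul ?_ (contDiff_snd.pow k).contDiffOn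
    exact (h.sm y.1 y.2 k).comp contDiff_fst.contDiffOn (fun z hz => hz.1)
  exact h1.congr fun z hz => h.evt_eq hz.1 z.2 y

theorem TwFam.twIn (hq : QH g J c U) (h : TwFam J c U E β F) {w : I → ℤ}
    (hw : ∑ i, w i * (β i : ℤ) = 1) : TwIn g J c U w (fun x => evt (F x)) where
  qh := hq
  sm := h.smooth
  hol x _ y := (F x y.1 y.2).differentiable
  cr := by
    intro x hx u Ψ hΨ hh j
    have hΨd : DifferentiableAt ℂ Ψ (evt (F x) u) := hΨ.differentiableAt (by simp)
    set S : EuclideanSpace ℝ (Fin n) → ℂ → Pt Jt := fun x => evt (F x) with hS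
    set D := fderiv ℂ Ψ (S x u) with hD
    have hU := hq.isOpen
    -- derivative in the base direction
    have hsx : ∀ y, DifferentiableAt ℝ (fun z => S z u y) x := by
      intro y
      have h1 : ContDiffAt ℝ ∞ (fun z : EuclideanSpace ℝ (Fin n) × ℂ => evt (F z.1) z.2 y) (x, u) :=
        (h.smooth y).contDiffAt ((hU.prod isOpen_univ).mem_nhds ⟨hx, mem_univ _⟩)
      have h2 : DifferentiableAt ℝ (fun z : EuclideanSpace ℝ (Fin n) × ℂ => evt (F z.1) z.2 y)
        (x, u) := h1.differentiableAt (by simp)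
      have h3 : DifferentiableAt ℝ (fun z : EuclideanSpace ℝ (Fin n) => (z, u)) x :=
        differentiableAt_id.prodMk (differentiableAt_const u)
      exact DifferentiableAt.comp (g := fun z : EuclideanSpace ℝ (Fin n) × ℂ => evt (F z.1) z.2 y)
        x h2 h3
    have h1 : ∀ i, cpd i (fun z => Ψ (S z u)) x = D (fun y => cpd i (fun z => S z u y) x) := by
      intro i
      have h2 : HasFDerivAt (fun z => S z u)
          (ContinuousLinearMap.pi fun y => fderiv ℝ (fun z => S z u y) x) x := by
        rw [hasFDerivAt_pi]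
        exact fun y => (hsx y).hasFDerivAt
      have h3 := (hΨd.hasFDerivAt.restrictScalars ℝ).comp x h2
      unfold cpd
      have h4 : (fun z => Ψ (S z u)) = Ψ ∘ fun z => S z u := rfl
      rw [h4, h3.fderiv]
      rfl
    -- derivative in the fibre direction
    have h5 : deriv (fun v => Ψ (S x v)) u = D (fun y => deriv (fun v => S x v y) u) := by
      have h6 : HasDerivAt (fun v => S x v) (fun y => deriv (fun v => S x v y) u) u := by
        rw [hasDerivAt_pi]
        intro y
        exact ((F x y.1 y.2).differentiable u).hasDerivAt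
      have h7 : HasFDerivAt Ψ D (S x u) := hΨd.hasFDerivAt
      exact (h7.comp_hasDerivAt u h6).deriv
    have h8 : D (fun y => (β y.1 : ℂ) * S x u y) = Ψ (S x u) := euler_of_hom hw hΨd hh
    set N := Nq (fun a => cm (J a x)) (nn u) with hN
    have h9 : ∀ y, ∑ i, N i j * (cpd i (fun z => S z u y) x - mu (c x i) u *
        deriv (fun v => S x v y) u) =
        (∑ i, N i j * lam (c x i) u) * ((β y.1 : ℂ) * S x u y) := by
      intro y
      have h10 := h.hol x hx u y.1 y.2 j
      unfold horK at h10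
      have h11 : ∑ i, N i j * (cpd i (fun z => S z u y) x - mu (c x i) u *
          deriv (fun v => S x v y) u - (β y.1 : ℂ) * lam (c x i) u * S x u y) = 0 := h10
      have h12 : ∑ i, N i j * (cpd i (fun z => S z u y) x - mu (c x i) u *
          deriv (fun v => S x v y) u - (β y.1 : ℂ) * lam (c x i) u * S x u y) =
          ∑ i, N i j * (cpd i (fun z => S z u y) x - mu (c x i) u *
            deriv (fun v => S x v y) u) -
          (∑ i, N i j * lam (c x i) u) * ((β y.1 : ℂ) * S x u y) := by
        rw [Finset.sum_mul, ← Finset.sum_sub_distrib]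
        exact Finset.sum_congr rfl fun i _ => by ring
      rw [h12] at h11
      exact sub_eq_zero.1 h11
    -- conclusion
    have h13 : D (fun y => ∑ i, N i j * (cpd i (fun z => S z u y) x - mu (c x i) u *
        deriv (fun v => S x v y) u)) = (∑ i, N i j * lam (c x i) u) * Ψ (S x u) := by
      have e1 : (fun y => ∑ i, N i j * (cpd i (fun z => S z u y) x - mu (c x i) u *
          deriv (fun v => S x v y) u)) =
          (∑ i, N i j * lam (c x i) u) • (fun y => (β y.1 : ℂ) * S x u y) := by
        funext y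
        rw [h9 y]
        rfl
      rw [e1, map_smul, h8, smul_eq_mul]
    have h14 : (fun y => ∑ i, N i j * (cpd i (fun z => S z u y) x - mu (c x i) u *
        deriv (fun v => S x v y) u)) = ∑ i, N i j • ((fun y => cpd i (fun z => S z u y) x) -
          mu (c x i) u • (fun y => deriv (fun v => S x v y) u)) := by
      funext y
      rw [Finset.sum_apply]
      rfl
    rw [h14, map_sum] at h13
    have h15 : ∀ i, hor c (fun y v => Ψ (S y v)) x u i =
        D (fun y => cpd i (fun z => S z u y) x) - mu (c x i) u *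
          D (fun y => deriv (fun v => S x v y) u) - lam (c x i) u * Ψ (S x u) := by
      intro i
      unfold hor
      rw [h1 i]
      show _ - mu (c x i) u * deriv (fun v => Ψ (S x v)) u - _ = _
      rw [h5]
    rw [Finset.sum_congr rfl fun i _ => by rw [h15 i]]
    rw [← sub_eq_zero] at h13
    rw [← h13, Finset.sum_mul, ← Finset.sum_sub_distrib]
    refine Finset.sum_congr rfl fun i _ => ?_
    rw [map_smul, map_sub, map_smul]
    simp only [smul_eq_mul]
    ring

/-- the vectors are points of the cone with non-zero blocks -/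
theorem TwFam.onZ (h : TwFam J c U E β F) {x : EuclideanSpace ℝ (Fin n)} (hx : x ∈ U) (u : ℂ) :
    OnZ E (evt (F x) u) := by
  refine ⟨fun p hp => ?_, fun i => ?_⟩
  · have h1 := (h.map x hx).on p hp
    have h2 := congrArg (Polynomial.eval u) h1
    rw [eval_aeval_poly, Polynomial.eval_zero] at h2
    exact h2
  · by_contra hcon
    push Not at hcon
    have h1 : Ideal.span (Set.range (F x i)) = ⊤ := (h.map x hx).cop i
    have h2 : Ideal.span (Set.range (F x i)) ≤ Ideal.span {Polynomial.X - Polynomial.C u} := by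
      rw [Ideal.span_le]
      rintro _ ⟨a, rfl⟩
      rw [SetLike.mem_coe, Ideal.mem_span_singleton, Polynomial.dvd_iff_isRoot]
      exact hcon a
    rw [h1, top_le_iff, Ideal.span_singleton_eq_top] at h2
    exact Polynomial.not_isUnit_X_sub_C u h2

end Crest.Agent.R260.Tup_45
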