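import Crest.Agent.R260.MainC_803
import Crest.Agent.R260.Con_803
import Crest.Agent.R260.Gen_764
import Crest.Agent.R260.Tup3_45
import Crest.Agent.R260.Tup4_45

/-!
# Row 260 (S0398), MAIN (helper803): the geometric side over one chart

`geoOut_of` : `GeoOut` over one chart of `M` from the output of the bridge (`Out`), the comparison
functions of `L` (`FLink`) and the description of the two charts of the twistor space (`TwCh`).
-/

set_option autoImplicit false
set_option linter.unusedSectionVars false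

open Set Filter Topology Complex
open scoped ContDiff Matrix
open Crest.GeometryTopology.CoordMetric Crest.GeometryTopology.ChartRiem
open Crest.Agent.R270.BM_360 Crest.Agent.R260.Lin_678 Crest.Agent.R260.TwPen_389
open Crest.Agent.R260.Tw_979 Crest.Agent.R260.Out_516 Crest.Agent.R260.Tup_45
open Crest.Agent.R260.ACM_580 Crest.Agent.R260.NNB_580 Crest.Agent.R260.BrDefs_592
open Crest.Agent.R260.BrIf_592 Crest.Agent.R275.Geo Crest.Agent.R275.Core144
open Crest.Agent.R260.Ga_323 (OneForm Contact)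

noncomputable section

namespace Crest.Agent.R260.MainC_803

variable {n d m : ℕ} {Z : Type} [TopologicalSpace Z] {I : Type} [Fintype I]

theorem geoOut_of [PreconnectedSpace Z] {C : ACM (EuclideanSpace ℝ (Fin n) × ℂ) Z}
    (cd : Nn_254.CD C) {A : Atl d Z} {L : LB A} {θ : OneForm L} (hC : Cp C A)
    (K : FLink C A L cd.lam cd.α)
    (hTh : ∀ a i x, x ∈ (A.e a).source → x ∈ (C.e i).source → ∀ v, cd.θ i (C.e i x) v =
      K.κ a i (C.e i x) * θ.app a x (fderiv ℝ (fun y => A.e a ((C.e i).symm y)) (C.e i x) v))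
    {S : MSys A L I} {w : I → ℤ} (O : Out S θ m w)
    {g : MetricField n} {J : Fin 3 → EuclideanSpace ℝ (Fin n) → Matrix (Fin n) (Fin n) ℝ}
    {c : EuclideanSpace ℝ (Fin n) → Fin n → Fin 3 → Fin 3 → ℝ}
    {Jo : EuclideanSpace ℝ (Fin n) → Fin 3 →
      (EuclideanSpace ℝ (Fin n) →L[ℝ] EuclideanSpace ℝ (Fin n))}
    {Th : EuclideanSpace ℝ (Fin n) → Fin 3 → (EuclideanSpace ℝ (Fin n) →L[ℝ] ℝ)}
    {U : Set (EuclideanSpace ℝ (Fin n))} {ip im : C.ι}
    (ch : TwCh C cd.lam cd.α J c Jo Th U ip im) (hQH : QH g J c U) (hQT : ∀ y ∈ U, QT (Jo y))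
    (hθ : ∀ x ∈ U, ∀ w, cd.θ ip (x, w) (0, 1) = 1) :
    ∃ F : EuclideanSpace ℝ (Fin n) → ∀ i, S.J i → Polynomial ℂ, GeoOut g J c U O.D F 1 := by
  obtain ⟨F, hF, hF1, -, -⟩ := (rawFam_of_link ch hC S K).exists_fam ch.isOpen
  -- the link
  have hlink : ∀ x ∈ U, ∀ w' a, (C.e ip).symm (x, w') ∈ (A.e a).source → ∀ i b,
      (F x i b).eval w' = K.κ a ip (C.e ip ((C.e ip).symm (x, w'))) ^ S.β i *
        S.pt a ((C.e ip).symm (x, w')) i b := by
    intro x hx w' a ha i b
    rw [hF1 x hx w' i b]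
    have ht : (x, w') ∈ (C.e ip).target := by rw [ch.tp]; exact ⟨hx, mem_univ _⟩
    rw [(C.e ip).right_inv ht]
    exact sec_eq' S K ht ha i b
  have hfam : TwFam J c U O.D.E O.D.β F := by
    rw [O.hE, O.hβ]
    exact hF
  have hw' : ∑ i, O.D.w i * (O.D.β i : ℤ) = 1 := O.D.wβ
  refine ⟨F, ?_, TwFam.twIn hQH hfam hw', hfam, one_ne_zero, ?_, ?_⟩
  · rw [O.hE]
    exact O.prime.1
  · -- the contact constant
    intro x hx
    refine Con_803.con_of_link (C := C) O.link (by rw [← O.hβ]; exact hw') cd hC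
      (fun a i x => K.κ a i (C.e i x)) (fun a i x ha hi => K.ne a i x ha hi) ?_ hTh ip
      (fun w' => by rw [ch.tp]; exact ⟨hx, mem_univ _⟩) (hlink x hx) (hθ x hx)
    intro a i y hy
    have h1 : ContDiffAt ℝ ∞ (K.κ a i) y := by
      have h2 := K.sm a i ((C.e i).symm y) hy.2 ((C.e i).map_target hy.1)
      rwa [(C.e i).right_inv hy.1] at h2
    have h3 : (fun y => K.κ a i (C.e i ((C.e i).symm y))) =ᶠ[𝓝 y] K.κ a i := by
      filter_upwards [(C.e i).open_target.mem_nhds hy.1] with z hz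
      rw [(C.e i).right_inv hz]
    exact (h1.congr_of_eventuallyEq h3).contDiffWithinAt
  · -- density
    intro Dn hB hN W hW hWn hWU
    have hgen := Pair_764.gen_of_acm C A hC (fun c x => S.pt c x)
      (fun a i b => pt_holAt S a i b)
      (fun a a' x hx => ⟨fun i => L.g a a' x ^ S.β i, by
        funext i b
        exact S.pt_chg hx i b⟩) S.E
      (fun v hv => by
        obtain ⟨a, x, hx, l, -, h⟩ := O.pt v hv.on hv.ne
        exact ⟨a, x, hx, l, h⟩)
      ip Jo Th U (by rw [ch.tp]) ch.hJ hQT F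
      (fun x hx w' a ha => by
        have hne : ∀ i, K.κ a ip (C.e ip ((C.e ip).symm (x, w'))) ^ S.β i ≠ 0 := fun i =>
          pow_ne_zero _ (K.ne a ip _ ha ((C.e ip).map_target (by rw [ch.tp]; exact ⟨hx, mem_univ _⟩)))
        refine ⟨fun i => (K.κ a ip (C.e ip ((C.e ip).symm (x, w'))) ^ S.β i)⁻¹, ?_⟩
        funext i b
        show _ = _ * (F x i b).eval w'
        rw [hlink x hx w' a ha i b, ← mul_assoc, inv_mul_cancel₀ (hne i), one_mul])
      Dn hB ?_ W hWU hW hWn
    · obtain ⟨x, hx, s, t, hst, h⟩ := hgen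
      exact ⟨x, hx, s, t, hst, h⟩
    · obtain ⟨a, b, ha, hb, h⟩ := hN
      rw [O.hE] at ha hb
      refine ⟨fun i j => a ⟨i, j⟩, fun i j => b ⟨i, j⟩, ⟨ha.1, fun i h0 => ?_⟩,
        ⟨hb.1, fun i h0 => ?_⟩, h⟩
      · obtain ⟨j, hj⟩ := ha.2 i
        exact hj (congrFun h0 j)
      · obtain ⟨j, hj⟩ := hb.2 i
        exact hj (congrFun h0 j)

end Crest.Agent.R260.MainC_803
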