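import Crest.Agent.R260.MainD_803
import Crest.Agent.R260.MainH_803

/-!
# Row 260 (S0398), MAIN (helper803): S0398 from the open Props
-/

set_option autoImplicit false

open scoped Manifold ContDiff
open Crest.GeometryTopology.CoordMetric Crest.GeometryTopology.ChartRiem

namespace Crest.Agent.R260.MainC_803

/-- **S0398** from the five remaining statements -/
theorem s0398_of (hNN : NNP) (hTW : TwP) (hCX : CxP) (hBR : BrIf_592.Bridge) (hAG : AGCore)
    (m : ℕ) (hm : 2 ≤ m) (M : Type) [TopologicalSpace M] [T2Space M] [CompactSpace M]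
    [ConnectedSpace M] [ChartedSpace (EuclideanSpace ℝ (Fin (4 * m))) M]
    [IsManifold 𝓘(ℝ, EuclideanSpace ℝ (Fin (4 * m))) ∞ M] (G : ChartMetric (4 * m) M)
    (Q : QuaternionicStructure (4 * m) M G)
    (hpos : ∀ e ∈ atlas (EuclideanSpace ℝ (Fin (4 * m))) M, ∀ x ∈ e.target,
      0 < scalarCurv (G.g e) x) :
    ∀ e ∈ atlas (EuclideanSpace ℝ (Fin (4 * m))) M, ∀ x ∈ e.target,
      ∀ a l i j k : Fin (4 * m), covDerivRiemann (G.g e) x a l i j k = 0 :=
  main_of datAll (geo_of hNN hTW hCX hBR) hAG outT m hm M G Q hpos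

end Crest.Agent.R260.MainC_803
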