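import Crest.Agent.R269.GEll_19

/-!
# Row 260 (helper597), NN-R, file 1: regularity for elliptic first order systems

`p j + i q j` (`j` in a finite type) are complex vector fields with smooth coefficients on an open set `U`
of `ℝ^m`, such that `Σ_j (p_j p_jᵀ + q_j q_jᵀ)` is positive definite on `U` (= the `c_j = p_j + i q_j` together with
their conjugates span `ℂ^m`).  If `f + i g ∈ L¹_loc` satisfies `c_j (f + i g) = μ_j + i ν_j` weakly, with smooth right
hand sides, then `f + i g` is smooth (`fos_real`).  No integrability of the system is used.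

Proof: `Σ_j (c̄_j + m_j) c_j` is a REAL elliptic operator for suitable functions `m_j`.
-/

set_option autoImplicit false

noncomputable section

open scoped BigOperators ContDiff
open MeasureTheory Set Filter Topology
open Crest.GeometryTopology.CoordMetric (pderiv)
open Crest.Agent.R202.Ell
open Crest.Agent.R269.GEll_19 (Wk Dat gen_ell TF contDiffOn_inv int_loc)

namespace Crest.Agent.R260.NNR_597

abbrev E (m : ℕ) := EuclideanSpace ℝ (Fin m)

variable {m : ℕ} {ι : Type*} [Fintype ι]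

/-- divergence of `φ X` -/
def Dv (X : Fin m → E m → ℝ) (φ : E m → ℝ) (x : E m) : ℝ :=
  ∑ a, pderiv a (fun y => X a y * φ y) x

/-! ### calculus of test functions -/

/-- test functions supported in `U` -/
def TU (U : Set (E m)) (φ : E m → ℝ) : Prop := TF φ ∧ tsupport φ ⊆ U

theorem TU.diff {U : Set (E m)} {φ : E m → ℝ} (h : TU U φ) : Differentiable ℝ φ :=
  h.1.1.differentiable (by simp)

theorem TU.mul {U : Set (E m)} (hU : IsOpen U) {φ g : E m → ℝ} (h : TU U φ)
    (hg : ContDiffOn ℝ ∞ g U) : TU U fun x => g x * φ x :=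
  ⟨h.1.smul hU h.2 hg, (tsupport_mul_subset_right (f := g) (g := φ)).trans h.2⟩

theorem TU.pd {U : Set (E m)} {φ : E m → ℝ} (h : TU U φ) (a : Fin m) : TU U (pderiv a φ) :=
  ⟨h.1.pd a, (tsupport_pderiv_subset φ a).trans h.2⟩

theorem TU.add {U : Set (E m)} {φ ψ : E m → ℝ} (h : TU U φ) (h' : TU U ψ) :
    TU U fun x => φ x + ψ x := by
  refine ⟨h.1.add h'.1, ?_⟩
  exact (tsupport_add φ ψ).trans (union_subset h.2 h'.2)

theorem TU.neg {U : Set (E m)} {φ : E m → ℝ} (h : TU U φ) : TU U fun x => - φ x := by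
  have h1 : TF fun x => - φ x := ⟨h.1.1.neg, h.1.2.neg⟩
  refine ⟨h1, ?_⟩
  have : tsupport (fun x => - φ x) = tsupport φ := by
    unfold tsupport
    rw [Function.support_fun_neg]
  rw [this]
  exact h.2

theorem TU.sub {U : Set (E m)} {φ ψ : E m → ℝ} (h : TU U φ) (h' : TU U ψ) :
    TU U fun x => φ x - ψ x := by
  have := h.add h'.neg
  simpa only [sub_eq_add_neg] using this

theorem TU.sum {U : Set (E m)} {κ : Type*} (s : Finset κ) {φ : κ → E m → ℝ}
    (h : ∀ i ∈ s, TU U (φ i)) : TU U fun x => ∑ i ∈ s, φ i x := by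
  classical
  induction s using Finset.induction_on with
  | empty =>
    simp only [Finset.sum_empty]
    refine ⟨⟨contDiff_const, HasCompactSupport.zero⟩, ?_⟩
    have : tsupport (fun _ : E m => (0 : ℝ)) = ∅ := by
      rw [tsupport_eq_empty_iff]
      rfl
    rw [this]
    exact empty_subset _
  | insert i s hi ih =>
    simp only [Finset.sum_insert hi]
    exact (h i (Finset.mem_insert_self _ _)).add
      (ih fun j hj => h j (Finset.mem_insert_of_mem hj))

theorem pderiv_sum_diff {κ : Type*} (s : Finset κ) {F : κ → E m → ℝ} (a : Fin m) {x : E m}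
    (h : ∀ i ∈ s, DifferentiableAt ℝ (F i) x) :
    pderiv a (fun y => ∑ i ∈ s, F i y) x = ∑ i ∈ s, pderiv a (F i) x := by
  unfold pderiv
  rw [fderiv_fun_sum h]
  simp

theorem pderiv_add_diff {F G : E m → ℝ} (a : Fin m) {x : E m}
    (h : DifferentiableAt ℝ F x) (h' : DifferentiableAt ℝ G x) :
    pderiv a (fun y => F y + G y) x = pderiv a F x + pderiv a G x := by
  unfold pderiv
  rw [fderiv_fun_add h h']
  simp

theorem pderiv_sub_diff {F G : E m → ℝ} (a : Fin m) {x : E m}
    (h : DifferentiableAt ℝ F x) (h' : DifferentiableAt ℝ G x) :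
    pderiv a (fun y => F y - G y) x = pderiv a F x - pderiv a G x := by
  unfold pderiv
  rw [fderiv_fun_sub h h']
  simp

theorem pderiv_mul_diff {F G : E m → ℝ} (a : Fin m) {x : E m}
    (h : DifferentiableAt ℝ F x) (h' : DifferentiableAt ℝ G x) :
    pderiv a (fun y => F y * G y) x = pderiv a F x * G x + F x * pderiv a G x := by
  unfold pderiv
  rw [fderiv_fun_mul h h']
  simp
  ring

/-- second derivatives commute -/
theorem pderiv_comm {F : E m → ℝ} (hF : ContDiff ℝ ∞ F) (a b : Fin m) (x : E m) :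
    pderiv a (pderiv b F) x = pderiv b (pderiv a F) x := by
  have h2 : ContDiff ℝ 2 F := hF.of_le (WithTop.coe_le_coe.2 (le_top : (2 : ℕ∞) ≤ ⊤))
  have hs : IsSymmSndFDerivAt ℝ F x := (h2.contDiffAt).isSymmSndFDerivAt (by simp)
  have hd : DifferentiableAt ℝ (fderiv ℝ F) x :=
    ((h2.fderiv_right (m := 1) (by norm_num)).differentiable (by simp)) x
  have e : ∀ c d : Fin m, pderiv c (pderiv d F) x =
      fderiv ℝ (fderiv ℝ F) x (EuclideanSpace.single c 1) (EuclideanSpace.single d 1) := by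
    intro c d
    unfold pderiv
    rw [fderiv_clm_apply hd (differentiableAt_const _)]
    simp
  rw [e a b, e b a]
  exact hs.eq _ _

/-! ### the real second order operator -/

section core

variable (p q : ι → Fin m → E m → ℝ)

/-- symmetric part -/
def Am (x : E m) : Matrix (Fin m) (Fin m) ℝ :=
  Matrix.of fun a b => ∑ j, (p j a x * p j b x + q j a x * q j b x)

/-- antisymmetric part -/
def Bm (a b : Fin m) (x : E m) : ℝ := ∑ j, (p j a x * q j b x - q j a x * p j b x)

def dl (b : Fin m) (x : E m) : ℝ := ∑ a, pderiv a (Bm p q b a) x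

def ww (a : Fin m) (x : E m) : ℝ := ∑ b, (Am p q x)⁻¹ a b * dl p q b x

def bt (b : Fin m) (x : E m) : ℝ := ∑ a, ww p q a x * Bm p q a b x

def pw (j : ι) (x : E m) : ℝ := ∑ a, p j a x * ww p q a x

def qw (j : ι) (x : E m) : ℝ := ∑ a, q j a x * ww p q a x

def ps1 (φ : E m → ℝ) (j : ι) (x : E m) : ℝ :=
  ∑ a, p j a x * pderiv a φ x - qw p q j x * φ x

def ps2 (φ : E m → ℝ) (j : ι) (x : E m) : ℝ :=
  - ∑ a, q j a x * pderiv a φ x - pw p q j x * φ x

theorem Am_symm (x : E m) (a b : Fin m) : Am p q x a b = Am p q x b a := by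
  simp only [Am, Matrix.of_apply]
  exact Finset.sum_congr rfl fun j _ => by ring

theorem Bm_anti (x : E m) (a b : Fin m) : Bm p q a b x = - Bm p q b a x := by
  simp only [Bm]
  rw [← Finset.sum_neg_distrib]
  exact Finset.sum_congr rfl fun j _ => by ring

/-- smooth data -/
structure DF (U : Set (E m)) : Prop where
  op : IsOpen U
  sp : ∀ j a, ContDiffOn ℝ ∞ (p j a) U
  sq : ∀ j a, ContDiffOn ℝ ∞ (q j a) U
  pos : ∀ x ∈ U, (Am p q x).PosDef

variable {p q} {U : Set (E m)}

namespace DF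

theorem sA (h : DF p q U) (a b : Fin m) : ContDiffOn ℝ ∞ (fun x => Am p q x a b) U := by
  simp only [Am, Matrix.of_apply]
  exact ContDiffOn.sum fun j _ => ((h.sp j a).mul (h.sp j b)).add ((h.sq j a).mul (h.sq j b))

theorem sB (h : DF p q U) (a b : Fin m) : ContDiffOn ℝ ∞ (Bm p q a b) U :=
  ContDiffOn.sum fun j _ => ((h.sp j a).mul (h.sq j b)).sub ((h.sq j a).mul (h.sp j b))

theorem sdl (h : DF p q U) (b : Fin m) : ContDiffOn ℝ ∞ (dl p q b) U :=
  ContDiffOn.sum fun a _ => contDiffOn_pd h.op (h.sB b a) a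

theorem sww (h : DF p q U) (a : Fin m) : ContDiffOn ℝ ∞ (ww p q a) U :=
  ContDiffOn.sum fun b _ => (contDiffOn_inv (K := Am p q) h.sA
    (fun z hz => (h.pos z hz).det_pos.ne') a b).mul (h.sdl b)

theorem sbt (h : DF p q U) (b : Fin m) : ContDiffOn ℝ ∞ (bt p q b) U :=
  ContDiffOn.sum fun a _ => (h.sww a).mul (h.sB a b)

theorem spw (h : DF p q U) (j : ι) : ContDiffOn ℝ ∞ (pw p q j) U :=
  ContDiffOn.sum fun a _ => (h.sp j a).mul (h.sww a)

theorem sqw (h : DF p q U) (j : ι) : ContDiffOn ℝ ∞ (qw p q j) U :=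
  ContDiffOn.sum fun a _ => (h.sq j a).mul (h.sww a)

theorem Aw (h : DF p q U) {x : E m} (hx : x ∈ U) (b : Fin m) :
    ∑ a, Am p q x a b * ww p q a x = dl p q b x := by
  have hdet : IsUnit (Am p q x).det := (h.pos x hx).det_pos.ne'.isUnit
  have h1 : (Am p q x).mulVec ((Am p q x)⁻¹.mulVec fun b => dl p q b x) = fun b => dl p q b x := by
    rw [Matrix.mulVec_mulVec, Matrix.mul_nonsing_inv _ hdet, Matrix.one_mulVec]
  have h2 := congrFun h1 b
  rw [← h2]
  simp only [Matrix.mulVec, dotProduct, ww]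
  exact Finset.sum_congr rfl fun a _ => by rw [Am_symm]

theorem tp1 (h : DF p q U) {φ : E m → ℝ} (hφ : TU U φ) (j : ι) : TU U (ps1 p q φ j) :=
  (TU.sum _ fun a _ => (hφ.pd a).mul h.op (h.sp j a)).sub (hφ.mul h.op (h.sqw j))

theorem tp2 (h : DF p q U) {φ : E m → ℝ} (hφ : TU U φ) (j : ι) : TU U (ps2 p q φ j) :=
  (TU.sum _ fun a _ => (hφ.pd a).mul h.op (h.sq j a)).neg.sub (hφ.mul h.op (h.spw j))

end DF

theorem zero_of_notMem {φ : E m → ℝ} {x : E m} (hx : x ∉ tsupport φ) : φ x = 0 :=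
  image_eq_zero_of_notMem_tsupport hx

theorem t1_eq (φ : E m → ℝ) (x : E m) (b : Fin m) :
    ∑ j, (p j b x * ps1 p q φ j x - q j b x * ps2 p q φ j x) =
      ∑ a, Am p q x b a * pderiv a φ x + bt p q b x * φ x := by
  have h1 : ∀ j, p j b x * ps1 p q φ j x - q j b x * ps2 p q φ j x =
      ∑ a, ((p j b x * p j a x + q j b x * q j a x) * pderiv a φ x +
        ww p q a x * (p j a x * q j b x - q j a x * p j b x) * φ x) := by
    intro j
    simp only [ps1, ps2, pw, qw]
    have e : p j b x * (∑ a, p j a x * pderiv a φ x - (∑ a, q j a x * ww p q a x) * φ x) -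
        q j b x * (- ∑ a, q j a x * pderiv a φ x - (∑ a, p j a x * ww p q a x) * φ x) =
        p j b x * (∑ a, p j a x * pderiv a φ x) + q j b x * (∑ a, q j a x * pderiv a φ x) +
        (q j b x * φ x * (∑ a, p j a x * ww p q a x) -
          p j b x * φ x * (∑ a, q j a x * ww p q a x)) := by ring
    rw [e, Finset.mul_sum, Finset.mul_sum, Finset.mul_sum, Finset.mul_sum,
      ← Finset.sum_add_distrib, ← Finset.sum_sub_distrib, ← Finset.sum_add_distrib]
    exact Finset.sum_congr rfl fun a _ => by ring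
  simp only [h1]
  rw [Finset.sum_comm]
  simp only [Am, Matrix.of_apply, bt, Bm]
  rw [Finset.sum_mul, ← Finset.sum_add_distrib]
  refine Finset.sum_congr rfl fun a _ => ?_
  rw [Finset.sum_add_distrib, Finset.sum_mul, Finset.mul_sum, Finset.sum_mul]

theorem t2_eq (h : DF p q U) {φ : E m → ℝ} (hφ : TU U φ) (x : E m) (b : Fin m) :
    ∑ j, (p j b x * ps2 p q φ j x + q j b x * ps1 p q φ j x) =
      ∑ a, pderiv a (fun y => Bm p q a b y * φ y) x := by
  by_cases hx : x ∈ U
  · have h1 : ∀ j, p j b x * ps2 p q φ j x + q j b x * ps1 p q φ j x =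
        ∑ a, ((p j a x * q j b x - q j a x * p j b x) * pderiv a φ x -
          (p j a x * p j b x + q j a x * q j b x) * ww p q a x * φ x) := by
      intro j
      simp only [ps1, ps2, pw, qw]
      have e : p j b x * (- ∑ a, q j a x * pderiv a φ x - (∑ a, p j a x * ww p q a x) * φ x) +
          q j b x * (∑ a, p j a x * pderiv a φ x - (∑ a, q j a x * ww p q a x) * φ x) =
          q j b x * (∑ a, p j a x * pderiv a φ x) - p j b x * (∑ a, q j a x * pderiv a φ x) -
          (p j b x * φ x * (∑ a, p j a x * ww p q a x) +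
            q j b x * φ x * (∑ a, q j a x * ww p q a x)) := by ring
      rw [e, Finset.mul_sum, Finset.mul_sum, Finset.mul_sum, Finset.mul_sum,
        ← Finset.sum_add_distrib, ← Finset.sum_sub_distrib, ← Finset.sum_sub_distrib]
      exact Finset.sum_congr rfl fun a _ => by ring
    simp only [h1]
    rw [Finset.sum_comm]
    have h2 : ∀ a, ∑ j, ((p j a x * q j b x - q j a x * p j b x) * pderiv a φ x -
          (p j a x * p j b x + q j a x * q j b x) * ww p q a x * φ x) =
        Bm p q a b x * pderiv a φ x - (Am p q x a b * ww p q a x) * φ x := by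
      intro a
      simp only [Am, Matrix.of_apply, Bm]
      rw [Finset.sum_sub_distrib, Finset.sum_mul, Finset.sum_mul, Finset.sum_mul]
    simp only [h2]
    rw [Finset.sum_sub_distrib, ← Finset.sum_mul, h.Aw hx, dl, Finset.sum_mul,
      ← Finset.sum_sub_distrib]
    refine Finset.sum_congr rfl fun a _ => ?_
    have hB : ∀ c d, DifferentiableAt ℝ (Bm p q c d) x := fun c d =>
      ((h.sB c d).contDiffAt (h.op.mem_nhds hx)).differentiableAt (by simp)
    rw [pderiv_mul_diff a (hB a b) (hφ.diff x)]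
    have e2 : pderiv a (Bm p q a b) x = - pderiv a (Bm p q b a) x := by
      have : Bm p q a b = fun y => - Bm p q b a y := funext fun y => Bm_anti p q y a b
      rw [this]
      unfold pderiv
      rw [fderiv_fun_neg]
      simp
    rw [e2]
    ring
  · have hx' : x ∉ tsupport φ := fun h' => hx (hφ.2 h')
    have h0 : ∀ a, pderiv a φ x = 0 := fun a => pderiv_eq_zero_of_notMem hx' a
    have h1 : ∀ a, pderiv a (fun y => Bm p q a b y * φ y) x = 0 := fun a =>
      pderiv_eq_zero_of_notMem (fun h' => hx' (tsupport_mul_subset_right h')) a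
    simp only [ps1, ps2, h0, h1, zero_of_notMem hx', mul_zero, Finset.sum_const_zero, sub_zero,
      neg_zero, add_zero]

theorem anti_zero (h : DF p q U) {φ : E m → ℝ} (hφ : TU U φ) (x : E m) :
    ∑ b, pderiv b (fun y => ∑ a, pderiv a (fun y => Bm p q a b y * φ y) y) x = 0 := by
  have hT : ∀ a b, TU U fun y => Bm p q a b y * φ y := fun a b => hφ.mul h.op (h.sB a b)
  have h1 : ∀ b, pderiv b (fun y => ∑ a, pderiv a (fun y => Bm p q a b y * φ y) y) x =
      ∑ a, pderiv b (pderiv a (fun y => Bm p q a b y * φ y)) x := fun b =>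
    pderiv_sum_diff _ b fun a _ => ((hT a b).pd a).diff x
  simp only [h1]
  have h2 : ∀ a b, pderiv b (pderiv a (fun y => Bm p q a b y * φ y)) x =
      - pderiv a (pderiv b (fun y => Bm p q b a y * φ y)) x := by
    intro a b
    rw [pderiv_comm (hT a b).1.1 b a x]
    have e : (fun y => Bm p q a b y * φ y) = fun y => - (Bm p q b a y * φ y) := by
      funext y
      rw [Bm_anti p q y a b]
      ring
    have e2 : pderiv b (fun y => Bm p q a b y * φ y) =
        fun z => - pderiv b (fun y => Bm p q b a y * φ y) z := by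
      funext z
      rw [e]
      unfold pderiv
      rw [fderiv_fun_neg]
      simp
    rw [e2]
    unfold pderiv
    rw [fderiv_fun_neg]
    simp
  have h3 : ∑ b, ∑ a, pderiv b (pderiv a (fun y => Bm p q a b y * φ y)) x =
      - ∑ b, ∑ a, pderiv b (pderiv a (fun y => Bm p q a b y * φ y)) x := by
    have h4 : ∑ b, ∑ a, pderiv b (pderiv a (fun y => Bm p q a b y * φ y)) x =
        ∑ b, ∑ a, - pderiv a (pderiv b (fun y => Bm p q b a y * φ y)) x :=
      Finset.sum_congr rfl fun b _ => Finset.sum_congr rfl fun a _ => h2 a b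
    have h5 : ∑ b, ∑ a, - pderiv a (pderiv b (fun y => Bm p q b a y * φ y)) x =
        - ∑ b, ∑ a, pderiv b (pderiv a (fun y => Bm p q a b y * φ y)) x := by
      simp only [Finset.sum_neg_distrib]
      rw [Finset.sum_comm]
    exact h4.trans h5
  linarith

/-- the real operator, transposed -/
theorem key1 (h : DF p q U) {φ : E m → ℝ} (hφ : TU U φ) (x : E m) :
    ∑ j, (Dv (p j) (ps1 p q φ j) x - Dv (q j) (ps2 p q φ j) x) =
      Wk (Am p q) (fun b y => - bt p q b y) (fun _ => 0) φ x := by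
  have c1 : ∀ j b, TU U fun y => p j b y * ps1 p q φ j y := fun j b =>
    (h.tp1 hφ j).mul h.op (h.sp j b)
  have c2 : ∀ j b, TU U fun y => q j b y * ps2 p q φ j y := fun j b =>
    (h.tp2 hφ j).mul h.op (h.sq j b)
  have h1 : ∀ j, Dv (p j) (ps1 p q φ j) x - Dv (q j) (ps2 p q φ j) x =
      ∑ b, pderiv b (fun y => p j b y * ps1 p q φ j y - q j b y * ps2 p q φ j y) x := by
    intro j
    unfold Dv
    rw [← Finset.sum_sub_distrib]
    exact Finset.sum_congr rfl fun b _ =>
      (pderiv_sub_diff b ((c1 j b).diff x) ((c2 j b).diff x)).symm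
  simp only [h1]
  rw [Finset.sum_comm]
  have h2 : ∀ b, ∑ j, pderiv b (fun y => p j b y * ps1 p q φ j y - q j b y * ps2 p q φ j y) x =
      pderiv b (fun y => ∑ a, Am p q y b a * pderiv a φ y) x +
        pderiv b (fun y => bt p q b y * φ y) x := by
    intro b
    rw [← pderiv_sum_diff _ b fun j _ => ((c1 j b).sub (c2 j b)).diff x]
    simp only [t1_eq]
    exact pderiv_add_diff b ((TU.sum _ fun a _ => (hφ.pd a).mul h.op (h.sA b a)).diff x)
      ((hφ.mul h.op (h.sbt b)).diff x)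
  simp only [h2]
  unfold Wk divA
  rw [Finset.sum_add_distrib, zero_mul, add_zero]
  have h3 : ∀ i, pderiv i (fun y => - bt p q i y * φ y) x =
      - pderiv i (fun y => bt p q i y * φ y) x := by
    intro i
    have : (fun y => - bt p q i y * φ y) = fun y => - (bt p q i y * φ y) := by
      funext y
      ring
    rw [this]
    unfold pderiv
    rw [fderiv_fun_neg]
    simp
  simp only [h3, Finset.sum_neg_distrib]
  ring

theorem key2 (h : DF p q U) {φ : E m → ℝ} (hφ : TU U φ) (x : E m) :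
    ∑ j, (Dv (p j) (ps2 p q φ j) x + Dv (q j) (ps1 p q φ j) x) = 0 := by
  have c1 : ∀ j b, TU U fun y => p j b y * ps2 p q φ j y := fun j b =>
    (h.tp2 hφ j).mul h.op (h.sp j b)
  have c2 : ∀ j b, TU U fun y => q j b y * ps1 p q φ j y := fun j b =>
    (h.tp1 hφ j).mul h.op (h.sq j b)
  have h1 : ∀ j, Dv (p j) (ps2 p q φ j) x + Dv (q j) (ps1 p q φ j) x =
      ∑ b, pderiv b (fun y => p j b y * ps2 p q φ j y + q j b y * ps1 p q φ j y) x := by
    intro j
    unfold Dv
    rw [← Finset.sum_add_distrib]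
    exact Finset.sum_congr rfl fun b _ =>
      (pderiv_add_diff b ((c1 j b).diff x) ((c2 j b).diff x)).symm
  simp only [h1]
  rw [Finset.sum_comm]
  have h2 : ∀ b, ∑ j, pderiv b (fun y => p j b y * ps2 p q φ j y + q j b y * ps1 p q φ j y) x =
      pderiv b (fun y => ∑ a, pderiv a (fun y => Bm p q a b y * φ y) y) x := by
    intro b
    rw [← pderiv_sum_diff _ b fun j _ => ((c1 j b).add (c2 j b)).diff x]
    simp only [t2_eq h hφ]
  simp only [h2]
  exact anti_zero h hφ x


/-! ### weak solutions -/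

/-- `(p_j + i q_j)(f + i g) = μ_j + i ν_j` weakly on `U` -/
structure Wsol (p q : ι → Fin m → E m → ℝ) (U : Set (E m)) (f g : E m → ℝ)
    (μ ν : ι → E m → ℝ) : Prop where
  lf : LocallyIntegrableOn f U
  lg : LocallyIntegrableOn g U
  e1 : ∀ j φ, TU U φ → ∫ x, (f x * Dv (p j) φ x - g x * Dv (q j) φ x) = - ∫ x, μ j x * φ x
  e2 : ∀ j φ, TU U φ → ∫ x, (f x * Dv (q j) φ x + g x * Dv (p j) φ x) = - ∫ x, ν j x * φ x

omit [Fintype ι] in
theorem Wsol.rot {f g : E m → ℝ} {μ ν : ι → E m → ℝ} (w : Wsol p q U f g μ ν) :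
    Wsol p q U g (fun x => - f x) ν (fun j x => - μ j x) := by
  refine ⟨w.lg, w.lf.neg, fun j φ hφ => ?_, fun j φ hφ => ?_⟩
  · rw [← w.e2 j φ hφ]
    exact integral_congr_ae (Eventually.of_forall fun x => by ring)
  · have h1 := w.e1 j φ hφ
    have h2 : ∫ x, (g x * Dv (q j) φ x + - f x * Dv (p j) φ x) =
        - ∫ x, (f x * Dv (p j) φ x - g x * Dv (q j) φ x) := by
      rw [← integral_neg]
      exact integral_congr_ae (Eventually.of_forall fun x => by ring)
    rw [h2, h1, ← integral_neg]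
    simp only [neg_mul]

theorem tU_Dv {X : Fin m → E m → ℝ} (hU : IsOpen U) (hX : ∀ a, ContDiffOn ℝ ∞ (X a) U)
    {φ : E m → ℝ} (hφ : TU U φ) : TU U (Dv X φ) :=
  TU.sum _ fun a _ => (hφ.mul hU (hX a)).pd a

theorem TU.int {w φ : E m → ℝ} (h : TU U φ) (hw : LocallyIntegrableOn w U) :
    Integrable fun x => w x * φ x :=
  int_loc hw h.1.1.continuous h.1.2 h.2

theorem smooth_loc {w : E m → ℝ} (hU : IsOpen U) (hw : ContDiffOn ℝ ∞ w U) :
    LocallyIntegrableOn w U := hw.continuousOn.locallyIntegrableOn hU.measurableSet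

/-- the right hand side of the second order equation -/
def FF (p q : ι → Fin m → E m → ℝ) (μ ν : ι → E m → ℝ) (x : E m) : ℝ :=
  ∑ j, (∑ a, pderiv a (fun y => μ j y * p j a y + ν j y * q j a y) x +
    (μ j x * qw p q j x - ν j x * pw p q j x))

theorem smooth_FF (h : DF p q U) {μ ν : ι → E m → ℝ} (hμ : ∀ j, ContDiffOn ℝ ∞ (μ j) U)
    (hν : ∀ j, ContDiffOn ℝ ∞ (ν j) U) : ContDiffOn ℝ ∞ (FF p q μ ν) U := by
  refine ContDiffOn.sum fun j _ => ?_
  refine (ContDiffOn.sum fun a _ => ?_).add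
    (((hμ j).mul (h.sqw j)).sub ((hν j).mul (h.spw j)))
  exact contDiffOn_pd h.op (((hμ j).mul (h.sp j a)).add ((hν j).mul (h.sq j a))) a

theorem weak_second (h : DF p q U) {f g : E m → ℝ} {μ ν : ι → E m → ℝ}
    (hμ : ∀ j, ContDiffOn ℝ ∞ (μ j) U) (hν : ∀ j, ContDiffOn ℝ ∞ (ν j) U)
    (w : Wsol p q U f g μ ν) {φ : E m → ℝ} (hφ : TU U φ) :
    ∫ x, f x * Wk (Am p q) (fun b y => - bt p q b y) (fun _ => 0) φ x =
      ∫ x, FF p q μ ν x * φ x := by
  have t1 := h.tp1 hφ
  have t2 := h.tp2 hφ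
  have I : ∀ {u ψ : E m → ℝ}, LocallyIntegrableOn u U → TU U ψ →
      Integrable fun x => u x * ψ x := fun hu hψ => hψ.int hu
  -- integrand
  have a1 : ∀ x, f x * Wk (Am p q) (fun b y => - bt p q b y) (fun _ => 0) φ x =
      ∑ j, ((f x * Dv (p j) (ps1 p q φ j) x - g x * Dv (q j) (ps1 p q φ j) x) -
        (f x * Dv (q j) (ps2 p q φ j) x + g x * Dv (p j) (ps2 p q φ j) x)) := by
    intro x
    rw [← key1 h hφ x]
    have e := key2 h hφ x
    have e' : ∑ j, ((f x * Dv (p j) (ps1 p q φ j) x - g x * Dv (q j) (ps1 p q φ j) x) -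
        (f x * Dv (q j) (ps2 p q φ j) x + g x * Dv (p j) (ps2 p q φ j) x)) =
        f x * ∑ j, (Dv (p j) (ps1 p q φ j) x - Dv (q j) (ps2 p q φ j) x) -
        g x * ∑ j, (Dv (p j) (ps2 p q φ j) x + Dv (q j) (ps1 p q φ j) x) := by
      rw [Finset.mul_sum, Finset.mul_sum, ← Finset.sum_sub_distrib]
      exact Finset.sum_congr rfl fun j _ => by ring
    rw [e', e]
    ring
  have d1 : ∀ j, TU U (Dv (p j) (ps1 p q φ j)) := fun j => tU_Dv h.op (h.sp j) (t1 j)
  have d2 : ∀ j, TU U (Dv (q j) (ps1 p q φ j)) := fun j => tU_Dv h.op (h.sq j) (t1 j)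
  have d3 : ∀ j, TU U (Dv (q j) (ps2 p q φ j)) := fun j => tU_Dv h.op (h.sq j) (t2 j)
  have d4 : ∀ j, TU U (Dv (p j) (ps2 p q φ j)) := fun j => tU_Dv h.op (h.sp j) (t2 j)
  have i1 : ∀ j, Integrable fun x => f x * Dv (p j) (ps1 p q φ j) x -
      g x * Dv (q j) (ps1 p q φ j) x := fun j => ((d1 j).int w.lf).sub ((d2 j).int w.lg)
  have i2 : ∀ j, Integrable fun x => f x * Dv (q j) (ps2 p q φ j) x +
      g x * Dv (p j) (ps2 p q φ j) x := fun j => ((d3 j).int w.lf).add ((d4 j).int w.lg)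
  simp only [a1]
  have i12 : ∀ j, Integrable fun x => ((f x * Dv (p j) (ps1 p q φ j) x -
      g x * Dv (q j) (ps1 p q φ j) x) -
        (f x * Dv (q j) (ps2 p q φ j) x + g x * Dv (p j) (ps2 p q φ j) x)) :=
    fun j => (i1 j).sub (i2 j)
  rw [integral_finsetSum _ fun j _ => i12 j]
  have a2 : ∀ j, ∫ x, ((f x * Dv (p j) (ps1 p q φ j) x - g x * Dv (q j) (ps1 p q φ j) x) -
        (f x * Dv (q j) (ps2 p q φ j) x + g x * Dv (p j) (ps2 p q φ j) x)) =
      ∫ x, (∑ a, pderiv a (fun y => μ j y * p j a y + ν j y * q j a y) x +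
        (μ j x * qw p q j x - ν j x * pw p q j x)) * φ x := by
    intro j
    rw [integral_sub (i1 j) (i2 j), w.e1 j _ (t1 j), w.e2 j _ (t2 j)]
    have lμ := smooth_loc h.op (hμ j)
    have lν := smooth_loc h.op (hν j)
    have j1 := (t1 j).int lμ
    have j2 := (t2 j).int lν
    have e1' : (- ∫ x, μ j x * ps1 p q φ j x) - - ∫ x, ν j x * ps2 p q φ j x =
        ∫ x, (- (μ j x * ps1 p q φ j x) + ν j x * ps2 p q φ j x) := by
      have j1' : Integrable fun x => - (μ j x * ps1 p q φ j x) := j1.neg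
      rw [integral_add j1' j2, integral_neg]
      ring
    rw [e1']
    have k1 : ∀ a, ContDiffOn ℝ ∞ (fun y => μ j y * p j a y + ν j y * q j a y) U := fun a =>
      ((hμ j).mul (h.sp j a)).add ((hν j).mul (h.sq j a))
    have e2 : ∀ x, - (μ j x * ps1 p q φ j x) + ν j x * ps2 p q φ j x =
        (∑ a, - ((μ j x * p j a x + ν j x * q j a x) * pderiv a φ x)) +
          (μ j x * qw p q j x - ν j x * pw p q j x) * φ x := by
      intro x
      have e3 : ∑ a, - ((μ j x * p j a x + ν j x * q j a x) * pderiv a φ x) =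
          - (μ j x * ∑ a, p j a x * pderiv a φ x) - ν j x * ∑ a, q j a x * pderiv a φ x := by
        rw [Finset.mul_sum, Finset.mul_sum, ← Finset.sum_neg_distrib, ← Finset.sum_sub_distrib]
        exact Finset.sum_congr rfl fun a _ => by ring
      rw [e3]
      simp only [ps1, ps2]
      ring
    have l1 : ∀ a, Integrable fun x => - ((μ j x * p j a x + ν j x * q j a x) * pderiv a φ x) :=
      fun a => ((hφ.pd a).int (smooth_loc h.op (k1 a))).neg
    have l2 : Integrable fun x => (μ j x * qw p q j x - ν j x * pw p q j x) * φ x :=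
      hφ.int (smooth_loc h.op (((hμ j).mul (h.sqw j)).sub ((hν j).mul (h.spw j))))
    have l3 : ∀ a, Integrable fun x => pderiv a (fun y => μ j y * p j a y + ν j y * q j a y) x * φ x :=
      fun a => hφ.int (smooth_loc h.op (contDiffOn_pd h.op (k1 a) a))
    have e4 : ∀ a, ∫ x, - ((μ j x * p j a x + ν j x * q j a x) * pderiv a φ x) =
        ∫ x, pderiv a (fun y => μ j y * p j a y + ν j y * q j a y) x * φ x := by
      intro a
      rw [integral_neg, ibpU h.op (k1 a) hφ.1.1 hφ.1.2 hφ.2 a, neg_neg]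
    have e5 : ∫ x, (- (μ j x * ps1 p q φ j x) + ν j x * ps2 p q φ j x) =
        (∑ a, ∫ x, - ((μ j x * p j a x + ν j x * q j a x) * pderiv a φ x)) +
          ∫ x, (μ j x * qw p q j x - ν j x * pw p q j x) * φ x := by
      simp only [e2]
      rw [integral_add (integrable_finsetSum _ fun a _ => l1 a) l2,
        integral_finsetSum _ fun a _ => l1 a]
    rw [e5]
    simp only [e4]
    rw [← integral_finsetSum _ fun a _ => l3 a,
      ← integral_add (integrable_finsetSum _ fun a _ => l3 a) l2]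
    refine integral_congr_ae (Eventually.of_forall fun x => ?_)
    simp only
    rw [add_mul, Finset.sum_mul]
  simp only [a2]
  have hj : ∀ j, ContDiffOn ℝ ∞ (fun x => ∑ a, pderiv a (fun y => μ j y * p j a y + ν j y * q j a y) x +
        (μ j x * qw p q j x - ν j x * pw p q j x)) U := fun j =>
    (ContDiffOn.sum fun a _ => contDiffOn_pd h.op
      (((hμ j).mul (h.sp j a)).add ((hν j).mul (h.sq j a))) a).add
      (((hμ j).mul (h.sqw j)).sub ((hν j).mul (h.spw j)))
  rw [← integral_finsetSum _ fun j _ => hφ.int (smooth_loc h.op (hj j))]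
  refine integral_congr_ae (Eventually.of_forall fun x => ?_)
  simp only [FF]
  rw [Finset.sum_mul]

theorem exists_smooth_re (h : DF p q U) {f g : E m → ℝ} {μ ν : ι → E m → ℝ}
    (hμ : ∀ j, ContDiffOn ℝ ∞ (μ j) U) (hν : ∀ j, ContDiffOn ℝ ∞ (ν j) U)
    (w : Wsol p q U f g μ ν) :
    ∃ v : E m → ℝ, ContDiffOn ℝ ∞ v U ∧ ∀ᵐ x, x ∈ U → v x = f x := by
  have hD : Dat U (Am p q) (fun b y => - bt p q b y) (fun _ => 0) :=
    ⟨h.op, h.sA, h.pos, fun i => (h.sbt i).neg, contDiffOn_const⟩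
  obtain ⟨v, hv, hvu, -⟩ := gen_ell hD (smooth_FF h hμ hν) w.lf fun φ h1 h2 h3 =>
    weak_second h hμ hν w ⟨⟨h1, h2⟩, h3⟩
  exact ⟨v, hv, hvu⟩

/-- integration by parts against a vector field -/
theorem int_Dv {X : Fin m → E m → ℝ} (hU : IsOpen U) (hX : ∀ a, ContDiffOn ℝ ∞ (X a) U)
    {v φ : E m → ℝ} (hv : ContDiffOn ℝ ∞ v U) (hφ : TU U φ) :
    ∫ x, v x * Dv X φ x = - ∫ x, (∑ a, X a x * pderiv a v x) * φ x := by
  have c1 : ∀ a, TU U fun y => X a y * φ y := fun a => hφ.mul hU (hX a)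
  unfold Dv
  simp only [Finset.mul_sum]
  rw [integral_finsetSum _ fun a _ => ((c1 a).pd a).int (smooth_loc hU hv)]
  have e : ∀ a, ∫ x, v x * pderiv a (fun y => X a y * φ y) x =
      - ∫ x, pderiv a v x * (X a x * φ x) := fun a =>
    ibpU hU hv (c1 a).1.1 (c1 a).1.2 (c1 a).2 a
  simp only [e]
  rw [Finset.sum_neg_distrib, ← integral_finsetSum _ fun a _ =>
    (c1 a).int (smooth_loc hU (contDiffOn_pd hU hv a))]
  congr 1
  refine integral_congr_ae (Eventually.of_forall fun x => ?_)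
  simp only
  rw [Finset.sum_mul]
  exact Finset.sum_congr rfl fun a _ => by ring

theorem eq_of_weak {w : E m → ℝ} (hU : IsOpen U) (hw : ContDiffOn ℝ ∞ w U)
    (h : ∀ φ, TU U φ → ∫ x, w x * φ x = 0) : ∀ x ∈ U, w x = 0 := by
  have h1 : ∀ᵐ x, x ∈ U → w x = 0 := by
    refine IsOpen.ae_eq_zero_of_integral_contDiff_smul_eq_zero hU (smooth_loc hU hw) ?_
    intro φ h1 h2 h3
    rw [← h φ ⟨⟨h1, h2⟩, h3⟩]
    exact integral_congr_ae (Eventually.of_forall fun x => by simp [mul_comm])
  have h2 : EqOn w (fun _ => 0) U := by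
    refine Measure.eqOn_open_of_ae_eq (μ := volume) ?_ hU hw.continuousOn continuousOn_const
    rw [EventuallyEq, ae_restrict_iff' hU.measurableSet]
    exact h1
  exact fun x hx => h2 hx

/-- **Regularity for elliptic first order systems** (real form): a weak `L¹_loc` solution of
`(p_j + i q_j)(f + i g) = μ_j + i ν_j` is smooth and the equations hold pointwise. -/
theorem fos_real (h : DF p q U) {f g : E m → ℝ} {μ ν : ι → E m → ℝ}
    (hμ : ∀ j, ContDiffOn ℝ ∞ (μ j) U) (hν : ∀ j, ContDiffOn ℝ ∞ (ν j) U)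
    (w : Wsol p q U f g μ ν) :
    ∃ v₁ v₂ : E m → ℝ, ContDiffOn ℝ ∞ v₁ U ∧ ContDiffOn ℝ ∞ v₂ U ∧
      (∀ᵐ x, x ∈ U → v₁ x = f x) ∧ (∀ᵐ x, x ∈ U → v₂ x = g x) ∧
      (∀ j, ∀ x ∈ U, ∑ a, p j a x * pderiv a v₁ x - ∑ a, q j a x * pderiv a v₂ x = μ j x) ∧
      (∀ j, ∀ x ∈ U, ∑ a, q j a x * pderiv a v₁ x + ∑ a, p j a x * pderiv a v₂ x = ν j x) := by
  obtain ⟨v₁, hv₁, e₁⟩ := exists_smooth_re h hμ hν w
  obtain ⟨v₂, hv₂, e₂⟩ := exists_smooth_re h hν (fun j => (hμ j).neg) w.rot
  have cg : ∀ {u v ψ : E m → ℝ}, (∀ᵐ x, x ∈ U → v x = u x) → TU U ψ →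
      ∫ x, v x * ψ x = ∫ x, u x * ψ x := by
    intro u v ψ huv hψ
    refine integral_congr_ae ?_
    filter_upwards [huv] with x hx
    by_cases hxU : x ∈ U
    · rw [hx hxU]
    · have : x ∉ tsupport ψ := fun h' => hxU (hψ.2 h')
      rw [zero_of_notMem this, mul_zero, mul_zero]
  have sX : ∀ {X : Fin m → E m → ℝ} {v : E m → ℝ}, (∀ a, ContDiffOn ℝ ∞ (X a) U) →
      ContDiffOn ℝ ∞ v U → ContDiffOn ℝ ∞ (fun x => ∑ a, X a x * pderiv a v x) U :=
    fun hX hv => ContDiffOn.sum fun a _ => (hX a).mul (contDiffOn_pd h.op hv a)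
  refine ⟨v₁, v₂, hv₁, hv₂, e₁, e₂, fun j => ?_, fun j => ?_⟩
  · have s1 := sX (h.sp j) hv₁
    have s2 := sX (h.sq j) hv₂
    have hz := eq_of_weak (w := fun x => (∑ a, p j a x * pderiv a v₁ x -
      ∑ a, q j a x * pderiv a v₂ x) - μ j x) h.op ((s1.sub s2).sub (hμ j)) (by
      intro φ hφ
      have d1 := tU_Dv h.op (h.sp j) hφ
      have d2 := tU_Dv h.op (h.sq j) hφ
      have k := w.e1 j φ hφ
      rw [integral_sub (d1.int w.lf) (d2.int w.lg), ← cg e₁ d1, ← cg e₂ d2,
        int_Dv h.op (h.sp j) hv₁ hφ, int_Dv h.op (h.sq j) hv₂ hφ] at k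
      have i1 := hφ.int (smooth_loc h.op s1)
      have i2 := hφ.int (smooth_loc h.op s2)
      have i3 := hφ.int (smooth_loc h.op (hμ j))
      simp only [sub_mul]
      have i12 : Integrable fun x => (∑ a, p j a x * pderiv a v₁ x) * φ x -
          (∑ a, q j a x * pderiv a v₂ x) * φ x := i1.sub i2
      rw [integral_sub i12 i3, integral_sub i1 i2]
      linarith)
    exact fun x hx => sub_eq_zero.1 (hz x hx)
  · have s1 := sX (h.sq j) hv₁
    have s2 := sX (h.sp j) hv₂
    have hz := eq_of_weak (w := fun x => (∑ a, q j a x * pderiv a v₁ x +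
      ∑ a, p j a x * pderiv a v₂ x) - ν j x) h.op ((s1.add s2).sub (hν j)) (by
      intro φ hφ
      have d1 := tU_Dv h.op (h.sq j) hφ
      have d2 := tU_Dv h.op (h.sp j) hφ
      have k := w.e2 j φ hφ
      rw [integral_add (d1.int w.lf) (d2.int w.lg), ← cg e₁ d1, ← cg e₂ d2,
        int_Dv h.op (h.sq j) hv₁ hφ, int_Dv h.op (h.sp j) hv₂ hφ] at k
      have i1 := hφ.int (smooth_loc h.op s1)
      have i2 := hφ.int (smooth_loc h.op s2)
      have i3 := hφ.int (smooth_loc h.op (hν j))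
      simp only [sub_mul, add_mul]
      have i12 : Integrable fun x => (∑ a, q j a x * pderiv a v₁ x) * φ x +
          (∑ a, p j a x * pderiv a v₂ x) * φ x := i1.add i2
      rw [integral_sub i12 i3, integral_add i1 i2]
      linarith)
    exact fun x hx => sub_eq_zero.1 (hz x hx)

end core

end Crest.Agent.R260.NNR_597
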