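import Mathlib
import Crest.Agent.R260.LinDefs_678
import Crest.Agent.R260.Nl1_997

/-!
Row 260 (S0398), the case without contact lines (helper997), part 2: the class `2 β` is an atom and
maps of class `2 β` have one radius at every valuation ring.
-/

set_option autoImplicit false

namespace Crest.Agent.R260.Nl2_997

open Polynomial Crest.Agent.R270.BM_360 Crest.Agent.R260.Lin_678
open Crest.Agent.R270.Cone_704 (Atom)
open Crest.Agent.R270.Fin_305

universe u

variable {I : Type} {J : I → Type} [Fintype I] [∀ i, Fintype (J i)] {k : Type u} [Field k]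

/-- there is no map of class `β` (contact line) over any algebraically closed field. -/
def NoLine (D : CData k I J) : Prop :=
  ∀ (κ : Type u) [Field κ] [Algebra k κ] [IsAlgClosed κ] (F : ∀ i, J i → κ[X]),
    IsMap D.E F → cls F ≠ D.β

/-- **dichotomy**: contact lines exist over some field or over no field. -/
theorem dichotomy (D : CData k I J) : NoLine D ∨
    ∃ (κ : Type u) (_ : Field κ) (_ : Algebra k κ) (_ : IsAlgClosed κ) (F : ∀ i, J i → κ[X]),
      IsMap D.E F ∧ cls F = D.β := by
  by_cases h : NoLine D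
  · exact Or.inl h
  · right
    unfold NoLine at h
    push Not at h
    obtain ⟨κ, h1, h2, h3, F, h4, h5⟩ := h
    exact ⟨κ, h1, h2, h3, F, h4, h5⟩

theorem nonempty (D : CData k I J) : Nonempty I := by
  by_contra h
  rw [not_nonempty_iff] at h
  have h1 := D.wβ
  rw [Finset.univ_eq_empty, Finset.sum_empty] at h1
  exact zero_ne_one h1

theorem smul_inj (D : CData k I J) {a b : ℕ} (h : a • D.β = b • D.β) : a = b := by
  obtain ⟨i⟩ := nonempty D
  have h1 := congrFun h i
  simp only [Pi.smul_apply, smul_eq_mul] at h1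
  exact Nat.eq_of_mul_eq_mul_right (D.β_pos i) h1

/-- classes of effective sums of rational curves, without contact lines. -/
theorem mem_lam (D : CData k I J) (h : NoLine D) {b : I → ℕ} (hb : b ∈ Lam0 D.E) :
    ∃ e : ℕ, b = e • D.β ∧ e ≠ 1 := by
  unfold Lam0 at hb
  induction hb using AddSubmonoid.closure_induction with
  | mem b hb =>
    obtain ⟨κ, _, _, _, F, hF, hc⟩ := hb
    obtain ⟨e, he⟩ := D.cls_eq κ F hF
    refine ⟨e, by rw [← hc, he], ?_⟩
    rintro rfl
    exact h κ F hF (by rw [he, one_smul])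
  | zero => exact ⟨0, by simp, zero_ne_one⟩
  | add a b _ _ ha hb =>
    obtain ⟨e, he, he1⟩ := ha
    obtain ⟨f, hf, hf1⟩ := hb
    exact ⟨e + f, by rw [he, hf, add_smul], by omega⟩

/-- **without contact lines the class `2 β` is an atom.** -/
theorem atom_two (D : CData k I J) (h : NoLine D) : Atom (Lam0 D.E) (2 • D.β) := by
  intro b hb c hc hbc
  obtain ⟨e, he, he1⟩ := mem_lam D h hb
  obtain ⟨f, hf, hf1⟩ := mem_lam D h hc
  rw [he, hf, ← add_smul] at hbc
  have h1 := smul_inj D hbc
  rcases Nat.eq_zero_or_pos e with h2 | h2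
  · left
    rw [he, h2, zero_smul]
  · right
    have h3 : f = 0 := by omega
    rw [hf, h3, zero_smul]

/-- **one radius** at every valuation ring. -/
theorem bound (D : CData k I J) (h : NoLine D) {K : Type u} [Field K] [Algebra k K]
    [IsAlgClosed K] {F : ∀ i, J i → K[X]} (hF : IsMap D.E F) (hcls : cls F = 2 • D.β)
    {x₀ : ∀ i, J i → k} (hx₀ : ∀ i, x₀ i ≠ 0) (hb : Based x₀ F)
    (O : ValuationSubring K) (hO : ∀ c : k, algebraMap k K c ∈ O) :
    ∃ r : O.ValueGroup, 0 < r ∧
      (∀ i, VMax O (fun x => (F i x).coeff 0) (r ^ (2 * D.β i))) ∧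
      ∀ i x j, j ≤ 2 * D.β i → O.valuation ((F i x).coeff j) ≤ r ^ (2 * D.β i - j) := by
  let _ : Algebra k O := ((algebraMap k K).codRestrict O.toSubring hO).toAlgebra
  have _ : IsScalarTower k O K := IsScalarTower.of_algebraMap_eq fun _ => rfl
  have hci : ∀ i, cls F i = 2 * D.β i := fun i => by
    rw [hcls, Pi.smul_apply, smul_eq_mul]
  have hp : ∀ i, VMax O (fun x => (F i x).coeff (cls F i)) 1 := by
    intro i
    have h1 : ∀ x, (F i x).coeff (cls F i) = algebraMap k K (x₀ i x) := hb i
    simp only [h1]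
    refine ⟨?_, fun x => Nl1_997.val_const_le O hO _⟩
    obtain ⟨x, hx⟩ := Function.ne_iff.mp (hx₀ i)
    exact ⟨x, Nl1_997.val_const O hO hx⟩
  obtain ⟨r, hr, h1, h2⟩ := Nl1_997.radius (O := O) D.hom hF (hcls ▸ atom_two D h) hp
  simp only [hci] at h1 h2
  exact ⟨r, hr, h1, h2⟩

end Crest.Agent.R260.Nl2_997
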