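import Crest.Agent.R260.NnDefs_254
import Crest.Agent.R260.NNB3_580

/-!
# R260, NN-LB, part 1 (helper254): local contact data in a complex chart

`pb Ψ β`  : pull-back of the one-form `β`; `dd_pb` : `d` commutes with the pull-back
`LC U T A h` : the data of `CD` read in a complex chart (`J = i`)
`LC.holo` : `T v / T q` is complex differentiable
`LC.lev_pos` : `- log (h |T q|²)` is strictly plurisubharmonic
`LC.nd_app` : `d (T / T q)` is non-degenerate on the kernel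
-/

set_option autoImplicit false

open Set Filter Topology Complex
open scoped ContDiff

namespace Crest.Agent.R260.Nn_254

open Crest.Agent.R260.ACM_580 Crest.Agent.R260.NNB_580
open Crest.Agent.R275.Geo Crest.Agent.R273.Defs_333

noncomputable section

section pull

variable {V W F : Type*} [NormedAddCommGroup V] [NormedSpace ℝ V] [NormedAddCommGroup W]
  [NormedSpace ℝ W] [NormedAddCommGroup F] [NormedSpace ℝ F]

/-- pull-back of a one-form -/
def pb (Ψ : W → V) (β : V → V →L[ℝ] F) (z : W) : W →L[ℝ] F := (β (Ψ z)).comp (fderiv ℝ Ψ z)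

@[simp] theorem pb_apply (Ψ : W → V) (β : V → V →L[ℝ] F) (z v : W) :
    pb Ψ β z v = β (Ψ z) (fderiv ℝ Ψ z v) := rfl

theorem fderiv_pb {Ψ : W → V} {β : V → V →L[ℝ] F} {z : W} (hΨ : ContDiffAt ℝ 2 Ψ z)
    (hβ : DifferentiableAt ℝ β (Ψ z)) (u v : W) :
    fderiv ℝ (pb Ψ β) z u v = fderiv ℝ β (Ψ z) (fderiv ℝ Ψ z u) (fderiv ℝ Ψ z v) +
      β (Ψ z) (fderiv ℝ (fderiv ℝ Ψ) z u v) := by
  have h1 : HasFDerivAt Ψ (fderiv ℝ Ψ z) z := (hΨ.differentiableAt (by simp)).hasFDerivAt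
  have h2 : HasFDerivAt (fun z => β (Ψ z)) ((fderiv ℝ β (Ψ z)).comp (fderiv ℝ Ψ z)) z :=
    hβ.hasFDerivAt.comp z h1
  have h3 : HasFDerivAt (fderiv ℝ Ψ) (fderiv ℝ (fderiv ℝ Ψ) z) z :=
    ((hΨ.fderiv_right (m := 1) (by norm_num)).differentiableAt (by simp)).hasFDerivAt
  have h4 := h2.clm_comp h3
  have h5 : HasFDerivAt (pb Ψ β) _ z := h4
  rw [h5.fderiv]
  simp [add_comm]

theorem dd_pb {Ψ : W → V} {β : V → V →L[ℝ] F} {z : W} (hΨ : ContDiffAt ℝ 2 Ψ z)
    (hβ : DifferentiableAt ℝ β (Ψ z)) (u v : W) :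
    dd (pb Ψ β) z u v = dd β (Ψ z) (fderiv ℝ Ψ z u) (fderiv ℝ Ψ z v) := by
  have h1 : IsSymmSndFDerivAt ℝ Ψ z := hΨ.isSymmSndFDerivAt (by simp)
  unfold dd
  rw [fderiv_pb hΨ hβ, fderiv_pb hΨ hβ, h1.eq u v]
  abel

theorem contDiffOn_pb {Ψ : W → V} {β : V → V →L[ℝ] F} {U : Set W} {S : Set V} (hU : IsOpen U)
    (hΨ : ContDiffOn ℝ ∞ Ψ U) (hβ : ContDiffOn ℝ ∞ β S) (hS : MapsTo Ψ U S) :
    ContDiffOn ℝ ∞ (pb Ψ β) U :=
  (hβ.comp hΨ hS).clm_comp (hΨ.fderiv_of_isOpen hU (by simp))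

end pull

/-- derivative of `z ↦ T z v` -/
theorem fderiv_apply' {W F G : Type*} [NormedAddCommGroup W] [NormedSpace ℝ W]
    [NormedAddCommGroup F] [NormedSpace ℝ F] [NormedAddCommGroup G] [NormedSpace ℝ G]
    {T : W → F →L[ℝ] G} {z : W} (hT : DifferentiableAt ℝ T z) (v : F) (u : W) :
    fderiv ℝ (fun z => T z v) z u = fderiv ℝ T z u v := by
  have h1 := hT.hasFDerivAt.clm_apply (hasFDerivAt_const v z)
  rw [h1.fderiv]
  simp

variable {d : ℕ}

/-- complex linearity is inherited by the derivative -/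
theorem fderiv_I_of {T : Cn d → Cn d →L[ℝ] ℂ} {U : Set (Cn d)} (hU : IsOpen U)
    (hT : ∀ z ∈ U, DifferentiableAt ℝ T z) (hI : ∀ z ∈ U, ∀ v, T z (I • v) = I * T z v)
    {z : Cn d} (hz : z ∈ U) (u v : Cn d) :
    fderiv ℝ T z u (I • v) = I * fderiv ℝ T z u v := by
  have h1 : (fun z => T z (I • v)) =ᶠ[𝓝 z] fun z => I * T z v := by
    filter_upwards [hU.mem_nhds hz] with w hw
    exact hI w hw v
  have h2 := fderiv_apply' (hT z hz) (I • v) u
  rw [h1.fderiv_eq] at h2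
  rw [← h2]
  have h3 : HasFDerivAt (fun z => T z v) (fderiv ℝ (fun z => T z v) z) z :=
    ((hT z hz).clm_apply (differentiableAt_const v)).hasFDerivAt
  rw [(h3.const_mul I).fderiv]
  simp only [_root_.smul_apply, smul_eq_mul]
  rw [fderiv_apply' (hT z hz)]

theorem inv_aux {E : Type*} [NormedAddCommGroup E] [NormedSpace ℝ E] {g : E → ℂ}
    {g' : E →L[ℝ] ℂ} {z : E} (hg : HasFDerivAt g g' z) (h0 : g z ≠ 0) :
    HasFDerivAt (fun z => (g z)⁻¹) (-(g z ^ 2)⁻¹ • g') z := by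
  have h1 : HasFDerivAt (𝕜 := ℝ) (Inv.inv : ℂ → ℂ)
      (-ContinuousLinearMap.mulLeftRight ℝ ℂ (g z)⁻¹ (g z)⁻¹) (g z) := hasFDerivAt_inv' h0
  refine (h1.comp z hg).congr_fderiv ?_
  ext v
  simp
  field_simp

theorem div_aux {E : Type*} [NormedAddCommGroup E] [NormedSpace ℝ E] {f g : E → ℂ}
    {f' g' : E →L[ℝ] ℂ} {z : E} (hf : HasFDerivAt f f' z) (hg : HasFDerivAt g g' z)
    (h0 : g z ≠ 0) :
    HasFDerivAt (fun z => f z / g z) ((g z ^ 2)⁻¹ • (g z • f' - f z • g')) z := by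
  have h1 := hf.mul (inv_aux hg h0)
  have h2 : HasFDerivAt (fun z => f z / g z) _ z := h1
  refine h2.congr_fderiv ?_
  ext v
  simp
  field_simp
  ring

theorem holo_ratio {f g : Cn d → ℂ} {z : Cn d} {c : Cn d → ℂ} (hf : DifferentiableAt ℝ f z)
    (hg : DifferentiableAt ℝ g z)
    (h1 : ∀ u, fderiv ℝ f z u + I * fderiv ℝ f z (I • u) = -c u * f z)
    (h2 : ∀ u, fderiv ℝ g z u + I * fderiv ℝ g z (I • u) = -c u * g z) (h0 : g z ≠ 0) :
    DifferentiableAt ℂ (fun z => f z / g z) z := by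
  have h3 : HasFDerivAt (fun z => f z / g z)
      ((g z ^ 2)⁻¹ • (g z • fderiv ℝ f z - f z • fderiv ℝ g z)) z :=
    div_aux hf.hasFDerivAt hg.hasFDerivAt h0
  refine differentiableAt_of_real h3.differentiableAt fun u => ?_
  rw [h3.fderiv]
  simp only [_root_.smul_apply, _root_.sub_apply, smul_eq_mul]
  have e1 := h1 u
  have e2 := h2 u
  have e3 : fderiv ℝ f z (I • u) = I * (fderiv ℝ f z u + c u * f z) := by
    linear_combination (-I) * e1 + fderiv ℝ f z (I • u) * I_mul_I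
  have e4 : fderiv ℝ g z (I • u) = I * (fderiv ℝ g z u + c u * g z) := by
    linear_combination (-I) * e2 + fderiv ℝ g z (I • u) * I_mul_I
  rw [e3, e4]
  ring

/-- local contact data in a complex chart -/
structure LC (U : Set (Cn d)) (T A : Cn d → Cn d →L[ℝ] ℂ) (h : Cn d → ℝ) : Prop where
  isOpen : IsOpen U
  T_sm : ContDiffOn ℝ ∞ T U
  T_I : ∀ z ∈ U, ∀ v, T z (I • v) = I * T z v
  T_db : ∀ z ∈ U, ∀ u v, fderiv ℝ T z u v + I * fderiv ℝ T z (I • u) v =
    -(A z u + I * A z (I • u)) * T z v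
  A_sm : ContDiffOn ℝ ∞ A U
  h_sm : ContDiffOn ℝ ∞ h U
  h_pos : ∀ z ∈ U, 0 < h z
  h_A : ∀ z ∈ U, ∀ v, fderiv ℝ h z v = 2 * (A z v).re * h z
  pos : ∀ z ∈ U, ∀ v, v ≠ 0 → 0 < (I * dd A z v (I • v)).re
  nd : ∀ z ∈ U, ∀ v, T z v = 0 → (∀ w, T z w = 0 → dd T z v w = 0) → v = 0

namespace LC

variable {U : Set (Cn d)} {T A : Cn d → Cn d →L[ℝ] ℂ} {h : Cn d → ℝ}

theorem T_diff (H : LC U T A h) {z : Cn d} (hz : z ∈ U) : DifferentiableAt ℝ T z :=
  (H.T_sm.contDiffAt (H.isOpen.mem_nhds hz)).differentiableAt (by simp)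

theorem A_diff (H : LC U T A h) {z : Cn d} (hz : z ∈ U) : DifferentiableAt ℝ A z :=
  (H.A_sm.contDiffAt (H.isOpen.mem_nhds hz)).differentiableAt (by simp)

theorem h_diff (H : LC U T A h) {z : Cn d} (hz : z ∈ U) : DifferentiableAt ℝ h z :=
  (H.h_sm.contDiffAt (H.isOpen.mem_nhds hz)).differentiableAt (by simp)

theorem Tv_diff (H : LC U T A h) {z : Cn d} (hz : z ∈ U) (v : Cn d) :
    DifferentiableAt ℝ (fun z => T z v) z := (H.T_diff hz).clm_apply (differentiableAt_const v)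

/-- ratios are holomorphic -/
theorem holo (H : LC U T A h) {z : Cn d} (hz : z ∈ U) (v : Cn d) {q : Cn d} (hq : T z q ≠ 0) :
    DifferentiableAt ℂ (fun z => T z v / T z q) z := by
  refine holo_ratio (c := fun u => A z u + I * A z (I • u)) (H.Tv_diff hz v) (H.Tv_diff hz q)
    (fun u => ?_) (fun u => ?_) hq
  · rw [fderiv_apply' (H.T_diff hz), fderiv_apply' (H.T_diff hz)]
    exact H.T_db z hz u v
  · rw [fderiv_apply' (H.T_diff hz), fderiv_apply' (H.T_diff hz)]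
    exact H.T_db z hz u q

/-- derivative of the ratio -/
theorem fderiv_ratio (H : LC U T A h) {z : Cn d} (hz : z ∈ U) (v : Cn d) {q : Cn d}
    (hq : T z q ≠ 0) (u : Cn d) :
    fderiv ℝ (fun z => T z v / T z q) z u =
      (fderiv ℝ T z u v * T z q - T z v * fderiv ℝ T z u q) / T z q ^ 2 := by
  have h3 : HasFDerivAt (fun z => T z v / T z q)
      ((T z q ^ 2)⁻¹ • (T z q • fderiv ℝ (fun z => T z v) z - T z v • fderiv ℝ (fun z => T z q) z))
      z := div_aux (H.Tv_diff hz v).hasFDerivAt (H.Tv_diff hz q).hasFDerivAt hq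
  rw [h3.fderiv]
  simp only [_root_.smul_apply, _root_.sub_apply, smul_eq_mul]
  rw [fderiv_apply' (H.T_diff hz), fderiv_apply' (H.T_diff hz)]
  ring

/-- `γ = A + dG / G`, `G = T q`: the `(1,0)` connection form in the holomorphic frame -/
def gam (T A : Cn d → Cn d →L[ℝ] ℂ) (q z : Cn d) : Cn d →L[ℝ] ℂ :=
  A z + (T z q)⁻¹ • fderiv ℝ (fun z => T z q) z

theorem G_sm (H : LC U T A h) (q : Cn d) : ContDiffOn ℝ ∞ (fun z => T z q) U :=
  H.T_sm.clm_apply contDiffOn_const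

theorem gam_sm (H : LC U T A h) {q : Cn d} (hq : ∀ z ∈ U, T z q ≠ 0) :
    ContDiffOn ℝ ∞ (gam T A q) U := by
  have h1 := H.G_sm q
  have h2 : ContDiffOn ℝ ∞ (fderiv ℝ (fun z => T z q)) U :=
    h1.fderiv_of_isOpen H.isOpen (by simp)
  exact H.A_sm.add ((h1.inv hq).smul h2)

theorem gam_diff (H : LC U T A h) {q : Cn d} (hq : ∀ z ∈ U, T z q ≠ 0) {z : Cn d} (hz : z ∈ U) :
    DifferentiableAt ℝ (gam T A q) z :=
  ((H.gam_sm hq).contDiffAt (H.isOpen.mem_nhds hz)).differentiableAt (by simp)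

theorem gam_apply (H : LC U T A h) {q : Cn d} {z : Cn d} (hz : z ∈ U) (v : Cn d) :
    gam T A q z v = A z v + (T z q)⁻¹ * fderiv ℝ T z v q := by
  unfold gam
  simp only [_root_.add_apply, _root_.smul_apply, smul_eq_mul]
  rw [fderiv_apply' (H.T_diff hz)]

theorem gam_I (H : LC U T A h) {q : Cn d} (hq : ∀ z ∈ U, T z q ≠ 0) {z : Cn d} (hz : z ∈ U)
    (v : Cn d) : gam T A q z (I • v) = I * gam T A q z v := by
  rw [H.gam_apply hz, H.gam_apply hz]
  have h1 := H.T_db z hz v q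
  have h0 := hq z hz
  have e3 : fderiv ℝ T z (I • v) q =
      I * (fderiv ℝ T z v q + (A z v + I * A z (I • v)) * T z q) := by
    linear_combination (-I) * h1 + fderiv ℝ T z (I • v) q * I_mul_I
  rw [e3]
  field_simp
  linear_combination (A z (I • v)) * T z q * I_sq

/-- `dγ = dA` -/
theorem dd_gam (H : LC U T A h) {q : Cn d} (hq : ∀ z ∈ U, T z q ≠ 0) {z : Cn d} (hz : z ∈ U)
    (v w : Cn d) : dd (gam T A q) z v w = dd A z v w := by
  have hG := (H.G_sm q).contDiffAt (H.isOpen.mem_nhds hz)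
  have hs : IsSymmSndFDerivAt ℝ (fun z => T z q) z := hG.isSymmSndFDerivAt (by
    rw [minSmoothness_of_isRCLikeNormedField]; exact WithTop.coe_le_coe.2 (le_top : (2 : ℕ∞) ≤ ⊤))
  have h1 : HasFDerivAt (fun z => T z q) (fderiv ℝ (fun z => T z q) z) z :=
    (hG.differentiableAt (by simp)).hasFDerivAt
  have h2 : HasFDerivAt (fderiv ℝ (fun z => T z q)) (fderiv ℝ (fderiv ℝ (fun z => T z q)) z) z :=
    ((hG.fderiv_right (m := 1) (by norm_cast)).differentiableAt (by simp)).hasFDerivAt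
  have h3 : HasFDerivAt (fun z => (T z q)⁻¹) (-(T z q ^ 2)⁻¹ • fderiv ℝ (fun z => T z q) z) z :=
    inv_aux h1 (hq z hz)
  have h4 := (H.A_diff hz).hasFDerivAt.add (h3.smul h2)
  have h5 : HasFDerivAt (gam T A q) _ z := h4
  unfold dd
  rw [h5.fderiv]
  simp only [_root_.add_apply, _root_.smul_apply, smul_eq_mul,
    ContinuousLinearMap.smulRight_apply]
  rw [hs.eq v w]
  ring

theorem hasFDerivAt_log (H : LC U T A h) {q : Cn d} (hq : ∀ z ∈ U, T z q ≠ 0) {z : Cn d}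
    (hz : z ∈ U) : HasFDerivAt (fun z => - Real.log (h z * ‖T z q‖ ^ 2))
      ((-2 : ℝ) • reCLM.comp (gam T A q z)) z := by
  have h1 : HasFDerivAt h (fderiv ℝ h z) z := (H.h_diff hz).hasFDerivAt
  have h2 := (H.Tv_diff hz q).hasFDerivAt
  have h3 : HasFDerivAt (fun z => ‖T z q‖ ^ 2)
      (2 • (innerSL ℝ (T z q)).comp (fderiv ℝ (fun z => T z q) z)) z := h2.norm_sq
  have hp := H.h_pos z hz
  have h0 := hq z hz
  have hn : 0 < ‖T z q‖ ^ 2 := by positivity
  have h4 := ((h1.mul h3).log (mul_pos hp hn).ne').neg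
  refine h4.congr_fderiv ?_
  ext v
  have hr : (gam T A q z v).re =
      (A z v).re + inner ℝ (T z q) (fderiv ℝ T z v q) / ‖T z q‖ ^ 2 := by
    rw [H.gam_apply hz, add_re]
    congr 1
    rw [Complex.inner, ← Complex.normSq_eq_norm_sq, mul_comm, ← div_eq_mul_inv, Complex.div_re]
    simp only [mul_re, conj_re, conj_im]
    ring
  simp only [_root_.neg_apply, _root_.smul_apply,
    _root_.add_apply, ContinuousLinearMap.comp_apply, reCLM_apply, smul_eq_mul,
    innerSL_apply_apply, nsmul_eq_mul, Pi.mul_apply]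
  rw [hr, H.h_A z hz, fderiv_apply' (H.T_diff hz)]
  have hh : h z ≠ 0 := hp.ne'
  have hnn : ‖T z q‖ ≠ 0 := by positivity
  field_simp
  push_cast
  ring

/-- the curvature is positive -/
theorem lev_pos (H : LC U T A h) {q : Cn d} (hq : ∀ z ∈ U, T z q ≠ 0) {z : Cn d} (hz : z ∈ U)
    {v : Cn d} (hv : v ≠ 0) : 0 < lev (fun z => - Real.log (h z * ‖T z q‖ ^ 2)) z v := by
  have h1 : fderiv ℝ (fun z => - Real.log (h z * ‖T z q‖ ^ 2)) =ᶠ[𝓝 z]
      fun z => (-2 : ℝ) • reCLM.comp (gam T A q z) := by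
    filter_upwards [H.isOpen.mem_nhds hz] with w hw
    exact (H.hasFDerivAt_log hq hw).fderiv
  have h2 : HasFDerivAt (gam T A q) (fderiv ℝ (gam T A q) z) z := (H.gam_diff hq hz).hasFDerivAt
  have h3 : ∀ a b, fderiv ℝ (fun z => (-2 : ℝ) • reCLM.comp (gam T A q z)) z a b =
      -2 * (fderiv ℝ (gam T A q) z a b).re := by
    intro a b
    have h4 : HasFDerivAt (fun z => (-2 : ℝ) • reCLM.comp (gam T A q z)) _ z :=
      ((hasFDerivAt_const reCLM z).clm_comp h2).const_smul (-2 : ℝ)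
    rw [h4.fderiv]
    simp
  have h5 : ∀ a b, fderiv ℝ (fderiv ℝ (fun z => - Real.log (h z * ‖T z q‖ ^ 2))) z a b =
      -2 * (fderiv ℝ (gam T A q) z a b).re := by
    intro a b
    rw [h1.fderiv_eq, h3]
  unfold lev
  simp only [iteratedFDeriv_two_apply, Matrix.cons_val_zero, Matrix.cons_val_one]
  rw [h5, h5]
  have e1 := fderiv_I_of H.isOpen (fun z hz => H.gam_diff hq hz) (fun z hz v => H.gam_I hq hz v)
    hz v v
  have e2 := fderiv_I_of H.isOpen (fun z hz => H.gam_diff hq hz) (fun z hz v => H.gam_I hq hz v)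
    hz (I • v) v
  have e3 := H.dd_gam hq hz v (I • v)
  unfold dd at e3
  have hp := H.pos z hz v hv
  have e4 : fderiv ℝ (gam T A q) z v v + fderiv ℝ (gam T A q) z (I • v) (I • v) =
      -(I * dd A z v (I • v)) := by
    unfold dd
    rw [← e3, e1, e2]
    linear_combination fderiv ℝ (gam T A q) z v v * I_mul_I
  have e5 := congrArg Complex.re e4
  rw [add_re, neg_re] at e5
  linarith

/-- nondegeneracy for the normalised form -/
theorem nd_app (H : LC U T A h) {q z : Cn d} (hz : z ∈ U) (hq : T z q ≠ 0) {u : Cn d}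
    (hu : T z u = 0)
    (h0 : ∀ w, T z w = 0 → (fderiv ℝ T z u w * T z q - T z w * fderiv ℝ T z u q) / T z q ^ 2 -
      (fderiv ℝ T z w u * T z q - T z u * fderiv ℝ T z w q) / T z q ^ 2 = 0) : u = 0 := by
  refine H.nd z hz u hu fun w hw => ?_
  have h1 := h0 w hw
  rw [hw, hu] at h1
  unfold dd
  field_simp at h1
  apply mul_left_cancel₀ hq
  linear_combination h1

end LC

end

end Crest.Agent.R260.Nn_254
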