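import Crest.Agent.R260.GaDefs_323

/-!
# R260, NN-LB, part 2 (helper254): a holomorphic hyperplane field gives a line bundle and a form

`HypF A` : in each chart a holomorphic form `th a` with `th a (q a) = 1`, proportional on the
overlaps. `HypF.lb` : the line bundle `T / ker`, `HypF.form : OneForm H.lb`.
-/

set_option autoImplicit false

open Set Filter Topology Complex
open scoped ContDiff Matrix

namespace Crest.Agent.R260.Nn_254

open Crest.Agent.R275.Geo Crest.Agent.R275.Core144 Crest.Agent.R260.Ga_323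

noncomputable section

variable {d : ℕ} {Z : Type} [TopologicalSpace Z]

/-- a hyperplane field given by normalised holomorphic forms -/
structure HypF (A : Atl d Z) where
  q : A.ι → Fin d → ℂ
  th : A.ι → Z → Fin d → ℂ
  hol : ∀ a c, HolAt A a univ (fun x => th a x c)
  nrm : ∀ a, ∀ x ∈ (A.e a).source, th a x ⬝ᵥ q a = 1
  cov : ∀ a b, ∀ x ∈ (A.e a).source ∩ (A.e b).source, ∃ κ : ℂ,
    th a x = κ • (th b x ᵥ* Jm A a b x)

variable {A : Atl d Z}

theorem holAt_J' (a b : A.ι) (c e : Fin d) :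
    HolAt A a (A.e b).source (fun x => A.J b a x c e) := by
  have h1 := (holAt_J (A := A) b a c e).chg (A.e a).open_source a
  refine DifferentiableOn.mono h1 fun z hz => ⟨hz.1, ?_, hz.2⟩
  exact (A.e a).map_target hz.1

namespace HypF

variable (H : HypF A)

/-- the cocycle -/
def gg (a b : A.ι) (x : Z) : ℂ := H.th a x ⬝ᵥ (Jm A b a x *ᵥ H.q b)

theorem kap {a b : A.ι} {x : Z} (hx : x ∈ (A.e a).source ∩ (A.e b).source) {κ : ℂ}
    (h : H.th a x = κ • (H.th b x ᵥ* Jm A a b x)) : H.gg a b x = κ := by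
  unfold gg
  rw [h, smul_dotProduct, ← Matrix.dotProduct_mulVec, Matrix.mulVec_mulVec,
    J_mul b a b ⟨⟨hx.2, hx.1⟩, hx.2⟩, J_self b hx.2, Matrix.one_mulVec, H.nrm b x hx.2,
    smul_eq_mul, mul_one]

theorem cov' {a b : A.ι} {x : Z} (hx : x ∈ (A.e a).source ∩ (A.e b).source) :
    H.th a x = H.gg a b x • (H.th b x ᵥ* Jm A a b x) := by
  obtain ⟨κ, hκ⟩ := H.cov a b x hx
  rw [H.kap hx hκ]
  exact hκ

theorem gg_mul {a b c : A.ι} {x : Z}
    (hx : x ∈ (A.e a).source ∩ (A.e b).source ∩ (A.e c).source) :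
    H.gg a b x * H.gg b c x = H.gg a c x := by
  symm
  apply H.kap ⟨hx.1.1, hx.2⟩
  nth_rewrite 1 [H.cov' hx.1]
  rw [H.cov' (a := b) (b := c) ⟨hx.1.2, hx.2⟩, Matrix.smul_vecMul, Matrix.vecMul_vecMul,
    J_mul a b c hx, smul_smul]

/-- the line bundle -/
def lb : LB A where
  g a b x := open Classical in
    if x ∈ (A.e a).source ∩ (A.e b).source then H.gg a b x else 1
  hol a b := by
    have h1 : HolAt A a (A.e b).source (H.gg a b) := by
      have h2 : HolAt A a (A.e b).source
          (fun x => ∑ c, H.th a x c * ∑ e, A.J b a x c e * H.q b e) := by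
        refine HolAt.sum _ fun c _ => ((H.hol a c).mono (subset_univ _)).mul ?_
        exact HolAt.sum _ fun e _ => (holAt_J' a b c e).mul (holAt_const _)
      refine h2.congr fun x _ _ => ?_
      simp [gg, dotProduct, Matrix.mulVec, Jm]
    refine h1.congr fun x hx hx' => ?_
    rw [if_pos ⟨hx, hx'⟩]
  off a b x hx := if_neg hx
  self a x := by
    split_ifs with hx
    · unfold gg
      rw [J_self a hx.1, Matrix.one_mulVec, H.nrm a x hx.1]
    · rfl
  mul a b c x hx := by
    rw [if_pos hx.1, if_pos ⟨hx.1.2, hx.2⟩, if_pos ⟨hx.1.1, hx.2⟩, H.gg_mul hx]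

theorem lb_g {a b : A.ι} {x : Z} (hx : x ∈ (A.e a).source ∩ (A.e b).source) :
    H.lb.g a b x = H.gg a b x := by
  classical
  exact if_pos hx

/-- the form -/
def form : OneForm H.lb where
  th := H.th
  hol := H.hol
  tr a b x hx c := by
    rw [H.lb_g hx]
    have h1 := congrFun (H.cov' hx) c
    rw [h1]
    simp [Matrix.vecMul, dotProduct, Jm, mul_comm]

@[simp] theorem form_th (a : A.ι) (x : Z) : H.form.th a x = H.th a x := rfl

theorem form_app (a : A.ι) (x : Z) (u : Cn d) :
    H.form.app a x u = ∑ c, H.th a x c * u c := rfl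

end HypF

end

end Crest.Agent.R260.Nn_254
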