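import Crest.Agent.R260.NnLb1_254

/-!
# R260, NN-LB, part 3 (helper254): the contact data in the holomorphic charts

`Gf D φ i x v = θ_i (∂_v)` in the holomorphic chart `φ`; `lc_of` : `LC` of `CD`;
`Gf_lam` (change of the real chart), `Gf_chg` (change of the holomorphic chart),
`Gf_sum` (complex linearity), `Gf_db` (`∂̄`-equation in the real chart).
-/

set_option autoImplicit false

open Set Filter Topology Complex
open scoped ContDiff

namespace Crest.Agent.R260.Nn_254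

open Crest.Agent.R260.ACM_580 Crest.Agent.R260.NNB_580
open Crest.Agent.R275.Geo Crest.Agent.R273.Defs_333

noncomputable section

variable {V Z : Type} [NormedAddCommGroup V] [NormedSpace ℝ V] [TopologicalSpace Z]
  {C : ACM V Z} {d : ℕ}

/-- inverse of the chart `φ` read in the real chart `i` -/
def Ps (C : ACM V Z) (i : C.ι) (φ : OpenPartialHomeomorph Z (Cn d)) (z : Cn d) : V :=
  C.e i (φ.symm z)

theorem Ps_apply {i : C.ι} {φ : OpenPartialHomeomorph Z (Cn d)} {x : Z} (hx : x ∈ φ.source) :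
    Ps C i φ (φ x) = C.e i x := by
  unfold Ps
  rw [φ.left_inv hx]

/-- the value of `θ_i` on the coordinate vectors of `φ` -/
def Gf (D : CD C) (φ : OpenPartialHomeomorph Z (Cn d)) (i : C.ι) (x : Z) : Cn d →L[ℝ] ℂ :=
  pb (Ps C i φ) (D.θ i) (φ x)

theorem Gf_apply (D : CD C) {φ : OpenPartialHomeomorph Z (Cn d)} {i : C.ι} {x : Z}
    (hx : x ∈ φ.source) (v : Cn d) :
    Gf D φ i x v = D.θ i (C.e i x) (fderiv ℝ (Ps C i φ) (φ x) v) := by
  unfold Gf
  rw [pb_apply, Ps_apply hx]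

variable {φ ψ : OpenPartialHomeomorph Z (Cn d)}

theorem Ps_contDiffOn (h : JCh C φ) (i : C.ι) : ContDiffOn ℝ ∞ (Ps C i φ) (ovc C i φ) := h.sm' i

theorem Ps_contDiffAt (h : JCh C φ) {i : C.ι} {z : Cn d} (hz : z ∈ ovc C i φ) :
    ContDiffAt ℝ ∞ (Ps C i φ) z := (h.sm' i).contDiffAt ((isOpen_ovc i φ).mem_nhds hz)

theorem two_le_inf : (2 : WithTop ℕ∞) ≤ ∞ := WithTop.coe_le_coe.2 (le_top : (2 : ℕ∞) ≤ ⊤)

theorem Ps_lin (h : JCh C φ) {i : C.ι} {z : Cn d} (hz : z ∈ ovc C i φ) (v : Cn d) :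
    fderiv ℝ (Ps C i φ) z (I • v) = C.J i (Ps C i φ z) (fderiv ℝ (Ps C i φ) z v) := h.lin' hz v

theorem Ps_mem {i : C.ι} {z : Cn d} (hz : z ∈ ovc C i φ) : Ps C i φ z ∈ (C.e i).target :=
  (C.e i).map_source hz.2

/-- the data in a holomorphic chart -/
theorem lc_of (D : CD C) (h : JCh C φ) (i : C.ι) :
    LC (ovc C i φ) (pb (Ps C i φ) (D.θ i)) (pb (Ps C i φ) (D.α i))
      (fun z => D.h i (Ps C i φ z)) := by
  have hmt : MapsTo (Ps C i φ) (ovc C i φ) (C.e i).target := fun z hz => Ps_mem hz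
  have hT : ContDiffOn ℝ ∞ (pb (Ps C i φ) (D.θ i)) (ovc C i φ) :=
    contDiffOn_pb (isOpen_ovc i φ) (Ps_contDiffOn h i) (D.θ_sm i) hmt
  have hTI : ∀ z ∈ ovc C i φ, ∀ v, pb (Ps C i φ) (D.θ i) z (I • v) =
      I * pb (Ps C i φ) (D.θ i) z v := by
    intro z hz v
    rw [pb_apply, pb_apply, Ps_lin h hz, D.θ_J i _ (Ps_mem hz)]
  have hTd : ∀ z ∈ ovc C i φ, DifferentiableAt ℝ (pb (Ps C i φ) (D.θ i)) z := fun z hz =>
    (hT.contDiffAt ((isOpen_ovc i φ).mem_nhds hz)).differentiableAt (by simp)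
  have hP2 : ∀ z ∈ ovc C i φ, ContDiffAt ℝ 2 (Ps C i φ) z := fun z hz =>
    (Ps_contDiffAt h hz).of_le two_le_inf
  have hθd : ∀ z ∈ ovc C i φ, DifferentiableAt ℝ (D.θ i) (Ps C i φ z) := fun z hz =>
    ((D.θ_sm i).contDiffAt ((C.e i).open_target.mem_nhds (Ps_mem hz))).differentiableAt (by simp)
  have hαd : ∀ z ∈ ovc C i φ, DifferentiableAt ℝ (D.α i) (Ps C i φ z) := fun z hz =>
    ((D.α_sm i).contDiffAt ((C.e i).open_target.mem_nhds (Ps_mem hz))).differentiableAt (by simp)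
  have hinj : ∀ z ∈ ovc C i φ, ∀ v, fderiv ℝ (Ps C i φ) z v = 0 → v = 0 := by
    intro z hz v hv
    have h1 := h.inv_left hz v
    have h2 : fderiv ℝ (fun z => C.e i (φ.symm z)) z v = 0 := hv
    rw [h2, map_zero] at h1
    exact h1.symm
  have hsurj : ∀ z ∈ ovc C i φ, ∀ w : V, ∃ v, fderiv ℝ (Ps C i φ) z v = w := by
    intro z hz w
    refine ⟨fderiv ℝ (fun z => φ ((C.e i).symm z)) (C.e i (φ.symm z)) w, ?_⟩
    have h1 := h.inv_right (JCh.swap hz) w
    rw [(C.e i).left_inv hz.2, φ.right_inv hz.1] at h1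
    exact h1
  refine ⟨isOpen_ovc i φ, hT, hTI, fun z hz u v => ?_, ?_, ?_, fun z hz => D.h_pos i _ (Ps_mem hz),
    fun z hz v => ?_, fun z hz v hv => ?_, fun z hz v hv h0 => ?_⟩
  · have e1 : fderiv ℝ (pb (Ps C i φ) (D.θ i)) z v (I • u) =
        I * fderiv ℝ (pb (Ps C i φ) (D.θ i)) z v u := fderiv_I_of (isOpen_ovc i φ) hTd hTI hz v u
    have e2 := dd_pb (hP2 z hz) (hθd z hz) u v
    have e3 := dd_pb (hP2 z hz) (hθd z hz) (I • u) v
    have e4 := D.θ_db i _ (Ps_mem hz) (fderiv ℝ (Ps C i φ) z u) (fderiv ℝ (Ps C i φ) z v)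
    rw [← Ps_lin h hz, ← e2, ← e3] at e4
    unfold dd at e4
    rw [e1] at e4
    simp only [pb_apply]
    linear_combination e4 + fderiv ℝ (pb (Ps C i φ) (D.θ i)) z v u * I_mul_I
  · exact contDiffOn_pb (isOpen_ovc i φ) (Ps_contDiffOn h i) (D.α_sm i) hmt
  · exact (D.h_sm i).comp (Ps_contDiffOn h i) hmt
  · have h1 : DifferentiableAt ℝ (D.h i) (Ps C i φ z) :=
      ((D.h_sm i).contDiffAt ((C.e i).open_target.mem_nhds (Ps_mem hz))).differentiableAt (by simp)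
    have h2 : HasFDerivAt (fun z => D.h i (Ps C i φ z))
        ((fderiv ℝ (D.h i) (Ps C i φ z)).comp (fderiv ℝ (Ps C i φ) z)) z :=
      h1.hasFDerivAt.comp z ((Ps_contDiffAt h hz).differentiableAt (by simp)).hasFDerivAt
    rw [h2.fderiv]
    exact D.α_h i _ (Ps_mem hz) _
  · rw [dd_pb (hP2 z hz) (hαd z hz), Ps_lin h hz]
    exact D.pos i _ (Ps_mem hz) _ fun h0 => hv (hinj z hz v h0)
  · refine hinj z hz v (D.nondeg i _ (Ps_mem hz) _ hv fun w hw => ?_)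
    obtain ⟨w', rfl⟩ := hsurj z hz w
    rw [← dd_pb (hP2 z hz) (hθd z hz)]
    exact h0 w' hw

/-- complex linearity -/
theorem lin_sum {T : Cn d →L[ℝ] ℂ} (hT : ∀ v, T (I • v) = I * T v) (v : Cn d) :
    T v = ∑ c, T (EuclideanSpace.single c (1 : ℂ)) * v c := by
  have hv : v = ∑ c, v c • (EuclideanSpace.single c (1 : ℂ) : Cn d) := by
    ext e
    simp [Pi.single_apply]
  have h1 : ∀ v, T v = cl T hT v := fun v => rfl
  rw [h1 v]
  conv_lhs => rw [hv]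
  rw [map_sum]
  refine Finset.sum_congr rfl fun c _ => ?_
  rw [map_smul, smul_eq_mul, mul_comm]
  rfl

theorem Gf_I (D : CD C) (h : JCh C φ) {i : C.ι} {x : Z} (hx : x ∈ φ.source)
    (hi : x ∈ (C.e i).source) (v : Cn d) : Gf D φ i x (I • v) = I * Gf D φ i x v :=
  (lc_of D h i).T_I _ (mem_ovc_of_source hx hi) v

theorem Gf_sum (D : CD C) (h : JCh C φ) {i : C.ι} {x : Z} (hx : x ∈ φ.source)
    (hi : x ∈ (C.e i).source) (v : Cn d) :
    Gf D φ i x v = ∑ c, Gf D φ i x (EuclideanSpace.single c (1 : ℂ)) * v c :=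
  lin_sum (Gf_I D h hx hi) v

/-- change of the real chart -/
theorem Gf_lam (D : CD C) (h : JCh C φ) {i j : C.ι} {x : Z} (hx : x ∈ φ.source)
    (hi : x ∈ (C.e i).source) (hj : x ∈ (C.e j).source) (v : Cn d) :
    Gf D φ i x v = D.lam i j (C.e i x) * Gf D φ j x v := by
  have hov : C.e i x ∈ C.ov i j :=
    ⟨(C.e i).map_source hi, by rw [(C.e i).left_inv hi]; exact hj⟩
  rw [Gf_apply D hx, Gf_apply D hx, D.θ_tr i j _ hov, (C.e i).left_inv hi]
  congr 2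
  have h1 : DifferentiableAt ℝ (fun y => C.e j ((C.e i).symm y)) (C.e i x) :=
    ((C.sm i j).contDiffAt ((C.isOpen_ov i j).mem_nhds hov)).differentiableAt (by simp)
  have hc : φ x ∈ ovc C i φ := mem_ovc_of_source hx hi
  have h2 : HasFDerivAt (Ps C i φ) (fderiv ℝ (Ps C i φ) (φ x)) (φ x) :=
    ((Ps_contDiffAt h hc).differentiableAt (by simp)).hasFDerivAt
  have h3 : HasFDerivAt (fun z => C.e j ((C.e i).symm (Ps C i φ z)))
      ((fderiv ℝ (fun y => C.e j ((C.e i).symm y)) (C.e i x)).comp (fderiv ℝ (Ps C i φ) (φ x)))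
      (φ x) := by
    refine HasFDerivAt.comp (φ x) (g := fun y => C.e j ((C.e i).symm y)) ?_ h2
    rw [Ps_apply hx]
    exact h1.hasFDerivAt
  have h4 : Ps C j φ =ᶠ[𝓝 (φ x)] fun z => C.e j ((C.e i).symm (Ps C i φ z)) := by
    filter_upwards [(isOpen_ovc i φ).mem_nhds hc] with w hw
    unfold Ps
    rw [(C.e i).left_inv hw.2]
  rw [h4.fderiv_eq, h3.fderiv]
  rfl

/-- change of the holomorphic chart -/
theorem Gf_chg (D : CD C) (hφ : JCh C φ) (hψ : JCh C ψ) {i : C.ι} {x : Z} (hx : x ∈ φ.source)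
    (hx' : x ∈ ψ.source) (hi : x ∈ (C.e i).source) (v : Cn d) :
    Gf D ψ i x v = Gf D φ i x (fderiv ℂ (fun z => φ (ψ.symm z)) (ψ x) v) := by
  rw [Gf_apply D hx', Gf_apply D hx]
  congr 1
  have hc : φ x ∈ ovc C i φ := mem_ovc_of_source hx hi
  have h2 : HasFDerivAt (Ps C i φ) (fderiv ℝ (Ps C i φ) (φ x)) (φ x) :=
    ((Ps_contDiffAt hφ hc).differentiableAt (by simp)).hasFDerivAt
  have ho : IsOpen {z | z ∈ ψ.target ∧ ψ.symm z ∈ φ.source} :=
    ψ.isOpen_inter_preimage_symm φ.open_source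
  have hm : ψ x ∈ {z | z ∈ ψ.target ∧ ψ.symm z ∈ φ.source} :=
    ⟨ψ.map_source hx', by rw [ψ.left_inv hx']; exact hx⟩
  have h1 : DifferentiableAt ℂ (fun z => φ (ψ.symm z)) (ψ x) :=
    (hψ.holo hφ).differentiableAt (ho.mem_nhds hm)
  have h5 : HasFDerivAt (fun z => φ (ψ.symm z))
      ((fderiv ℂ (fun z => φ (ψ.symm z)) (ψ x)).restrictScalars ℝ) (ψ x) :=
    h1.hasFDerivAt.restrictScalars ℝ
  have h3 : HasFDerivAt (fun z => Ps C i φ (φ (ψ.symm z)))
      ((fderiv ℝ (Ps C i φ) (φ x)).comp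
        ((fderiv ℂ (fun z => φ (ψ.symm z)) (ψ x)).restrictScalars ℝ)) (ψ x) := by
    refine HasFDerivAt.comp (ψ x) (g := Ps C i φ) ?_ h5
    rw [ψ.left_inv hx']
    exact h2
  have h4 : Ps C i ψ =ᶠ[𝓝 (ψ x)] fun z => Ps C i φ (φ (ψ.symm z)) := by
    filter_upwards [ho.mem_nhds hm] with w hw
    unfold Ps
    rw [φ.left_inv hw.2]
  rw [h4.fderiv_eq, h3.fderiv]
  rfl

/-- the function `y ↦ Gf D φ i ((C.e i).symm y) v` in the real chart -/
theorem Gf_real_contDiffOn (D : CD C) (h : JCh C φ) (i : C.ι) (v : Cn d) :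
    ContDiffOn ℝ ∞ (fun y => Gf D φ i ((C.e i).symm y) v) (ovr C i φ) := by
  have h1 := (lc_of D h i).G_sm v
  exact h1.comp (h.sm i) fun y hy => JCh.swap' hy

theorem Gf_real_hasFDerivAt (D : CD C) (h : JCh C φ) {i : C.ι} {x : Z} (hx : x ∈ φ.source)
    (hi : x ∈ (C.e i).source) (v : Cn d) :
    HasFDerivAt (fun y => Gf D φ i ((C.e i).symm y) v)
      ((fderiv ℝ (fun z => pb (Ps C i φ) (D.θ i) z v) (φ x)).comp
        (fderiv ℝ (fun y => φ ((C.e i).symm y)) (C.e i x))) (C.e i x) := by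
  have hc : φ x ∈ ovc C i φ := mem_ovc_of_source hx hi
  have hr : C.e i x ∈ ovr C i φ := mem_ovr_of_source hx hi
  have h1 : DifferentiableAt ℝ (fun z => pb (Ps C i φ) (D.θ i) z v) (φ x) :=
    (lc_of D h i).Tv_diff hc v
  refine HasFDerivAt.comp (C.e i x) (g := fun z => pb (Ps C i φ) (D.θ i) z v)
    (f := fun y => φ ((C.e i).symm y)) ?_ (h.diffAt hr).hasFDerivAt
  rw [(C.e i).left_inv hi]
  exact h1.hasFDerivAt

/-- the `∂̄`-equation in the real chart -/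
theorem Gf_db (D : CD C) (h : JCh C φ) {i : C.ι} {x : Z} (hx : x ∈ φ.source)
    (hi : x ∈ (C.e i).source) (q : Cn d) (v : V) :
    fderiv ℝ (fun y => Gf D φ i ((C.e i).symm y) q) (C.e i x) v +
      I * fderiv ℝ (fun y => Gf D φ i ((C.e i).symm y) q) (C.e i x) (C.J i (C.e i x) v) =
      -(D.α i (C.e i x) v + I * D.α i (C.e i x) (C.J i (C.e i x) v)) * Gf D φ i x q := by
  have hc : φ x ∈ ovc C i φ := mem_ovc_of_source hx hi
  have hr : C.e i x ∈ ovr C i φ := mem_ovr_of_source hx hi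
  have H := lc_of D h i
  rw [(Gf_real_hasFDerivAt D h hx hi q).fderiv]
  simp only [ContinuousLinearMap.comp_apply]
  rw [h.lin i _ hr, fderiv_apply' (H.T_diff hc), fderiv_apply' (H.T_diff hc)]
  have h1 := H.T_db _ hc (fderiv ℝ (fun z => φ ((C.e i).symm z)) (C.e i x) v) q
  rw [h1]
  have h2 : ∀ w : V, pb (Ps C i φ) (D.α i) (φ x)
      (fderiv ℝ (fun z => φ ((C.e i).symm z)) (C.e i x) w) = D.α i (C.e i x) w := by
    intro w
    rw [pb_apply, Ps_apply hx]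
    congr 1
    have h3 := h.inv_right hr w
    rw [(C.e i).left_inv hi] at h3
    exact h3
  rw [← h.lin i _ hr, h2, h2]
  rfl

/-- `θ_i (v)` through the holomorphic coordinates of `v` -/
theorem theta_eq (D : CD C) (h : JCh C φ) {i : C.ι} {x : Z} (hx : x ∈ φ.source)
    (hi : x ∈ (C.e i).source) (v : V) :
    D.θ i (C.e i x) v = Gf D φ i x (fderiv ℝ (fun y => φ ((C.e i).symm y)) (C.e i x) v) := by
  rw [Gf_apply D hx]
  congr 1
  have h3 := h.inv_right (mem_ovr_of_source hx hi) v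
  rw [(C.e i).left_inv hi] at h3
  exact h3.symm

end

end Crest.Agent.R260.Nn_254
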