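import Crest.Agent.R260.NnLb2_254
import Crest.Agent.R260.NnLb3_254
import Crest.Agent.R260.NNB4_580

/-!
# R260, NN-LB, part 4 (helper254): `LB`, `OneForm`, `HM` from the contact data

`cmp D q a i x` : comparison of the frame of `L` of the holomorphic chart `a` (vector `q a`) and of
the real chart `i`.  `hyp` : the hyperplane field; `met` : the metric; `met_pos`, `contact`.
`Lnk` : the comparison functions.
-/

set_option autoImplicit false

open Set Filter Topology Complex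
open scoped ContDiff Matrix

namespace Crest.Agent.R260.Nn_254

open Crest.Agent.R260.ACM_580 Crest.Agent.R260.NNB_580 Crest.Agent.R260.Ga_323
open Crest.Agent.R275.Geo Crest.Agent.R275.Core144 Crest.Agent.R273.Defs_333

noncomputable section

variable {V Z : Type} [NormedAddCommGroup V] [NormedSpace ℝ V] [TopologicalSpace Z]
  {C : ACM V Z} {d : ℕ} {A : Atl d Z}

/-- a real chart around `x` -/
def ri (C : ACM V Z) (x : Z) : C.ι := (C.cover x).choose

theorem ri_mem (C : ACM V Z) (x : Z) : x ∈ (C.e (ri C x)).source := (C.cover x).choose_spec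

theorem Gf_symm (D : CD C) {φ : OpenPartialHomeomorph Z (Cn d)} {i : C.ι} {z : Cn d}
    (hz : z ∈ φ.target) : Gf D φ i (φ.symm z) = pb (Ps C i φ) (D.θ i) z := by
  unfold Gf
  rw [φ.right_inv hz]

/-- comparison function -/
def cmp (D : CD C) (q : A.ι → Cn d) (a : A.ι) (i : C.ι) (x : Z) : ℂ := Gf D (A.e a) i x (q a)

/-- the vectors `q a` are transversal to the hyperplane field -/
def QC (D : CD C) (q : A.ι → Cn d) : Prop :=
  ∀ a, ∀ x ∈ (A.e a).source, ∀ i, x ∈ (C.e i).source → cmp D q a i x ≠ 0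

variable {D : CD C} {q : A.ι → Cn d}

/-- one real chart around each point is enough -/
theorem qc_of (hCp : Cp C A)
    (h : ∀ a, ∀ x ∈ (A.e a).source, ∃ i, x ∈ (C.e i).source ∧ cmp D q a i x ≠ 0) : QC D q := by
  intro a x hx i hi
  obtain ⟨j, hj, h0⟩ := h a x hx
  unfold cmp at h0 ⊢
  rw [Gf_lam D (hCp a) hx hj hi] at h0
  exact right_ne_zero_of_mul h0

/-- the normalised form in the chart `a` -/
def tf (D : CD C) (q : A.ι → Cn d) (a : A.ι) (x : Z) (c : Fin d) : ℂ :=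
  Gf D (A.e a) (ri C x) x (EuclideanSpace.single c (1 : ℂ)) / cmp D q a (ri C x) x

theorem tf_eq (hCp : Cp C A) {a : A.ι} {i : C.ι} {x : Z} (hx : x ∈ (A.e a).source)
    (hi : x ∈ (C.e i).source) (c : Fin d) :
    tf D q a x c = Gf D (A.e a) i x (EuclideanSpace.single c (1 : ℂ)) / cmp D q a i x := by
  unfold tf cmp
  have hov : C.e i x ∈ C.ov i (ri C x) :=
    ⟨(C.e i).map_source hi, by rw [(C.e i).left_inv hi]; exact ri_mem C x⟩
  rw [Gf_lam D (hCp a) hx hi (ri_mem C x), Gf_lam D (hCp a) hx hi (ri_mem C x),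
    mul_div_mul_left _ _ (D.lam_ne i _ _ hov)]

theorem tf_sum (hCp : Cp C A) {a : A.ι} {i : C.ι} {x : Z} (hx : x ∈ (A.e a).source)
    (hi : x ∈ (C.e i).source) (v : Cn d) :
    ∑ c, tf D q a x c * v c = Gf D (A.e a) i x v / cmp D q a i x := by
  rw [Gf_sum D (hCp a) hx hi v, Finset.sum_div]
  refine Finset.sum_congr rfl fun c _ => ?_
  rw [tf_eq hCp hx hi]
  ring

/-- in the coordinates of the chart `a` -/
theorem tf_ev (hCp : Cp C A) {a : A.ι} {i : C.ι} {z : Cn d} (hz : z ∈ ovc C i (A.e a))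
    (c : Fin d) :
    (fun z => tf D q a ((A.e a).symm z) c) =ᶠ[𝓝 z] fun z =>
      pb (Ps C i (A.e a)) (D.θ i) z (EuclideanSpace.single c (1 : ℂ)) /
        pb (Ps C i (A.e a)) (D.θ i) z (q a) := by
  filter_upwards [(isOpen_ovc i (A.e a)).mem_nhds hz] with w hw
  rw [tf_eq hCp ((A.e a).map_target hw.1) hw.2]
  unfold cmp
  rw [Gf_symm D hw.1]

theorem cmp_ne_pb (hq : QC D q) {a : A.ι} {i : C.ι} {z : Cn d} (hz : z ∈ ovc C i (A.e a)) :
    pb (Ps C i (A.e a)) (D.θ i) z (q a) ≠ 0 := by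
  have h1 := hq a _ ((A.e a).map_target hz.1) i hz.2
  unfold cmp at h1
  rw [Gf_symm D hz.1] at h1
  exact h1

theorem cmp_chg (hCp : Cp C A) {a b : A.ι} {i : C.ι} {x : Z}
    (hx : x ∈ (A.e a).source ∩ (A.e b).source) (hi : x ∈ (C.e i).source) (v : Cn d) :
    Gf D (A.e a) i x v = ∑ e, Gf D (A.e b) i x (EuclideanSpace.single e (1 : ℂ)) *
      (fderiv ℂ (fun z => A.e b ((A.e a).symm z)) (A.e a x) v) e := by
  rw [Gf_chg D (hCp b) (hCp a) hx.2 hx.1 hi, Gf_sum D (hCp b) hx.2 hi]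

/-- the hyperplane field -/
def hyp (hCp : Cp C A) (hq : QC D q) : HypF A where
  q a c := q a c
  th := tf D q
  hol a c := by
    intro z hz
    apply DifferentiableAt.differentiableWithinAt
    have hc : z ∈ ovc C (ri C ((A.e a).symm z)) (A.e a) := ⟨hz.1, ri_mem C _⟩
    refine DifferentiableAt.congr_of_eventuallyEq ?_ (tf_ev (D := D) (q := q) hCp hc c)
    exact (lc_of D (hCp a) _).holo hc _ (cmp_ne_pb hq hc)
  nrm a x hx := by
    have h1 := tf_sum (D := D) (q := q) hCp hx (ri_mem C x) (q a)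
    have h2 : Gf D (A.e a) (ri C x) x (q a) / cmp D q a (ri C x) x = 1 :=
      div_self (hq a x hx _ (ri_mem C x))
    rw [h2] at h1
    exact h1
  cov a b x hx := by
    have hi := ri_mem C x
    refine ⟨cmp D q b (ri C x) x / cmp D q a (ri C x) x, ?_⟩
    ext c
    have h0 := hq b x hx.2 _ hi
    rw [tf_eq hCp hx.1 hi, cmp_chg hCp hx hi]
    simp only [Pi.smul_apply, smul_eq_mul, Matrix.vecMul, dotProduct, Jm_apply, Atl.J,
      Finset.mul_sum, Finset.sum_div]
    refine Finset.sum_congr rfl fun e _ => ?_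
    rw [tf_eq hCp hx.2 hi]
    field_simp

variable (hCp : Cp C A) (hq : QC D q)

theorem lb_g_eq {a b : A.ι} {i : C.ι} {x : Z} (hx : x ∈ (A.e a).source ∩ (A.e b).source)
    (hi : x ∈ (C.e i).source) :
    (hyp hCp hq).lb.g a b x = cmp D q b i x / cmp D q a i x := by
  rw [HypF.lb_g _ hx]
  apply HypF.kap _ hx
  ext c
  have h0 := hq b x hx.2 _ hi
  show tf D q a x c = (_ • (tf D q b x ᵥ* Jm A a b x)) c
  rw [tf_eq hCp hx.1 hi, cmp_chg hCp hx hi]
  simp only [Pi.smul_apply, smul_eq_mul, Matrix.vecMul, dotProduct, Jm_apply, Atl.J,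
    Finset.mul_sum, Finset.sum_div]
  refine Finset.sum_congr rfl fun e _ => ?_
  rw [tf_eq hCp hx.2 hi]
  field_simp

theorem form_app_eq {a : A.ι} {i : C.ι} {x : Z} (hx : x ∈ (A.e a).source)
    (hi : x ∈ (C.e i).source) (v : Cn d) :
    (hyp hCp hq).form.app a x v = Gf D (A.e a) i x v / cmp D q a i x := tf_sum hCp hx hi v

/-- the local weight -/
def wf (D : CD C) (q : A.ι → Cn d) (a : A.ι) (i : C.ι) (x : Z) : ℝ :=
  D.h i (C.e i x) * ‖cmp D q a i x‖ ^ 2

theorem cmp_lam (hCp : Cp C A) {a : A.ι} {i j : C.ι} {x : Z} (hx : x ∈ (A.e a).source)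
    (hi : x ∈ (C.e i).source) (hj : x ∈ (C.e j).source) :
    cmp D q a i x = D.lam i j (C.e i x) * cmp D q a j x := Gf_lam D (hCp a) hx hi hj (q a)

theorem wf_eq (hCp : Cp C A) {a : A.ι} {i j : C.ι} {x : Z} (hx : x ∈ (A.e a).source)
    (hi : x ∈ (C.e i).source) (hj : x ∈ (C.e j).source) : wf D q a i x = wf D q a j x := by
  unfold wf
  have hov : C.e i x ∈ C.ov i j :=
    ⟨(C.e i).map_source hi, by rw [(C.e i).left_inv hi]; exact hj⟩
  have h1 := D.h_tr i j _ hov
  rw [(C.e i).left_inv hi] at h1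
  rw [h1, cmp_lam hCp hx hi hj, norm_mul]
  ring

theorem wf_ev (hCp : Cp C A) {a : A.ι} {i : C.ι} {z : Cn d} (hz : z ∈ ovc C i (A.e a)) :
    (fun z => wf D q a (ri C ((A.e a).symm z)) ((A.e a).symm z)) =ᶠ[𝓝 z] fun z =>
      D.h i (Ps C i (A.e a) z) * ‖pb (Ps C i (A.e a)) (D.θ i) z (q a)‖ ^ 2 := by
  filter_upwards [(isOpen_ovc i (A.e a)).mem_nhds hz] with w hw
  rw [wf_eq hCp ((A.e a).map_target hw.1) (ri_mem C _) hw.2]
  unfold wf cmp
  rw [Gf_symm D hw.1]
  rfl

/-- the metric -/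
def met : HM (hyp hCp hq).lb where
  w a x := wf D q a (ri C x) x
  pos a x hx := by
    have h1 := D.h_pos (ri C x) _ ((C.e _).map_source (ri_mem C x))
    have h2 := hq a x hx _ (ri_mem C x)
    unfold wf
    positivity
  sm a := by
    intro z hz
    apply ContDiffAt.contDiffWithinAt
    have hc : z ∈ ovc C (ri C ((A.e a).symm z)) (A.e a) := ⟨hz, ri_mem C _⟩
    refine ContDiffAt.congr_of_eventuallyEq ?_ (wf_ev (D := D) (q := q) hCp hc)
    have H := lc_of D (hCp a) (ri C ((A.e a).symm z))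
    have h1 := H.h_sm.contDiffAt (H.isOpen.mem_nhds hc)
    have h2 := (H.G_sm (q a)).contDiffAt (H.isOpen.mem_nhds hc)
    exact h1.mul (h2.norm_sq ℝ)
  tr a b x hx := by
    rw [lb_g_eq hCp hq hx (ri_mem C x)]
    unfold wf
    rw [norm_div]
    have h0 := hq a x hx.1 _ (ri_mem C x)
    have h1 : ‖cmp D q a (ri C x) x‖ ≠ 0 := by positivity
    field_simp

theorem met_w {a : A.ι} {i : C.ι} {x : Z} (hx : x ∈ (A.e a).source) (hi : x ∈ (C.e i).source) :
    (met hCp hq).w a x = D.h i (C.e i x) * ‖cmp D q a i x‖ ^ 2 :=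
  wf_eq hCp hx (ri_mem C x) hi

theorem lev_congr {u u' : Cn d → ℝ} {z : Cn d} (h : u =ᶠ[𝓝 z] u') (v : Cn d) :
    lev u z v = lev u' z v := by
  unfold lev
  rw [(h.iteratedFDeriv ℝ 2).eq_of_nhds]

/-- the curvature is positive -/
theorem met_pos : (met hCp hq).Pos := by
  intro a z hz v hv
  have hc : z ∈ ovc C (ri C ((A.e a).symm z)) (A.e a) := ⟨hz, ri_mem C _⟩
  have H := lc_of D (hCp a) (ri C ((A.e a).symm z))
  have h1 := H.lev_pos (q := q a) (fun w hw => cmp_ne_pb hq hw) hc hv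
  have h2 : (met hCp hq).wt a =ᶠ[𝓝 z] fun w => - Real.log
      (D.h (ri C ((A.e a).symm z)) (Ps C (ri C ((A.e a).symm z)) (A.e a) w) *
        ‖pb (Ps C (ri C ((A.e a).symm z)) (A.e a)) (D.θ (ri C ((A.e a).symm z))) w (q a)‖ ^ 2) := by
    filter_upwards [wf_ev (D := D) (q := q) hCp hc] with w hw
    show - Real.log (wf D q a (ri C ((A.e a).symm w)) ((A.e a).symm w)) = _
    rw [hw]
  rw [lev_congr h2]
  exact h1

theorem LC.sum_ratio {U : Set (Cn d)} {T B : Cn d → Cn d →L[ℝ] ℂ} {h : Cn d → ℝ}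
    (H : LC U T B h) {z : Cn d} (hz : z ∈ U) {q : Cn d} (hq : T z q ≠ 0) (u w : Cn d) :
    ∑ b, fderiv ℂ (fun z => T z (EuclideanSpace.single b (1 : ℂ)) / T z q) z u * w b =
      (fderiv ℝ T z u w * T z q - T z w * fderiv ℝ T z u q) / T z q ^ 2 := by
  have h1 : ∀ b, fderiv ℂ (fun z => T z (EuclideanSpace.single b (1 : ℂ)) / T z q) z u =
      (fderiv ℝ T z u (EuclideanSpace.single b (1 : ℂ)) * T z q -
        T z (EuclideanSpace.single b (1 : ℂ)) * fderiv ℝ T z u q) / T z q ^ 2 := by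
    intro b
    have h2 := H.holo hz (EuclideanSpace.single b (1 : ℂ)) hq
    have h3 := H.fderiv_ratio hz (EuclideanSpace.single b (1 : ℂ)) hq u
    rw [h2.fderiv_restrictScalars ℝ] at h3
    exact h3
  have h4 := lin_sum (T := T z) (H.T_I z hz) w
  have h5 := lin_sum (T := fderiv ℝ T z u)
    (fun v => fderiv_I_of H.isOpen (fun z hz => H.T_diff hz) H.T_I hz u v) w
  rw [h4, h5, Finset.sum_mul, Finset.sum_mul, ← Finset.sum_sub_distrib, Finset.sum_div]
  refine Finset.sum_congr rfl fun b _ => ?_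
  rw [h1]
  ring

/-- the form is a contact form -/
theorem contact : Contact (hyp hCp hq).form where
  ne a x hx := by
    refine ⟨q a, ?_⟩
    rw [form_app_eq hCp hq hx (ri_mem C x)]
    have h1 : Gf D (A.e a) (ri C x) x (q a) / cmp D q a (ri C x) x = 1 :=
      div_self (hq a x hx _ (ri_mem C x))
    rw [h1]
    exact one_ne_zero
  nd a x hx u hu h0 := by
    have hi := ri_mem C x
    have hc : A.e a x ∈ ovc C (ri C x) (A.e a) := mem_ovc_of_source hx hi
    have H := lc_of D (hCp a) (ri C x)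
    have hq0 : pb (Ps C (ri C x) (A.e a)) (D.θ (ri C x)) (A.e a x) (q a) ≠ 0 := hq a x hx _ hi
    have happ : ∀ v, (hyp hCp hq).form.app a x v = 0 ↔
        pb (Ps C (ri C x) (A.e a)) (D.θ (ri C x)) (A.e a x) v = 0 := by
      intro v
      rw [form_app_eq hCp hq hx hi, div_eq_zero_iff]
      constructor
      · rintro (h | h)
        · exact h
        · exact absurd h (hq a x hx _ hi)
      · intro h
        exact Or.inl h
    have hd : ∀ v w : Cn d, ∑ b, fderiv ℂ (fun z => (hyp hCp hq).form.th a ((A.e a).symm z) b)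
        (A.e a x) v * w b = (fderiv ℝ (pb (Ps C (ri C x) (A.e a)) (D.θ (ri C x))) (A.e a x) v w *
          pb (Ps C (ri C x) (A.e a)) (D.θ (ri C x)) (A.e a x) (q a) -
            pb (Ps C (ri C x) (A.e a)) (D.θ (ri C x)) (A.e a x) w *
              fderiv ℝ (pb (Ps C (ri C x) (A.e a)) (D.θ (ri C x))) (A.e a x) v (q a)) /
            pb (Ps C (ri C x) (A.e a)) (D.θ (ri C x)) (A.e a x) (q a) ^ 2 := by
      intro v w
      rw [← H.sum_ratio hc hq0 v w]
      refine Finset.sum_congr rfl fun b _ => ?_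
      have h2 : (fun z => (hyp hCp hq).form.th a ((A.e a).symm z) b) =ᶠ[𝓝 (A.e a x)] fun z =>
        pb (Ps C (ri C x) (A.e a)) (D.θ (ri C x)) z (EuclideanSpace.single b (1 : ℂ)) /
          pb (Ps C (ri C x) (A.e a)) (D.θ (ri C x)) z (q a) := tf_ev hCp hc b
      rw [h2.fderiv_eq]
    refine H.nd_app hc hq0 ((happ u).1 hu) fun w hw => ?_
    have h3 := h0 w ((happ w).2 hw)
    unfold OneForm.dapp at h3
    rw [Finset.sum_sub_distrib, hd, hd] at h3
    exact h3

/-- the comparison functions between the frames of `L` -/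
structure Lnk (D : CD C) (L : LB A) (θ : OneForm L) (h : HM L) (cm : A.ι → C.ι → Z → ℂ) :
    Prop where
  ne : ∀ a i x, x ∈ (A.e a).source → x ∈ (C.e i).source → cm a i x ≠ 0
  sm : ∀ a i, ContDiffOn ℝ ∞ (fun y => cm a i ((C.e i).symm y)) (ovr C i (A.e a))
  th : ∀ a i x, x ∈ (A.e a).source → x ∈ (C.e i).source → ∀ v : V, D.θ i (C.e i x) v =
    cm a i x * θ.app a x (fderiv ℝ (fun y => A.e a ((C.e i).symm y)) (C.e i x) v)
  trL : ∀ a b i x, x ∈ (A.e a).source → x ∈ (A.e b).source → x ∈ (C.e i).source →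
    cm b i x = L.g a b x * cm a i x
  trR : ∀ a i j x, x ∈ (A.e a).source → x ∈ (C.e i).source → x ∈ (C.e j).source →
    cm a i x = D.lam i j (C.e i x) * cm a j x
  w : ∀ a i x, x ∈ (A.e a).source → x ∈ (C.e i).source →
    h.w a x = D.h i (C.e i x) * ‖cm a i x‖ ^ 2
  db : ∀ a i x, x ∈ (A.e a).source → x ∈ (C.e i).source → ∀ v : V,
    fderiv ℝ (fun y => cm a i ((C.e i).symm y)) (C.e i x) v +
      I * fderiv ℝ (fun y => cm a i ((C.e i).symm y)) (C.e i x) (C.J i (C.e i x) v) =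
      -(D.α i (C.e i x) v + I * D.α i (C.e i x) (C.J i (C.e i x) v)) * cm a i x

theorem lnk : Lnk D (hyp hCp hq).lb (hyp hCp hq).form (met hCp hq) (cmp D q) where
  ne a i x hx hi := hq a x hx i hi
  sm a i := Gf_real_contDiffOn D (hCp a) i (q a)
  th a i x hx hi v := by
    rw [form_app_eq hCp hq hx hi, theta_eq D (hCp a) hx hi, mul_div_cancel₀ _ (hq a x hx i hi)]
  trL a b i x hx hx' hi := by
    rw [lb_g_eq hCp hq ⟨hx, hx'⟩ hi, div_mul_cancel₀ _ (hq a x hx i hi)]
  trR a i j x hx hi hj := cmp_lam hCp hx hi hj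
  w a i x hx hi := met_w hCp hq hx hi
  db a i x hx hi v := Gf_db D (hCp a) hx hi (q a) v

end

end Crest.Agent.R260.Nn_254
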