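import Crest.Agent.R260.OutDefs_516

/-!
# R260 (S0398), AG-OUT part 3 (helper516): the biquadratic germ

Near a pair `(S p u₁, S p v₁)` with `D ≠ 0` the algebraic input gives a holomorphic function `Φ` and
smooth coefficients `g_ij(x, y)` with `Φ(S x u, S y v) = ∑ g_ij(x,y) u^i v^j`, and
`∑ g_ij(x, x) u^i v^j = κ (u - v)²`.
-/

set_option autoImplicit false
set_option linter.unusedSectionVars false

open Set Filter Topology Metric
open scoped ContDiff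
open Crest.GeometryTopology.CoordMetric Crest.GeometryTopology.ChartRiem
open Crest.Agent.R260.Tw_979 Crest.Agent.R260.TwPen_389 Crest.Agent.R260.End_919
open Crest.Agent.R270.BM_360

noncomputable section

namespace Crest.Agent.R260.Out_516

variable {n : ℕ} {I : Type} [Fintype I] {Jt : I → Type} [∀ i, Fintype (Jt i)]

/-- a biquadratic polynomial vanishing on a product of two balls is zero -/
theorem bq_zero_of_balls (m : Fin 3 → Fin 3 → ℂ) {u1 v1 : ℂ} {r : ℝ} (hr : 0 < r)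
    (h : ∀ u ∈ ball u1 r, ∀ v ∈ ball v1 r, bq m u v = 0) : ∀ i j, m i j = 0 := by
  have hinf : ∀ c : ℂ, (ball c r).Infinite := by
    intro c
    refine (infinite_seg r hr c 1 one_ne_zero).mono ?_
    rintro _ ⟨t, ht, rfl⟩
    rw [mem_ball, dist_eq_norm]
    simpa using ht
  intro i j
  refine coef_zero (fun i => m i j) (ball u1 r) (hinf u1) (fun u hu => ?_) i
  refine coef_zero (fun j => ∑ i : Fin 3, m i j * u ^ (i : ℕ)) (ball v1 r) (hinf v1)
    (fun v hv => ?_) j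
  have := h u hu v hv
  unfold bq at this
  rw [Finset.sum_comm] at this
  rw [← this]
  refine Finset.sum_congr rfl fun j _ => ?_
  rw [Finset.sum_mul]

/-- the matrix of `(u - v)²` -/
def sqm : Fin 3 → Fin 3 → ℂ := ![![0, 0, 1], ![0, -2, 0], ![1, 0, 0]]

theorem bq_sqm (κ u v : ℂ) : bq (fun i j => κ * sqm i j) u v = κ * (u - v) ^ 2 := by
  simp only [bq, sqm, Fin.sum_univ_three]
  simp
  ring

/-- interpolation in both variables -/
theorem bq_interp {u1 v1 : ℂ} {r : ℝ} (hr : 0 < r) (h : ℂ → ℂ → ℂ)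
    (h2 : ∀ u ∈ ball u1 r, ∃ q : Polynomial ℂ, q.natDegree ≤ 2 ∧ ∀ v ∈ ball v1 r, h u v = q.eval v)
    (h1 : ∀ v ∈ ball v1 r, ∃ q : Polynomial ℂ, q.natDegree ≤ 2 ∧
      ∀ u ∈ ball u1 r, h u v = q.eval u) :
    ∀ u ∈ ball u1 r, ∀ v ∈ ball v1 r,
      h u v = bq (fun i j => ∑ a, ∑ b, h (nd u1 r a) (nd v1 r b) *
        ((lg u1 r a).coeff i * (lg v1 r b).coeff j)) u v := by
  intro u hu v hv
  obtain ⟨q, hq, hqe⟩ := h2 u hu
  rw [hqe v hv, interp hr q hq v]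
  have e1 : ∀ b : Fin 3, q.eval (nd v1 r b) =
      ∑ a : Fin 3, h (nd u1 r a) (nd v1 r b) * (lg u1 r a).eval u := by
    intro b
    rw [← hqe _ (nd_mem v1 hr b)]
    obtain ⟨q', hq', hqe'⟩ := h1 _ (nd_mem v1 hr b)
    rw [hqe' u hu, interp hr q' hq' u]
    refine Finset.sum_congr rfl fun a _ => ?_
    rw [← hqe' _ (nd_mem u1 hr a)]
  have e2 : ∀ b : Fin 3, q.eval (nd v1 r b) * (lg v1 r b).eval v =
      ∑ a : Fin 3, ∑ i : Fin 3, ∑ j : Fin 3, h (nd u1 r a) (nd v1 r b) *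
        ((lg u1 r a).coeff i * (lg v1 r b).coeff j) * u ^ (i : ℕ) * v ^ (j : ℕ) := by
    intro b
    rw [e1 b, Finset.sum_mul]
    refine Finset.sum_congr rfl fun a _ => ?_
    rw [lg_eval u1 hr a u, lg_eval v1 hr b v, mul_assoc, Finset.sum_mul_sum, Finset.mul_sum]
    refine Finset.sum_congr rfl fun i _ => ?_
    rw [Finset.mul_sum]
    refine Finset.sum_congr rfl fun j _ => ?_
    ring
  rw [Finset.sum_congr rfl fun b _ => e2 b]
  unfold bq
  simp only [Finset.sum_mul]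
  -- reorder the sums
  rw [Finset.sum_comm]
  rw [Finset.sum_congr rfl fun a _ => Finset.sum_comm]
  rw [Finset.sum_comm]
  refine Finset.sum_congr rfl fun i _ => ?_
  rw [Finset.sum_congr rfl fun a _ => Finset.sum_comm]
  rw [Finset.sum_comm]

/-- the germ of the holomorphic two-point function along the family `S` -/
structure Germ (w : I → ℤ) (S : EuclideanSpace ℝ (Fin n) → ℂ → Pt Jt) (κ : ℂ)
    (V : Set (EuclideanSpace ℝ (Fin n))) (u1 v1 : ℂ) (r : ℝ) (Φ : Pt Jt × Pt Jt → ℂ) : Prop where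
  ana : ∀ x ∈ V, ∀ y ∈ V, ∀ u ∈ ball u1 r, ∀ v ∈ ball v1 r, ContDiffAt ℂ ω Φ (S x u, S y v)
  quad2 : ∀ x ∈ V, ∀ y ∈ V, ∀ u ∈ ball u1 r, ∃ q : Polynomial ℂ, q.natDegree ≤ 2 ∧
    ∀ v ∈ ball v1 r, Φ (S x u, S y v) = q.eval v
  quad1 : ∀ x ∈ V, ∀ y ∈ V, ∀ v ∈ ball v1 r, ∃ q : Polynomial ℂ, q.natDegree ≤ 2 ∧
    ∀ u ∈ ball u1 r, Φ (S x u, S y v) = q.eval u
  diag : ∀ x ∈ V, ∀ u ∈ ball u1 r, ∀ v ∈ ball v1 r, Φ (S x u, S x v) = κ * (u - v) ^ 2
  hom1 : ∀ x ∈ V, ∀ y ∈ V, ∀ u ∈ ball u1 r, ∀ v ∈ ball v1 r, ∀ᶠ l in 𝓝 (1 : I → ℂ),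
    Φ (scl l (S x u), S y v) = (∏ i, l i ^ w i) * Φ (S x u, S y v)
  hom2 : ∀ x ∈ V, ∀ y ∈ V, ∀ u ∈ ball u1 r, ∀ v ∈ ball v1 r, ∀ᶠ l in 𝓝 (1 : I → ℂ),
    Φ (S x u, scl l (S y v)) = (∏ i, l i ^ w i) * Φ (S x u, S y v)

/-- the pair of vectors -/
def prS (S : EuclideanSpace ℝ (Fin n) → ℂ → Pt Jt)
    (z : (EuclideanSpace ℝ (Fin n) × ℂ) × (EuclideanSpace ℝ (Fin n) × ℂ)) : Pt Jt × Pt Jt :=
  (S z.1.1 z.1.2, S z.2.1 z.2.2)

theorem scl_one (v : Pt Jt) : scl (1 : I → ℂ) v = v := by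
  funext y
  simp [scl]

theorem continuous_scl (v : Pt Jt) : Continuous (fun l : I → ℂ => scl l v) := by
  refine continuous_pi fun y => ?_
  exact (continuous_apply y.1).mul continuous_const

theorem continuousAt_wt (w : I → ℤ) : ContinuousAt (fun l : I → ℂ => ∏ i, l i ^ w i) 1 := by
  have h : ∀ i, ContinuousAt (fun l : I → ℂ => l i ^ w i) 1 := fun i =>
    (continuous_apply i).continuousAt.zpow₀ (w i) (Or.inl (by simp))
  exact tendsto_finsetProd _ fun i _ => h i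

theorem wt_one (w : I → ℤ) : ∏ i, (1 : I → ℂ) i ^ w i = 1 := by simp

theorem eventually_ne_zero : ∀ᶠ l in 𝓝 (1 : I → ℂ), ∀ i, l i ≠ 0 := by
  rw [eventually_all]
  intro i
  exact (continuous_apply i).continuousAt.eventually_ne (by simp)

section GermEx

variable {g : MetricField n} {J : Fin 3 → EuclideanSpace ℝ (Fin n) → Matrix (Fin n) (Fin n) ℝ}
  {c : EuclideanSpace ℝ (Fin n) → Fin n → Fin 3 → Fin 3 → ℝ}
  {U : Set (EuclideanSpace ℝ (Fin n))} {w : I → ℤ}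
  {S : EuclideanSpace ℝ (Fin n) → ℂ → Pt Jt} {κ : ℂ}
  {P : Polynomial (MvPolynomial ((Σ i, Jt i) ⊕ (Σ i, Jt i)) ℂ)}
  {D : MvPolynomial ((Σ i, Jt i) ⊕ (Σ i, Jt i)) ℂ}

theorem TwIn.contDiffAt (hT : TwIn g J c U w S) {x : EuclideanSpace ℝ (Fin n)} (hx : x ∈ U)
    (u : ℂ) : ContDiffAt ℝ ∞ (fun z : EuclideanSpace ℝ (Fin n) × ℂ => S z.1 z.2) (x, u) := by
  rw [contDiffAt_pi]
  intro y
  refine (hT.sm y).contDiffAt ?_
  exact (hT.qh.isOpen.prod isOpen_univ).mem_nhds ⟨hx, mem_univ _⟩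

theorem TwIn.contDiffAt_prS (hT : TwIn g J c U w S) {x y : EuclideanSpace ℝ (Fin n)} (hx : x ∈ U)
    (hy : y ∈ U) (u v : ℂ) : ContDiffAt ℝ ∞ (prS S) ((x, u), (y, v)) := by
  unfold prS
  refine ContDiffAt.prodMk ?_ ?_
  · exact ContDiffAt.comp (g := fun z : EuclideanSpace ℝ (Fin n) × ℂ => S z.1 z.2)
      (f := fun z : (EuclideanSpace ℝ (Fin n) × ℂ) × (EuclideanSpace ℝ (Fin n) × ℂ) => z.1) _
      (hT.contDiffAt hx u) contDiffAt_fst
  · exact ContDiffAt.comp (g := fun z : EuclideanSpace ℝ (Fin n) × ℂ => S z.1 z.2)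
      (f := fun z : (EuclideanSpace ℝ (Fin n) × ℂ) × (EuclideanSpace ℝ (Fin n) × ℂ) => z.2) _
      (hT.contDiffAt hy v) contDiffAt_snd

theorem TwIn.diff2 (hT : TwIn g J c U w S) {x : EuclideanSpace ℝ (Fin n)} (hx : x ∈ U) :
    Differentiable ℂ (fun u => S x u) := by
  rw [differentiable_pi]
  exact hT.hol x hx

theorem exists_germ (hT : TwIn g J c U w S) (hA : AgIn U w S κ P D)
    {W : Set (EuclideanSpace ℝ (Fin n))} (hW : IsOpen W) (hne : W.Nonempty) (hWU : W ⊆ U) :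
    ∃ V : Set (EuclideanSpace ℝ (Fin n)), IsOpen V ∧ V.Nonempty ∧ V ⊆ W ∧
      ∃ (u1 v1 : ℂ) (r : ℝ) (Φ : Pt Jt × Pt Jt → ℂ), 0 < r ∧ Germ w S κ V u1 v1 r Φ := by
  obtain ⟨p, hpW, u1, v1, huv, hD⟩ := hA.dens W hW hne hWU
  have hpU : p ∈ U := hWU hpW
  set q0 : Pt Jt × Pt Jt := (S p u1, S p v1) with hq0
  set t0 : ℂ := κ * (u1 - v1) ^ 2 with ht0
  have hr0 : (evP P q0).eval t0 = 0 := hA.root p hpU u1 v1 huv hD
  have hr1 : (evP P q0).derivative.eval t0 ≠ 0 := hA.simple p hpU p hpU u1 v1 hD t0 hr0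
  obtain ⟨Φ, hΦa, hΦ0, hΦr, hΦu⟩ := root_germ P q0 t0 hr0 hr1
  -- eventually near `q0`
  have hΦc : ContinuousAt Φ q0 := hΦa.continuousAt
  have e1 : ∀ᶠ q in 𝓝 q0, ContDiffAt ℂ ω Φ q := hΦa.eventually (by simp)
  have e2 : ∀ᶠ q in 𝓝 q0, ∀ᶠ z in 𝓝 (q, Φ q), (evP P z.1).eval z.2 = 0 → z.2 = Φ z.1 := by
    have h1 : Tendsto (fun q => (q, Φ q)) (𝓝 q0) (𝓝 (q0, t0)) := by
      rw [← hΦ0]
      exact (continuousAt_id.prodMk hΦc)
    exact h1.eventually hΦu.eventually_nhds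
  have e3 : ∀ᶠ q in 𝓝 q0, valD D q.1 q.2 ≠ 0 := by
    have hc : Continuous (fun q : Pt Jt × Pt Jt => valD D q.1 q.2) := (contDiff_aeval D).continuous
    exact hc.continuousAt.eventually_ne hD
  -- pull back by `prS`
  have hpr : ContinuousAt (prS S) ((p, u1), (p, v1)) := (hT.contDiffAt_prS hpU hpU u1 v1).continuousAt
  have e4 : ∀ᶠ z in 𝓝 (((p, u1), (p, v1)) : (EuclideanSpace ℝ (Fin n) × ℂ) × (EuclideanSpace ℝ (Fin n) × ℂ)),
      ContDiffAt ℂ ω Φ (prS S z) ∧ (evP P (prS S z)).eval (Φ (prS S z)) = 0 ∧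
      (∀ᶠ z' in 𝓝 (prS S z, Φ (prS S z)), (evP P z'.1).eval z'.2 = 0 → z'.2 = Φ z'.1) ∧
      valD D (prS S z).1 (prS S z).2 ≠ 0 :=
    hpr.eventually (e1.and (hΦr.and (e2.and e3)))
  have e5 : ∀ᶠ z in 𝓝 (((p, u1), (p, v1)) : (EuclideanSpace ℝ (Fin n) × ℂ) × (EuclideanSpace ℝ (Fin n) × ℂ)),
      (evP P (prS S z)).eval (κ * (z.1.2 - z.2.2) ^ 2) = 0 →
        κ * (z.1.2 - z.2.2) ^ 2 = Φ (prS S z) := by
    have h1 : Tendsto (fun z : (EuclideanSpace ℝ (Fin n) × ℂ) × (EuclideanSpace ℝ (Fin n) × ℂ) =>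
        (prS S z, κ * (z.1.2 - z.2.2) ^ 2)) (𝓝 ((p, u1), (p, v1))) (𝓝 (q0, t0)) := by
      refine hpr.prodMk_nhds ?_
      have : Continuous (fun z : (EuclideanSpace ℝ (Fin n) × ℂ) × (EuclideanSpace ℝ (Fin n) × ℂ) =>
        κ * (z.1.2 - z.2.2) ^ 2) := by fun_prop
      exact this.continuousAt
    exact h1.eventually hΦu
  have e6 : ∀ᶠ z in 𝓝 (((p, u1), (p, v1)) : (EuclideanSpace ℝ (Fin n) × ℂ) × (EuclideanSpace ℝ (Fin n) × ℂ)),
      z.1.2 ≠ z.2.2 := by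
    have : Continuous (fun z : (EuclideanSpace ℝ (Fin n) × ℂ) × (EuclideanSpace ℝ (Fin n) × ℂ) =>
        z.1.2 - z.2.2) := by fun_prop
    filter_upwards [this.continuousAt.eventually_ne (show u1 - v1 ≠ 0 from sub_ne_zero.2 huv)]
      with z hz
    exact sub_ne_zero.1 hz
  obtain ⟨ε, hε, hball⟩ := Metric.eventually_nhds_iff_ball.1 (e4.and (e5.and e6))
  have hmem : ∀ {x y : EuclideanSpace ℝ (Fin n)} {u v : ℂ}, x ∈ ball p ε → y ∈ ball p ε →
      u ∈ ball u1 ε → v ∈ ball v1 ε → ((x, u), (y, v)) ∈ ball (((p, u1), (p, v1)) :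
        (EuclideanSpace ℝ (Fin n) × ℂ) × (EuclideanSpace ℝ (Fin n) × ℂ)) ε := by
    intro x y u v hx hy hu hv
    rw [mem_ball] at *
    rw [Prod.dist_eq, Prod.dist_eq, Prod.dist_eq]
    exact max_lt (max_lt hx hu) (max_lt hy hv)
  have hHd : ∀ x ∈ ball p ε ∩ W, ∀ y ∈ ball p ε ∩ W, ∀ u ∈ ball u1 ε, ∀ v ∈ ball v1 ε,
      DifferentiableAt ℂ Φ (S x u, S y v) := fun x hx y hy u hu v hv =>
    (hball _ (hmem hx.1 hy.1 hu hv)).1.1.differentiableAt (by simp)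
  refine ⟨ball p ε ∩ W, isOpen_ball.inter hW, ⟨p, mem_ball_self hε, hpW⟩, inter_subset_right,
    u1, v1, ε, Φ, hε, ?_⟩
  constructor
  · intro x hx y hy u hu v hv
    exact (hball _ (hmem hx.1 hy.1 hu hv)).1.1
  · intro x hx y hy u hu
    have hd : DifferentiableOn ℂ (fun v => Φ (S x u, S y v)) (ball v1 ε) := by
      intro v hv
      have h1 := hHd x hx y hy u hu v hv
      have h2 : DifferentiableAt ℂ (fun v => (S x u, S y v)) v :=
        (differentiableAt_const _).prodMk (hT.diff2 (hWU hy.2) v)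
      exact (h1.comp v h2).differentiableWithinAt
    exact hA.quad2 x (hWU hx.2) y (hWU hy.2) u
      ⟨v1, (hball _ (hmem hx.1 hy.1 hu (mem_ball_self hε))).1.2.2.2⟩ v1 ε hε _ hd
      (fun v hv => (hball _ (hmem hx.1 hy.1 hu hv)).1.2.1)
  · intro x hx y hy v hv
    have hd : DifferentiableOn ℂ (fun u => Φ (S x u, S y v)) (ball u1 ε) := by
      intro u hu
      have h1 := hHd x hx y hy u hu v hv
      have h2 : DifferentiableAt ℂ (fun u => (S x u, S y v)) u :=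
        (hT.diff2 (hWU hx.2) u).prodMk (differentiableAt_const _)
      exact (h1.comp u h2).differentiableWithinAt
    exact hA.quad1 x (hWU hx.2) y (hWU hy.2) v
      ⟨u1, (hball _ (hmem hx.1 hy.1 (mem_ball_self hε) hv)).1.2.2.2⟩ u1 ε hε _ hd
      (fun u hu => (hball _ (hmem hx.1 hy.1 hu hv)).1.2.1)
  · intro x hx u hu v hv
    have h := hball _ (hmem hx.1 hx.1 hu hv)
    exact (h.2.1 (hA.root x (hWU hx.2) u v h.2.2 h.1.2.2.2)).symm
  · intro x hx y hy u hu v hv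
    have h := (hball _ (hmem hx.1 hy.1 hu hv)).1
    have h1 : Tendsto (fun l : I → ℂ => (((scl l (S x u), S y v) : Pt Jt × Pt Jt),
        (∏ i, l i ^ w i) * Φ (S x u, S y v))) (𝓝 1) (𝓝 ((S x u, S y v), Φ (S x u, S y v))) := by
      have c1 : ContinuousAt (fun l : I → ℂ => (((scl l (S x u), S y v) : Pt Jt × Pt Jt),
        (∏ i, l i ^ w i) * Φ (S x u, S y v))) 1 :=
        ((continuous_scl (S x u)).continuousAt.prodMk continuousAt_const).prodMk
          ((continuousAt_wt w).mul continuousAt_const)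
      have := c1.tendsto
      simpa [scl_one] using this
    have h2 := h1.eventually h.2.2.1
    filter_upwards [h2, eventually_ne_zero (I := I)] with l hl hl0
    have h3 := hA.hom x (hWU hx.2) y (hWU hy.2) u v l 1 hl0 (by simp) _ h.2.1
    rw [scl_one, wt_one, mul_one] at h3
    exact (hl h3).symm
  · intro x hx y hy u hu v hv
    have h := (hball _ (hmem hx.1 hy.1 hu hv)).1
    have h1 : Tendsto (fun l : I → ℂ => (((S x u, scl l (S y v)) : Pt Jt × Pt Jt),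
        (∏ i, l i ^ w i) * Φ (S x u, S y v))) (𝓝 1) (𝓝 ((S x u, S y v), Φ (S x u, S y v))) := by
      have c1 : ContinuousAt (fun l : I → ℂ => (((S x u, scl l (S y v)) : Pt Jt × Pt Jt),
        (∏ i, l i ^ w i) * Φ (S x u, S y v))) 1 :=
        (continuousAt_const.prodMk (continuous_scl (S y v)).continuousAt).prodMk
          ((continuousAt_wt w).mul continuousAt_const)
      have := c1.tendsto
      simpa [scl_one] using this
    have h2 := h1.eventually h.2.2.1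
    filter_upwards [h2, eventually_ne_zero (I := I)] with l hl hl0
    have h3 := hA.hom x (hWU hx.2) y (hWU hy.2) u v 1 l (by simp) hl0 _ h.2.1
    rw [scl_one, wt_one, one_mul] at h3
    exact (hl h3).symm

end GermEx

end Crest.Agent.R260.Out_516
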