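import Mathlib
import Crest.Agent.R260.TL2_660
import Crest.Agent.R270.BmDefs_360

/-!
Row 260, leaf TW-LINE (helper660), part 3: the horizontal derivative of a family of polynomial
tuples `P x` (`x` near `x₀ ∈ E = ℝⁿ`), `P x` the tuple of the twistor line of `x` in the frame
`nn w` of `L⁻¹`.

`bp X` : the polynomial `β_w(X) = -(i/2) nn(w)·Θ(X)`.
`hD X = ∂_X P + bp X * P' - k_i * (bp X)' * P` : degree `≤ 2 k_i` (`hD_deg`), a section of the
tangent bundle of the cone (`tan_hD`).
-/

set_option autoImplicit false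

open Complex Polynomial

noncomputable section

namespace Crest.Agent.R260.TL_660

open Crest.Agent.R260.Tw_979 Crest.Agent.R270.BM_360

/-- the polynomial vector `nn w` -/
def nnP : Fin 3 → ℂ[X] := ![-2 * X, 1 - X ^ 2, C Complex.I * (1 + X ^ 2)]

lemma nnP_eval (w : ℂ) (a : Fin 3) : (nnP a).eval w = nn w a := by
  fin_cases a
  · simp [nnP, nn]
  · simp [nnP, nn]
  · simp [nnP, nn]

lemma nnP_der (w : ℂ) (a : Fin 3) : (derivative (nnP a)).eval w = nd w a := by
  fin_cases a
  · simp [nnP, nd]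
  · simp [nnP, nd]; norm_num
  · simp [nnP, nd]; ring

lemma nnP_deg (a : Fin 3) : (nnP a).natDegree ≤ 2 := by
  fin_cases a
  · simp only [nnP, Matrix.cons_val_zero, Fin.zero_eta]; compute_degree!
  · simp only [nnP, Matrix.cons_val_one, Matrix.cons_val_zero, Fin.mk_one]; compute_degree!
  · simp only [nnP, Matrix.cons_val, Fin.reduceFinMk]; compute_degree!

variable {n : ℕ}

/-- the polynomial `β_w(X) = -(i/2) nn(w) · Θ(X)`, `Θ c j` the `j`-th component of `Θ_c` -/
def bp (Θ : Fin 3 → Fin n → ℝ) : (Fin n → ℂ) →ₗ[ℂ] ℂ[X] where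
  toFun X := ∑ c, ∑ j, C (-(Complex.I / 2) * (Θ c j : ℂ) * X j) * nnP c
  map_add' X Y := by
    simp only [← Finset.sum_add_distrib]
    refine Finset.sum_congr rfl fun c _ => Finset.sum_congr rfl fun j _ => ?_
    rw [← add_mul, ← C_add]; congr 2; simp only [Pi.add_apply]; ring
  map_smul' r X := by
    simp only [Finset.smul_sum, RingHom.id_apply]
    refine Finset.sum_congr rfl fun c _ => Finset.sum_congr rfl fun j _ => ?_
    rw [Polynomial.smul_eq_C_mul, ← mul_assoc, ← C_mul]; congr 2
    simp only [Pi.smul_apply, smul_eq_mul]; ring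

lemma bp_eval (Θ : Fin 3 → Fin n → ℝ) (X : Fin n → ℂ) (w : ℂ) :
    (bp Θ X).eval w = -(Complex.I / 2) * ∑ c, nn w c * ∑ j, (Θ c j : ℂ) * X j := by
  simp only [bp, LinearMap.coe_mk, AddHom.coe_mk, eval_finsetSum, eval_mul, eval_C, nnP_eval,
    Finset.mul_sum]
  refine Finset.sum_congr rfl fun c _ => Finset.sum_congr rfl fun j _ => ?_
  ring

lemma bp_der_eval (Θ : Fin 3 → Fin n → ℝ) (X : Fin n → ℂ) (w : ℂ) :
    (derivative (bp Θ X)).eval w = -(Complex.I / 2) * ∑ c, nd w c * ∑ j, (Θ c j : ℂ) * X j := by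
  simp only [bp, LinearMap.coe_mk, AddHom.coe_mk, derivative_sum, derivative_C_mul,
    eval_finsetSum, eval_mul, eval_C, nnP_der, Finset.mul_sum]
  refine Finset.sum_congr rfl fun c _ => Finset.sum_congr rfl fun j _ => ?_
  ring

lemma bp_deg (Θ : Fin 3 → Fin n → ℝ) (X : Fin n → ℂ) : (bp Θ X).natDegree ≤ 2 := by
  simp only [bp, LinearMap.coe_mk, AddHom.coe_mk]
  refine natDegree_sum_le_of_forall_le _ _ fun c _ => natDegree_sum_le_of_forall_le _ _ fun j _ => ?_
  exact (natDegree_C_mul_le _ _).trans (nnP_deg c)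

/-- `b H' - k b' H` has degree `≤ 2k` -/
lemma wr_deg {b H : ℂ[X]} {k : ℕ} (hb : b.natDegree ≤ 2) (hH : H.natDegree ≤ 2 * k) :
    (b * derivative H - (k : ℂ[X]) * derivative b * H).natDegree ≤ 2 * k := by
  rcases Nat.eq_zero_or_pos k with rfl | hk
  · have h0 : derivative H = 0 := by
      rw [eq_C_of_natDegree_le_zero (p := H) (by simpa using hH), derivative_C]
    rw [h0]; simp
  rw [natDegree_le_iff_coeff_eq_zero]
  intro N hN
  have h1 : (b * derivative H).natDegree ≤ 2 * k + 1 := by
    refine natDegree_mul_le.trans ?_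
    have := natDegree_derivative_le H
    omega
  have h2 : ((k : ℂ[X]) * derivative b * H).natDegree ≤ 2 * k + 1 := by
    refine natDegree_mul_le.trans ?_
    have h3 : ((k : ℂ[X]) * derivative b).natDegree ≤ 1 := by
      refine natDegree_mul_le.trans ?_
      rw [natDegree_natCast]
      have := natDegree_derivative_le b
      omega
    omega
  rcases Nat.lt_or_ge (2 * k + 1) N with h | h
  · rw [coeff_sub, coeff_eq_zero_of_natDegree_lt (lt_of_le_of_lt h1 h),
      coeff_eq_zero_of_natDegree_lt (lt_of_le_of_lt h2 h), sub_zero]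
  · have : N = 2 * k + 1 := by omega
    subst this
    have e1 : (b * derivative H).coeff (2 * k + 1) = b.coeff 2 * (H.coeff (2 * k) * (2 * k : ℕ)) := by
      have := coeff_mul_add_eq_of_natDegree_le hb ((natDegree_derivative_le H).trans
        (Nat.sub_le_sub_right hH 1))
      rw [show 2 + (2 * k - 1) = 2 * k + 1 by omega] at this
      rw [this, coeff_derivative, show 2 * k - 1 + 1 = 2 * k by omega]
      congr 2
      have : ((2 * k - 1 : ℕ) : ℂ) + 1 = ((2 * k - 1 + 1 : ℕ) : ℂ) := by push_cast; ring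
      rw [this, show 2 * k - 1 + 1 = 2 * k by omega]
    have e2 : (derivative b * H).coeff (2 * k + 1) = b.coeff 2 * 2 * H.coeff (2 * k) := by
      have := coeff_mul_add_eq_of_natDegree_le ((natDegree_derivative_le b).trans
        (Nat.sub_le_sub_right hb 1)) hH
      rw [show 2 - 1 + 2 * k = 2 * k + 1 by omega] at this
      rw [this, coeff_derivative]
      norm_num
    rw [coeff_sub, e1, mul_assoc, ← C_eq_natCast, coeff_C_mul, e2]
    push_cast
    ring

end Crest.Agent.R260.TL_660
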