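import Mathlib
import Crest.Agent.R260.TL3_660
import Crest.Agent.R270.Cramer_491

/-!
Row 260, leaf TW-LINE (helper660), part 4: `Fam`: a family `P x` of polynomial tuples (`x` near `x₀`
in `E = ℝⁿ`) of block degrees `2 k i` with coefficients differentiable at `x₀`, and its horizontal
derivative `hD`. Degrees, evaluation, tangency to the multicone.
-/

set_option autoImplicit false

open Complex Polynomial Filter Topology

noncomputable section

namespace Crest.Agent.R260.TL_660

open Crest.Agent.R260.Tw_979 Crest.Agent.R270.BM_360 Crest.Agent.R270.Cramer_491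

/-! ### derivative of a polynomial relation -/

lemma hasFDerivAt_eval {E : Type*} [NormedAddCommGroup E] [NormedSpace ℝ E] {σ : Type*} [Fintype σ]
    {f : σ → E → ℂ} {f' : σ → E →L[ℝ] ℂ} {x₀ : E} (h : ∀ y, HasFDerivAt (f y) (f' y) x₀)
    (p : MvPolynomial σ ℂ) :
    HasFDerivAt (fun x => MvPolynomial.eval (fun y => f y x) p)
      (∑ y, MvPolynomial.eval (fun y => f y x₀) (MvPolynomial.pderiv y p) • f' y) x₀ := by
  classical
  induction p using MvPolynomial.induction_on with
  | C a =>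
    have h0 : (∑ y, MvPolynomial.eval (fun y => f y x₀)
        (MvPolynomial.pderiv y (MvPolynomial.C a)) • f' y) = 0 := by
      refine Finset.sum_eq_zero fun y _ => ?_
      refine ContinuousLinearMap.ext fun v => ?_
      rw [MvPolynomial.pderiv_C, map_zero, _root_.smul_apply, smul_eq_mul, zero_mul,
        _root_.zero_apply]
    rw [h0]
    simp only [MvPolynomial.eval_C]
    exact hasFDerivAt_const a x₀
  | add p q hp hq =>
    have h1 := hp.fun_add hq
    simp only [map_add]
    refine h1.congr_fderiv ?_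
    rw [← Finset.sum_add_distrib]
    refine Finset.sum_congr rfl fun y _ => ?_
    refine ContinuousLinearMap.ext fun v => ?_
    simp only [_root_.add_apply, _root_.smul_apply, smul_eq_mul]
    ring
  | mul_X p b hp =>
    have h1 := hp.fun_mul (h b)
    simp only [map_mul, MvPolynomial.eval_X]
    refine h1.congr_fderiv ?_
    have h2 : ∀ y, MvPolynomial.eval (fun y => f y x₀) (MvPolynomial.pderiv y
        (p * MvPolynomial.X b)) • f' y = (if y = b then
          MvPolynomial.eval (fun y => f y x₀) p • f' b else 0) +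
        f b x₀ • (MvPolynomial.eval (fun y => f y x₀) (MvPolynomial.pderiv y p) • f' y) := by
      intro y
      rw [Derivation.leibniz, map_add, smul_eq_mul, smul_eq_mul, map_mul, map_mul,
        MvPolynomial.eval_X]
      refine ContinuousLinearMap.ext fun v => ?_
      by_cases hy : y = b
      · subst hy
        rw [if_pos rfl, MvPolynomial.pderiv_X_self, map_one]
        simp only [_root_.add_apply, _root_.smul_apply, smul_eq_mul]
        ring
      · rw [if_neg hy, MvPolynomial.pderiv_X_of_ne (Ne.symm hy), map_zero]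
        simp only [_root_.add_apply, _root_.smul_apply, _root_.zero_apply, smul_eq_mul]
        ring
    rw [Finset.sum_congr rfl fun y _ => h2 y, Finset.sum_add_distrib, Finset.sum_ite_eq' ,
      if_pos (Finset.mem_univ b), Finset.smul_sum]

variable {n : ℕ} {I : Type} {T : I → Type}

/-- `j`-th basis vector of `ℝⁿ` -/
abbrev eb (j : Fin n) : EuclideanSpace ℝ (Fin n) := EuclideanSpace.single j 1

/-- a family of tuples of block degrees `2 k i` with coefficients differentiable at `x₀` -/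
structure Fam (k : I → ℕ) (x₀ : EuclideanSpace ℝ (Fin n))
    (P : EuclideanSpace ℝ (Fin n) → ∀ i, T i → ℂ[X]) : Prop where
  deg : ∀ᶠ x in 𝓝 x₀, ∀ i a, (P x i a).natDegree ≤ 2 * k i
  dif : ∀ i a l, DifferentiableAt ℝ (fun x => (P x i a).coeff l) x₀

namespace Fam

variable {k : I → ℕ} {x₀ : EuclideanSpace ℝ (Fin n)}
  {P : EuclideanSpace ℝ (Fin n) → ∀ i, T i → ℂ[X]}

/-- the derivative of the family in the direction `eb j` -/
def dP (k : I → ℕ) (x₀ : EuclideanSpace ℝ (Fin n))
    (P : EuclideanSpace ℝ (Fin n) → ∀ i, T i → ℂ[X]) (j : Fin n) : ∀ i, T i → ℂ[X] := fun i a =>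
  ∑ l ∈ Finset.range (2 * k i + 1),
    monomial l (fderiv ℝ (fun x => (P x i a).coeff l) x₀ (eb j))

lemma dP_deg (j : Fin n) (i : I) (a : T i) : (dP k x₀ P j i a).natDegree ≤ 2 * k i := by
  refine natDegree_sum_le_of_forall_le _ _ fun l hl => ?_
  refine (natDegree_monomial_le _).trans ?_
  have := Finset.mem_range.1 hl; omega

lemma eval_eq {p : ℂ[X]} {d : ℕ} (h : p.natDegree ≤ d) (w : ℂ) :
    p.eval w = ∑ l ∈ Finset.range (d + 1), p.coeff l * w ^ l :=
  eval_eq_sum_range' (Nat.lt_succ_of_le h) w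

lemma hasFDerivAt_ev (h : Fam k x₀ P) (w : ℂ) (i : I) (a : T i) :
    HasFDerivAt (fun x => (P x i a).eval w)
      (∑ l ∈ Finset.range (2 * k i + 1), w ^ l • fderiv ℝ (fun x => (P x i a).coeff l) x₀) x₀ := by
  have h1 : HasFDerivAt (fun x => ∑ l ∈ Finset.range (2 * k i + 1), (P x i a).coeff l * w ^ l)
      (∑ l ∈ Finset.range (2 * k i + 1), w ^ l • fderiv ℝ (fun x => (P x i a).coeff l) x₀) x₀ :=
    HasFDerivAt.fun_sum fun l _ => (h.dif i a l).hasFDerivAt.mul_const (w ^ l)
  refine h1.congr_of_eventuallyEq ?_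
  filter_upwards [h.deg] with x hx
  exact eval_eq (hx i a) w

lemma dP_eval (h : Fam k x₀ P) (w : ℂ) (j : Fin n) (i : I) (a : T i) :
    (dP k x₀ P j i a).eval w = fderiv ℝ (fun x => (P x i a).eval w) x₀ (eb j) := by
  rw [(h.hasFDerivAt_ev w i a).fderiv]
  simp only [dP, eval_finsetSum, eval_monomial]
  rw [_root_.sum_apply]
  refine Finset.sum_congr rfl fun l _ => ?_
  rw [_root_.smul_apply, smul_eq_mul, mul_comm]

/-- the horizontal derivative -/
def hD (k : I → ℕ) (x₀ : EuclideanSpace ℝ (Fin n))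
    (P : EuclideanSpace ℝ (Fin n) → ∀ i, T i → ℂ[X]) (b : (Fin n → ℂ) →ₗ[ℂ] ℂ[X]) :
    (Fin n → ℂ) →ₗ[ℂ] (∀ i, T i → ℂ[X]) where
  toFun X := fun i a => ∑ j, X j • dP k x₀ P j i a +
    (b X * derivative (P x₀ i a) - (k i : ℂ[X]) * derivative (b X) * P x₀ i a)
  map_add' X Y := by
    funext i a
    simp only [Pi.add_apply, add_smul, Finset.sum_add_distrib, map_add]
    ring
  map_smul' r X := by
    funext i a
    simp only [Pi.smul_apply, smul_eq_mul, RingHom.id_apply, map_smul, smul_add, smul_sub,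
      Finset.smul_sum, smul_smul]
    simp only [smul_mul_assoc, mul_smul_comm]

lemma hD_apply (b : (Fin n → ℂ) →ₗ[ℂ] ℂ[X]) (X : Fin n → ℂ) (i : I) (a : T i) :
    hD k x₀ P b X i a = ∑ j, X j • dP k x₀ P j i a +
    (b X * derivative (P x₀ i a) - (k i : ℂ[X]) * derivative (b X) * P x₀ i a) := rfl

lemma deg₀ (h : Fam k x₀ P) (i : I) (a : T i) : (P x₀ i a).natDegree ≤ 2 * k i :=
  h.deg.self_of_nhds i a

lemma hD_deg (h : Fam k x₀ P) {b : (Fin n → ℂ) →ₗ[ℂ] ℂ[X]} (hb : ∀ X, (b X).natDegree ≤ 2)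
    (X : Fin n → ℂ) (i : I) (a : T i) :
    (hD k x₀ P b X i a).natDegree ≤ 2 * k i := by
  rw [hD_apply]
  refine (natDegree_add_le _ _).trans (max_le ?_ (wr_deg (hb X) (h.deg₀ i a)))
  exact natDegree_sum_le_of_forall_le _ _ fun j _ => (natDegree_smul_le _ _).trans (dP_deg j i a)

lemma hD_eval (h : Fam k x₀ P) (b : (Fin n → ℂ) →ₗ[ℂ] ℂ[X]) (X : Fin n → ℂ) (w : ℂ) (i : I) (a : T i) :
    (hD k x₀ P b X i a).eval w = ∑ j, X j * fderiv ℝ (fun x => (P x i a).eval w) x₀ (eb j) +
      ((b X).eval w * (derivative (P x₀ i a)).eval w -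
        k i * (derivative (b X)).eval w * (P x₀ i a).eval w) := by
  rw [hD_apply]
  simp only [eval_add, eval_sub, eval_mul, eval_natCast, eval_finsetSum, eval_smul, smul_eq_mul]
  congr 1
  exact Finset.sum_congr rfl fun j _ => by rw [h.dP_eval]

variable [Fintype I] [∀ i, Fintype (T i)]

/-- the derivative of the family is tangent -/
theorem tan_dP (h : Fam k x₀ P) {E : Set (MvPolynomial (Σ i, T i) ℂ)}
    (hE : ∀ᶠ x in 𝓝 x₀, OnX E (P x)) (j : Fin n) : JacT E (P x₀) (dP k x₀ P j) := by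
  intro p hp
  apply Polynomial.funext
  intro w
  have hev : ∀ (v : (Σ i, T i) → ℂ[X]) (q : MvPolynomial (Σ i, T i) ℂ),
      (MvPolynomial.aeval v q).eval w = MvPolynomial.eval (fun y => (v y).eval w) q := by
    intro v q
    have := MvPolynomial.aeval_def v q
    rw [this, MvPolynomial.eval₂_eq', MvPolynomial.eval_eq']
    simp [eval_finsetSum, eval_prod]
  have h1 := hasFDerivAt_eval (E := EuclideanSpace ℝ (Fin n))
    (f := fun (y : Σ i, T i) x => (P x y.1 y.2).eval w) (x₀ := x₀)
    (fun y => (h.hasFDerivAt_ev w y.1 y.2).differentiableAt.hasFDerivAt) p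
  have h2 : (fun x => MvPolynomial.eval (fun y : Σ i, T i => (P x y.1 y.2).eval w) p) =ᶠ[𝓝 x₀]
      fun _ => 0 := by
    filter_upwards [hE] with x hx
    rw [← hev, hx p hp, eval_zero]
  have h3 := h1.congr_of_eventuallyEq h2.symm
  have h4 := (hasFDerivAt_const (𝕜 := ℝ) (0 : ℂ) x₀).unique h3
  have h5 := DFunLike.congr_fun h4 (eb j)
  rw [_root_.sum_apply] at h5
  simp only [eval_finsetSum, eval_mul, eval_zero]
  rw [_root_.zero_apply] at h5
  rw [h5]
  refine Finset.sum_congr rfl fun y _ => ?_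
  rw [_root_.smul_apply, smul_eq_mul, hev, h.dP_eval]

/-- the derivative along the curve is tangent -/
theorem tan_der {E : Set (MvPolynomial (Σ i, T i) ℂ)} {H : ∀ i, T i → ℂ[X]} (hE : OnX E H) :
    JacT E H (fun i a => derivative (H i a)) := by
  have := JacT.of_der (k := ℂ) (A := ℂ[X]) (Polynomial.derivative') hE
  simpa [Polynomial.derivative'_apply] using this

/-- the horizontal derivative is tangent -/
theorem tan_hD (h : Fam k x₀ P) {E : Set (MvPolynomial (Σ i, T i) ℂ)} (hM : MHom E)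
    (hE : ∀ᶠ x in 𝓝 x₀, OnX E (P x)) (b : (Fin n → ℂ) →ₗ[ℂ] ℂ[X]) (X : Fin n → ℂ) :
    JacT E (P x₀) (hD k x₀ P b X) := by
  have h0 : OnX E (P x₀) := hE.self_of_nhds
  have h1 : JacT E (P x₀) (fun i a => ∑ j, C (X j) * dP k x₀ P j i a) :=
    JacT.sum _ _ fun j _ => (h.tan_dP hE j).smul (C (X j))
  have h2 := (tan_der h0).smul (b X)
  have h3 := (JacT.euler hM h0 k).smul (-derivative (b X))
  have h4 := (h1.add h2).add h3
  convert h4 using 3 with i a
  rw [hD_apply]
  simp only [Polynomial.smul_eq_C_mul]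
  ring

end Fam

end Crest.Agent.R260.TL_660
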