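import Mathlib
import Crest.Agent.R260.TL4_660

/-!
Row 260, leaf TW-LINE (helper660), part 5: the almost complex structure
`J_Z (X, η) = (I_w X, iη + β(I_w X) - iβ(X))` (conventions of 979 #5731), and the immersion property:
if `L : E × ℂ → W` is injective and `L ∘ J_Z = i L`, then
`∑ X_j L(e_j,0) + (β(X) + η) L(0,1) = 0` implies `N_w X = 0` and `η = 0`.
-/

set_option autoImplicit false

open Complex Polynomial Filter Topology

noncomputable section

namespace Crest.Agent.R260.TL_660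

open Crest.Agent.R260.Tw_979

variable {n : ℕ}

/-- complexification of a real matrix as an operator on `ℂⁿ` -/
def cJ (A : Fin 3 → Matrix (Fin n) (Fin n) ℝ) (a : Fin 3) : (Fin n → ℂ) →ₗ[ℂ] (Fin n → ℂ) :=
  Matrix.toLin' ((A a).map (fun r : ℝ => (r : ℂ)))

lemma cJ_apply (A : Fin 3 → Matrix (Fin n) (Fin n) ℝ) (a : Fin 3) (X : Fin n → ℂ) (i : Fin n) :
    cJ A a X i = ∑ j, ((A a i j : ℝ) : ℂ) * X j := by
  simp [cJ, Matrix.toLin'_apply, Matrix.mulVec, dotProduct]

lemma cJ_QT {A : Fin 3 → Matrix (Fin n) (Fin n) ℝ} (h : QT A) : QT (cJ A) := by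
  have hm : ∀ M N : Matrix (Fin n) (Fin n) ℝ,
      Matrix.toLin' (M.map (fun r : ℝ => (r : ℂ))) * Matrix.toLin' (N.map (fun r : ℝ => (r : ℂ))) =
      Matrix.toLin' ((M * N).map (fun r : ℝ => (r : ℂ))) := by
    intro M N
    have h1 : (M * N).map (fun r : ℝ => (r : ℂ)) =
        M.map (fun r : ℝ => (r : ℂ)) * N.map (fun r : ℝ => (r : ℂ)) := by
      ext i j
      simp [Matrix.mul_apply]
    rw [h1, Matrix.toLin'_mul]
    rfl
  refine ⟨fun a => ?_, ?_, ?_⟩
  · simp only [cJ]
    rw [hm, h.sq a]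
    apply LinearMap.ext
    intro X
    funext i
    simp [Matrix.toLin'_apply, Matrix.mulVec, dotProduct, Matrix.one_apply]
    simp [apply_ite]
  · simp only [cJ]
    rw [hm, h.m01]
  · simp only [cJ]
    rw [hm, h.m10]
    apply LinearMap.ext
    intro X
    funext i
    simp [Matrix.toLin'_apply, Matrix.mulVec, dotProduct]

/-- `N_w I_w = i N_w` -/
lemma N_mul_I {V : Type*} [AddCommGroup V] [Module ℂ V] {J : Fin 3 → (V →ₗ[ℂ] V)} (h : QT J)
    (w : ℂ) : N J w * dJ (cx (xx w)) J = Complex.I • N J w := by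
  have h1 : dt (nn w) (cx (xx w)) = 0 := by
    have := xx_nn w
    simp only [dt] at this ⊢
    linear_combination this
  have h2 : cr (nn w) (cx (xx w)) = Complex.I • nn w := by
    have := cr_xx_nn w
    have h3 : cr (nn w) (cx (xx w)) = -cr (cx (xx w)) (nn w) := by
      funext a
      fin_cases a
      · simp [cr]; ring
      · simp [cr]; ring
      · simp [cr]; ring
    rw [h3, this]
    module
  rw [N, dJ_mul h, h1, h2, dJ_smul]
  simp

/-- the real matrix `I_w = ∑ xx_a(w) J_a` -/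
def Iw (A : Fin 3 → Matrix (Fin n) (Fin n) ℝ) (w : ℂ) : Matrix (Fin n) (Fin n) ℝ :=
  ∑ a, xx w a • A a

/-- coordinates of a complex vector: real and imaginary parts -/
def reV (X : Fin n → ℂ) : EuclideanSpace ℝ (Fin n) := WithLp.toLp 2 fun j => (X j).re

def imV (X : Fin n → ℂ) : EuclideanSpace ℝ (Fin n) := WithLp.toLp 2 fun j => (X j).im

/-- `I_w` on `E` -/
def IE (A : Fin 3 → Matrix (Fin n) (Fin n) ℝ) (w : ℂ) (v : EuclideanSpace ℝ (Fin n)) :
    EuclideanSpace ℝ (Fin n) := WithLp.toLp 2 fun i => ∑ j, Iw A w i j * v j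

/-- the almost complex structure of the twistor space at `(x, w)` -/
def JZ (A : Fin 3 → Matrix (Fin n) (Fin n) ℝ) (w : ℂ) (β : EuclideanSpace ℝ (Fin n) →ₗ[ℝ] ℂ)
    (v : EuclideanSpace ℝ (Fin n) × ℂ) : EuclideanSpace ℝ (Fin n) × ℂ :=
  (IE A w v.1, Complex.I * v.2 + β (IE A w v.1) - Complex.I * β v.1)

lemma sum_eb (v : EuclideanSpace ℝ (Fin n)) : v = ∑ j, v j • eb j := by
  have := (EuclideanSpace.basisFun (Fin n) ℝ).sum_repr v
  simpa using this.symm

/-- the immersion property -/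
theorem imm_lin {A : Fin 3 → Matrix (Fin n) (Fin n) ℝ} (hA : QT A) (w : ℂ)
    (β : EuclideanSpace ℝ (Fin n) →ₗ[ℝ] ℂ) {W : Type*} [AddCommGroup W] [Module ℂ W] [Module ℝ W]
    [IsScalarTower ℝ ℂ W]
    (L : EuclideanSpace ℝ (Fin n) × ℂ →ₗ[ℝ] W) (hinj : ∀ v, L v = 0 → v = 0)
    (hJ : ∀ v, L (JZ A w β v) = Complex.I • L v) {X : Fin n → ℂ} {η : ℂ}
    (h0 : ∑ j, X j • L (eb j, 0) + (∑ j, X j * β (eb j) + η) • L (0, 1) = 0) :
    N (cJ A) w X = 0 ∧ η = 0 := by
  -- vertical vectors
  have hv : ∀ c : ℂ, L (0, c) = c • L (0, 1) := by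
    have hI : L ((0 : EuclideanSpace ℝ (Fin n)), Complex.I) = Complex.I • L (0, 1) := by
      rw [← hJ]
      congr 1
      have : IE A w (0 : EuclideanSpace ℝ (Fin n)) = 0 := by
        ext i; simp [IE]
      simp [JZ, this]
    intro c
    have h1 : ((0 : EuclideanSpace ℝ (Fin n)), c) = c.re • ((0 : EuclideanSpace ℝ (Fin n)), (1 : ℂ)) +
        c.im • ((0 : EuclideanSpace ℝ (Fin n)), Complex.I) := by
      apply Prod.ext
      · simp
      · simp
    conv_lhs => rw [h1]
    rw [map_add, map_smul, map_smul, hI]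
    conv_rhs => rw [← Complex.re_add_im c, add_smul, mul_smul]
    rw [← Complex.coe_algebraMap, algebraMap_smul, algebraMap_smul]
  have hh : ∀ v : EuclideanSpace ℝ (Fin n), L (v, 0) = ∑ j, v j • L (eb j, 0) := by
    intro v
    have h1 : ((v, 0) : EuclideanSpace ℝ (Fin n) × ℂ) = ∑ j, v j • ((eb j, 0) :
        EuclideanSpace ℝ (Fin n) × ℂ) := by
      apply Prod.ext
      · rw [Prod.fst_sum]; simpa using sum_eb v
      · rw [Prod.snd_sum]; simp
    rw [h1, map_sum]
    simp only [map_smul]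
  have hb : ∀ v : EuclideanSpace ℝ (Fin n), β v = ∑ j, (v j : ℂ) * β (eb j) := by
    intro v
    conv_lhs => rw [sum_eb v]
    rw [map_sum]
    simp
  set v : EuclideanSpace ℝ (Fin n) × ℂ :=
    (reV X, β (reV X)) + JZ A w β (imV X, β (imV X)) + (0, η) with hvdef
  have hLv : L v = 0 := by
    rw [hvdef, map_add, map_add, hJ]
    have e1 : ∀ u : EuclideanSpace ℝ (Fin n), L (u, β u) = L (u, 0) + β u • L (0, 1) := by
      intro u
      rw [← hv, ← map_add]; simp
    rw [e1, e1, hv η, ← h0, hh, hh]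
    have e2 : ∀ j, X j • L (eb j, 0) = (reV X j) • L (eb j, 0) +
        Complex.I • ((imV X j) • L (eb j, 0)) := by
      intro j
      conv_lhs => rw [← Complex.re_add_im (X j), add_smul, mul_comm, mul_smul]
      rw [← Complex.coe_algebraMap, algebraMap_smul, algebraMap_smul]
      rfl
    have e3 : ∑ j, X j * β (eb j) = β (reV X) + Complex.I * β (imV X) := by
      rw [hb, hb, Finset.mul_sum, ← Finset.sum_add_distrib]
      refine Finset.sum_congr rfl fun j _ => ?_
      conv_lhs => rw [← Complex.re_add_im (X j)]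
      simp only [reV, imV]
      ring
    rw [Finset.sum_congr rfl fun j _ => e2 j, Finset.sum_add_distrib, ← Finset.smul_sum, e3]
    module
  have hv0 := hinj v hLv
  have h1 := congrArg Prod.fst hv0
  have h2 := congrArg Prod.snd hv0
  simp only [hvdef, JZ, Prod.fst_add, Prod.snd_add, Prod.fst_zero, Prod.snd_zero, add_zero] at h1 h2
  have h3 : β (reV X) + β (IE A w (imV X)) = 0 := by rw [← map_add, h1, map_zero]
  have hη : η = 0 := by linear_combination h2 - h3
  refine ⟨?_, hη⟩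
  -- `X = -I_w Im X + i Im X`
  set Y : Fin n → ℂ := fun j => ((X j).im : ℂ) with hY
  have hX : X = -(dJ (cx (xx w)) (cJ A) Y) + Complex.I • Y := by
    funext i
    have h4 : (X i).re + ∑ j, Iw A w i j * (X j).im = 0 := by
      have := congrArg (fun v : EuclideanSpace ℝ (Fin n) => v i) h1
      simpa [reV, imV, IE] using this
    have h5 : (dJ (cx (xx w)) (cJ A) Y) i = ((∑ j, Iw A w i j * (X j).im : ℝ) : ℂ) := by
      simp only [dJ, LinearMap.add_apply, LinearMap.smul_apply, Pi.add_apply, Pi.smul_apply,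
        smul_eq_mul, cJ_apply, Iw, cx, hY, Finset.mul_sum, ← Finset.sum_add_distrib]
      push_cast
      refine Finset.sum_congr rfl fun j _ => ?_
      rw [Fin.sum_univ_three]
      simp only [Matrix.add_apply, Matrix.smul_apply, smul_eq_mul]
      push_cast
      ring
    rw [Pi.add_apply, Pi.neg_apply, h5, Pi.smul_apply, smul_eq_mul]
    have h6 : ((∑ j, Iw A w i j * (X j).im : ℝ) : ℂ) = -((X i).re : ℂ) := by
      have : ∑ j, Iw A w i j * (X j).im = -(X i).re := by linarith
      rw [this]; push_cast; ring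
    rw [h6, neg_neg, hY]
    conv_lhs => rw [← Complex.re_add_im (X i)]
    ring
  have h7 := LinearMap.congr_fun (N_mul_I (cJ_QT hA) w) Y
  simp only [Module.End.mul_apply, LinearMap.smul_apply] at h7
  rw [hX, map_add, map_neg, h7, map_smul]
  module

end Crest.Agent.R260.TL_660
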