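import Mathlib
import Crest.Agent.R260.TL5_660

/-!
Row 260, leaf TW-LINE (helper660), part 6: the immersion property of the tuple of a twistor line from
the immersion property of the coordinates of the complex manifold `Z`.

`Link` : near `(x₀, w)` the family is `P x i a (w') = μ(x,w') ^ k i * Φ i a (ζ(x,w'))`, `ζ` the complex
chart of `Z` read in the real chart `E × ℂ`.
-/

set_option autoImplicit false

open Complex Polynomial Filter Topology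

noncomputable section

namespace Crest.Agent.R260.TL_660

open Crest.Agent.R260.Tw_979 Crest.Agent.R270.BM_360 Crest.Agent.R270.Cramer_491

variable {n : ℕ} {I : Type} {T : I → Type} {W : Type} [NormedAddCommGroup W] [NormedSpace ℂ W]

/-- the family `P` near `(x₀, w)` in terms of the homogeneous coordinates `Φ` in a complex chart -/
structure Link (A : Fin 3 → Matrix (Fin n) (Fin n) ℝ) (β : EuclideanSpace ℝ (Fin n) →ₗ[ℝ] ℂ)
    (k : I → ℕ) (x₀ : EuclideanSpace ℝ (Fin n)) (w : ℂ)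
    (P : EuclideanSpace ℝ (Fin n) → ∀ i, T i → ℂ[X])
    (μ : EuclideanSpace ℝ (Fin n) × ℂ → ℂ) (ζ : EuclideanSpace ℝ (Fin n) × ℂ → W)
    (Φ : ∀ i, T i → W → ℂ) : Prop where
  eq : ∀ᶠ y in 𝓝 (x₀, w), ∀ i a, (P y.1 i a).eval y.2 = μ y ^ k i * Φ i a (ζ y)
  μd : DifferentiableAt ℝ μ (x₀, w)
  μ0 : μ (x₀, w) ≠ 0
  ζd : DifferentiableAt ℝ ζ (x₀, w)
  Φd : ∀ i a, DifferentiableAt ℂ (Φ i a) (ζ (x₀, w))
  inj : ∀ v, fderiv ℝ ζ (x₀, w) v = 0 → v = 0
  lin : ∀ v, fderiv ℝ ζ (x₀, w) (JZ A w β v) = Complex.I • fderiv ℝ ζ (x₀, w) v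
  imm : ∀ i, ∀ (u : W) (l : ℂ), (∀ a, fderiv ℂ (Φ i a) (ζ (x₀, w)) u = l * Φ i a (ζ (x₀, w))) → u = 0
  ne : ∀ i, ∃ a, Φ i a (ζ (x₀, w)) ≠ 0

namespace Link

variable {A : Fin 3 → Matrix (Fin n) (Fin n) ℝ} {β : EuclideanSpace ℝ (Fin n) →ₗ[ℝ] ℂ}
  {k : I → ℕ} {x₀ : EuclideanSpace ℝ (Fin n)} {w : ℂ}
  {P : EuclideanSpace ℝ (Fin n) → ∀ i, T i → ℂ[X]}
  {μ : EuclideanSpace ℝ (Fin n) × ℂ → ℂ} {ζ : EuclideanSpace ℝ (Fin n) × ℂ → W}
  {Φ : ∀ i, T i → W → ℂ}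

/-- the differential of `G (x, w') = P x i a (w')` -/
lemma hasFDerivAt (h : Link A β k x₀ w P μ ζ Φ) (i : I) (a : T i) :
    ∃ G' : EuclideanSpace ℝ (Fin n) × ℂ →L[ℝ] ℂ,
      HasFDerivAt (fun y : EuclideanSpace ℝ (Fin n) × ℂ => (P y.1 i a).eval y.2) G' (x₀, w) ∧
      ∀ v, G' v = k i * μ (x₀, w) ^ (k i - 1) * fderiv ℝ μ (x₀, w) v * Φ i a (ζ (x₀, w)) +
        μ (x₀, w) ^ k i * fderiv ℂ (Φ i a) (ζ (x₀, w)) (fderiv ℝ ζ (x₀, w) v) := by
  have h1 : HasFDerivAt (fun y => μ y ^ k i)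
      ((k i * μ (x₀, w) ^ (k i - 1)) • fderiv ℝ μ (x₀, w)) (x₀, w) := by
    have := h.μd.hasFDerivAt.pow (k i)
    refine this.congr_fderiv ?_
    ext v
    all_goals simp
  have h2 : HasFDerivAt (fun y => Φ i a (ζ y))
      (((fderiv ℂ (Φ i a) (ζ (x₀, w))).restrictScalars ℝ).comp (fderiv ℝ ζ (x₀, w))) (x₀, w) :=
    HasFDerivAt.comp (x₀, w) ((h.Φd i a).hasFDerivAt.restrictScalars ℝ) h.ζd.hasFDerivAt
  have h3 := h1.fun_mul h2
  refine ⟨_, h3.congr_of_eventuallyEq ?_, fun v => ?_⟩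
  · filter_upwards [h.eq] with y hy
    exact hy i a
  · simp only [_root_.add_apply, _root_.smul_apply, smul_eq_mul, ContinuousLinearMap.comp_apply,
      ContinuousLinearMap.coe_restrictScalars']
    ring

/-- partial derivatives -/
lemma partials (h : Link A β k x₀ w P μ ζ Φ) (i : I) (a : T i)
    {G' : EuclideanSpace ℝ (Fin n) × ℂ →L[ℝ] ℂ}
    (hG : HasFDerivAt (fun y : EuclideanSpace ℝ (Fin n) × ℂ => (P y.1 i a).eval y.2) G' (x₀, w)) :
    (∀ j, fderiv ℝ (fun x => (P x i a).eval w) x₀ (eb j) = G' (eb j, 0)) ∧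
      (derivative (P x₀ i a)).eval w = G' (0, 1) := by
  constructor
  · intro j
    have h1 : HasFDerivAt (fun x : EuclideanSpace ℝ (Fin n) => (x, w))
        (ContinuousLinearMap.inl ℝ (EuclideanSpace ℝ (Fin n)) ℂ) x₀ := by
      have := (hasFDerivAt_id (𝕜 := ℝ) x₀).prodMk (hasFDerivAt_const (𝕜 := ℝ) w x₀)
      refine this.congr_fderiv ?_
      ext v
      all_goals simp
    have h2 := HasFDerivAt.comp x₀ (f := fun x : EuclideanSpace ℝ (Fin n) => (x, w)) hG h1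
    have h3 : (fun x => (P x i a).eval w) = (fun y : EuclideanSpace ℝ (Fin n) × ℂ =>
      (P y.1 i a).eval y.2) ∘ (fun x : EuclideanSpace ℝ (Fin n) => (x, w)) := rfl
    rw [h3, h2.fderiv]
    simp
  · have h1 : HasFDerivAt (fun c : ℂ => (x₀, c))
        (ContinuousLinearMap.inr ℝ (EuclideanSpace ℝ (Fin n)) ℂ) w := by
      have := (hasFDerivAt_const (𝕜 := ℝ) x₀ w).prodMk (hasFDerivAt_id (𝕜 := ℝ) w)
      refine this.congr_fderiv ?_
      ext v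
      all_goals simp
    have h2 := HasFDerivAt.comp w (f := fun c : ℂ => (x₀, c)) hG h1
    have h3 : HasFDerivAt ((fun y : EuclideanSpace ℝ (Fin n) × ℂ => (P y.1 i a).eval y.2) ∘
        (fun c : ℂ => (x₀, c)))
        ((ContinuousLinearMap.toSpanSingleton ℂ ((derivative (P x₀ i a)).eval w)).restrictScalars ℝ)
        w := ((P x₀ i a).hasDerivAt w).hasFDerivAt.restrictScalars ℝ
    have h4 := DFunLike.congr_fun (h3.unique h2) (1 : ℂ)
    simpa using h4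

/-- **immersion property of the tuple** -/
theorem imm_tuple [Nonempty I] (h : Link A β k x₀ w P μ ζ Φ) (hA : QT A) (hP : Fam k x₀ P)
    {b : (Fin n → ℂ) →ₗ[ℂ] ℂ[X]} (hb : ∀ X, (b X).eval w = ∑ j, X j * β (eb j))
    (hol : ∀ X, N (cJ A) w X = 0 → ∀ i a, (Fam.hD k x₀ P b X i a).eval w = 0)
    {X : Fin n → ℂ} {η : ℂ} {c : I → ℂ}
    (h0 : ∀ i a, (Fam.hD k x₀ P b X i a).eval w + η * (derivative (P x₀ i a)).eval w +
      c i * (P x₀ i a).eval w = 0) :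
    N (cJ A) w X = 0 ∧ η = 0 ∧ c = 0 := by
  set U : W := ∑ j, X j • fderiv ℝ ζ (x₀, w) (eb j, 0) +
    (∑ j, X j * β (eb j) + η) • fderiv ℝ ζ (x₀, w) (0, 1) with hU
  set M : ℂ := ∑ j, X j * fderiv ℝ μ (x₀, w) (eb j, 0) +
    (∑ j, X j * β (eb j) + η) * fderiv ℝ μ (x₀, w) (0, 1) with hM
  have key : ∀ i a, μ (x₀, w) ^ k i * fderiv ℂ (Φ i a) (ζ (x₀, w)) U +
      (k i * μ (x₀, w) ^ (k i - 1) * M + (c i - k i * (derivative (b X)).eval w) *
        μ (x₀, w) ^ k i) * Φ i a (ζ (x₀, w)) = 0 := by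
    intro i a
    obtain ⟨G', hG, hv⟩ := h.hasFDerivAt i a
    obtain ⟨p1, p2⟩ := h.partials i a hG
    have h1 := h0 i a
    rw [hP.hD_eval, hb, p2] at h1
    simp only [p1] at h1
    have h2 : (P x₀ i a).eval w = μ (x₀, w) ^ k i * Φ i a (ζ (x₀, w)) :=
      h.eq.self_of_nhds i a
    rw [h2] at h1
    have h3 : ∑ j, X j * G' (eb j, 0) = k i * μ (x₀, w) ^ (k i - 1) *
        (∑ j, X j * fderiv ℝ μ (x₀, w) (eb j, 0)) * Φ i a (ζ (x₀, w)) +
        μ (x₀, w) ^ k i * fderiv ℂ (Φ i a) (ζ (x₀, w))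
          (∑ j, X j • fderiv ℝ ζ (x₀, w) (eb j, 0)) := by
      rw [map_sum, Finset.mul_sum, Finset.sum_mul, Finset.mul_sum, ← Finset.sum_add_distrib]
      refine Finset.sum_congr rfl fun j _ => ?_
      rw [hv, map_smul, smul_eq_mul]
      ring
    rw [h3, hv] at h1
    rw [hU, hM, map_add, map_smul, smul_eq_mul]
    linear_combination h1
  have hU0 : U = 0 := by
    obtain ⟨i⟩ := (inferInstance : Nonempty I)
    refine h.imm i U (-(k i * μ (x₀, w) ^ (k i - 1) * M + (c i - k i * (derivative (b X)).eval w) *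
        μ (x₀, w) ^ k i) / μ (x₀, w) ^ k i) fun a => ?_
    have h1 := key i a
    have h2 : μ (x₀, w) ^ k i ≠ 0 := pow_ne_zero _ h.μ0
    field_simp
    linear_combination h1
  obtain ⟨hN, hη⟩ := imm_lin hA w β (fderiv ℝ ζ (x₀, w) : _ →ₗ[ℝ] W) h.inj h.lin
    (X := X) (η := η) hU0
  refine ⟨hN, hη, ?_⟩
  funext i
  obtain ⟨a, ha⟩ := h.ne i
  have h1 := h0 i a
  rw [hol X hN i a, hη, h.eq.self_of_nhds i a] at h1
  have h2 : μ (x₀, w) ^ k i ≠ 0 := pow_ne_zero _ h.μ0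
  have h3 : c i * (μ (x₀, w) ^ k i * Φ i a (ζ (x₀, w))) = 0 := by linear_combination h1
  rcases mul_eq_zero.1 h3 with h4 | h4
  · exact h4
  · exact absurd h4 (mul_ne_zero h2 ha)

end Link

end Crest.Agent.R260.TL_660
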