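import Mathlib
import Crest.Agent.R260.TL6_660

/-!
Row 260, leaf TW-LINE (helper660), part 7: the point `w = ∞` by the second frame
`(-J₀, J₁, -J₂)`, `w' = 1/w`, `P = (-1)^k reflect (2k) G`, `b = - reflect 2 b'`; assembly of
`LineData`.
-/

set_option autoImplicit false

open Complex Polynomial Filter Topology

noncomputable section

namespace Crest.Agent.R260.TL_660

open Crest.Agent.R260.Tw_979 Crest.Agent.R270.BM_360 Crest.Agent.R270.Cramer_491

/-- the coefficient of degree `2k` of `b H' - k b' H` -/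
lemma wr_top {b H : ℂ[X]} {k : ℕ} (hk : 1 ≤ k) (hb : b.natDegree ≤ 2) (hH : H.natDegree ≤ 2 * k) :
    (b * derivative H - (k : ℂ[X]) * derivative b * H).coeff (2 * k) =
      k * b.coeff 1 * H.coeff (2 * k) - b.coeff 2 * H.coeff (2 * k - 1) := by
  have hb' : b = C (b.coeff 2) * X ^ 2 + C (b.coeff 1) * X + C (b.coeff 0) := by
    conv_lhs => rw [b.as_sum_range' 3 (by omega)]
    simp only [Finset.sum_range_succ, Finset.sum_range_zero, zero_add, ← C_mul_X_pow_eq_monomial,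
      pow_zero, mul_one, pow_one]
    ring
  set b0 := b.coeff 0
  set b1 := b.coeff 1
  set b2 := b.coeff 2
  obtain ⟨l, hl⟩ : ∃ l, 2 * k = l + 2 := ⟨2 * k - 2, by omega⟩
  have hd : derivative b = C (2 * b2) * X + C b1 := by
    rw [hb']
    simp only [derivative_add, derivative_C_mul, derivative_X, derivative_C, C_mul]
    norm_num
    ring
  have e1 : b * derivative H = C b2 * (X ^ 2 * derivative H) + C b1 * (X * derivative H) +
      C b0 * derivative H := by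
    conv_lhs => rw [hb']
    ring
  have e2 : (k : ℂ[X]) * derivative b * H = C ((k : ℂ) * (2 * b2)) * (X * H) +
      C ((k : ℂ) * b1) * H := by
    rw [hd]
    simp only [C_mul, ← C_eq_natCast]
    ring
  rw [coeff_sub, e1, e2, coeff_add, coeff_add, coeff_add, coeff_C_mul, coeff_C_mul, coeff_C_mul,
    coeff_C_mul, coeff_C_mul, hl, coeff_X_pow_mul, show l + 2 = (l + 1) + 1 from rfl,
    coeff_X_mul, coeff_X_mul, coeff_derivative, coeff_derivative, coeff_derivative,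
    show l + 1 + 1 - 1 = l + 1 from rfl]
  have h3 : H.coeff (l + 1 + 1 + 1) = 0 :=
    coeff_eq_zero_of_natDegree_lt (lt_of_le_of_lt hH (by omega))
  have h4 : (k : ℂ) * 2 = (l : ℂ) + 2 := by
    have : ((2 * k : ℕ) : ℂ) = ((l + 2 : ℕ) : ℂ) := by rw [hl]
    push_cast at this
    linear_combination this
  rw [h3]
  push_cast
  linear_combination (-(b2 * H.coeff (l + 1)) - b1 * H.coeff (l + 1 + 1)) * h4

/-- the second frame -/
def fl {R : Type*} [Neg R] (A : Fin 3 → R) : Fin 3 → R := ![-A 0, A 1, -A 2]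

lemma fl_QT {R : Type*} [Ring R] {A : Fin 3 → R} (h : QT A) : QT (fl A) := by
  have e0 : fl A 0 = -A 0 := rfl
  have e1 : fl A 1 = A 1 := rfl
  have e2 : fl A 2 = -A 2 := rfl
  refine ⟨fun a => ?_, ?_, ?_⟩
  · fin_cases a
    · show fl A 0 * fl A 0 = -1
      rw [e0, neg_mul_neg, h.sq 0]
    · show fl A 1 * fl A 1 = -1
      rw [e1, h.sq 1]
    · show fl A 2 * fl A 2 = -1
      rw [e2, neg_mul_neg, h.sq 2]
  · rw [e0, e1, e2, neg_mul, h.m01]
  · rw [e0, e1, e2, mul_neg, h.m10]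

variable {n : ℕ} {I : Type} {T : I → Type}

lemma N_fl (A : Fin 3 → Matrix (Fin n) (Fin n) ℝ) : N (cJ (fl A)) 0 = -Ninf (cJ A) := by
  have h0 : cJ (fl A) 1 = cJ A 1 := rfl
  have h2 : cJ (fl A) 2 = -cJ A 2 := by
    apply LinearMap.ext
    intro X
    funext i
    rw [cJ_apply, LinearMap.neg_apply, Pi.neg_apply, cJ_apply, ← Finset.sum_neg_distrib]
    refine Finset.sum_congr rfl fun j _ => ?_
    have e2 : fl A 2 = -A 2 := rfl
    rw [e2, Matrix.neg_apply]
    push_cast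
    ring
  have e : nn 0 = ![0, 1, Complex.I] := by
    funext a
    fin_cases a <;> simp [nn]
  simp only [N, Ninf, dJ, e, ninf, h0, h2, Matrix.cons_val_zero, Matrix.cons_val_one,
    Matrix.cons_val]
  module

/-- the two families of the two frames agree near `x₀` -/
structure Flip (k : I → ℕ) (x₀ : EuclideanSpace ℝ (Fin n))
    (P G : EuclideanSpace ℝ (Fin n) → ∀ i, T i → ℂ[X]) (b b' : (Fin n → ℂ) →ₗ[ℂ] ℂ[X]) : Prop where
  top : ∀ᶠ x in 𝓝 x₀, ∀ i a, (P x i a).coeff (2 * k i) = (-1) ^ k i * (G x i a).coeff 0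
  top1 : ∀ i a, (P x₀ i a).coeff (2 * k i - 1) = (-1) ^ k i * (G x₀ i a).coeff 1
  b2 : ∀ X, (b X).coeff 2 = -(b' X).coeff 0
  b1 : ∀ X, (b X).coeff 1 = -(b' X).coeff 1

variable {k : I → ℕ} {x₀ : EuclideanSpace ℝ (Fin n)}
  {P G : EuclideanSpace ℝ (Fin n) → ∀ i, T i → ℂ[X]} {b b' : (Fin n → ℂ) →ₗ[ℂ] ℂ[X]}

lemma Fam.dP_coeff (j : Fin n) (i : I) (a : T i) {l : ℕ} (hl : l ≤ 2 * k i) :
    (Fam.dP k x₀ P j i a).coeff l = fderiv ℝ (fun x => (P x i a).coeff l) x₀ (eb j) := by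
  simp only [Fam.dP, finsetSum_coeff, coeff_monomial]
  rw [Finset.sum_eq_single l]
  · simp
  · intro l' _ h; simp [h]
  · intro h; exact absurd (Finset.mem_range.2 (by omega)) h

lemma Fam.hD_top (hP : Fam k x₀ P) (hk : ∀ i, 1 ≤ k i) (hb : ∀ X, (b X).natDegree ≤ 2)
    (hF : Flip k x₀ P G b b') (X : Fin n → ℂ) (i : I) (a : T i) :
    (Fam.hD k x₀ P b X i a).coeff (2 * k i) =
      (-1) ^ k i * (Fam.hD k x₀ G b' X i a).eval 0 := by
  have e1 : ∀ j, fderiv ℝ (fun x => (P x i a).coeff (2 * k i)) x₀ (eb j) =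
      (-1) ^ k i * fderiv ℝ (fun x => (G x i a).coeff 0) x₀ (eb j) := by
    intro j
    have h1 : (fun x => (P x i a).coeff (2 * k i)) =ᶠ[𝓝 x₀]
        fun x => (-1) ^ k i * (G x i a).coeff 0 := by
      filter_upwards [hF.top] with x hx
      exact hx i a
    rw [h1.fderiv_eq]
    by_cases hd : DifferentiableAt ℝ (fun x => (G x i a).coeff 0) x₀
    · rw [(hd.hasFDerivAt.const_mul ((-1 : ℂ) ^ k i)).fderiv, _root_.smul_apply, smul_eq_mul]
    · have hd' : ¬ DifferentiableAt ℝ (fun x => (-1 : ℂ) ^ k i * (G x i a).coeff 0) x₀ := by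
        intro hh
        apply hd
        have h2 := hh.const_mul ((-1 : ℂ) ^ k i)
        refine h2.congr_of_eventuallyEq (Eventually.of_forall fun x => ?_)
        show (G x i a).coeff 0 = (-1 : ℂ) ^ k i * ((-1 : ℂ) ^ k i * (G x i a).coeff 0)
        rw [← mul_assoc, ← mul_pow]; simp
      rw [fderiv_zero_of_not_differentiableAt hd, fderiv_zero_of_not_differentiableAt hd']
      simp
  have hsq : ((-1 : ℂ) ^ k i) * (-1) ^ k i = 1 := by rw [← mul_pow]; simp
  rw [Fam.hD_apply, Fam.hD_apply, coeff_add, wr_top (hk i) (hb X) (hP.deg₀ i a),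
    finsetSum_coeff, ← coeff_zero_eq_eval_zero, coeff_add, finsetSum_coeff]
  simp only [coeff_smul, smul_eq_mul]
  rw [Finset.sum_congr rfl fun j _ => by rw [Fam.dP_coeff j i a le_rfl, e1 j],
    mul_add, Finset.mul_sum]
  congr 1
  · refine Finset.sum_congr rfl fun j _ => ?_
    rw [Fam.dP_coeff j i a (Nat.zero_le _)]; ring
  · have h2 := hF.top.self_of_nhds i a
    rw [hF.b2, hF.b1, h2, hF.top1 i a, coeff_sub, mul_coeff_zero, mul_coeff_zero, mul_coeff_zero,
      coeff_derivative, coeff_derivative]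
    have : ((k i : ℂ[X])).coeff 0 = (k i : ℂ) := by rw [← C_eq_natCast, coeff_C_zero]
    rw [this]
    push_cast
    ring

variable {A : Fin 3 → Matrix (Fin n) (Fin n) ℝ} {β β' : EuclideanSpace ℝ (Fin n) →ₗ[ℝ] ℂ}

/-- **assembly of `LineData`** -/
theorem lineData [Nonempty I] (hA : QT A) (hk : ∀ i, 1 ≤ k i) (hP : Fam k x₀ P) (hG : Fam k x₀ G)
    (hb : ∀ X, (b X).natDegree ≤ 2) (hF : Flip k x₀ P G b b')
    (hol : ∀ w X, N (cJ A) w X = 0 → ∀ i a, (Fam.hD k x₀ P b X i a).eval w = 0)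
    (hol' : ∀ X, N (cJ (fl A)) 0 X = 0 → ∀ i a, (Fam.hD k x₀ G b' X i a).eval 0 = 0)
    (hbw : ℂ → EuclideanSpace ℝ (Fin n) →ₗ[ℝ] ℂ)
    (hbe : ∀ w X, (b X).eval w = ∑ j, X j * hbw w (eb j))
    (hbe' : ∀ X, (b' X).eval 0 = ∑ j, X j * β' (eb j))
    (hL : ∀ w, ∃ (W : Type) (_ : NormedAddCommGroup W) (_ : NormedSpace ℂ W)
      (μ : EuclideanSpace ℝ (Fin n) × ℂ → ℂ) (ζ : EuclideanSpace ℝ (Fin n) × ℂ → W)
      (Φ : ∀ i, T i → W → ℂ), Link A (hbw w) k x₀ w P μ ζ Φ)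
    (hL' : ∃ (W : Type) (_ : NormedAddCommGroup W) (_ : NormedSpace ℂ W)
      (μ : EuclideanSpace ℝ (Fin n) × ℂ → ℂ) (ζ : EuclideanSpace ℝ (Fin n) × ℂ → W)
      (Φ : ∀ i, T i → W → ℂ), Link (fl A) β' k x₀ 0 G μ ζ Φ) :
    LineData (cJ A) (fun i => 2 * k i) (P x₀) (Fam.hD k x₀ P b) where
  qt := cJ_QT hA
  pos i := by have := hk i; omega
  degH := hP.deg₀
  degD X i a := hP.hD_deg hb X i a
  hol := hol
  imm w X η c h0 := by
    obtain ⟨W, _, _, μ, ζ, Φ, h⟩ := hL w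
    exact h.imm_tuple hA hP (hbe w) (hol w) h0
  imm_inf X η c h0 := by
    obtain ⟨W, _, _, μ, ζ, Φ, h⟩ := hL'
    obtain ⟨h1, h2, h3⟩ := h.imm_tuple (fl_QT hA) hG hbe' hol' (X := X) (η := η) (c := c) (by
      intro i a
      have h1 := h0 i a
      rw [hP.hD_top hk hb hF, hF.top1, hF.top.self_of_nhds i a] at h1
      have h2 : ((-1 : ℂ) ^ k i) ≠ 0 := pow_ne_zero _ (by norm_num)
      have h3 : (derivative (G x₀ i a)).eval 0 = (G x₀ i a).coeff 1 := by
        rw [← coeff_zero_eq_eval_zero, coeff_derivative]; simp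
      rw [h3, ← coeff_zero_eq_eval_zero (p := G x₀ i a)]
      apply mul_left_cancel₀ h2
      linear_combination h1)
    refine ⟨?_, h2, h3⟩
    rw [N_fl, LinearMap.neg_apply, neg_eq_zero] at h1
    exact h1

end Crest.Agent.R260.TL_660
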