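import Mathlib
import Crest.Agent.R260.TL7_660
import Crest.Agent.R260.FinDefs_600
import Crest.Agent.R260.Tup1_45

/-!
Row 260, leaf TW-LINE (helper660), part 8: **the twistor tuples are very free** (`Fin_600.VF0`).

Only the Cauchy-Riemann equation along the whole line and the immersion property at `w = 0` are
used.
-/

set_option autoImplicit false

open Complex Polynomial Filter Topology
open scoped ContDiff

noncomputable section

namespace Crest.Agent.R260.TL_660

open Crest.Agent.R260.Tw_979 Crest.Agent.R270.BM_360 Crest.Agent.R270.Cramer_491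
open Crest.Agent.R260.Lin_678 Crest.Agent.R260.Fin_600

section pre

variable {V : Type*} [AddCommGroup V] [Module ℂ V] {I : Type*} {T : I → Type*}

/-- the part of `LineData` without immersion properties -/
structure PreLine (J : Fin 3 → (V →ₗ[ℂ] V)) (d : I → ℕ) (D : V →ₗ[ℂ] (∀ i, T i → ℂ[X])) : Prop where
  qt : QT J
  pos : ∀ i, 1 ≤ d i
  degD : ∀ X i a, (D X i a).natDegree ≤ d i
  hol : ∀ w X, N J w X = 0 → ∀ i a, (D X i a).eval w = 0

variable {J : Fin 3 → (V →ₗ[ℂ] V)} {d : I → ℕ} {D : V →ₗ[ℂ] (∀ i, T i → ℂ[X])}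

lemma PreLine.ident (h : PreLine J d D) (Y : V) (i : I) (a : T i) :
    D (dJ ![0, 1, Complex.I] J Y) i a + X * D ((-2 : ℂ) • J 0 Y) i a +
      X ^ 2 * D (Ninf J Y) i a = 0 := by
  apply Polynomial.funext
  intro w
  have h1 : N J w (N J w Y) = 0 := by
    have := LinearMap.congr_fun (N_sq h.qt w) Y
    simpa [N] using this
  have h2 := h.hol w _ h1 i a
  rw [LineData.N_eq w] at h2
  simp only [LinearMap.add_apply, LinearMap.smul_apply, map_add, map_smul, Pi.add_apply,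
    Pi.smul_apply, eval_add, eval_smul, smul_eq_mul] at h2
  simp only [eval_add, eval_mul, eval_X, eval_pow, map_smul, Pi.smul_apply, eval_smul,
    smul_eq_mul, eval_zero]
  exact h2

lemma PreLine.deg (h : PreLine J d D) {X : V} (hX : Ninf J X = 0) (i : I) (a : T i) :
    (D X i a).natDegree ≤ d i - 1 := by
  have : X ∈ LinearMap.range (Ninf J) := by rw [← ker_Ninf_eq h.qt]; exact hX
  obtain ⟨Y, rfl⟩ := this
  have h1 := congrArg (fun p => p.coeff (d i + 2)) (h.ident Y i a)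
  simp only [coeff_add, coeff_zero] at h1
  rw [coeff_eq_zero_of_natDegree_lt (lt_of_le_of_lt (h.degD _ i a) (by omega)),
    show d i + 2 = (d i + 1) + 1 from rfl, coeff_X_mul,
    coeff_eq_zero_of_natDegree_lt (lt_of_le_of_lt (h.degD _ i a) (by omega)),
    show d i + 1 + 1 = d i + 2 from rfl, coeff_X_pow_mul] at h1
  rw [natDegree_le_iff_coeff_eq_zero]
  intro N hN
  rcases Nat.lt_or_ge (d i) N with h2 | h2
  · exact coeff_eq_zero_of_natDegree_lt (lt_of_le_of_lt (h.degD _ i a) h2)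
  · have : N = d i := by have := h.pos i; omega
    rw [this]; simpa using h1

end pre

variable {n : ℕ} {I : Type} {T : I → Type} [Fintype I] [∀ i, Fintype (T i)]

/-- the map `(X, η, c) ↦ D X (0) + η H'(0) + c H (0)` on `ker Ninf × ℂ × ℂ^I` -/
def evMap (J : Fin 3 → ((Fin n → ℂ) →ₗ[ℂ] (Fin n → ℂ))) (H : ∀ i, T i → ℂ[X])
    (D : (Fin n → ℂ) →ₗ[ℂ] (∀ i, T i → ℂ[X])) :
    (LinearMap.ker (Ninf J) × ℂ × (I → ℂ)) →ₗ[ℂ] (∀ i, T i → ℂ) where
  toFun v := fun i a => (D v.1 i a).eval 0 + v.2.1 * (derivative (H i a)).eval 0 +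
    v.2.2 i * (H i a).eval 0
  map_add' u v := by
    funext i a
    simp only [Prod.fst_add, Prod.snd_add, Submodule.coe_add, map_add, Pi.add_apply, eval_add]
    ring
  map_smul' r v := by
    funext i a
    simp only [Prod.smul_fst, Prod.smul_snd, Submodule.coe_smul, map_smul, Pi.smul_apply,
      eval_smul, smul_eq_mul, RingHom.id_apply]
    ring

lemma tan_of_jac {E : Set (MvPolynomial (Σ i, T i) ℂ)} {R : Type} [CommRing R] [Algebra ℂ R]
    {H G : ∀ i, T i → R} (h : JacT E H G) : Tan E H G := h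

/-- evaluation of a tangent field -/
lemma tan_eval {E : Set (MvPolynomial (Σ i, T i) ℂ)} {H G : ∀ i, T i → ℂ[X]} (h : JacT E H G)
    (w : ℂ) : Tan E (fun i a => (H i a).eval w) (fun i a => (G i a).eval w) := by
  have := JacT.map h (Polynomial.aeval w : ℂ[X] →ₐ[ℂ] ℂ)
  simp only [Polynomial.coe_aeval_eq_eval] at this
  exact this

/-- abstract linear algebra: an injective map onto a subspace of the right dimension -/
lemma mem_range_of {V W : Type*} [AddCommGroup V] [Module ℂ V] [AddCommGroup W] [Module ℂ W]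
    [FiniteDimensional ℂ V] [FiniteDimensional ℂ W] (L : V →ₗ[ℂ] W) (S : Submodule ℂ W)
    (h1 : ∀ v, L v ∈ S) (h2 : Function.Injective L)
    (h3 : Module.finrank ℂ V = Module.finrank ℂ S) {t : W} (ht : t ∈ S) : ∃ v, L v = t := by
  have hrange : LinearMap.range L = S := by
    apply Submodule.eq_of_le_of_finrank_eq
    · rintro _ ⟨v, rfl⟩; exact h1 v
    · rw [LinearMap.finrank_range_of_inj h2, h3]
  have : t ∈ LinearMap.range L := by rw [hrange]; exact ht
  exact this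

/-- Euler vectors with complex coefficients are tangent -/
lemma tan_euler {E : Set (MvPolynomial (Σ i, T i) ℂ)} {H : ∀ i, T i → ℂ[X]} (hM : MHom E)
    (h0 : OnX E H) (w : ℂ) (c : I → ℂ) :
    (fun i a => c i * (H i a).eval w) ∈ TanSp E (fun i a => (H i a).eval w) := by
  classical
  have h4 : ∀ i₀ : I, (fun (i : I) (a : T i) => (if i = i₀ then (1 : ℂ) else 0) * (H i a).eval w) ∈
      TanSp E (fun i a => (H i a).eval w) := by
    intro i₀
    have h5 := tan_eval (JacT.euler hM h0 (fun i => if i = i₀ then 1 else 0)) w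
    have e : (fun (i : I) (a : T i) => (((if i = i₀ then 1 else 0 : ℕ) : ℂ[X]) *
        H i a).eval w) = fun i a => (if i = i₀ then 1 else 0) * (H i a).eval w := by
      funext i a
      split_ifs <;> simp
    rw [← e]; exact h5
  have h6 : (fun i a => c i * (H i a).eval w) = ∑ i₀, c i₀ •
      (fun (i : I) (a : T i) => (if i = i₀ then (1 : ℂ) else 0) * (H i a).eval w) := by
    funext i a
    rw [Finset.sum_apply, Finset.sum_apply]
    simp only [Pi.smul_apply, smul_eq_mul, ite_mul, one_mul, zero_mul, mul_ite, mul_zero,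
      Finset.sum_ite_eq, Finset.mem_univ, if_true]
  rw [h6]
  exact Submodule.sum_mem _ fun i₀ _ => Submodule.smul_mem _ _ (h4 i₀)

lemma evMap_mem {k : I → ℕ} {x₀ : EuclideanSpace ℝ (Fin n)}
    {P : EuclideanSpace ℝ (Fin n) → ∀ i, T i → ℂ[X]}
    {b : (Fin n → ℂ) →ₗ[ℂ] ℂ[X]} {E : Set (MvPolynomial (Σ i, T i) ℂ)} (hP : Fam k x₀ P)
    (hM : MHom E) (hE : ∀ᶠ x in 𝓝 x₀, OnX E (P x)) (J : Fin 3 → ((Fin n → ℂ) →ₗ[ℂ] (Fin n → ℂ)))
    (v : LinearMap.ker (Ninf J) × ℂ × (I → ℂ)) :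
    evMap J (P x₀) (Fam.hD k x₀ P b) v ∈ TanSp E (fun i a => (P x₀ i a).eval 0) := by
  have h0 : OnX E (P x₀) := hE.self_of_nhds
  have h1 := hP.tan_hD hM hE b (v.1 : Fin n → ℂ)
  have h2 := (Fam.tan_der h0).smul (C v.2.1)
  have h3 : (fun i a => (Fam.hD k x₀ P b (v.1 : Fin n → ℂ) i a +
      C v.2.1 * derivative (P x₀ i a)).eval 0) ∈ TanSp E (fun i a => (P x₀ i a).eval 0) :=
    tan_eval (h1.add h2) 0
  have h6 : evMap J (P x₀) (Fam.hD k x₀ P b) v = (fun i a =>
      (Fam.hD k x₀ P b (v.1 : Fin n → ℂ) i a + C v.2.1 * derivative (P x₀ i a)).eval 0) +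
      fun i a => v.2.2 i * (P x₀ i a).eval 0 := by
    funext i a
    simp only [evMap, LinearMap.coe_mk, AddHom.coe_mk, Pi.add_apply, eval_add, eval_mul, eval_C]
  rw [h6]
  exact Submodule.add_mem _ h3 (tan_euler hM h0 0 v.2.2)

/-- **very free**, abstract form -/
theorem vf0_of {A : Fin 3 → Matrix (Fin n) (Fin n) ℝ} {k : I → ℕ}
    {x₀ : EuclideanSpace ℝ (Fin n)} {P : EuclideanSpace ℝ (Fin n) → ∀ i, T i → ℂ[X]}
    {b : (Fin n → ℂ) →ₗ[ℂ] ℂ[X]} {E : Set (MvPolynomial (Σ i, T i) ℂ)} {m : ℕ}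
    (hn : n = 4 * m) (hA : QT A) (hk : ∀ i, 1 ≤ k i) (hP : Fam k x₀ P)
    (hb : ∀ X, (b X).natDegree ≤ 2)
    (hol : ∀ w X, N (cJ A) w X = 0 → ∀ i a, (Fam.hD k x₀ P b X i a).eval w = 0)
    (imm : ∀ (X : Fin n → ℂ) (η : ℂ) (c : I → ℂ),
      (∀ i a, (Fam.hD k x₀ P b X i a).eval 0 + η * (derivative (P x₀ i a)).eval 0 +
        c i * (P x₀ i a).eval 0 = 0) → N (cJ A) 0 X = 0 ∧ η = 0 ∧ c = 0)
    (hM : MHom E) (hE : ∀ᶠ x in 𝓝 x₀, OnX E (P x))
    (hdim : Module.finrank ℂ (TanSp E (fun i a => (P x₀ i a).eval 0)) = 2 * m + 1 + Fintype.card I)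
    (hcls : cls (P x₀) = fun i => 2 * k i) : VF0 E (P x₀) := by
  have hpre : PreLine (cJ A) (fun i => 2 * k i) (Fam.hD k x₀ P b) :=
    ⟨cJ_QT hA, fun i => by have := hk i; omega, fun X i a => hP.hD_deg hb X i a, hol⟩
  have h0 : OnX E (P x₀) := hE.self_of_nhds
  have hinj : Function.Injective (evMap (cJ A) (P x₀) (Fam.hD k x₀ P b)) := by
    rw [injective_iff_map_eq_zero]
    rintro ⟨⟨X, hX⟩, η, c⟩ hv
    obtain ⟨h1, h2, h3⟩ := imm X η c (fun i a => congrFun (congrFun hv i) a)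
    have h4 : X ∈ LinearMap.ker (N (cJ A) 0) ⊓ LinearMap.ker (Ninf (cJ A)) := ⟨h1, hX⟩
    rw [ker_N_Ninf (cJ_QT hA) 0] at h4
    have h5 : X = 0 := by simpa using h4
    subst h5
    rw [h2, h3]
    rfl
  have hdom : Module.finrank ℂ (LinearMap.ker (Ninf (cJ A)) × ℂ × (I → ℂ)) =
      Module.finrank ℂ (TanSp E (fun i a => (P x₀ i a).eval 0)) := by
    have h1 := finrank_ker_Ninf (cJ_QT hA)
    rw [Module.finrank_fin_fun] at h1
    rw [Module.finrank_prod, Module.finrank_prod, Module.finrank_self, Module.finrank_pi, hdim]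
    omega
  intro t ht
  have ht' : t ∈ TanSp E (fun i a => (P x₀ i a).eval 0) := ht
  obtain ⟨v, hv⟩ := mem_range_of (evMap (cJ A) (P x₀) (Fam.hD k x₀ P b)) _
    (evMap_mem (b := b) hP hM hE (cJ A)) hinj hdom ht'
  have hT : Tan E (P x₀) (fun i a => Fam.hD k x₀ P b (v.1 : Fin n → ℂ) i a +
      C v.2.1 * derivative (P x₀ i a)) :=
    tan_of_jac ((hP.tan_hD hM hE b (v.1 : Fin n → ℂ)).add ((Fam.tan_der h0).smul (C v.2.1)))
  refine ⟨_, v.2.2, hT, ?_, ?_⟩
  · intro i a
    have hki := hk i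
    have h1 : (Fam.hD k x₀ P b (v.1 : Fin n → ℂ) i a +
        C v.2.1 * derivative (P x₀ i a)).natDegree ≤ 2 * k i - 1 := by
      refine (natDegree_add_le _ _).trans (max_le (hpre.deg v.1.2 i a) ?_)
      refine (natDegree_C_mul_le _ _).trans ((natDegree_derivative_le _).trans ?_)
      have := hP.deg₀ i a
      omega
    rw [hcls]
    refine lt_of_le_of_lt degree_le_natDegree ?_
    have h2 : (Fam.hD k x₀ P b (v.1 : Fin n → ℂ) i a +
        C v.2.1 * derivative (P x₀ i a)).natDegree < 2 * k i := by omega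
    exact_mod_cast h2
  · intro i a
    rw [← hv]
    simp only [evMap, LinearMap.coe_mk, AddHom.coe_mk, eval_add, eval_mul, eval_C]

end Crest.Agent.R260.TL_660
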