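import Mathlib
import Crest.Agent.R260.TL8_660
import Crest.Agent.R260.TwPenC_389

/-!
Row 260, leaf TW-LINE (helper660), part 9: the members of a `TwFam` (helper45) are very free.
-/

set_option autoImplicit false

open Complex Polynomial Filter Topology
open scoped ContDiff

noncomputable section

namespace Crest.Agent.R260.TL_660

open Crest.Agent.R260.Tw_979 Crest.Agent.R270.BM_360 Crest.Agent.R270.Cramer_491
open Crest.Agent.R260.Lin_678 Crest.Agent.R260.Fin_600 Crest.Agent.R260.TwPen_389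
open Crest.Agent.R260.Tup_45

variable {n : ℕ}

/-- `mu c` as a polynomial -/
def muP (c : Fin 3 → Fin 3 → ℝ) : ℂ[X] :=
  C ((c 0 1 : ℂ) / 2) * (1 + X ^ 2) + C (Complex.I * (c 0 2 : ℂ) / 2) * (1 - X ^ 2) +
    C (Complex.I * (c 1 2 : ℂ)) * X

lemma muP_eval (c : Fin 3 → Fin 3 → ℝ) (w : ℂ) : (muP c).eval w = mu c w := by
  simp only [muP, mu, eval_add, eval_sub, eval_mul, eval_C, eval_X, eval_pow, eval_one]
  ring

lemma muP_der (c : Fin 3 → Fin 3 → ℝ) (w : ℂ) : (derivative (muP c)).eval w = -lam c w := by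
  simp only [muP, lam, derivative_add, derivative_sub, derivative_C_mul, derivative_X_pow,
    derivative_one, derivative_X, eval_add, eval_sub, eval_mul, eval_C, eval_X, eval_pow, eval_one,
    eval_zero, Nat.cast_ofNat]
  ring

lemma muP_deg (c : Fin 3 → Fin 3 → ℝ) : (muP c).natDegree ≤ 2 := by
  unfold muP; compute_degree

/-- the polynomial `β_w(X)` -/
def bM (c : Fin n → Fin 3 → Fin 3 → ℝ) : (Fin n → ℂ) →ₗ[ℂ] ℂ[X] where
  toFun X := -∑ i, X i • muP (c i)
  map_add' X Y := by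
    simp only [Pi.add_apply, add_smul, Finset.sum_add_distrib, neg_add]
  map_smul' r X := by
    simp only [Pi.smul_apply, smul_eq_mul, RingHom.id_apply, mul_smul, ← Finset.smul_sum, smul_neg]

lemma bM_eval (c : Fin n → Fin 3 → Fin 3 → ℝ) (X : Fin n → ℂ) (w : ℂ) :
    (bM c X).eval w = -∑ i, X i * mu (c i) w := by
  simp [bM, eval_finsetSum, muP_eval]

lemma bM_der (c : Fin n → Fin 3 → Fin 3 → ℝ) (X : Fin n → ℂ) (w : ℂ) :
    (derivative (bM c X)).eval w = ∑ i, X i * lam (c i) w := by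
  simp only [bM, LinearMap.coe_mk, AddHom.coe_mk, derivative_neg, derivative_sum, derivative_smul,
    eval_neg, eval_finsetSum, eval_smul, muP_der, smul_eq_mul, mul_neg, Finset.sum_neg_distrib,
    neg_neg]

lemma bM_deg (c : Fin n → Fin 3 → Fin 3 → ℝ) (X : Fin n → ℂ) : (bM c X).natDegree ≤ 2 := by
  simp only [bM, LinearMap.coe_mk, AddHom.coe_mk, natDegree_neg]
  exact natDegree_sum_le_of_forall_le _ _ fun i _ => (natDegree_smul_le _ _).trans (muP_deg _)

/-- `β_w` as a real linear map -/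
def betL (c : Fin n → Fin 3 → Fin 3 → ℝ) (w : ℂ) : EuclideanSpace ℝ (Fin n) →ₗ[ℝ] ℂ where
  toFun X := -∑ i, (X i : ℂ) * mu (c i) w
  map_add' X Y := by
    simp only [PiLp.add_apply, ofReal_add, add_mul, Finset.sum_add_distrib, neg_add]
  map_smul' r X := by
    simp only [PiLp.smul_apply, smul_eq_mul, ofReal_mul, RingHom.id_apply, mul_assoc,
      ← Finset.mul_sum, real_smul, mul_neg]

lemma betL_eb (c : Fin n → Fin 3 → Fin 3 → ℝ) (w : ℂ) (j : Fin n) :
    betL c w (eb j) = -mu (c j) w := by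
  simp only [betL, LinearMap.coe_mk, AddHom.coe_mk, eb, PiLp.single_apply]
  rw [Finset.sum_eq_single j]
  · simp
  · intro i _ hi; simp [hi]
  · simp

/-- comparison of the conventions with `TwPen_389.JZ` -/
lemma JZ_eq (J : Fin 3 → EuclideanSpace ℝ (Fin n) → Matrix (Fin n) (Fin n) ℝ)
    (c : EuclideanSpace ℝ (Fin n) → Fin n → Fin 3 → Fin 3 → ℝ) (x : EuclideanSpace ℝ (Fin n))
    (w : ℂ) (v : EuclideanSpace ℝ (Fin n) × ℂ) :
    JZ (fun a => J a x) w (betL (c x) w) v = TwPen_389.JZ J c x w v := rfl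

lemma N_apply (A : Fin 3 → Matrix (Fin n) (Fin n) ℝ) (w : ℂ) (Y : Fin n → ℂ) (l : Fin n) :
    N (cJ A) w Y l = ∑ j, Nq (fun a => cm (A a)) (nn w) l j * Y j := by
  simp only [N, dJ, LinearMap.add_apply, LinearMap.smul_apply, Pi.add_apply, Pi.smul_apply,
    smul_eq_mul, cJ_apply, Nq_apply, Fin.sum_univ_three, cm_apply, Finset.mul_sum,
    ← Finset.sum_add_distrib]
  refine Finset.sum_congr rfl fun j _ => ?_
  ring

variable {I : Type} {Jt : I → Type} [Fintype I] [∀ i, Fintype (Jt i)]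

variable {J : Fin 3 → EuclideanSpace ℝ (Fin n) → Matrix (Fin n) (Fin n) ℝ}
  {c : EuclideanSpace ℝ (Fin n) → Fin n → Fin 3 → Fin 3 → ℝ}
  {U : Set (EuclideanSpace ℝ (Fin n))} {E : Set (MvPolynomial (Σ i, Jt i) ℂ)} {β : I → ℕ}
  {F : EuclideanSpace ℝ (Fin n) → ∀ i, Jt i → ℂ[X]} {x₀ : EuclideanSpace ℝ (Fin n)}

omit [Fintype I] in
theorem fam_of_twFam (hF : TwFam J c U E β F) (hU : IsOpen U) (hx : x₀ ∈ U) : Fam β x₀ F where
  deg := by
    filter_upwards [hU.mem_nhds hx] with x hx i a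
    have h1 := congrFun (hF.cls x hx) i
    have h2 : (F x i a).natDegree ≤ vdeg (F x i) :=
      Finset.le_sup (f := fun a => (F x i a).natDegree) (Finset.mem_univ a)
    have h3 : vdeg (F x i) = 2 * β i := by simpa [cls] using h1
    omega
  dif i a l := ((hF.sm i a l).contDiffAt (hU.mem_nhds hx)).differentiableAt (by simp)

theorem hD_eq_horK (hF : TwFam J c U E β F) (hU : IsOpen U) (hx : x₀ ∈ U) (X : Fin n → ℂ) (w : ℂ)
    (i : I) (a : Jt i) : (Fam.hD β x₀ F (bM (c x₀)) X i a).eval w =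
      ∑ l, X l * horK c (β i) (fun y w => (F y i a).eval w) x₀ w l := by
  rw [(fam_of_twFam hF hU hx).hD_eval, bM_eval, bM_der]
  have h1 : deriv (fun w => (F x₀ i a).eval w) w = (derivative (F x₀ i a)).eval w :=
    (F x₀ i a).deriv
  simp only [horK, cpd, h1]
  simp only [mul_sub, Finset.sum_sub_distrib, eb]
  rw [neg_mul, Finset.sum_mul, Finset.mul_sum, Finset.sum_mul]
  have e1 : ∑ l, X l * (mu (c x₀ l) w * (derivative (F x₀ i a)).eval w) =
      ∑ l, X l * mu (c x₀ l) w * (derivative (F x₀ i a)).eval w :=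
    Finset.sum_congr rfl fun l _ => by ring
  have e2 : ∑ l, X l * ((β i : ℂ) * lam (c x₀ l) w * (F x₀ i a).eval w) =
      ∑ l, (β i : ℂ) * (X l * lam (c x₀ l) w) * (F x₀ i a).eval w :=
    Finset.sum_congr rfl fun l _ => by ring
  rw [e1, e2]
  ring

theorem hol_of_twFam (hF : TwFam J c U E β F) (hU : IsOpen U) (hx : x₀ ∈ U)
    (hA : QT (fun a => J a x₀)) (w : ℂ) (X : Fin n → ℂ) (hX : N (cJ fun a => J a x₀) w X = 0)
    (i : I) (a : Jt i) : (Fam.hD β x₀ F (bM (c x₀)) X i a).eval w = 0 := by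
  have h1 : X ∈ LinearMap.range (N (cJ fun a => J a x₀) w) := by
    rw [← ker_N_eq (cJ_QT hA)]; exact hX
  obtain ⟨Y, rfl⟩ := h1
  rw [hD_eq_horK hF hU hx]
  have h2 := hF.hol x₀ hx w i a
  have h3 : ∑ l, N (cJ fun a => J a x₀) w Y l * horK c (β i) (fun y w => (F y i a).eval w) x₀ w l =
      ∑ j, Y j * ∑ l, Nq (fun a => cm (J a x₀)) (nn w) l j *
        horK c (β i) (fun y w => (F y i a).eval w) x₀ w l := by
    simp only [N_apply, Finset.sum_mul, Finset.mul_sum]
    rw [Finset.sum_comm]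
    refine Finset.sum_congr rfl fun j _ => Finset.sum_congr rfl fun l _ => by ring
  rw [h3]
  refine Finset.sum_eq_zero fun j _ => ?_
  rw [h2 j, mul_zero]

/-- **the members of a smooth family of twistor tuples are very free** -/
theorem vf0_of_twFam [Nonempty I] {m : ℕ} (hn : n = 4 * m) (hF : TwFam J c U E β F) (hU : IsOpen U)
    (hx : x₀ ∈ U) (hA : QT (fun a => J a x₀)) (hβ : ∀ i, 1 ≤ β i) (hM : MHom E)
    (hdim : Module.finrank ℂ (TanSp E (fun i a => (F x₀ i a).eval 0)) = 2 * m + 1 + Fintype.card I)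
    {W : Type} [NormedAddCommGroup W] [NormedSpace ℂ W]
    {μ : EuclideanSpace ℝ (Fin n) × ℂ → ℂ} {ζ : EuclideanSpace ℝ (Fin n) × ℂ → W}
    {Φ : ∀ i, Jt i → W → ℂ} (hL : Link (fun a => J a x₀) (betL (c x₀) 0) β x₀ 0 F μ ζ Φ) :
    VF0 E (F x₀) := by
  have hfam := fam_of_twFam hF hU hx
  refine vf0_of (b := bM (c x₀)) hn hA hβ hfam (bM_deg _) (hol_of_twFam hF hU hx hA) ?_ hM ?_ hdim ?_
  · intro X η cc h0
    refine hL.imm_tuple hA hfam (b := bM (c x₀)) (fun X => ?_) (hol_of_twFam hF hU hx hA 0) h0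
    rw [bM_eval]
    simp only [betL_eb, mul_neg, Finset.sum_neg_distrib]
  · filter_upwards [hU.mem_nhds hx] with x hx
    exact (hF.map x hx).on
  · funext i
    have := congrFun (hF.cls x₀ hx) i
    simpa using this

end Crest.Agent.R260.TL_660
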