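import Mathlib
import Crest.Agent.R260.TL9_660
import Crest.Agent.R260.NNB1_580
import Crest.Agent.R260.BrDefs_592

/-!
Row 260, leaf TW-LINE (helper660), part 10: `Link` from the charts of 580 (`JCh`) and the coordinates
of 592 (`MSys`): the twistor tuples of `Z` are very free.
-/

set_option autoImplicit false

open Complex Polynomial Filter Topology Set
open scoped ContDiff

noncomputable section

namespace Crest.Agent.R260.TL_660

open Crest.Agent.R260.Tw_979 Crest.Agent.R270.BM_360 Crest.Agent.R270.Cramer_491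
open Crest.Agent.R260.Lin_678 Crest.Agent.R260.Fin_600
open Crest.Agent.R260.Tup_45 Crest.Agent.R260.NNB_580 Crest.Agent.R260.ACM_580
open Crest.Agent.R275 Crest.Agent.R275.Geo Crest.Agent.R275.Core144
open Crest.Agent.R273.Defs_333

variable {n : ℕ} {Z : Type} [TopologicalSpace Z] {d : ℕ}
  {C : ACM (EuclideanSpace ℝ (Fin n) × ℂ) Z} {A : Atl d Z} {L : LB A} {I : Type} [Fintype I]

/-- **`Link` at a point of the real chart `k`, complex chart `a`** -/
theorem link_of (S : BrDefs_592.MSys A L I) {a : A.ι} (hJ : JCh C (A.e a)) (k : C.ι)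
    {x₀ : EuclideanSpace ℝ (Fin n)} {w : ℂ} (hx : (x₀, w) ∈ (C.e k).target)
    (hz : (C.e k).symm (x₀, w) ∈ (A.e a).source)
    {B : Fin 3 → Matrix (Fin n) (Fin n) ℝ} {β : EuclideanSpace ℝ (Fin n) →ₗ[ℝ] ℂ}
    (hJk : ∀ v, C.J k (x₀, w) v = JZ B w β v)
    {P : EuclideanSpace ℝ (Fin n) → ∀ i, S.J i → ℂ[X]} {μ : EuclideanSpace ℝ (Fin n) × ℂ → ℂ}
    (heq : ∀ᶠ y in 𝓝 (x₀, w), ∀ i b,
      (P y.1 i b).eval y.2 = μ y ^ S.β i * S.pt a ((C.e k).symm y) i b)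
    (hμ : DifferentiableAt ℝ μ (x₀, w)) (hμ0 : μ (x₀, w) ≠ 0) :
    Link B β S.β x₀ w P μ (fun y => A.e a ((C.e k).symm y))
      (fun i b z => (S.P i).F a ((A.e a).symm z) b) where
  eq := by
    have h1 : ∀ᶠ y in 𝓝 (x₀, w), y ∈ (C.e k).target ∧ (C.e k).symm y ∈ (A.e a).source :=
      (isOpen_ovr k (A.e a)).mem_nhds ⟨hx, hz⟩
    filter_upwards [heq, h1] with y hy h1 i b
    rw [hy i b]
    show _ = μ y ^ S.β i * (S.P i).F a ((A.e a).symm (A.e a ((C.e k).symm y))) b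
    rw [(A.e a).left_inv h1.2]
    rfl
  μd := hμ
  μ0 := hμ0
  ζd := hJ.diffAt ⟨hx, hz⟩
  Φd i b := by
    have h1 := (S.P i).hol a b
    exact h1.differentiableAt ((isOpen_ti isOpen_univ).mem_nhds ⟨(A.e a).map_source hz, trivial⟩)
  inj v hv := by
    have h1 := hJ.inv_right (z := (x₀, w)) ⟨hx, hz⟩ v
    rw [hv] at h1
    simpa using h1.symm
  lin v := by
    rw [← hJk]
    exact hJ.lin k (x₀, w) ⟨hx, hz⟩ v
  imm i u l hu := by
    have hm : A.e a ((C.e k).symm (x₀, w)) ∈ (A.e a).target := (A.e a).map_source hz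
    refine (S.P i).imm a _ hm u ⟨l, ?_⟩
    have hd : ∀ b, DifferentiableAt ℂ (fun z => (S.P i).F a ((A.e a).symm z) b)
        (A.e a ((C.e k).symm (x₀, w))) := fun b =>
      ((S.P i).hol a b).differentiableAt ((isOpen_ti isOpen_univ).mem_nhds ⟨hm, trivial⟩)
    have h2 : HasFDerivAt (fun z => (S.P i).F a ((A.e a).symm z))
        (ContinuousLinearMap.pi fun b => fderiv ℂ (fun z => (S.P i).F a ((A.e a).symm z) b)
          (A.e a ((C.e k).symm (x₀, w)))) (A.e a ((C.e k).symm (x₀, w))) :=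
      hasFDerivAt_pi.2 fun b => (hd b).hasFDerivAt
    funext b
    rw [h2.fderiv]
    exact hu b
  ne i := by
    have h1 := (S.P i).ne a _ hz
    have h2 : ∃ b, (S.P i).F a ((C.e k).symm (x₀, w)) b ≠ 0 := by
      by_contra hcon
      push Not at hcon
      exact h1 (funext hcon)
    obtain ⟨b, hb⟩ := h2
    refine ⟨b, ?_⟩
    show (S.P i).F a ((A.e a).symm (A.e a ((C.e k).symm (x₀, w)))) b ≠ 0
    rw [(A.e a).left_inv hz]
    exact hb

/-- **the twistor tuples are very free** -/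
theorem vf0_twistor [Nonempty I] {m : ℕ} (hn : n = 4 * m) (S : BrDefs_592.MSys A L I)
    {J : Fin 3 → EuclideanSpace ℝ (Fin n) → Matrix (Fin n) (Fin n) ℝ}
    {c : EuclideanSpace ℝ (Fin n) → Fin n → Fin 3 → Fin 3 → ℝ}
    {U : Set (EuclideanSpace ℝ (Fin n))} {F : EuclideanSpace ℝ (Fin n) → ∀ i, S.J i → ℂ[X]}
    (hF : TwFam J c U S.E S.β F) (hU : IsOpen U) {x₀ : EuclideanSpace ℝ (Fin n)} (hx : x₀ ∈ U)
    (hA : QT (fun a => J a x₀))
    (hdim : Module.finrank ℂ (TanSp S.E (fun i a => (F x₀ i a).eval 0)) =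
      2 * m + 1 + Fintype.card I)
    {a : A.ι} (hJ : JCh C (A.e a)) (k : C.ι) (hk : (x₀, (0 : ℂ)) ∈ (C.e k).target)
    (hz : (C.e k).symm (x₀, 0) ∈ (A.e a).source)
    (hJk : ∀ v, C.J k (x₀, 0) v = TwPen_389.JZ J c x₀ 0 v)
    {μ : EuclideanSpace ℝ (Fin n) × ℂ → ℂ}
    (heq : ∀ᶠ y in 𝓝 (x₀, (0 : ℂ)), ∀ i b,
      (F y.1 i b).eval y.2 = μ y ^ S.β i * S.pt a ((C.e k).symm y) i b)
    (hμ : DifferentiableAt ℝ μ (x₀, 0)) (hμ0 : μ (x₀, 0) ≠ 0) :
    VF0 S.E (F x₀) :=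
  vf0_of_twFam hn hF hU hx hA S.pos S.hom hdim
    (link_of S hJ k hk hz (fun v => by rw [hJk v]; exact (JZ_eq J c x₀ 0 v).symm) heq hμ hμ0)

end Crest.Agent.R260.TL_660
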