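import Crest.Agent.R260.Pair3_764
import Crest.Agent.R260.Dens_764
import Crest.Agent.R260.NNB2_580
import Crest.Agent.R260.Tw7_979
import Crest.Agent.R260.Tup4_45

/-!
# R260 (S0398), TOT in the final interfaces (helper764)

`dens_of_acm` : `Z` connected, `C : ACM (E × ℂ) Z`, `A : Atl d Z` compatible with `C`, the real
                chart `k` of `C` with `J = JZ Jo Th` over `U`, polynomial tuples `F x` over the
                twistor lines: every bihomogeneous `D` which is not identically zero on the cone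
                satisfies 516's `Dens U (fun x => evt (F x)) D`.
`dens_of_sys` : the same from 592's `MSys` and 45's `TwCh`, `FLink`.
-/

set_option autoImplicit false
set_option linter.unusedSectionVars false

open Set Filter Topology Complex
open scoped ComplexConjugate

namespace Crest.Agent.R260.Tot_764

open Crest.Agent.R275.Geo Crest.Agent.R275.Core144 Crest.Agent.R260.ACM_580
  Crest.Agent.R260.NNB_580 Crest.Agent.R260.Tw_979 Crest.Agent.R260.Out_516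
  Crest.Agent.R260.Pair_764 Crest.Agent.R260.BrDefs_592 Crest.Agent.R260.Tup_45
  Crest.Agent.R260.TwPen_389

/-! ### linear algebra -/

/-- two complex linear maps for two almost complex structures which differ on the base -/
theorem span_top {E W₁ W₂ : Type*} [NormedAddCommGroup E] [NormedSpace ℝ E]
    [NormedAddCommGroup W₁] [NormedSpace ℂ W₁] [NormedAddCommGroup W₂] [NormedSpace ℂ W₂]
    (L₁ : E × ℂ →L[ℝ] W₁) (L₂ : E × ℂ →L[ℝ] W₂) (J₁ J₂ : E × ℂ →L[ℝ] E × ℂ)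
    (I₁ I₂ : E →L[ℝ] E) (h₁ : ∀ v, L₁ (J₁ v) = I • L₁ v) (h₂ : ∀ v, L₂ (J₂ v) = I • L₂ v)
    (s₁ : Function.Surjective L₁) (s₂ : Function.Surjective L₂)
    (f₁ : ∀ v, (J₁ v).1 = I₁ v.1) (f₂ : ∀ v, (J₂ v).1 = I₂ v.1)
    (hs : ∀ Y : E, ∃ X, I₂ X - I₁ X = Y) (S : Submodule ℂ (W₁ × W₂))
    (hS : ∀ X a b, (L₁ (X, a), L₂ (X, b)) ∈ S) : S = ⊤ := by
  have v₁ : ∀ a : ℂ, (L₁ (0, a), (0 : W₂)) ∈ S := by
    intro a
    have h := hS 0 a 0
    have e : L₂ ((0 : E), (0 : ℂ)) = 0 := by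
      have : ((0 : E), (0 : ℂ)) = 0 := rfl
      rw [this, map_zero]
    rwa [e] at h
  have v₂ : ∀ b : ℂ, ((0 : W₁), L₂ (0, b)) ∈ S := by
    intro b
    have h := hS 0 0 b
    have e : L₁ ((0 : E), (0 : ℂ)) = 0 := by
      have : ((0 : E), (0 : ℂ)) = 0 := rfl
      rw [this, map_zero]
    rwa [e] at h
  have split₁ : ∀ (X : E) (a : ℂ), L₁ (X, a) = L₁ (X, 0) + L₁ (0, a) := by
    intro X a
    rw [← map_add]
    simp
  have split₂ : ∀ (X : E) (a : ℂ), L₂ (X, a) = L₂ (X, 0) + L₂ (0, a) := by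
    intro X a
    rw [← map_add]
    simp
  -- second slot
  have w₂ : ∀ Y : E, ((0 : W₁), L₂ (Y, 0)) ∈ S := by
    intro Y
    obtain ⟨X, hX⟩ := hs Y
    have h1 : I • (L₁ (X, 0), L₂ (X, 0)) ∈ S := S.smul_mem I (hS X 0 0)
    have h2 : I • (L₁ (X, 0), L₂ (X, 0)) = (L₁ (J₁ (X, 0)), L₂ (J₂ (X, 0))) := by
      rw [h₁, h₂]
      rfl
    rw [h2] at h1
    have e1 : J₁ (X, 0) = (I₁ X, (J₁ (X, 0)).2) := by
      ext1
      · exact f₁ (X, 0)
      · rfl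
    have e2 : J₂ (X, 0) = (I₂ X, (J₂ (X, 0)).2) := by
      ext1
      · exact f₂ (X, 0)
      · rfl
    rw [e1, e2, split₁, split₂] at h1
    have h3 := S.sub_mem (S.sub_mem h1 (v₁ (J₁ (X, 0)).2)) (v₂ (J₂ (X, 0)).2)
    have h4 := S.sub_mem h3 (hS (I₁ X) 0 0)
    have e3 : L₂ (Y, 0) = L₂ (I₂ X, 0) - L₂ (I₁ X, 0) := by
      rw [← map_sub, ← hX]
      simp
    convert h4 using 1
    ext1
    · simp
    · simp [e3]
  have w₁ : ∀ Y : E, (L₁ (Y, 0), (0 : W₂)) ∈ S := by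
    intro Y
    have h := S.sub_mem (hS Y 0 0) (w₂ Y)
    simpa using h
  rw [eq_top_iff]
  rintro ⟨a, b⟩ -
  obtain ⟨⟨X, x⟩, rfl⟩ := s₁ a
  obtain ⟨⟨Y, y⟩, rfl⟩ := s₂ b
  rw [split₁, split₂]
  have h := S.add_mem (S.add_mem (w₁ X) (v₁ x)) (S.add_mem (w₂ Y) (v₂ y))
  simpa using h

/-- `I_t - I_s` is surjective for `s ≠ t` -/
theorem Iw_sub_surj {E : Type*} [NormedAddCommGroup E] [NormedSpace ℝ E]
    (Jo : E → Fin 3 → (E →L[ℝ] E)) (x : E) (hQ : QT (Jo x)) {s t : ℂ} (hst : s ≠ t) (Y : E) :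
    ∃ X, Iw Jo (x, t) X - Iw Jo (x, s) X = Y := by
  set δ : Fin 3 → ℝ := fun a => xx t a - xx s a with hδ
  have hne : δ 0 ^ 2 + δ 1 ^ 2 + δ 2 ^ 2 ≠ 0 := by
    intro h0
    have h1 : xx t = xx s := by
      funext a
      have h2 : δ 0 = 0 ∧ δ 1 = 0 ∧ δ 2 = 0 := by
        refine ⟨?_, ?_, ?_⟩ <;> nlinarith [sq_nonneg (δ 0), sq_nonneg (δ 1), sq_nonneg (δ 2)]
      have h3 : ∀ a, δ a = 0 := by
        intro a
        fin_cases a
        · exact h2.1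
        · exact h2.2.1
        · exact h2.2.2
      have := h3 a
      simp only [hδ] at this
      linarith
    apply hst
    rw [← st_xx s, ← st_xx t, h1]
  let Dl : E →L[ℝ] E := ∑ a, δ a • Jo x a
  have hDl : ∀ X, Iw Jo (x, t) X - Iw Jo (x, s) X = Dl X := by
    intro X
    simp only [Iw, Dl, hδ, Fin.sum_univ_three, _root_.add_apply, _root_.smul_apply]
    module
  have hsq : Dl * Dl = -(δ 0 ^ 2 + δ 1 ^ 2 + δ 2 ^ 2) • (1 : E →L[ℝ] E) := by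
    have e0 := hQ.sq 0
    have e1 := hQ.sq 1
    have e2 := hQ.sq 2
    have e01 := hQ.m01
    have e10 := hQ.m10
    have e12 := hQ.m12
    have e21 := hQ.m21
    have e20 := hQ.m20
    have e02 := hQ.m02
    simp only [Dl, Fin.sum_univ_three, add_mul, mul_add, smul_mul_assoc, mul_smul_comm, e0, e1, e2,
      e01, e10, e12, e21, e20, e02]
    module
  refine ⟨(-(δ 0 ^ 2 + δ 1 ^ 2 + δ 2 ^ 2))⁻¹ • Dl Y, ?_⟩
  rw [hDl, map_smul]
  have h5 : Dl (Dl Y) = -(δ 0 ^ 2 + δ 1 ^ 2 + δ 2 ^ 2) • Y := by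
    have := congrArg (fun T : E →L[ℝ] E => T Y) hsq
    simpa using this
  rw [h5, smul_smul, inv_mul_cancel₀ (neg_ne_zero.2 hne), one_smul]

/-- the differentials of the holomorphic charts are onto -/
theorem jch_surj {V Z : Type} [NormedAddCommGroup V] [NormedSpace ℝ V] [TopologicalSpace Z]
    {C : ACM V Z} {d : ℕ} {φ : OpenPartialHomeomorph Z (EuclideanSpace ℂ (Fin d))} (h : JCh C φ)
    {i : C.ι} {z : V} (hz : z ∈ ovr C i φ) :
    Function.Surjective (fderiv ℝ (fun z => φ ((C.e i).symm z)) z) := by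
  intro u
  have hz' := JCh.swap' hz
  have h1 := h.inv_left hz' u
  rw [φ.left_inv hz.2, (C.e i).right_inv hz.1] at h1
  exact ⟨_, h1⟩

/-! ### TOT -/

variable {n d : ℕ} {Z : Type} [TopologicalSpace Z] {I : Type} {Jt : I → Type}

/-- **TOT** -/
theorem dens_of_acm [PreconnectedSpace Z]
    (C : ACM (EuclideanSpace ℝ (Fin n) × ℂ) Z) (A : Atl d Z) (hcp : Cp C A)
    (v : A.ι → Z → Pt Jt) (hv : ∀ c t, HolAt A c univ (fun x => v c x t))
    (tr : ∀ c c', ∀ x ∈ (A.e c).source ∩ (A.e c').source, ∃ l : I → ℂ, v c x = scl l (v c' x))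
    (Eq : Set (MvPolynomial (Σ i, Jt i) ℂ))
    (hpt : ∀ a, OnZ Eq a → ∃ c x, x ∈ (A.e c).source ∧ ∃ l : I → ℂ, a = scl l (v c x))
    (k : C.ι) (Jo : EuclideanSpace ℝ (Fin n) → Fin 3 →
      (EuclideanSpace ℝ (Fin n) →L[ℝ] EuclideanSpace ℝ (Fin n)))
    (Th : EuclideanSpace ℝ (Fin n) → Fin 3 → (EuclideanSpace ℝ (Fin n) →L[ℝ] ℝ))
    (U : Set (EuclideanSpace ℝ (Fin n))) (hU : U ×ˢ univ ⊆ (C.e k).target)
    (hJ : ∀ y ∈ U, ∀ w, C.J k (y, w) = JZ Jo Th (y, w)) (hQ : ∀ y ∈ U, QT (Jo y))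
    (F : EuclideanSpace ℝ (Fin n) → ∀ i, Jt i → Polynomial ℂ)
    (hF : ∀ x ∈ U, ∀ w c, (C.e k).symm (x, w) ∈ (A.e c).source →
      ∃ l : I → ℂ, v c ((C.e k).symm (x, w)) = scl l (evt (F x) w))
    [DecidableEq (I ⊕ I)] (D : MvPolynomial ((Σ i, Jt i) ⊕ (Σ i, Jt i)) ℂ) (dd : I ⊕ I → ℕ)
    (hD : MvPolynomial.IsWeightedHomogeneous
      (fun x : (Σ i, Jt i) ⊕ (Σ i, Jt i) =>
        (Pi.single (Sum.map Sigma.fst Sigma.fst x) 1 : I ⊕ I → ℕ)) D dd)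
    (hne : ∃ a b, OnZ Eq a ∧ OnZ Eq b ∧ valD D a b ≠ 0) : Dens U (fun x => evt (F x)) D := by
  classical
  intro V hV hVne hVU
  by_contra hcon
  have hcon' : ∀ x ∈ V, ∀ s t : ℂ, s ≠ t → valD D (evt (F x) s) (evt (F x) t) = 0 := by
    intro x hx s t hst
    by_contra h0
    exact hcon ⟨x, hx, s, t, hst, h0⟩
  have hscale : ∀ (l m : I → ℂ) (a b : Pt Jt), valD D a b = 0 →
      valD D (scl l a) (scl m b) = 0 := by
    intro l m a b h0
    by_contra h1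
    exact valD_scl D dd hD l m a b h1 h0
  obtain ⟨a, b, ha, hb, hab⟩ := hne
  obtain ⟨c, x, hx, l, rfl⟩ := hpt a ha
  obtain ⟨c', y, hy, m, rfl⟩ := hpt b hb
  apply hab
  apply hscale
  -- the CR-generic family
  have hv' : ∀ c t, DifferentiableOn ℂ (fun z => v c ((A.e c).symm z) t) (A.e c).target := by
    intro c t
    exact DifferentiableOn.mono (hv c t) (fun z hz => ⟨hz, trivial⟩)
  let E := EuclideanSpace ℝ (Fin n)
  let O : Set (E × ℂ × ℂ) := {q | q.1 ∈ V ∧ q.2.1 ≠ q.2.2}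
  have hO : IsOpen O := by
    apply IsOpen.inter
    · exact hV.preimage continuous_fst
    · exact isOpen_ne_fun (continuous_fst.comp continuous_snd) (continuous_snd.comp continuous_snd)
  have hOne : O.Nonempty := by
    obtain ⟨p, hp⟩ := hVne
    exact ⟨(p, 0, 1), hp, zero_ne_one⟩
  let ζ₁ : E × ℂ × ℂ → Z := fun q => (C.e k).symm (q.1, q.2.1)
  let ζ₂ : E × ℂ × ℂ → Z := fun q => (C.e k).symm (q.1, q.2.2)
  have hm₁ : ∀ q ∈ O, (q.1, q.2.1) ∈ (C.e k).target := fun q hq => hU ⟨hVU hq.1, trivial⟩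
  have hm₂ : ∀ q ∈ O, (q.1, q.2.2) ∈ (C.e k).target := fun q hq => hU ⟨hVU hq.1, trivial⟩
  let π₁ : E × ℂ × ℂ →L[ℝ] E × ℂ := (ContinuousLinearMap.fst ℝ E (ℂ × ℂ)).prod
    ((ContinuousLinearMap.fst ℝ ℂ ℂ).comp (ContinuousLinearMap.snd ℝ E (ℂ × ℂ)))
  let π₂ : E × ℂ × ℂ →L[ℝ] E × ℂ := (ContinuousLinearMap.fst ℝ E (ℂ × ℂ)).prod
    ((ContinuousLinearMap.snd ℝ ℂ ℂ).comp (ContinuousLinearMap.snd ℝ E (ℂ × ℂ)))
  have hπ₁ : ∀ q, π₁ q = (q.1, q.2.1) := fun q => rfl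
  have hπ₂ : ∀ q, π₂ q = (q.1, q.2.2) := fun q => rfl
  have key := cr_manifold (A := A) (Γ := Unit)
    (fun c c' _ x y => valD D (v c x) (v c' y)) ?_ ?_ O hO hOne ζ₁ ζ₂ ?_ ?_ ?_ ?_ x y c c' ()
    hx hy
  · exact key
  · -- holomorphy
    intro c c' _
    refine aeval_differentiableOn (v := fun q : Cn d × Cn d =>
      Sum.elim (v c ((A.e c).symm q.1)) (v c' ((A.e c').symm q.2))) ?_ D
    rintro (t | t)
    · exact (hv' c t).comp differentiableOn_fst (fun q hq => hq.1)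
    · exact (hv' c' t).comp differentiableOn_snd (fun q hq => hq.2)
  · -- chart independence
    intro i i' j j' x y hx hx' hy hy' h0 _
    obtain ⟨l, hl⟩ := tr i' i x ⟨hx', hx⟩
    obtain ⟨m, hm⟩ := tr j' j y ⟨hy', hy⟩
    show valD D (v i' x) (v j' y) = 0
    rw [hl, hm]
    exact hscale _ _ _ _ (h0 ())
  · exact (C.e k).continuousOn_symm.comp π₁.continuous.continuousOn hm₁
  · exact (C.e k).continuousOn_symm.comp π₂.continuous.continuousOn hm₂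
  · -- CR-genericity
    intro q hq i j hi hj
    have hz₁ : (q.1, q.2.1) ∈ ovr C k (A.e i) := ⟨hm₁ q hq, hi⟩
    have hz₂ : (q.1, q.2.2) ∈ ovr C k (A.e j) := ⟨hm₂ q hq, hj⟩
    set L₁ := fderiv ℝ (fun z => A.e i ((C.e k).symm z)) (q.1, q.2.1) with hL₁
    set L₂ := fderiv ℝ (fun z => A.e j ((C.e k).symm z)) (q.1, q.2.2) with hL₂
    have hd₁ : HasFDerivAt (fun z => A.e i ((C.e k).symm z)) L₁ (π₁ q) :=
      ((hcp i).diffAt hz₁).hasFDerivAt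
    have hd₂ : HasFDerivAt (fun z => A.e j ((C.e k).symm z)) L₂ (π₂ q) :=
      ((hcp j).diffAt hz₂).hasFDerivAt
    have hG : HasFDerivAt (fun y => (A.e i (ζ₁ y), A.e j (ζ₂ y)))
        ((L₁.comp π₁).prod (L₂.comp π₂)) q :=
      (hd₁.comp q π₁.hasFDerivAt).prodMk (hd₂.comp q π₂.hasFDerivAt)
    refine ⟨hG.differentiableAt, ?_⟩
    rw [hG.fderiv]
    refine span_top L₁ L₂ (C.J k (q.1, q.2.1)) (C.J k (q.1, q.2.2)) (Iw Jo (q.1, q.2.1))
      (Iw Jo (q.1, q.2.2)) ((hcp i).lin k _ hz₁) ((hcp j).lin k _ hz₂) (jch_surj (hcp i) hz₁)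
      (jch_surj (hcp j) hz₂) ?_ ?_ ?_ _ ?_
    · intro u
      rw [hJ _ (hVU hq.1)]
      rfl
    · intro u
      rw [hJ _ (hVU hq.1)]
      rfl
    · exact fun Y => Iw_sub_surj Jo q.1 (hQ _ (hVU hq.1)) hq.2 Y
    · intro X a b
      apply Submodule.subset_span
      exact ⟨(X, a, b), rfl⟩
  · -- vanishing on the family
    intro q hq i j _ hi hj
    obtain ⟨l, hl⟩ := hF q.1 (hVU hq.1) q.2.1 i hi
    obtain ⟨m, hm⟩ := hF q.1 (hVU hq.1) q.2.2 j hj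
    show valD D (v i (ζ₁ q)) (v j (ζ₂ q)) = 0
    rw [show v i (ζ₁ q) = scl l (evt (F q.1) q.2.1) from hl,
      show v j (ζ₂ q) = scl m (evt (F q.1) q.2.2) from hm]
    exact hscale _ _ _ _ (hcon' q.1 hq.1 _ _ hq.2)

/-- **TOT** from the embeddings `S : MSys A L I` and the chart `TwCh` -/
theorem dens_of_sys [PreconnectedSpace Z] [Fintype I]
    {C : ACM (EuclideanSpace ℝ (Fin n) × ℂ) Z} {A : Atl d Z} (hcp : Cp C A) {L : LB A}
    (S : MSys A L I) (hpt : ExistsPt S)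
    {lam : C.ι → C.ι → EuclideanSpace ℝ (Fin n) × ℂ → ℂ}
    {α : C.ι → EuclideanSpace ℝ (Fin n) × ℂ → EuclideanSpace ℝ (Fin n) × ℂ →L[ℝ] ℂ}
    {J : Fin 3 → EuclideanSpace ℝ (Fin n) → Matrix (Fin n) (Fin n) ℝ}
    {c : EuclideanSpace ℝ (Fin n) → Fin n → Fin 3 → Fin 3 → ℝ}
    {Jo : EuclideanSpace ℝ (Fin n) → Fin 3 →
      (EuclideanSpace ℝ (Fin n) →L[ℝ] EuclideanSpace ℝ (Fin n))}
    {Th : EuclideanSpace ℝ (Fin n) → Fin 3 → (EuclideanSpace ℝ (Fin n) →L[ℝ] ℝ)}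
    {U : Set (EuclideanSpace ℝ (Fin n))} {ip im : C.ι} (h : TwCh C lam α J c Jo Th U ip im)
    (hQ : ∀ y ∈ U, QT (Jo y)) (K : FLink C A L lam α)
    {F : EuclideanSpace ℝ (Fin n) → ∀ i, S.J i → Polynomial ℂ}
    (hF : ∀ x ∈ U, ∀ w i a, (F x i a).eval w = sec S K ip (x, w) i a)
    [DecidableEq (I ⊕ I)] (D : MvPolynomial ((Σ i, S.J i) ⊕ (Σ i, S.J i)) ℂ) (dd : I ⊕ I → ℕ)
    (hD : MvPolynomial.IsWeightedHomogeneous
      (fun x : (Σ i, S.J i) ⊕ (Σ i, S.J i) =>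
        (Pi.single (Sum.map Sigma.fst Sigma.fst x) 1 : I ⊕ I → ℕ)) D dd)
    (hne : ∃ a b, OnZ S.E a ∧ OnZ S.E b ∧ valD D a b ≠ 0) : Dens U (fun x => evt (F x)) D := by
  refine dens_of_acm C A hcp (fun c x y => S.pt c x y.1 y.2) ?_ ?_ S.E ?_ ip Jo Th U ?_ h.hJ hQ F
    ?_ D dd hD hne
  · intro c t
    exact pt_holAt S c t.1 t.2
  · intro c c' x hx
    refine ⟨fun i => L.g c c' x ^ S.β i, ?_⟩
    funext y
    exact S.pt_chg hx y.1 y.2
  · rintro a ⟨ha1, ha2⟩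
    obtain ⟨c, x, hx, l, -, hl⟩ := hpt (fun i b => a ⟨i, b⟩) ha1 (fun i h0 => by
      obtain ⟨b, hb⟩ := ha2 i
      exact hb (congrFun h0 b))
    refine ⟨c, x, hx, l, ?_⟩
    funext y
    exact congrFun (congrFun hl y.1) y.2
  · rw [h.tp]
  · intro x hx w c hc
    have h1 : (x, w) ∈ (C.e ip).target := by rw [h.tp]; exact ⟨hx, mem_univ _⟩
    have hne' : K.κ c ip (x, w) ≠ 0 := by
      have h2 := K.ne c ip _ hc ((C.e ip).map_target h1)
      rwa [(C.e ip).right_inv h1] at h2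
    refine ⟨fun i => (K.κ c ip (x, w) ^ S.β i)⁻¹, ?_⟩
    funext y
    show S.pt c ((C.e ip).symm (x, w)) y.1 y.2 =
      (K.κ c ip (x, w) ^ S.β y.1)⁻¹ * (F x y.1 y.2).eval w
    rw [hF x hx w y.1 y.2, sec_eq' S K h1 hc y.1 y.2, ← mul_assoc,
      inv_mul_cancel₀ (pow_ne_zero _ hne'), one_mul]

end Crest.Agent.R260.Tot_764
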