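import Crest.Agent.R260.Tup1_45
import Crest.Agent.R260.Tw4_979
import Crest.Agent.R260.TL1_660

/-!
Row 260, leaf TUP (helper45), part 2: the Cauchy-Riemann equation of a section of `L ^ k` on the
chart `E × ℂ` of the twistor space (almost complex structure `JZ` of `Tw4_979`, connection form `α`
of the frame of `L`) is the horizontal equation `HolK` together with holomorphy in the fibre.

* `be'`         : `β'_w = -(i/2) nn'(w) · Θ`
* `AlSpec`      : what is used of the connection form `α` (`alF_spec`: the explicit formula)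
* `holK_of_dbar`, `holw_of_dbar`.
-/

set_option autoImplicit false
set_option linter.unusedSectionVars false

open Complex Matrix
open scoped ContDiff Topology
open Crest.GeometryTopology.CoordMetric Crest.GeometryTopology.ChartRiem
open Crest.Agent.R260.Tw_979 Crest.Agent.R260.TwPen_389

noncomputable section

namespace Crest.Agent.R260.Tup_45

/-- `β'_w = -(i/2) nn'(w) · Θ` -/
def be' (w : ℂ) (Θ : Fin 3 → ℝ) : ℂ := -(I / 2) * dt (nd w) (cx Θ)

section Lin

variable {E : Type*} [NormedAddCommGroup E] [NormedSpace ℝ E]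

/-- the properties of the connection form of the frame of `L` used here -/
structure AlSpec (Th : E → Fin 3 → (E →L[ℝ] ℝ)) (z : E × ℂ) (α : E × ℂ →L[ℝ] ℂ) : Prop where
  vert : ∀ η : ℂ, α (0, η) + I * α (0, I * η) = 0
  hor : ∀ X : E, α (X, bec Th z X) = -be' z.2 (thv Th z.1 X)

/-- the connection form of the frame of `L` dual to `nn`:
`α = - 2 w̄ dw / (1 + |w|²) - i Θ · xx(w)` -/
def alF (Th : E → Fin 3 → (E →L[ℝ] ℝ)) (z : E × ℂ) : E × ℂ →L[ℝ] ℂ :=
  (-(2 * (starRingEnd ℂ) z.2 / (1 + z.2 * (starRingEnd ℂ) z.2))) • (ContinuousLinearMap.snd ℝ E ℂ) +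
    ∑ a, (-(I * (xx z.2 a : ℂ))) • ((ofRealCLM.comp (Th z.1 a)).comp (ContinuousLinearMap.fst ℝ E ℂ))

lemma alF_apply (Th : E → Fin 3 → (E →L[ℝ] ℝ)) (z v : E × ℂ) :
    alF Th z v = -(2 * (starRingEnd ℂ) z.2 / (1 + z.2 * (starRingEnd ℂ) z.2)) * v.2 -
      I * dt (cx (xx z.2)) (cx (thv Th z.1 v.1)) := by
  simp only [alF, dt, cx, thv, Fin.sum_univ_three, _root_.add_apply, _root_.smul_apply,
    ContinuousLinearMap.comp_apply, ofRealCLM_apply, smul_eq_mul, ContinuousLinearMap.coe_fst',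
    ContinuousLinearMap.coe_snd']
  ring

theorem alF_spec (Th : E → Fin 3 → (E →L[ℝ] ℝ)) (z : E × ℂ) : AlSpec Th z (alF Th z) where
  vert η := by
    rw [alF_apply, alF_apply]
    have h0 : thv Th z.1 (0 : E) = 0 := by funext a; simp [thv]
    simp only [h0]
    have h1 : dt (cx (xx z.2)) (cx (0 : Fin 3 → ℝ)) = 0 := by simp [dt, cx]
    rw [h1]
    linear_combination (2 * (starRingEnd ℂ) z.2 / (1 + z.2 * (starRingEnd ℂ) z.2)) * η *
      (-1 : ℂ) * (I_sq)
  hor X := by
    rw [alF_apply, bec_apply]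
    have h := xx_sub z.2
    have h0 := congrFun h 0
    have h1 := congrFun h 1
    have h2 := congrFun h 2
    simp only [Pi.sub_apply, Pi.smul_apply, smul_eq_mul] at h0 h1 h2
    simp only [be, be', dt]
    set c := (starRingEnd ℂ) z.2
    set t := thv Th z.1 X
    linear_combination (-I * cx t 0) * h0 + (-I * cx t 1) * h1 + (-I * cx t 2) * h2

variable {Jo : E → Fin 3 → (E →L[ℝ] E)} {Th : E → Fin 3 → (E →L[ℝ] ℝ)}

/-- the horizontal derivative of weight `k` -/
def hD (Th : E → Fin 3 → (E →L[ℝ] ℝ)) (s : E × ℂ → ℂ) (k : ℂ) (z : E × ℂ) (X : E) : ℂ :=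
  fderiv ℝ s z (X, bec Th z X) - k * be' z.2 (thv Th z.1 X) * s z

lemma JZ_hor (z : E × ℂ) (X : E) :
    JZ Jo Th z (X, bec Th z X) = (Iw Jo z X, bec Th z (Iw Jo z X)) := by
  refine Prod.ext rfl ?_
  rw [JZ_snd]
  ring

lemma JZ_vert (z : E × ℂ) (η : ℂ) : JZ Jo Th z (0, η) = (0, I * η) := by
  refine Prod.ext ?_ ?_
  · rw [JZ_fst]; simp
  · rw [JZ_snd]; simp

/-- the Cauchy-Riemann equation on horizontal vectors -/
theorem hD_Iw {s : E × ℂ → ℂ} {k : ℂ} {z : E × ℂ} {α : E × ℂ →L[ℝ] ℂ} (hα : AlSpec Th z α)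
    (hdb : ∀ v, fderiv ℝ s z v + I * fderiv ℝ s z (JZ Jo Th z v) +
      k * (α v + I * α (JZ Jo Th z v)) * s z = 0) (X : E) :
    hD Th s k z X + I * hD Th s k z (Iw Jo z X) = 0 := by
  have h := hdb (X, bec Th z X)
  rw [JZ_hor, hα.hor, hα.hor] at h
  unfold hD
  linear_combination h

/-- holomorphy along the fibre -/
theorem holw_of_dbar {s : E × ℂ → ℂ} {k : ℂ} {z : E × ℂ} {α : E × ℂ →L[ℝ] ℂ}
    (hα : AlSpec Th z α) (hs : DifferentiableAt ℝ s z)
    (hdb : ∀ v, fderiv ℝ s z v + I * fderiv ℝ s z (JZ Jo Th z v) +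
      k * (α v + I * α (JZ Jo Th z v)) * s z = 0) :
    HasDerivAt (fun w => s (z.1, w)) (fderiv ℝ s z (0, 1)) z.2 := by
  have hv : ∀ η : ℂ, fderiv ℝ s z (0, η) + I * fderiv ℝ s z (0, I * η) = 0 := by
    intro η
    have h := hdb (0, η)
    rw [JZ_vert, hα.vert] at h
    simpa using h
  have h1 : HasFDerivAt (fun w : ℂ => s (z.1, w))
      ((fderiv ℝ s z).comp (ContinuousLinearMap.inr ℝ E ℂ)) z.2 := by
    have h2 : HasFDerivAt (fun w : ℂ => ((z.1, w) : E × ℂ)) (ContinuousLinearMap.inr ℝ E ℂ) z.2 :=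
      hasFDerivAt_prodMk_right z.1 z.2
    exact (show HasFDerivAt s (fderiv ℝ s z) (z.1, z.2) from hs.hasFDerivAt).comp z.2 h2
  -- the derivative is complex linear
  have hI : fderiv ℝ s z (0, I) = I * fderiv ℝ s z (0, 1) := by
    have h := hv 1
    rw [mul_one] at h
    linear_combination (-I) * h + fderiv ℝ s z (0, I) * I_sq
  have hlin : ∀ η : ℂ, fderiv ℝ s z (0, η) = fderiv ℝ s z (0, 1) * η := by
    intro η
    have e : ((0, η) : E × ℂ) = η.re • ((0, 1) : E × ℂ) + η.im • ((0, I) : E × ℂ) := by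
      refine Prod.ext ?_ ?_
      · simp
      · simp only [Prod.snd_add, Prod.smul_snd, real_smul, mul_one]
        exact (re_add_im η).symm
    rw [e, map_add, map_smul, map_smul, hI, real_smul, real_smul]
    conv_rhs => rw [← re_add_im η]
    ring
  have h3 : HasFDerivAt (𝕜 := ℂ) (fun w : ℂ => s (z.1, w))
      (ContinuousLinearMap.toSpanSingleton ℂ (fderiv ℝ s z (0, 1))) z.2 := by
    refine (hasFDerivAt_of_restrictScalars ℝ h1 ?_)
    refine ContinuousLinearMap.ext fun η => ?_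
    have e2 : ((fderiv ℝ s z).comp (ContinuousLinearMap.inr ℝ E ℂ)) η = fderiv ℝ s z (0, η) := rfl
    rw [e2, hlin η]
    show η • fderiv ℝ s z (0, 1) = _
    rw [smul_eq_mul, mul_comm]
  exact hasDerivAt_iff_hasFDerivAt.2 h3

end Lin

section Chart

variable {n : ℕ}

/-- the frame data `Jo`, `Th` of `Tw4_979` in terms of the matrices `J` and the coefficients `c` -/
structure FrSpec (J : Fin 3 → EuclideanSpace ℝ (Fin n) → Matrix (Fin n) (Fin n) ℝ)
    (c : EuclideanSpace ℝ (Fin n) → Fin n → Fin 3 → Fin 3 → ℝ)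
    (Jo : EuclideanSpace ℝ (Fin n) → Fin 3 → (EuclideanSpace ℝ (Fin n) →L[ℝ] EuclideanSpace ℝ (Fin n)))
    (Th : EuclideanSpace ℝ (Fin n) → Fin 3 → (EuclideanSpace ℝ (Fin n) →L[ℝ] ℝ))
    (x : EuclideanSpace ℝ (Fin n)) : Prop where
  qt : QT (fun a => J a x)
  skew : ∀ i a b, c x i a b = -c x i b a
  jo : ∀ a X l, (Jo x a X) l = ∑ p, J a x l p * X p
  th0 : ∀ i, Th x 0 (EuclideanSpace.single i 1) = c x i 2 1
  th1 : ∀ i, Th x 1 (EuclideanSpace.single i 1) = c x i 0 2
  th2 : ∀ i, Th x 2 (EuclideanSpace.single i 1) = c x i 1 0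

variable {J : Fin 3 → EuclideanSpace ℝ (Fin n) → Matrix (Fin n) (Fin n) ℝ}
  {c : EuclideanSpace ℝ (Fin n) → Fin n → Fin 3 → Fin 3 → ℝ}
  {Jo : EuclideanSpace ℝ (Fin n) → Fin 3 → (EuclideanSpace ℝ (Fin n) →L[ℝ] EuclideanSpace ℝ (Fin n))}
  {Th : EuclideanSpace ℝ (Fin n) → Fin 3 → (EuclideanSpace ℝ (Fin n) →L[ℝ] ℝ)}
  {x : EuclideanSpace ℝ (Fin n)}

lemma FrSpec.mu_eq (h : FrSpec J c Jo Th x) (w : ℂ) (i : Fin n) :
    mu (c x i) w = -bec Th (x, w) (EuclideanSpace.single i 1) := by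
  rw [bec_apply]
  simp only [be, dt, nn, cx, thv, mu, h.th0, h.th1, h.th2, Matrix.cons_val_zero,
    Matrix.cons_val_one, Matrix.cons_val]
  have h21 : c x i 2 1 = -c x i 1 2 := h.skew i 2 1
  have h10 : c x i 1 0 = -c x i 0 1 := h.skew i 1 0
  rw [h21, h10]
  push_cast
  linear_combination ((1 + w ^ 2) / 2 * (c x i 0 1 : ℂ)) * I_sq

lemma FrSpec.lam_eq (h : FrSpec J c Jo Th x) (w : ℂ) (i : Fin n) :
    lam (c x i) w = be' w (thv Th x (EuclideanSpace.single i 1)) := by
  simp only [be', dt, nd, cx, thv, lam, h.th0, h.th1, h.th2, Matrix.cons_val_zero,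
    Matrix.cons_val_one, Matrix.cons_val]
  have h21 : c x i 2 1 = -c x i 1 2 := h.skew i 2 1
  have h10 : c x i 1 0 = -c x i 0 1 := h.skew i 1 0
  rw [h21, h10]
  push_cast
  linear_combination (-w * (c x i 0 1 : ℂ)) * I_sq

lemma FrSpec.cqt (h : FrSpec J c Jo Th x) : QT (fun a => cm (J a x)) where
  sq a := by rw [← cm_mul, h.qt.sq, cm_neg, cm_one]
  m01 := by rw [← cm_mul]; exact congrArg cm h.qt.m01
  m10 := by rw [← cm_mul, ← cm_neg]; exact congrArg cm h.qt.m10

/-- `I_w N(w) = - i N(w)` -/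
lemma FrSpec.Iw_N (h : FrSpec J c Jo Th x) (w : ℂ) :
    Nq (fun a => cm (J a x)) (cx (xx w)) * Nq (fun a => cm (J a x)) (nn w) =
      (-I) • Nq (fun a => cm (J a x)) (nn w) := by
  have e : ∀ z, Nq (fun a => cm (J a x)) z = TL_660.dJ z (fun a => cm (J a x)) := by
    intro z
    simp only [Nq, TL_660.dJ, Fin.sum_univ_three]
  rw [e, e, TL_660.dJ_mul h.cqt, xx_nn, cr_xx_nn, TL_660.dJ_smul, neg_zero, zero_smul, zero_add]

/-- the real operator `I_w` in coordinates -/
lemma FrSpec.Iw_apply (h : FrSpec J c Jo Th x) (w : ℂ) (j l : Fin n) :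
    ((Iw Jo (x, w) (EuclideanSpace.single j 1) l : ℝ) : ℂ) =
      Nq (fun a => cm (J a x)) (cx (xx w)) l j := by
  have h1 : ∀ a, (Jo x a (EuclideanSpace.single j 1)) l = J a x l j := by
    intro a
    rw [h.jo]
    simp
  simp only [Iw, Nq, Fin.sum_univ_three, _root_.add_apply, _root_.smul_apply, PiLp.add_apply,
    PiLp.smul_apply, h1, smul_eq_mul, Matrix.add_apply, Matrix.smul_apply, cx, cm_apply]
  push_cast
  rfl

/-- **the Cauchy-Riemann equation implies the horizontal equation** -/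
theorem holK_of_dbar (h : FrSpec J c Jo Th x) {s : EuclideanSpace ℝ (Fin n) × ℂ → ℂ} {k w : ℂ}
    {α : EuclideanSpace ℝ (Fin n) × ℂ →L[ℝ] ℂ} (hα : AlSpec Th (x, w) α)
    (hs : DifferentiableAt ℝ s (x, w))
    (hdb : ∀ v, fderiv ℝ s (x, w) v + I * fderiv ℝ s (x, w) (JZ Jo Th (x, w) v) +
      k * (α v + I * α (JZ Jo Th (x, w) v)) * s (x, w) = 0) :
    HolK J c k (fun y w => s (y, w)) x w := by
  set z : EuclideanSpace ℝ (Fin n) × ℂ := (x, w) with hz
  set hh : Fin n → ℂ := fun i => hD Th s k z (EuclideanSpace.single i 1) with hhh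
  have hw : HasDerivAt (fun w => s (x, w)) (fderiv ℝ s z (0, 1)) w := holw_of_dbar hα hs hdb
  -- `hD` is real linear
  have hlin : ∀ X : EuclideanSpace ℝ (Fin n), hD Th s k z X = ∑ i, (X i : ℂ) * hh i := by
    intro X
    have hL : ∃ L : EuclideanSpace ℝ (Fin n) →ₗ[ℝ] ℂ, ∀ X, L X = hD Th s k z X := by
      refine ⟨{ toFun := hD Th s k z, map_add' := ?_, map_smul' := ?_ }, fun X => rfl⟩
      · intro X Y
        have e1 : ((X + Y, bec Th z (X + Y)) : EuclideanSpace ℝ (Fin n) × ℂ) =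
            (X, bec Th z X) + (Y, bec Th z Y) := by
          refine Prod.ext rfl ?_
          simp
        have e2 : thv Th z.1 (X + Y) = thv Th z.1 X + thv Th z.1 Y := by
          funext a; simp [thv]
        unfold hD
        rw [e1, map_add, e2]
        simp only [be', dt, cx, Pi.add_apply]
        push_cast
        ring
      · intro r X
        have e1 : ((r • X, bec Th z (r • X)) : EuclideanSpace ℝ (Fin n) × ℂ) =
            r • (X, bec Th z X) := by
          refine Prod.ext rfl ?_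
          simp
        have e2 : thv Th z.1 (r • X) = r • thv Th z.1 X := by
          funext a; simp [thv]
        unfold hD
        rw [e1, map_smul, e2]
        simp only [be', dt, cx, Pi.smul_apply, smul_eq_mul, real_smul, RingHom.id_apply]
        push_cast
        ring
    obtain ⟨L, hL⟩ := hL
    have hX : X = ∑ i, X i • EuclideanSpace.single i (1 : ℝ) := by
      ext l
      simp [Pi.single_apply]
    rw [← hL X]
    conv_lhs => rw [hX]
    rw [map_sum]
    refine Finset.sum_congr rfl fun i _ => ?_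
    rw [map_smul, hL, real_smul]
  -- coordinates of the equation
  set A := Nq (fun a => cm (J a x)) (cx (xx w)) with hA
  set N := Nq (fun a => cm (J a x)) (nn w) with hN
  have h1 : hh ᵥ* (1 + I • A) = 0 := by
    funext j
    have h2 := hD_Iw (Jo := Jo) (k := k) hα hdb (EuclideanSpace.single j 1)
    rw [hlin (Iw Jo z (EuclideanSpace.single j 1))] at h2
    have h3 : (hh ᵥ* (1 + I • A)) j = hh j + I * ∑ l, hh l * A l j := by
      rw [Matrix.vecMul_add, Matrix.vecMul_one, Matrix.vecMul_smul]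
      simp [Matrix.vecMul, dotProduct]
    rw [h3, Pi.zero_apply, ← h2]
    congr 2
    refine Finset.sum_congr rfl fun l _ => ?_
    rw [h.Iw_apply w j l, mul_comm]
  have h4 : hh ᵥ* N = 0 := by
    have h5 : (1 + I • A) * N = (2 : ℂ) • N := by
      rw [Matrix.add_mul, Matrix.one_mul, Matrix.smul_mul, h.Iw_N w, smul_smul]
      have : I * -I = 1 := by linear_combination -I_sq
      rw [this, one_smul, two_smul]
    have h6 : (2 : ℂ) • (hh ᵥ* N) = 0 := by
      rw [← Matrix.vecMul_smul, ← h5, ← Matrix.vecMul_vecMul, h1, Matrix.zero_vecMul]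
    exact (smul_eq_zero.1 h6).resolve_left two_ne_zero
  -- `horK = hh`
  have h7 : ∀ i, horK c k (fun y w => s (y, w)) x w i = hh i := by
    intro i
    have e1 : cpd i (fun y => s (y, w)) x = fderiv ℝ s z (EuclideanSpace.single i 1, 0) := by
      have h2 : HasFDerivAt (fun y => s (y, w))
          ((fderiv ℝ s z).comp (ContinuousLinearMap.inl ℝ (EuclideanSpace ℝ (Fin n)) ℂ)) x := by
        have h3 : HasFDerivAt (fun y : EuclideanSpace ℝ (Fin n) =>
            ((y, w) : EuclideanSpace ℝ (Fin n) × ℂ))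
            (ContinuousLinearMap.inl ℝ (EuclideanSpace ℝ (Fin n)) ℂ) x := hasFDerivAt_prodMk_left x w
        exact (show HasFDerivAt s (fderiv ℝ s z) (x, w) from hs.hasFDerivAt).comp x h3
      unfold cpd
      rw [h2.fderiv]
      rfl
    have e2 : deriv (fun w => s (x, w)) w = fderiv ℝ s z (0, 1) := hw.deriv
    have e3 : fderiv ℝ s z (EuclideanSpace.single i 1, bec Th z (EuclideanSpace.single i 1)) =
        fderiv ℝ s z (EuclideanSpace.single i 1, 0) +
          bec Th z (EuclideanSpace.single i 1) * fderiv ℝ s z (0, 1) := by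
      have hη : ∀ η : ℂ, fderiv ℝ s z (0, η) = η * fderiv ℝ s z (0, 1) := by
        intro η
        have h8 := hasDerivAt_iff_hasFDerivAt.1 hw
        have h9 : HasFDerivAt (fun w : ℂ => s (x, w))
            ((fderiv ℝ s z).comp (ContinuousLinearMap.inr ℝ (EuclideanSpace ℝ (Fin n)) ℂ)) w := by
          have h2 : HasFDerivAt (fun w : ℂ => ((x, w) : EuclideanSpace ℝ (Fin n) × ℂ))
            (ContinuousLinearMap.inr ℝ (EuclideanSpace ℝ (Fin n)) ℂ) w := hasFDerivAt_prodMk_right x w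
          exact (show HasFDerivAt s (fderiv ℝ s z) (x, w) from hs.hasFDerivAt).comp w h2
        have h10 := h9.unique (h8.restrictScalars ℝ)
        have h11 := congrArg (fun L => L η) h10
        refine (show fderiv ℝ s z (0, η) = _ from h11).trans ?_
        show η • fderiv ℝ s z (0, 1) = _
        rw [smul_eq_mul]
      have e4 : ((EuclideanSpace.single i 1, bec Th z (EuclideanSpace.single i 1)) :
          EuclideanSpace ℝ (Fin n) × ℂ) = (EuclideanSpace.single i 1, 0) +
            (0, bec Th z (EuclideanSpace.single i 1)) := by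
        refine Prod.ext ?_ ?_ <;> simp
      rw [e4, map_add, hη]
    unfold horK
    show cpd i (fun y => s (y, w)) x - mu (c x i) w * deriv (fun w => s (x, w)) w -
      k * lam (c x i) w * s (x, w) = _
    rw [e1, e2, h.mu_eq w i, h.lam_eq w i, hhh]
    simp only [hD]
    rw [e3]
    ring
  intro j
  have h8 := congrFun h4 j
  rw [Pi.zero_apply] at h8
  rw [← h8]
  show _ = ∑ i, hh i * N i j
  refine Finset.sum_congr rfl fun i _ => ?_
  rw [h7 i, mul_comm]

end Chart

end Crest.Agent.R260.Tup_45
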