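import Crest.Agent.R260.Tup3_45
import Crest.Agent.R260.Tup4_45

/-!
Row 260, leaf TUP (helper45), part 5: the contact constant of the twistor lines is `1`, and the link
between the polynomial family and the coordinates of the twistor space.

* `TwLink`       : `F x i b (w) = sec S K ip (x, w) i b`, i.e. `κ ^ β i * S.pt a (q x w) i b`;
* `con_of_link`  : `θ_{F x}((F x)') = 1` for 592's `Link`, `FLink.Th` and `θ_ip(x,w)(0,1) = 1`;
* `twLink_pt`    : for every chart `a` with `q x w ∈ source a`: `∃ l, pt a (q x w) = l • F x (w)`;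
* `exists_fam`   : `TwFam` + `TwLink` from `TwCh`, `JCh`, `FLink`.
-/

set_option autoImplicit false
set_option linter.unusedSectionVars false

open Complex Matrix Set Filter Polynomial
open scoped ContDiff Topology
open Crest.GeometryTopology.CoordMetric Crest.GeometryTopology.ChartRiem
open Crest.Agent.R260.Tw_979 Crest.Agent.R260.TwPen_389 Crest.Agent.R270.BM_360
open Crest.Agent.R260.ACM_580 Crest.Agent.R260.NNB_580 Crest.Agent.R260.BrDefs_592
open Crest.Agent.R275.Geo Crest.Agent.R275.Core144 Crest.Agent.R260.Lin_678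
open Crest.Agent.R260.Out_516
open Crest.Agent.R260.Ga_323 (OneForm Contact)

noncomputable section

namespace Crest.Agent.R260.Tup_45

variable {n d : ℕ} {Z : Type} [TopologicalSpace Z]
  {C : ACM (EuclideanSpace ℝ (Fin n) × ℂ) Z} {A : Atl d Z} {L : LB A}
  {lam : C.ι → C.ι → EuclideanSpace ℝ (Fin n) × ℂ → ℂ}
  {α : C.ι → EuclideanSpace ℝ (Fin n) × ℂ → EuclideanSpace ℝ (Fin n) × ℂ →L[ℝ] ℂ}
  {I' : Type} [Fintype I']
  {J : Fin 3 → EuclideanSpace ℝ (Fin n) → Matrix (Fin n) (Fin n) ℝ}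
  {c : EuclideanSpace ℝ (Fin n) → Fin n → Fin 3 → Fin 3 → ℝ}
  {Jo : EuclideanSpace ℝ (Fin n) → Fin 3 → (EuclideanSpace ℝ (Fin n) →L[ℝ] EuclideanSpace ℝ (Fin n))}
  {Th : EuclideanSpace ℝ (Fin n) → Fin 3 → (EuclideanSpace ℝ (Fin n) →L[ℝ] ℝ)}
  {U : Set (EuclideanSpace ℝ (Fin n))} {ip im : C.ι}

/-- the polynomial family is the family of coordinates of the twistor space -/
def TwLink (S : MSys A L I') (K : FLink C A L lam α) (U : Set (EuclideanSpace ℝ (Fin n)))
    (ip : C.ι) (F : EuclideanSpace ℝ (Fin n) → ∀ i, S.J i → ℂ[X]) : Prop :=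
  ∀ x ∈ U, ∀ w i b, (F x i b).eval w = sec S K ip (x, w) i b

theorem exists_fam (h : TwCh C lam α J c Jo Th U ip im) (hC : ∀ a, JCh C (A.e a))
    (S : MSys A L I') (K : FLink C A L lam α) :
    ∃ F : EuclideanSpace ℝ (Fin n) → ∀ i, S.J i → ℂ[X],
      TwFam J c U S.E S.β F ∧ TwLink S K U ip F := by
  obtain ⟨F, h1, h2, -⟩ := (rawFam_of_link h hC S K).exists_fam h.isOpen
  exact ⟨F, h1, h2⟩

/-- the value of `F x` in the chart `a` -/
theorem TwLink.eval_eq {S : MSys A L I'} {K : FLink C A L lam α}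
    {F : EuclideanSpace ℝ (Fin n) → ∀ i, S.J i → ℂ[X]} (hF : TwLink S K U ip F)
    (h : TwCh C lam α J c Jo Th U ip im) {x : EuclideanSpace ℝ (Fin n)} (hx : x ∈ U) (w : ℂ)
    {a : A.ι} (ha : (C.e ip).symm (x, w) ∈ (A.e a).source) (i : I') (b : S.J i) :
    (F x i b).eval w = K.κ a ip (x, w) ^ S.β i * S.pt a ((C.e ip).symm (x, w)) i b := by
  rw [hF x hx w i b]
  exact sec_eq' S K (by rw [h.tp]; exact ⟨hx, mem_univ _⟩) ha i b

theorem TwLink.pt {S : MSys A L I'} {K : FLink C A L lam α}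
    {F : EuclideanSpace ℝ (Fin n) → ∀ i, S.J i → ℂ[X]} (hF : TwLink S K U ip F)
    (h : TwCh C lam α J c Jo Th U ip im) {x : EuclideanSpace ℝ (Fin n)} (hx : x ∈ U) (w : ℂ)
    {a : A.ι} (ha : (C.e ip).symm (x, w) ∈ (A.e a).source) :
    ∃ l : I' → ℂ, S.pt a ((C.e ip).symm (x, w)) = fun i b => l i * (F x i b).eval w := by
  have h1 := h.q_mem hx w
  have h2 := h.e_q hx w
  have h3 := K.ne a ip _ ha h1
  have h4 : K.κ a ip (x, w) ≠ 0 := by rw [← h2]; exact h3
  refine ⟨fun i => (K.κ a ip (x, w) ^ S.β i)⁻¹, ?_⟩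
  funext i b
  rw [hF.eval_eq h hx w ha i b, ← mul_assoc, inv_mul_cancel₀ (pow_ne_zero _ h4), one_mul]

theorem eval_form {I : Type} [Fintype I] {Jt : I → Type} [∀ i, Fintype (Jt i)]
    (p : (Σ i, Jt i) → MvPolynomial (Σ i, Jt i) ℂ) (F G : ∀ i, Jt i → ℂ[X]) (w : ℂ) :
    (form p F G).eval w =
      form p (fun i b => (F i b).eval w) (fun i b => (G i b).eval w) := by
  unfold form
  rw [eval_finsetSum]
  refine Finset.sum_congr rfl fun x _ => ?_
  rw [eval_mul]
  congr 1
  exact eval_aeval_poly (F := F) w (p x)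

theorem eval_den {I : Type} [Fintype I] {Jt : I → Type} [∀ i, Fintype (Jt i)]
    (c : ∀ i, Jt i) (F : ∀ i, Jt i → ℂ[X]) (w : ℂ) :
    (Lin_678.den c F).eval w = Lin_678.den c (fun i b => (F i b).eval w) := by
  unfold Lin_678.den
  rw [eval_prod]

theorem prod_zpow_sum {I : Type} {k : ℂ} (hk : k ≠ 0) (s : Finset I) (f : I → ℤ) :
    ∏ i ∈ s, k ^ f i = k ^ ∑ i ∈ s, f i := by
  classical
  induction s using Finset.induction_on with
  | empty => simp
  | insert a s ha ih => rw [Finset.prod_insert ha, Finset.sum_insert ha, ih, zpow_add₀ hk]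

/-- the derivative of the homogeneous coordinates in a real chart -/
theorem sec_fderiv {V : Type} [NormedAddCommGroup V] [NormedSpace ℝ V] {C : ACM V Z}
    {lam : C.ι → C.ι → V → ℂ} {α : C.ι → V → V →L[ℝ] ℂ} (hC : ∀ a, JCh C (A.e a))
    (S : MSys A L I') (K : FLink C A L lam α) {i : C.ι} {a : A.ι} {x : Z}
    (ha : x ∈ (A.e a).source) (hi : x ∈ (C.e i).source) (j : I') (b : S.J j) (v : V) :
    fderiv ℝ (fun y => sec S K i y j b) (C.e i x) v =
      K.κ a i (C.e i x) ^ S.β j * BrIf_592.dpt S a x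
        (fderiv ℝ (fun y => A.e a ((C.e i).symm y)) (C.e i x) v) j b +
      ((S.β j : ℂ) * K.κ a i (C.e i x) ^ (S.β j - 1) * fderiv ℝ (K.κ a i) (C.e i x) v) *
        S.pt a x j b := by
  obtain ⟨h1, h2⟩ := pt_real hC S ha hi j b
  have hk : HasFDerivAt (K.κ a i) (fderiv ℝ (K.κ a i) (C.e i x)) (C.e i x) :=
    ((K.sm a i x ha hi).differentiableAt (by simp)).hasFDerivAt
  have hp : HasFDerivAt (fun y => S.pt a ((C.e i).symm y) j b)
      (fderiv ℝ (fun y => S.pt a ((C.e i).symm y) j b) (C.e i x)) (C.e i x) :=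
    (h1.differentiableAt (by simp)).hasFDerivAt
  have hk' := hk.pow (S.β j)
  have hm := hk'.mul hp
  have he : fderiv ℝ (fun y => sec S K i y j b) (C.e i x) = _ :=
    (hm.congr_of_eventuallyEq (sec_ev S K ha hi j b)).fderiv
  have hx : (C.e i).symm (C.e i x) = x := (C.e i).left_inv hi
  have h3 : DifferentiableAt ℂ (fun z => S.pt a ((A.e a).symm z) j b) (A.e a x) :=
    (JCh.holo_iff (f := fun x => S.pt a x j b) (hC a) ha hi).2
      ⟨h1.differentiableAt (by simp), fun v => by rw [h2 v]; rfl⟩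
  have h4 : fderiv ℝ (fun y => S.pt a ((C.e i).symm y) j b) (C.e i x) v =
      BrIf_592.dpt S a x (fderiv ℝ (fun y => A.e a ((C.e i).symm y)) (C.e i x) v) j b := by
    rw [JCh.fderiv_r (f := fun x => S.pt a x j b) (hC a) ha hi (h3.restrictScalars ℝ)]
    unfold BrIf_592.dpt
    rw [h3.fderiv_restrictScalars ℝ]
    rfl
  rw [he]
  simp only [_root_.add_apply, _root_.smul_apply, smul_eq_mul, hx, nsmul_eq_mul]
  rw [h4]
  ring

/-- **the contact constant of the twistor lines is `1`** -/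
theorem con_of_link (h : TwCh C lam α J c Jo Th U ip im) (hC : ∀ a, JCh C (A.e a))
    {S : MSys A L I'} {K : FLink C A L lam α} {θ : C.ι → EuclideanSpace ℝ (Fin n) × ℂ →
      EuclideanSpace ℝ (Fin n) × ℂ →L[ℝ] ℂ} {θ' : OneForm L} (hK : K.Th θ θ')
    (hθ : ∀ x ∈ U, ∀ w : ℂ, θ ip (x, w) (0, 1) = 1)
    {E : Set (MvPolynomial (Σ i, S.J i) ℂ)} {w : I' → ℤ} {th : CForm E w}
    (hl : BrIf_592.Link S θ' th) (hw : ∑ i, w i * (S.β i : ℤ) = 1)
    {F : EuclideanSpace ℝ (Fin n) → ∀ i, S.J i → ℂ[X]} (hF : TwLink S K U ip F) :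
    ∀ x ∈ U, th.Val (F x) (fun i b => derivative (F x i b)) (Polynomial.C 1) := by
  intro x hx ch
  refine Polynomial.funext fun u => ?_
  rw [eval_mul, eval_pow, eval_C, eval_den, eval_form, mul_one]
  obtain ⟨a, ha⟩ := A.cover (h.q x u)
  have h1 := h.q_mem hx u
  have h2 := h.e_q hx u
  have hk0 : K.κ a ip (x, u) ≠ 0 := by
    have := K.ne a ip _ ha h1
    rwa [h2] at this
  -- the derivative along the line
  have hder : ∀ i b, (derivative (F x i b)).eval u =
      fderiv ℝ (fun y => sec S K ip y i b) (x, u) (0, 1) := by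
    intro i b
    have h3 : ContDiffAt ℝ ∞ (fun y => sec S K ip y i b) (x, u) := by
      have := sec_contDiffAt hC S K h1 i b
      rwa [h2] at this
    have h4 : HasFDerivAt (fun y => sec S K ip y i b)
        (fderiv ℝ (fun y => sec S K ip y i b) (x, u)) (x, u) :=
      (h3.differentiableAt (by simp)).hasFDerivAt
    have h5 : HasFDerivAt (fun w : ℂ => (x, w))
        (ContinuousLinearMap.inr ℝ (EuclideanSpace ℝ (Fin n)) ℂ) u :=
      hasFDerivAt_prodMk_right x u
    have h6 := HasFDerivAt.comp (g := fun y => sec S K ip y i b) u h4 h5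
    have h7 : ((fun y => sec S K ip y i b) ∘ fun w : ℂ => (x, w)) =
        fun w => (F x i b).eval w := by
      funext w
      exact (hF x hx w i b).symm
    rw [h7] at h6
    have h8 := ((F x i b).hasDerivAt u).hasFDerivAt.restrictScalars ℝ
    have h9 := congrArg (fun T => T (1 : ℂ)) (h8.unique h6)
    simpa using h9
  set v : Cn d := fderiv ℝ (fun y => A.e a ((C.e ip).symm y)) (x, u) (0, 1) with hv
  have hval : (fun i b => (F x i b).eval u) =
      fun i b => K.κ a ip (x, u) ^ S.β i * S.pt a (h.q x u) i b := by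
    funext i b
    exact hF.eval_eq h hx u ha i b
  have hd : (fun i b => (derivative (F x i b)).eval u) = fun i b =>
      K.κ a ip (x, u) ^ S.β i * BrIf_592.dpt S a (h.q x u) v i b +
      ((S.β i : ℂ) * K.κ a ip (x, u) ^ (S.β i - 1) * fderiv ℝ (K.κ a ip) (x, u) (0, 1)) *
        S.pt a (h.q x u) i b := by
    funext i b
    rw [hder i b]
    have := sec_fderiv hC S K ha h1 i b ((0, 1) : EuclideanSpace ℝ (Fin n) × ℂ)
    rw [h2] at this
    exact this
  have hlink := hl a (h.q x u) ha ch (fun i => K.κ a ip (x, u) ^ S.β i)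
    (fun i => pow_ne_zero _ hk0) v (fun i =>
      (S.β i : ℂ) * K.κ a ip (x, u) ^ (S.β i - 1) * fderiv ℝ (K.κ a ip) (x, u) (0, 1))
  have hth := hK a ip _ ha h1 v
  have hinv : fderiv ℝ (fun z => C.e ip ((A.e a).symm z)) (A.e a (h.q x u)) v = (0, 1) := by
    have h3 : ((x, u) : EuclideanSpace ℝ (Fin n) × ℂ) ∈ ovr C ip (A.e a) := by
      have := mem_ovr_of_source ha h1
      rwa [h2] at this
    exact (hC a).inv_right h3 _
  rw [hinv, h2, hθ x hx u] at hth
  have hprod : ∏ i, (K.κ a ip (x, u) ^ S.β i) ^ w i = K.κ a ip (x, u) := by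
    have h3 : ∀ i, (K.κ a ip (x, u) ^ S.β i) ^ w i = K.κ a ip (x, u) ^ (w i * (S.β i : ℤ)) := by
      intro i
      rw [← zpow_natCast, ← _root_.zpow_mul, mul_comm]
    rw [Finset.prod_congr rfl fun i _ => h3 i, prod_zpow_sum hk0, hw, zpow_one]
  rw [hval, hd, hlink, hprod, mul_assoc, ← hth, mul_one]

end Crest.Agent.R260.Tup_45
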