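import Crest.Agent.R260.Tup5_45
import Crest.Agent.R260.Gen_764
import Crest.Agent.R260.MainC_803

/-!
Row 260, leaf TUP (helper45), part 6: `GeoOut` of 803 (all of the twistor geometry over one chart)
from the twistor chart `TwCh`, the comparison functions `FLink` and the output `Out` of the bridge.
-/

set_option autoImplicit false
set_option linter.unusedSectionVars false

open Complex Matrix Set Filter Polynomial
open scoped ContDiff Topology
open Crest.GeometryTopology.CoordMetric Crest.GeometryTopology.ChartRiem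
open Crest.Agent.R260.Tw_979 Crest.Agent.R260.TwPen_389 Crest.Agent.R270.BM_360
open Crest.Agent.R260.ACM_580 Crest.Agent.R260.NNB_580 Crest.Agent.R260.BrDefs_592
open Crest.Agent.R275.Geo Crest.Agent.R275.Core144 Crest.Agent.R260.Lin_678
open Crest.Agent.R260.Out_516 Crest.Agent.R260.MainC_803
open Crest.Agent.R260.Ga_323 (OneForm Contact)

noncomputable section

namespace Crest.Agent.R260.Tup_45

section Conv

variable {n : ℕ} {I : Type} [Fintype I] {Jt : I → Type} [∀ i, Fintype (Jt i)]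

/-- 764's `gen` in the form of 516's `Dens` -/
theorem dens_of_gen {E : Set (MvPolynomial (Σ i, Jt i) ℂ)} {U : Set (EuclideanSpace ℝ (Fin n))}
    {F : EuclideanSpace ℝ (Fin n) → ∀ i, Jt i → ℂ[X]}
    (h : ∀ Δ : MvPolynomial ((Σ i, Jt i) ⊕ (Σ i, Jt i)) ℂ, Main_803.BHom Δ →
      (∃ a b, Main_803.Pt E a ∧ Main_803.Pt E b ∧ Main_803.val2 Δ a b ≠ 0) →
      ∀ V ⊆ U, IsOpen V → V.Nonempty → ∃ x ∈ V, ∃ s t : ℂ, s ≠ t ∧
        Main_803.val2 Δ (Main_803.evT (F x) s) (Main_803.evT (F x) t) ≠ 0) :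
    ∀ Dn, BiH Dn → Ne2 E Dn → Dens U (fun x => evt (F x)) Dn := by
  intro Dn hB hN
  obtain ⟨a, b, ha, hb, hab⟩ := hN
  have hpt : ∀ v : Out_516.Pt Jt, OnZ E v → Main_803.Pt E (fun i b => v ⟨i, b⟩) := by
    intro v hv
    refine ⟨hv.1, fun i h0 => ?_⟩
    obtain ⟨b, hb⟩ := hv.2 i
    exact hb (congrFun h0 b)
  have key := h Dn hB ⟨_, _, hpt a ha, hpt b hb, hab⟩
  intro W hW hWn hWU
  exact key W hWU hW hWn

end Conv

variable {n d : ℕ} {Z : Type} [TopologicalSpace Z]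
  {C : ACM (EuclideanSpace ℝ (Fin n) × ℂ) Z} {A : Atl d Z} {L : LB A}
  {lam : C.ι → C.ι → EuclideanSpace ℝ (Fin n) × ℂ → ℂ}
  {α : C.ι → EuclideanSpace ℝ (Fin n) × ℂ → EuclideanSpace ℝ (Fin n) × ℂ →L[ℝ] ℂ}
  {I' : Type} [Fintype I']
  {J : Fin 3 → EuclideanSpace ℝ (Fin n) → Matrix (Fin n) (Fin n) ℝ}
  {c : EuclideanSpace ℝ (Fin n) → Fin n → Fin 3 → Fin 3 → ℝ}
  {Jo : EuclideanSpace ℝ (Fin n) → Fin 3 → (EuclideanSpace ℝ (Fin n) →L[ℝ] EuclideanSpace ℝ (Fin n))}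
  {Th : EuclideanSpace ℝ (Fin n) → Fin 3 → (EuclideanSpace ℝ (Fin n) →L[ℝ] ℝ)}
  {U : Set (EuclideanSpace ℝ (Fin n))} {ip im : C.ι}

/-- the quaternion relations of the operators -/
theorem FrSpec.qto {x : EuclideanSpace ℝ (Fin n)} (h : FrSpec J c Jo Th x) : QT (Jo x) := by
  have e : ∀ a X, (WithLp.ofLp (Jo x a X) : Fin n → ℝ) = J a x *ᵥ WithLp.ofLp X := by
    intro a X
    funext l
    exact h.jo a X l
  have e2 : ∀ a b X, (WithLp.ofLp ((Jo x a * Jo x b) X) : Fin n → ℝ) =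
      (J a x * J b x) *ᵥ WithLp.ofLp X := by
    intro a b X
    rw [_root_.mul_apply_eq_comp, e, e, Matrix.mulVec_mulVec]
  have hq := h.qt
  refine ⟨fun a => ?_, ?_, ?_⟩
  · ext X l
    have h1 := congrFun (e2 a a X) l
    rw [show J a x * J a x = -1 from hq.sq a] at h1
    rw [h1]
    simp [Matrix.neg_mulVec]
  · ext X l
    have h1 := congrFun (e2 0 1 X) l
    rw [show J 0 x * J 1 x = J 2 x from hq.m01, ← e] at h1
    exact h1
  · ext X l
    have h1 := congrFun (e2 1 0 X) l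
    rw [show J 1 x * J 0 x = -J 2 x from hq.m10, Matrix.neg_mulVec, ← e] at h1
    rw [h1]
    simp

/-- **the twistor lines over one chart**: everything the main assembly needs -/
theorem geoOut_of [PreconnectedSpace Z] {g : MetricField n} (hq : QH g J c U)
    (h : TwCh C lam α J c Jo Th U ip im) (hC : Cp C A) (S : MSys A L I')
    (K : FLink C A L lam α) {θ : C.ι → EuclideanSpace ℝ (Fin n) × ℂ →
      EuclideanSpace ℝ (Fin n) × ℂ →L[ℝ] ℂ} {θ' : OneForm L} (hK : K.Th θ θ')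
    (hθ : ∀ x ∈ U, ∀ w : ℂ, θ ip (x, w) (0, 1) = 1) {m : ℕ} {w : I' → ℤ}
    (O : BrIf_592.Out S θ' m w) :
    ∃ F : EuclideanSpace ℝ (Fin n) → ∀ i, S.J i → ℂ[X], GeoOut g J c U O.D F 1 := by
  obtain ⟨F, hF, hL⟩ := exists_fam h hC S K
  refine ⟨F, ?_⟩
  have hF' : TwFam J c U O.D.E O.D.β F := by rw [O.hE, O.hβ]; exact hF
  have hwb : ∑ i, O.D.w i * (O.D.β i : ℤ) = 1 := O.D.wβ
  refine ⟨?_, hF'.twIn hq hwb, hF', one_ne_zero, ?_, ?_⟩
  · rw [O.hE]
    exact O.prime.1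
  · refine con_of_link h hC hK hθ O.link ?_ hL
    rw [← O.hβ]
    exact hwb
  · rw [O.hE]
    apply dens_of_gen
    refine Pair_764.gen_of_acm C A hC (fun c x => S.pt c x) (fun c i a => pt_holAt S c i a) ?_ S.E
      ?_ ip Jo Th U ?_ h.hJ (fun y hy => (h.hfr y hy).qto) F ?_
    · intro c c' x hx
      exact ⟨fun i => L.g c c' x ^ S.β i, by funext i a; exact S.pt_chg hx i a⟩
    · intro a ha
      obtain ⟨c, x, hx, l, -, hl⟩ := O.pt a ha.on ha.ne
      exact ⟨c, x, hx, l, hl⟩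
    · rw [h.tp]
    · intro x hx w c hc
      exact hL.pt h hx w hc

end Crest.Agent.R260.Tup_45
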