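import Crest.Agent.R260.Tup4_45
import Crest.Agent.R260.NnLb4_254

/-!
Row 260 (helper45): 254's comparison functions `Lnk` give the record `FLink`.
-/

set_option autoImplicit false

open Complex Set Filter
open scoped ContDiff Topology
open Crest.Agent.R260.ACM_580 Crest.Agent.R260.NNB_580 Crest.Agent.R260.Nn_254
open Crest.Agent.R275.Geo Crest.Agent.R275.Core144 Crest.Agent.R273.SerA_945 Crest.Agent.R273.Defs_333
open Crest.Agent.R260.Ga_323 (OneForm Contact)

noncomputable section

namespace Crest.Agent.R260.Tup_45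

variable {V Z : Type} [NormedAddCommGroup V] [NormedSpace ℝ V] [TopologicalSpace Z] {d : ℕ}
  {C : ACM V Z} {A : Atl d Z} {L : LB A}

/-- `FLink` from 254's `Lnk` -/
def FLink.ofLnk {D : CD C} {θ : OneForm L} {h : HM L} {cm : A.ι → C.ι → Z → ℂ}
    (H : Lnk D L θ h cm) : FLink C A L D.lam D.α where
  κ a i y := cm a i ((C.e i).symm y)
  ne a i x hx hi := by
    rw [(C.e i).left_inv hi]
    exact H.ne a i x hx hi
  sm a i x hx hi :=
    (H.sm a i).contDiffAt ((isOpen_ovr i (A.e a)).mem_nhds (mem_ovr_of_source hx hi))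
  db a i x hx hi v := by
    have h1 := H.db a i x hx hi v
    rw [(C.e i).left_inv hi, h1]
    ring
  trA a b i x hx hx' hi := by
    rw [(C.e i).left_inv hi]
    exact H.trL a b i x hx hx' hi
  trC a i j x hx hi hj := by
    rw [(C.e i).left_inv hi, (C.e j).left_inv hj]
    exact H.trR a i j x hx hi hj

theorem FLink.ofLnk_κ {D : CD C} {θ : OneForm L} {h : HM L} {cm : A.ι → C.ι → Z → ℂ}
    (H : Lnk D L θ h cm) (a : A.ι) {i : C.ι} {x : Z} (hi : x ∈ (C.e i).source) :
    (FLink.ofLnk H).κ a i (C.e i x) = cm a i x := by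
  show cm a i ((C.e i).symm (C.e i x)) = cm a i x
  rw [(C.e i).left_inv hi]

/-- the relation with the contact forms in the form of 803's `CxP` -/
theorem FLink.ofLnk_th {D : CD C} {θ : OneForm L} {h : HM L} {cm : A.ι → C.ι → Z → ℂ}
    (H : Lnk D L θ h cm) : ∀ a i x, x ∈ (A.e a).source → x ∈ (C.e i).source → ∀ v,
      D.θ i (C.e i x) v = (FLink.ofLnk H).κ a i (C.e i x) *
        θ.app a x (fderiv ℝ (fun y => A.e a ((C.e i).symm y)) (C.e i x) v) := by
  intro a i x hx hi v
  rw [FLink.ofLnk_κ H a hi]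
  exact H.th a i x hx hi v

end Crest.Agent.R260.Tup_45
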