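import Crest.Agent.R260.Tup7_45
import Crest.Agent.R260.NnLb5_254
import Crest.Agent.R260.MainH_803

/-!
Row 260 (helper45): the statement `CxP` of the main assembly.
-/

set_option autoImplicit false

open Complex Set Filter
open scoped ContDiff Topology

namespace Crest.Agent.R260.Tup_45

/-- **(CX)**: complex structure, line bundle, contact form and metric of the twistor space -/
theorem cxp : MainC_803.CxP := by
  intro V Z _ _ _ _ _ _ d C hC cd hNN
  obtain ⟨A, L, θ, h, cm, hf, -, hP, hCp, hc, hp, hL⟩ := Nn_254.exists_cx C hC cd hNN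
  exact ⟨A, L, θ, h, FLink.ofLnk hL, hf, hP, hCp, hc, hp, FLink.ofLnk_th hL⟩

end Crest.Agent.R260.Tup_45
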