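import Crest.Agent.R260.Tw9_979
import Crest.Agent.R260.TwL4_847
import Crest.Agent.R260.NnDefs_254

/-!
Row 260, leaf TW-Z (helper979), part 10: the contact data `cd : CD (acm Q hn)` of the twistor space
in the sense of helper254 (`NnDefs_254`), from helper847's local fields.
-/

set_option autoImplicit false

open scoped Manifold ContDiff Topology
open Filter Set Complex Matrix
open Crest.GeometryTopology.CoordMetric
open Crest.GeometryTopology.ChartRiem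

noncomputable section

namespace Crest.Agent.R260.Tw_979

open Crest.Agent.R202.Tens
open Crest.Agent.R260.Qk3_151 Crest.Agent.R260.Qk4_151 Crest.Agent.R260.Qk7_151

variable {n : ℕ}

local notation "𝔼" => EuclideanSpace ℝ (Fin n)

section manifold

variable {M : Type} [TopologicalSpace M] [ChartedSpace (EuclideanSpace ℝ (Fin n)) M]
  [IsManifold 𝓘(ℝ, EuclideanSpace ℝ (Fin n)) ∞ M]
  {G : ChartMetric n M} (Q : QuaternionicStructure n M G) (hn : n ≠ 0)

/-- the cocycle of `L` in the charts of the twistor space -/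
def lam (i j : Idx n M) (z : EuclideanSpace ℝ (Fin n) × ℂ) : ℂ := lamq (qc Q i j z.1) z.2

lemma thL_eq (g : MetricField n) (J : Fin 3 → 𝔼 → Matrix (Fin n) (Fin n) ℝ) :
    TwL_847.thL g J = tauT g J := rfl

include hn in
lemma ev_ch {i j : Idx n M} {z : 𝔼 × ℂ} (h1 : z.1 ∈ dom i.e j.e) (h2 : tdom (qc Q i j) z) :
    (fun z => ch Q hn j ((ch Q hn i).symm z)) =ᶠ[𝓝 z] trn (chg i.e j.e) (qc Q i j) := by
  filter_upwards [(isOpen_ov Q hn i j).mem_nhds ⟨h1, h2⟩] with y hy using ch_ch Q hn hy.1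

lemma thL_sm' (k : Idx n M) :
    ContDiffOn ℝ ∞ (TwL_847.thL (G.g k.e) (fr Q k)) (ch Q hn k).target := by
  rw [ch_target]
  exact TwL_847.thL_sm (qk Q k)

lemma alL_sm' (k : Idx n M) :
    ContDiffOn ℝ ∞ (TwL_847.alL (G.g k.e) (fr Q k)) (ch Q hn k).target := by
  rw [ch_target]
  exact TwL_847.alL_sm (qk Q k)

/-- **the contact data of the twistor space** -/
def cdZ {m : ℕ} (hm : 2 ≤ m) (hnm : n = 4 * m) {ν : ℝ} (hν0 : 0 < ν)
    (hν : ∀ e ∈ atlas (EuclideanSpace ℝ (Fin n)) M, ∀ x ∈ e.target,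
      Qk5_151.nu (G.g e) m x = ν) : Nn_254.CD (acm Q hn) where
  θ k := TwL_847.thL (G.g k.e) (fr Q k)
  θ_sm := thL_sm' Q hn
  θ_J k z _ v := TwL_847.thL_J z v
  θ_ne k z _ := TwL_847.thL_ne z
  lam i j := lam Q i j
  lam_ne i j z hz := by
    obtain ⟨h1, h2⟩ := (mem_ov Q hn).1 hz
    exact lamq_ne (qc_so Q hn i j h1) h2
  θ_tr i j z hz v := by
    obtain ⟨h1, h2⟩ := (mem_ov Q hn).1 hz
    have h := tau_trn Q hn i j h1 h2 v
    rw [← (ev_ch Q hn h1 h2).fderiv_eq, ← ch_ch Q hn h1] at h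
    exact h
  h _ := TwL_847.hL
  h_sm k := TwL_847.hL_sm _
  h_pos k z _ := TwL_847.hL_pos z
  h_tr i j z hz := by
    obtain ⟨h1, h2⟩ := (mem_ov Q hn).1 hz
    have h := den_trn (qc_so Q hn i j h1) h2
    have e : (acm Q hn).e j (((acm Q hn).e i).symm z) = trn (chg i.e j.e) (qc Q i j) z :=
      ch_ch Q hn h1
    rw [e]
    show (2 * den (st (qc Q i j z.1 *ᵥ xx z.2)) ^ 2)⁻¹ =
      ‖lamq (qc Q i j z.1) z.2‖ ^ 2 * (2 * den z.2 ^ 2)⁻¹
    have hne : ‖lamq (qc Q i j z.1) z.2‖ ≠ 0 :=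
      norm_ne_zero_iff.2 (lamq_ne (qc_so Q hn i j h1) h2)
    have hd := den_ne (st (qc Q i j z.1 *ᵥ xx z.2))
    rw [h]
    field_simp
  α k := TwL_847.alL (G.g k.e) (fr Q k)
  α_sm := alL_sm' Q hn
  α_h k z _ v := TwL_847.alL_h z v
  θ_db k z hz v w :=
    TwL_847.thL_db hm hnm (qk Q k) (hν k.e k.he) ((mem_ch_target Q hn k z).1 hz) v w
  pos k z hz v hv :=
    TwL_847.alL_pos hm hnm (qk Q k) (hν k.e k.he) hν0 ((mem_ch_target Q hn k z).1 hz) hv
  nondeg k z hz v hv hd :=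
    TwL_847.thL_nondeg hm hnm (qk Q k) (hν k.e k.he) hν0 ((mem_ch_target Q hn k z).1 hz) hv hd

/-- **everything at once**, under the hypotheses of S0398 -/
theorem tw_all {m : ℕ} (hm : 2 ≤ m) (hnm : n = 4 * m) [ConnectedSpace M]
    (hpos : ∀ e ∈ atlas (EuclideanSpace ℝ (Fin n)) M, ∀ x ∈ e.target, 0 < scalarCurv (G.g e) x) :
    (acm Q hn).Int ∧ Nonempty (Nn_254.CD (acm Q hn)) := by
  obtain ⟨ν, hν0, hν⟩ := nu_const hm hnm G Q hpos
  exact ⟨acm_int Q hn hm hnm hν, ⟨cdZ Q hn hm hnm hν0 hν⟩⟩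

end manifold

end Crest.Agent.R260.Tw_979
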