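import Crest.Agent.R260.Tw10_979
import Crest.Agent.R260.MainT_803

/-!
Row 260, helper847: the record `TwCD` of helper803 for the twistor space of S0398.
-/

set_option autoImplicit false

open scoped Manifold ContDiff Topology
open Set Complex
open Crest.GeometryTopology.CoordMetric Crest.GeometryTopology.ChartRiem

noncomputable section

namespace Crest.Agent.R260.TwL_847

open Crest.Agent.R260.Tw_979 Crest.Agent.R260.Qk3_151 Crest.Agent.R260.Qk4_151
  Crest.Agent.R260.Qk7_151 Crest.Agent.R260.Tup_45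

/-- the matrix `diag (-1, 1, -1)` -/
def qf : Matrix (Fin 3) (Fin 3) ℝ := Matrix.diagonal ![-1, 1, -1]

lemma lamq_qf (w : ℂ) : lamq qf w = -w ^ 2 := by
  have h : ∀ a, cmv qf (nn w) a = ![-nn w 0, nn w 1, -nn w 2] a := by
    intro a
    simp only [cmv, qf, Fin.sum_univ_three]
    fin_cases a <;> simp [Matrix.diagonal]
  rw [lamq, h, h]
  simp only [Matrix.cons_val_one, Matrix.cons_val_zero, Matrix.cons_val, nn_1, nn_2]
  linear_combination ((1 + w ^ 2) / 2) * I_sq

variable {n : ℕ} {M : Type} [TopologicalSpace M] [ChartedSpace (EuclideanSpace ℝ (Fin n)) M]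
  [IsManifold 𝓘(ℝ, EuclideanSpace ℝ (Fin n)) ∞ M]
  {G : ChartMetric n M} (Q : QuaternionicStructure n M G) (hn : n ≠ 0)
  {e : OpenPartialHomeomorph M (EuclideanSpace ℝ (Fin n))}
  (he : e ∈ atlas (EuclideanSpace ℝ (Fin n)) M)

include hn in
lemma qc_flip {x : EuclideanSpace ℝ (Fin n)} (hx : x ∈ e.target) :
    qc Q ⟨e, he, true⟩ ⟨e, he, false⟩ x = qf := by
  have hp : e.symm x ∈ e.source := e.map_target hx
  ext b a
  refine qm_unique Q hn (k := ⟨e, he, true⟩) (k' := ⟨e, he, false⟩) hp hp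
    (c := fun b => qf b a) ?_ b
  simp only [jac_self he hp, Matrix.one_mul, Matrix.mul_one, fr, Tw_979.flip, Fin.sum_univ_three]
  fin_cases a <;> simp [qf, sg, Matrix.diagonal]

lemma alSpec_alL {g : MetricField n} {J : Fin 3 → EuclideanSpace ℝ (Fin n) → Matrix (Fin n) (Fin n) ℝ}
    (z : EuclideanSpace ℝ (Fin n) × ℂ) : AlSpec (Th g J) z (alL g J z) := by
  refine ⟨fun η => ?_, fun X => ?_⟩
  · show -(au (fun a y => Th g J y a) z (0, η)) + I * -(au (fun a y => Th g J y a) z (0, I * η)) = 0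
    rw [au_eq, au_eq, tau_apply, tau_apply]
    simp only [map_zero, sub_zero, add_zero]
    linear_combination (-(2 * (starRingEnd ℂ) z.2 / (den z.2 : ℂ) * η)) * I_sq
  · show -(au (fun a y => Th g J y a) z (X, bec (Th g J) z X)) = _
    rw [au_eq, tau_apply]
    have h1 : bec (Th g J) z X = bt (fun a y => Th g J y a) z X := by
      rw [bec_apply, bt_apply]
      rfl
    rw [h1, sub_self, mul_zero, zero_add, bp_apply]
    rfl

/-- **helper803's record** -/
def twCD' {m : ℕ} (hm : 2 ≤ m) (hnm : n = 4 * m) {ν : ℝ} (hν0 : 0 < ν)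
    (hν : ∀ e ∈ atlas (EuclideanSpace ℝ (Fin n)) M, ∀ x ∈ e.target,
      Qk5_151.nu (G.g e) m x = ν) : MainC_803.TwCD Q hn where
  int := acm_int Q hn hm hnm hν
  cd := cdZ Q hn hm hnm hν0 hν
  th1 k x _ w := by
    show tau (fun a y => Th (G.g k.e) (fr Q k) y a) (x, w) (0, 1) = 1
    rw [tau_apply]
    simp
  lam e he x hx w _ := by
    show lamq (qc Q ⟨e, he, true⟩ ⟨e, he, false⟩ x) w = -w ^ 2
    rw [qc_flip Q hn he hx, lamq_qf]
  al k x _ w := alSpec_alL (x, w)

/-- the record under the hypotheses of S0398 -/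
theorem twCD {m : ℕ} (hm : 2 ≤ m) (hnm : n = 4 * m) [ConnectedSpace M]
    (hpos : ∀ e ∈ atlas (EuclideanSpace ℝ (Fin n)) M, ∀ x ∈ e.target, 0 < scalarCurv (G.g e) x) :
    Nonempty (MainC_803.TwCD Q hn) := by
  obtain ⟨ν, hν0, hν⟩ := nu_const hm hnm G Q hpos
  exact ⟨twCD' Q hn hm hnm hν0 hν⟩

end Crest.Agent.R260.TwL_847
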