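import Mathlib
import Crest.Agent.R270.Free0_711

/-!
Row 260 (S0398), leaf VFREE (helper703), part 1: very free maps in the language of `Free0_711`.

* `Mk 0` : tangent fields `G` with `deg (G x) < e x` (sections of `F^* T^(-1)`);
* `Eu i` : "Euler fields", elements of `Mk 1`;
* `Phi c : Mk 0 × (I → K) → kc c` : value at `c` of `G + ∑ lam i • Eu i` ;
* `Pinf : Mk 0 × (I → K) → kinf` : value at infinity (of `(X - c) G + ∑ lam i • Eu i`).

The kernels of `Phi c` and `Pinf` are isomorphic, so surjectivity at one point is surjectivity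
everywhere.
-/

set_option autoImplicit false
set_option linter.unusedSectionVars false

namespace Crest.Agent.R260.Vf_703

open Polynomial
open Crest.Agent.R270.Free0_711

variable {K : Type*} [Field K] {σ E I : Type*} [Fintype σ] [Fintype I]
variable {Jac : E → σ → K[X]} {e : σ → ℕ} {e' : E → ℕ}

/-- `G + ∑ lam i • Eu i`, as an element of `Mk 1`. -/
noncomputable def addE (Eu : I → Mk Jac e 1) : (Mk Jac e 0 × (I → K)) →ₗ[K] Mk Jac e 1 :=
  (Submodule.inclusion (Mk_mono (Nat.zero_le 1))).comp (LinearMap.fst K _ _) +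
    (Fintype.linearCombination K Eu).comp (LinearMap.snd K _ _)

/-- `(X - c) G + ∑ lam i • Eu i`. -/
noncomputable def mulE (Eu : I → Mk Jac e 1) (c : K) : (Mk Jac e 0 × (I → K)) →ₗ[K] Mk Jac e 1 :=
  (mulc c 0).comp (LinearMap.fst K _ _) +
    (Fintype.linearCombination K Eu).comp (LinearMap.snd K _ _)

theorem addE_apply (Eu : I → Mk Jac e 1) (G : Mk Jac e 0) (lam : I → K) :
    addE Eu (G, lam) = Submodule.inclusion (Mk_mono (Nat.zero_le 1)) G + ∑ i, lam i • Eu i := rfl

theorem mulE_apply (Eu : I → Mk Jac e 1) (c : K) (G : Mk Jac e 0) (lam : I → K) :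
    mulE Eu c (G, lam) = mulc c 0 G + ∑ i, lam i • Eu i := rfl

/-- value at `c`. -/
noncomputable def Phi (Eu : I → Mk Jac e 1) (c : K) : (Mk Jac e 0 × (I → K)) →ₗ[K] kc Jac c :=
  (evc c 1).comp (addE Eu)

variable (hdeg : ∀ p x, Jac p x ≠ 0 → (Jac p x).natDegree + e x ≤ e' p)

/-- value at infinity. -/
noncomputable def Pinf (Eu : I → Mk Jac e 1) (c : K) :
    (Mk Jac e 0 × (I → K)) →ₗ[K] kinf Jac e e' :=
  (topc hdeg 0).comp (mulE Eu c)

/-- `Pinf` does not depend on `c`. -/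
theorem Pinf_eq (Eu : I → Mk Jac e 1) (c c' : K) : Pinf hdeg Eu c = Pinf hdeg Eu c' := by
  apply LinearMap.ext
  rintro ⟨G, lam⟩
  have h1 : ∀ c : K, Pinf hdeg Eu c (G, lam) =
      topc hdeg 0 (mulc c 0 G) + topc hdeg 0 (∑ i, lam i • Eu i) := fun c => by
    rw [← map_add]; rfl
  rw [h1, h1]
  congr 1
  apply Subtype.ext
  funext x
  have h2 : ∀ c : K, (topc hdeg 0 (mulc c 0 G)).1 x = (X * G.1 x).coeff (e x) := by
    intro c
    change ((X - C c) * G.1 x).coeff (e x + 0) = _
    have h3 : (G.1 x).coeff (e x) = 0 := coeff_eq_zero_of_degree_lt (mem_degreeLT.1 (G.2.1 x))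
    rw [add_zero, sub_mul, coeff_sub, coeff_C_mul, h3, mul_zero, sub_zero]
  rw [h2, h2]

theorem ker_topc (a : ℕ) (H : Mk Jac e (a + 1)) (h : topc hdeg a H = 0) :
    ∃ G : Mk Jac e a, Submodule.inclusion (Mk_mono (Nat.le_succ a)) G = H := by
  have h' : ∀ x, (H.1 x).coeff (e x + a) = 0 := fun x => congrFun (congrArg Subtype.val h) x
  exact ⟨⟨H.1, fun x => degreeLT_of_coeff (H.2.1 x) (h' x), H.2.2⟩, rfl⟩

theorem topc_incl (a : ℕ) (G : Mk Jac e a) :
    topc hdeg a (Submodule.inclusion (Mk_mono (Nat.le_succ a)) G) = 0 := by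
  apply Subtype.ext
  funext x
  exact coeff_eq_zero_of_degree_lt (mem_degreeLT.1 (G.2.1 x))

theorem evc_mulc (c : K) (a : ℕ) (G : Mk Jac e a) : evc c (a + 1) (mulc c a G) = 0 := by
  have : mulc c a G ∈ LinearMap.ker (evc (Jac := Jac) (e := e) c (a + 1)) := by
    rw [ker_evc]; exact ⟨G, rfl⟩
  exact this

/-- the space of triples `(G, G', lam)` with `G + ∑ lam i • Eu i = (X - c) G'`. -/
noncomputable def R (Eu : I → Mk Jac e 1) (c : K) :
    Submodule K ((Mk Jac e 0 × (I → K)) × Mk Jac e 0) :=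
  LinearMap.ker ((addE Eu).comp (LinearMap.fst K _ _) - (mulc c 0).comp (LinearMap.snd K _ _))

theorem mem_R {Eu : I → Mk Jac e 1} {c : K} {z : (Mk Jac e 0 × (I → K)) × Mk Jac e 0} :
    z ∈ R Eu c ↔ addE Eu z.1 = mulc c 0 z.2 := by
  rw [R, LinearMap.mem_ker]
  change addE Eu z.1 - mulc c 0 z.2 = 0 ↔ _
  exact sub_eq_zero

theorem finrank_R_left (Eu : I → Mk Jac e 1) (c : K) :
    Module.finrank K (R Eu c) = Module.finrank K (LinearMap.ker (Phi Eu c)) := by
  let f : R Eu c →ₗ[K] LinearMap.ker (Phi Eu c) :=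
    LinearMap.codRestrict _ ((LinearMap.fst K _ _).comp (R Eu c).subtype) fun z => by
      rw [LinearMap.mem_ker]
      change evc c 1 (addE Eu z.1.1) = 0
      rw [mem_R.1 z.2, evc_mulc]
  refine LinearEquiv.finrank_eq (LinearEquiv.ofBijective f ⟨?_, ?_⟩)
  · intro z w hz
    have h1 : z.1.1 = w.1.1 := congrArg Subtype.val hz
    have h3 : z.1.2 = w.1.2 := by
      apply mulc_injective (Jac := Jac) (e := e) c 0
      rw [← mem_R.1 z.2, ← mem_R.1 w.2, h1]
    exact Subtype.ext (Prod.ext h1 h3)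
  · rintro ⟨z, hz⟩
    have h1 : addE Eu z ∈ LinearMap.range (mulc (Jac := Jac) (e := e) c 0) := by
      rw [← ker_evc]
      exact hz
    obtain ⟨G', hG'⟩ := h1
    exact ⟨⟨(z, G'), mem_R.2 hG'.symm⟩, rfl⟩

theorem finrank_R_right (Eu : I → Mk Jac e 1) (c : K) :
    Module.finrank K (R Eu c) = Module.finrank K (LinearMap.ker (Pinf hdeg Eu c)) := by
  let g : ((Mk Jac e 0 × (I → K)) × Mk Jac e 0) →ₗ[K] (Mk Jac e 0 × (I → K)) :=
    LinearMap.prod (LinearMap.snd K _ _) (-(LinearMap.snd K _ _).comp (LinearMap.fst K _ _))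
  have hg : ∀ z, g z = (z.2, -z.1.2) := fun z => rfl
  have key : ∀ z : (Mk Jac e 0 × (I → K)) × Mk Jac e 0, z ∈ R Eu c →
      mulE Eu c (g z) = Submodule.inclusion (Mk_mono (Nat.zero_le 1)) z.1.1 := by
    rintro ⟨⟨G, lam⟩, G'⟩ hz
    have h1 := mem_R.1 hz
    rw [hg, mulE_apply]
    change mulc c 0 G' + ∑ i, (-lam) i • Eu i = _
    rw [← h1]
    change addE Eu (G, lam) + _ = _
    rw [addE_apply]
    have h2 : ∑ i, (-lam) i • Eu i = -∑ i, lam i • Eu i := by
      rw [← Finset.sum_neg_distrib]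
      exact Finset.sum_congr rfl fun i _ => Subtype.ext (neg_smul (lam i) (Eu i).1)
    rw [h2, add_assoc, add_neg_cancel, add_zero]
  let f : R Eu c →ₗ[K] LinearMap.ker (Pinf hdeg Eu c) :=
    LinearMap.codRestrict _ (g.comp (R Eu c).subtype) fun z => by
      rw [LinearMap.mem_ker]
      change topc hdeg 0 (mulE Eu c (g z.1)) = 0
      rw [key z.1 z.2]
      exact topc_incl hdeg 0 _
  refine LinearEquiv.finrank_eq (LinearEquiv.ofBijective f ⟨?_, ?_⟩)
  · intro z w hz
    have h0 : g z.1 = g w.1 := congrArg Subtype.val hz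
    have h0' := h0
    rw [hg, hg] at h0'
    have h1 : z.1.2 = w.1.2 := congrArg Prod.fst h0'
    have h2 : z.1.1.2 = w.1.1.2 := neg_injective (congrArg Prod.snd h0')
    have h4 : z.1.1.1 = w.1.1.1 := by
      apply Submodule.inclusion_injective (Mk_mono (Jac := Jac) (e := e) (Nat.zero_le 1))
      rw [← key z.1 z.2, ← key w.1 w.2, h0]
    exact Subtype.ext (Prod.ext (Prod.ext h4 h2) h1)
  · rintro ⟨⟨G', mu⟩, hz⟩
    have h1 : topc hdeg 0 (mulE Eu c (G', mu)) = 0 := hz
    obtain ⟨G, hG⟩ := ker_topc hdeg 0 _ h1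
    refine ⟨⟨((G, -mu), G'), mem_R.2 ?_⟩, ?_⟩
    · rw [addE_apply]
      change Submodule.inclusion (Mk_mono (Nat.zero_le 1)) G + ∑ i, (-mu) i • Eu i = mulc c 0 G'
      have h2 : Submodule.inclusion (Mk_mono (Nat.zero_le 1)) G = mulc c 0 G' + ∑ i, mu i • Eu i :=
        hG
      have h3 : ∑ i, (-mu) i • Eu i = -∑ i, mu i • Eu i := by
        rw [← Finset.sum_neg_distrib]
        exact Finset.sum_congr rfl fun i _ => Subtype.ext (neg_smul (mu i) (Eu i).1)
      rw [h2, h3, add_assoc, add_neg_cancel, add_zero]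
    · apply Subtype.ext
      change (G', - -mu) = (G', mu)
      rw [neg_neg]

/-- the ranks of `Phi c` and `Pinf` are all equal. -/
theorem finrank_range_Phi (Eu : I → Mk Jac e 1) (c c' : K) :
    Module.finrank K (LinearMap.range (Phi Eu c)) =
      Module.finrank K (LinearMap.range (Pinf hdeg Eu c')) := by
  have h1 := LinearMap.finrank_range_add_finrank_ker (Phi Eu c)
  have h2 := LinearMap.finrank_range_add_finrank_ker (Pinf hdeg Eu c)
  have h3 := finrank_R_left Eu c
  have h4 := finrank_R_right hdeg Eu c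
  rw [Pinf_eq hdeg Eu c' c]
  omega

include hdeg

/-- **(T)** very freeness at one point implies very freeness at every point. -/
theorem Phi_surjective (Eu : I → Mk Jac e 1) {c₀ : K}
    (h0 : Function.Surjective (Phi Eu c₀)) (c : K)
    (hc : Module.finrank K (kc Jac c) ≤ Module.finrank K (kc Jac c₀)) :
    Function.Surjective (Phi Eu c) := by
  have h1 := finrank_range_Phi hdeg Eu c c₀
  have h2 := finrank_range_Phi hdeg Eu c₀ c₀
  rw [LinearMap.range_eq_top.2 h0, finrank_top] at h2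
  rw [← LinearMap.range_eq_top]
  refine Submodule.eq_top_of_finrank_eq (le_antisymm (Submodule.finrank_le _) ?_)
  omega

theorem Pinf_surjective (Eu : I → Mk Jac e 1) {c₀ : K}
    (h0 : Function.Surjective (Phi Eu c₀)) (c : K)
    (hc : Module.finrank K (kinf Jac e e') ≤ Module.finrank K (kc Jac c₀)) :
    Function.Surjective (Pinf hdeg Eu c) := by
  have h1 := finrank_range_Phi hdeg Eu c₀ c
  rw [LinearMap.range_eq_top.2 h0, finrank_top] at h1
  rw [← LinearMap.range_eq_top]
  refine Submodule.eq_top_of_finrank_eq (le_antisymm (Submodule.finrank_le _) ?_)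
  omega

/-- very free implies free. -/
theorem evc_surj (Eu : I → Mk Jac e 1) {c₀ : K} (h0 : Function.Surjective (Phi Eu c₀)) :
    Function.Surjective (evc (Jac := Jac) (e := e) c₀ 1) := fun g => by
  obtain ⟨z, hz⟩ := h0 g
  exact ⟨addE Eu z, hz⟩

end Crest.Agent.R260.Vf_703
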