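import Mathlib
import Crest.Agent.R260.Vf1_703

/-!
Row 260 (S0398), leaf VFREE (helper703), part 2: openness of very freeness.

`O` a valuation ring of `L`, `π : O → κ` a ring homomorphism to a field, equations with
coefficients in `O`.

* `exists_red` : a finite dimensional space of vectors over `L` has a basis with coefficients in
  `O` whose reductions are linearly independent over `κ`;
* `finrank_Mk_le`, `finrank_ker_le` : semicontinuity of the dimensions of `Mk a`, `ker (Phi 0)`;
* `open_vf` : if the reduction is very free and the dimensions of `Mk T` agree for one `T`, then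
  the map over `L` is very free.
-/

set_option autoImplicit false
set_option linter.unusedSectionVars false

namespace Crest.Agent.R260.Vf_703

open Polynomial
open Crest.Agent.R270.Free0_711

section lattice

variable {L : Type*} [Field L] (O : ValuationSubring L) {κ : Type*} [Field κ] (π : O →+* κ)

theorem exists_max {T : Type*} (s : Finset T) (f : T → L) (h : ∃ t ∈ s, f t ≠ 0) :
    ∃ t ∈ s, f t ≠ 0 ∧ ∀ u ∈ s, f u / f t ∈ O := by
  obtain ⟨t0, ht0, hf0⟩ := h
  obtain ⟨t, ht, hmax⟩ := Finset.exists_max_image s (fun t => O.valuation (f t)) ⟨t0, ht0⟩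
  have hft : f t ≠ 0 := by
    intro h0
    have h1 := hmax t0 ht0
    simp only [h0, map_zero] at h1
    exact hf0 ((O.valuation.zero_iff).1 (le_antisymm h1 zero_le))
  refine ⟨t, ht, hft, fun u hu => ?_⟩
  rw [← O.valuation_le_one_iff, map_div₀]
  exact div_le_one_of_le₀ (hmax u hu) zero_le

theorem exists_red_aux {W T : Type*} [AddCommGroup W] [Module L W] (coef : T → W →ₗ[L] L)
    (n : ℕ) : ∀ (V : Submodule L W), FiniteDimensional L V → Module.finrank L V = n →
    (∀ w ∈ V, {t | coef t w ≠ 0}.Finite) → (∀ w ∈ V, (∀ t, coef t w = 0) → w = 0) →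
    ∃ b : Fin n → W, (∀ i, b i ∈ V) ∧ ∃ hb : ∀ i t, coef t (b i) ∈ O,
      ∀ c : Fin n → κ, (∀ t, ∑ i, c i * π ⟨coef t (b i), hb i t⟩ = 0) → c = 0 := by
  induction n with
  | zero =>
    intro V _ _ _ _
    exact ⟨Fin.elim0, fun i => i.elim0, fun i => i.elim0, fun c _ => funext fun i => i.elim0⟩
  | succ n ih =>
    intro V hV hn hfin hinj
    -- a non-zero vector
    obtain ⟨w, hwV, hw0⟩ : ∃ w ∈ V, w ≠ 0 := by
      by_contra h
      push Not at h
      have : V = ⊥ := (Submodule.eq_bot_iff V).2 h
      rw [this, finrank_bot] at hn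
      omega
    have hex : ∃ t ∈ (hfin w hwV).toFinset, coef t w ≠ 0 := by
      by_contra h
      push Not at h
      refine hw0 (hinj w hwV fun t => ?_)
      by_contra h1
      exact h1 (h t ((hfin w hwV).mem_toFinset.2 h1))
    obtain ⟨t0, -, ht0, hmax⟩ := exists_max O _ (fun t => coef t w) hex
    let v : W := (coef t0 w)⁻¹ • w
    have hvV : v ∈ V := V.smul_mem _ hwV
    have hvt : ∀ t, coef t v = coef t w / coef t0 w := fun t => by
      rw [map_smul, smul_eq_mul, div_eq_mul_inv, mul_comm]
    have hv0 : coef t0 v = 1 := by rw [hvt, div_self ht0]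
    have hvO : ∀ t, coef t v ∈ O := fun t => by
      rw [hvt]
      by_cases h : coef t w = 0
      · rw [h, zero_div]; exact O.zero_mem
      · exact hmax t ((hfin w hwV).mem_toFinset.2 h)
    -- the complement
    let φ : V →ₗ[L] L := (coef t0).comp V.subtype
    have hφ : Function.Surjective φ := fun a => ⟨a • ⟨v, hvV⟩, by
      change coef t0 (a • v) = a
      rw [map_smul, hv0, smul_eq_mul, mul_one]⟩
    let V' : Submodule L W := (LinearMap.ker φ).map V.subtype
    have hV'V : V' ≤ V := Submodule.map_subtype_le _ _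
    have hV'0 : ∀ x ∈ V', coef t0 x = 0 := by
      rintro _ ⟨y, hy, rfl⟩
      exact hy
    have hfr : Module.finrank L V' = n := by
      have h1 : Module.finrank L V' = Module.finrank L (LinearMap.ker φ) :=
        Submodule.finrank_map_subtype_eq _ _
      have h2 := LinearMap.finrank_range_add_finrank_ker φ
      rw [LinearMap.range_eq_top.2 hφ, finrank_top, Module.finrank_self, hn] at h2
      omega
    have hV'fin : FiniteDimensional L V' := Submodule.finiteDimensional_of_le hV'V
    obtain ⟨b, hb1, hb2, hb3⟩ := ih V' hV'fin hfr (fun x hx => hfin x (hV'V hx))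
      (fun x hx => hinj x (hV'V hx))
    refine ⟨Fin.cons v b, ?_, ?_, ?_⟩
    · intro i
      refine Fin.cases ?_ (fun i => ?_) i
      · exact hvV
      · exact hV'V (hb1 i)
    · intro i
      refine Fin.cases ?_ (fun i => ?_) i
      · exact hvO
      · exact hb2 i
    · intro c hc
      have h0 : c 0 = 0 := by
        have h1 := hc t0
        rw [Fin.sum_univ_succ] at h1
        have h2 : ∀ i : Fin n, π ⟨coef t0 (b i), hb2 i t0⟩ = 0 := fun i => by
          have : (⟨coef t0 (b i), hb2 i t0⟩ : O) = 0 := Subtype.ext (hV'0 _ (hb1 i))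
          rw [this, map_zero]
        have h3 : (⟨coef t0 v, hvO t0⟩ : O) = 1 := Subtype.ext hv0
        simp only [Fin.cons_zero, Fin.cons_succ, h2, mul_zero, Finset.sum_const_zero, add_zero,
          h3, map_one, mul_one] at h1
        exact h1
      have h1 := hb3 (fun i => c i.succ) fun t => by
        have h1 := hc t
        rw [Fin.sum_univ_succ, h0, zero_mul, zero_add] at h1
        exact h1
      funext i
      refine Fin.cases ?_ (fun i => ?_) i
      · exact h0
      · exact congrFun h1 i

/-- a basis of `V` with coefficients in `O` and independent reductions. -/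
theorem exists_red {W T : Type*} [AddCommGroup W] [Module L W] (coef : T → W →ₗ[L] L)
    (V : Submodule L W) [FiniteDimensional L V]
    (hfin : ∀ w ∈ V, {t | coef t w ≠ 0}.Finite) (hinj : ∀ w ∈ V, (∀ t, coef t w = 0) → w = 0) :
    ∃ b : Fin (Module.finrank L V) → W, (∀ i, b i ∈ V) ∧ ∃ hb : ∀ i t, coef t (b i) ∈ O,
      ∀ c : Fin (Module.finrank L V) → κ,
        (∀ t, ∑ i, c i * π ⟨coef t (b i), hb i t⟩ = 0) → c = 0 :=
  exists_red_aux O π coef _ V inferInstance rfl hfin hinj

end lattice

section mk

variable {L : Type*} [Field L] (O : ValuationSubring L) {κ : Type*} [Field κ] (π : O →+* κ)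
variable {σ E I : Type*} [Fintype σ] [Fintype I]
variable (JO : E → σ → O[X]) (e : σ → ℕ) (e' : E → ℕ)

/-- the matrix over `L` -/
noncomputable abbrev JL : E → σ → L[X] := fun p x => (JO p x).map (algebraMap O L)

/-- the matrix over `κ` -/
noncomputable abbrev Jκ : E → σ → κ[X] := fun p x => (JO p x).map π

variable {JO}

theorem exists_lift (f : L[X]) (hf : ∀ n, f.coeff n ∈ O) :
    ∃ F : O[X], F.map (algebraMap O L) = f := by
  have : f ∈ lifts (algebraMap O L) := by
    rw [lifts_iff_coeff_lifts]
    exact fun n => ⟨⟨f.coeff n, hf n⟩, rfl⟩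
  exact (mem_lifts f).1 this

theorem degreeLT_map {f : O[X]} {n : ℕ} (h : f.map (algebraMap O L) ∈ degreeLT L n) :
    f.map π ∈ degreeLT κ n := by
  rw [mem_degreeLT] at h ⊢
  rw [degree_map_eq_of_injective (IsFractionRing.injective O L)] at h
  exact lt_of_le_of_lt (degree_map_le) h

theorem tangent_map {B : σ → O[X]} {p : E}
    (h : ∑ x, JL O JO p x * (B x).map (algebraMap O L) = 0) :
    ∑ x, Jκ O π JO p x * (B x).map π = 0 := by
  have h1 : ∑ x, JO p x * B x = 0 := by
    apply Polynomial.map_injective _ (IsFractionRing.injective O L)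
    rw [Polynomial.map_zero, Polynomial.map_sum, ← h]
    exact Finset.sum_congr rfl fun x _ => Polynomial.map_mul _
  have h2 := congrArg (Polynomial.map π) h1
  rw [Polynomial.map_zero, Polynomial.map_sum] at h2
  rw [← h2]
  exact Finset.sum_congr rfl fun x _ => (Polynomial.map_mul _).symm

/-- semicontinuity of the dimension of the space of tangent fields. -/
theorem finrank_Mk_le (a : ℕ) :
    Module.finrank L (Mk (JL O JO) e a) ≤ Module.finrank κ (Mk (Jκ O π JO) e a) := by
  classical
  let coef : (σ × ℕ) → (σ → L[X]) →ₗ[L] L := fun t =>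
    (lcoeff L t.2).comp (LinearMap.proj t.1)
  have hcoef : ∀ t G, coef t G = (G t.1).coeff t.2 := fun t G => rfl
  obtain ⟨b, hb1, hb2, hb3⟩ := exists_red O π coef (Mk (JL O JO) e a)
    (fun w _ => by
      refine Set.Finite.subset (Set.Finite.preimage (f := fun t : σ × ℕ => (t.1, t.2))
        (fun _ _ _ _ h => h) (Set.toFinite (⋃ x : σ, (Prod.mk x) '' ((w x).support : Set ℕ)))) ?_
      rintro ⟨x, n⟩ h
      simp only [Set.mem_preimage, Set.mem_iUnion]
      exact ⟨x, n, mem_support_iff.2 h, rfl⟩)
    (fun w _ h => by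
      funext x
      ext n
      exact h (x, n))
  choose B hB using fun i x => exists_lift O (b i x) fun n => hb2 i (x, n)
  have hBc : ∀ i x n, (⟨coef (x, n) (b i), hb2 i (x, n)⟩ : O) = (B i x).coeff n := by
    intro i x n
    apply Subtype.ext
    change (b i x).coeff n = _
    rw [← hB i x, coeff_map]
    rfl
  have hmem : ∀ i, (fun x => (B i x).map π) ∈ Mk (Jκ O π JO) e a := by
    intro i
    refine ⟨fun x => degreeLT_map O π ?_, fun p => tangent_map O π ?_⟩
    · rw [hB]; exact (hb1 i).1 x
    · rw [← (hb1 i).2 p]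
      exact Finset.sum_congr rfl fun x _ => by rw [hB]
  have hli : LinearIndependent κ fun i => (⟨_, hmem i⟩ : Mk (Jκ O π JO) e a) := by
    rw [Fintype.linearIndependent_iff]
    intro c hc
    have h1 := hb3 c fun t => by
      have h2 := congrArg (fun G : Mk (Jκ O π JO) e a => (G.1 t.1).coeff t.2) hc
      simp only [Submodule.coe_sum, Finset.sum_apply, finsetSum_coeff, Submodule.coe_smul,
        Pi.smul_apply, coeff_smul, smul_eq_mul, ZeroMemClass.coe_zero, Pi.zero_apply,
        coeff_zero] at h2
      rw [← h2]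
      exact Finset.sum_congr rfl fun i _ => by rw [hBc i t.1 t.2, coeff_map]
    exact fun i => congrFun h1 i
  have := hli.fintype_card_le_finrank
  rwa [Fintype.card_fin] at this

theorem Phi_apply {K : Type*} [Field K] {J : E → σ → K[X]} (Eu : I → Mk J e 1) (c : K)
    (G : Mk J e 0) (lam : I → K) (x : σ) :
    (Phi Eu c (G, lam)).1 x = (G.1 x).eval c + ∑ i, lam i * ((Eu i).1 x).eval c := by
  change ((addE Eu (G, lam)).1 x).eval c = _
  rw [addE_apply]
  simp only [Submodule.coe_add, Submodule.coe_inclusion, Submodule.coe_sum, Submodule.coe_smul,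
    Pi.add_apply, Finset.sum_apply, Pi.smul_apply, eval_add, eval_finsetSum, eval_smul,
    smul_eq_mul]

/-- semicontinuity of the dimension of the kernel of `Phi`. -/
theorem finrank_ker_le (EuL : I → Mk (JL O JO) e 1) (Euκ : I → Mk (Jκ O π JO) e 1)
    (EuO : I → σ → O[X]) (hL : ∀ i x, (EuL i).1 x = (EuO i x).map (algebraMap O L))
    (hκ : ∀ i x, (Euκ i).1 x = (EuO i x).map π) (c : O) :
    Module.finrank L (LinearMap.ker (Phi EuL (algebraMap O L c))) ≤
      Module.finrank κ (LinearMap.ker (Phi Euκ (π c))) := by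
  classical
  let W := Mk (JL O JO) e 0 × (I → L)
  let coef : (σ × ℕ) ⊕ I → W →ₗ[L] L := Sum.elim
    (fun t => ((lcoeff L t.2).comp (LinearMap.proj t.1)).comp
      ((Mk (JL O JO) e 0).subtype.comp (LinearMap.fst L _ _)))
    (fun i => (LinearMap.proj i).comp (LinearMap.snd L _ _))
  have hcoef1 : ∀ x n (w : W), coef (Sum.inl (x, n)) w = (w.1.1 x).coeff n := fun _ _ _ => rfl
  have hcoef2 : ∀ i (w : W), coef (Sum.inr i) w = w.2 i := fun _ _ => rfl
  obtain ⟨b, hb1, hb2, hb3⟩ := exists_red O π coef
    (LinearMap.ker (Phi EuL (algebraMap O L c)))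
    (fun w _ => by
      refine Set.Finite.subset (Set.Finite.union
        (Set.Finite.image Sum.inl
          (Set.toFinite (⋃ x : σ, (Prod.mk x) '' ((w.1.1 x).support : Set ℕ))))
        (Set.toFinite (Set.range (Sum.inr : I → (σ × ℕ) ⊕ I)))) ?_
      rintro (⟨x, n⟩ | i) h
      · refine Or.inl ⟨(x, n), ?_, rfl⟩
        simp only [Set.mem_iUnion]
        exact ⟨x, n, mem_support_iff.2 h, rfl⟩
      · exact Or.inr ⟨i, rfl⟩)
    (fun w _ h => by
      refine Prod.ext (Subtype.ext ?_) ?_
      · funext x
        ext n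
        exact h (Sum.inl (x, n))
      · funext i
        exact h (Sum.inr i))
  choose B hB using fun i x => exists_lift O ((b i).1.1 x) fun n => hb2 i (Sum.inl (x, n))
  have hBc : ∀ i x n, (⟨coef (Sum.inl (x, n)) (b i), hb2 i (Sum.inl (x, n))⟩ : O) =
      (B i x).coeff n := by
    intro i x n
    apply Subtype.ext
    change ((b i).1.1 x).coeff n = _
    rw [← hB i x, coeff_map]
    rfl
  let lam : Fin _ → I → O := fun i j => ⟨coef (Sum.inr j) (b i), hb2 i (Sum.inr j)⟩
  have hmem : ∀ i, (fun x => (B i x).map π) ∈ Mk (Jκ O π JO) e 0 := by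
    intro i
    refine ⟨fun x => degreeLT_map O π ?_, fun p => tangent_map O π ?_⟩
    · rw [hB]; exact (b i).1.2.1 x
    · rw [← (b i).1.2.2 p]
      exact Finset.sum_congr rfl fun x _ => by rw [hB]
  have hker : ∀ i, ((⟨_, hmem i⟩ : Mk (Jκ O π JO) e 0), fun j => π (lam i j)) ∈
      LinearMap.ker (Phi Euκ (π c)) := by
    intro i
    rw [LinearMap.mem_ker]
    apply Subtype.ext
    funext x
    rw [Phi_apply]
    have h1 : (Phi EuL (algebraMap O L c) (b i)).1 x = 0 := by
      have : Phi EuL (algebraMap O L c) (b i) = 0 := hb1 i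
      rw [this]; rfl
    have h2 : (Phi EuL (algebraMap O L c) (b i)).1 x =
        ((b i).1.1 x).eval (algebraMap O L c) +
          ∑ j, (b i).2 j * ((EuL j).1 x).eval (algebraMap O L c) :=
      Phi_apply e EuL _ (b i).1 (b i).2 x
    have h3 : (B i x).eval c + ∑ j, lam i j * (EuO j x).eval c = 0 := by
      apply IsFractionRing.injective O L
      rw [map_zero, ← h1, h2, map_add, map_sum, ← hB i x, eval_map_algebraMap, aeval_algebraMap_apply]
      congr 1
      refine Finset.sum_congr rfl fun j _ => ?_
      rw [map_mul, hL, eval_map_algebraMap, aeval_algebraMap_apply]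
      rfl
    have h4 := congrArg π h3
    rw [map_zero, map_add, map_sum] at h4
    change ((B i x).map π).eval (π c) + ∑ j, π (lam i j) * ((Euκ j).1 x).eval (π c) = 0
    rw [← h4, eval_map_apply]
    congr 1
    refine Finset.sum_congr rfl fun j _ => ?_
    rw [map_mul, hκ, eval_map_apply]
  have hli0 : LinearIndependent κ fun i =>
      (((fun x => (B i x).map π), fun j => π (lam i j)) : (σ → κ[X]) × (I → κ)) := by
    rw [Fintype.linearIndependent_iff]
    intro d hd
    have h1 := hb3 d fun t => by
      rcases t with ⟨x, n⟩ | j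
      · have h2 := congrArg (fun G : (σ → κ[X]) × (I → κ) => (G.1 x).coeff n) hd
        simp only [Prod.fst_sum, Prod.smul_fst, Finset.sum_apply, finsetSum_coeff,
          Pi.smul_apply, coeff_smul, smul_eq_mul, Pi.zero_apply, coeff_zero,
          Prod.fst_zero] at h2
        rw [← h2]
        exact Finset.sum_congr rfl fun i _ => by rw [hBc i x n, coeff_map]
      · have h2 := congrArg (fun G : (σ → κ[X]) × (I → κ) => G.2 j) hd
        simp only [Prod.snd_sum, Prod.smul_snd, Finset.sum_apply, Pi.smul_apply, smul_eq_mul,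
          Pi.zero_apply, Prod.snd_zero] at h2
        rw [← h2]
    exact fun i => congrFun h1 i
  have hli : LinearIndependent κ fun i =>
      (⟨_, hker i⟩ : LinearMap.ker (Phi Euκ (π c))) :=
    LinearIndependent.of_comp (((Mk (Jκ O π JO) e 0).subtype.prodMap LinearMap.id).comp
      (LinearMap.ker (Phi Euκ (π c))).subtype) hli0
  have := hli.fintype_card_le_finrank
  rwa [Fintype.card_fin] at this

end mk

end Crest.Agent.R260.Vf_703
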