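import Mathlib
import Crest.Agent.R260.Vf2_703

/-!
Row 260 (S0398), leaf VFREE (helper703), part 3: openness of very freeness (main statement) and
the frame of a very free map.
-/

set_option autoImplicit false
set_option linter.unusedSectionVars false

namespace Crest.Agent.R260.Vf_703

open Polynomial
open Crest.Agent.R270.Free0_711

section open_

variable {L : Type*} [Field L] (O : ValuationSubring L) {κ : Type*} [Field κ] (π : O →+* κ)
variable {σ E I : Type*} [Fintype σ] [Fintype I]
variable {JO : E → σ → O[X]} (e : σ → ℕ) (e' : E → ℕ)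

theorem deg_map {R S : Type*} [CommRing R] [CommRing S] (f : R →+* S) {J : E → σ → R[X]}
    (h : ∀ p x, J p x ≠ 0 → (J p x).natDegree + e x ≤ e' p) (p : E) (x : σ)
    (h0 : (J p x).map f ≠ 0) : ((J p x).map f).natDegree + e x ≤ e' p := by
  have h1 : J p x ≠ 0 := by
    intro h2; rw [h2, Polynomial.map_zero] at h0; exact h0 rfl
  have h2 := h p x h1
  have h3 : ((J p x).map f).natDegree ≤ (J p x).natDegree := natDegree_map_le
  omega

/-- **(O)** openness of very freeness. -/
theorem open_vf (hdeg : ∀ p x, JO p x ≠ 0 → (JO p x).natDegree + e x ≤ e' p)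
    (EuL : I → Mk (JL O JO) e 1) (Euκ : I → Mk (Jκ O π JO) e 1)
    (EuO : I → σ → O[X]) (hL : ∀ i x, (EuL i).1 x = (EuO i x).map (algebraMap O L))
    (hκ : ∀ i x, (Euκ i).1 x = (EuO i x).map π) (c : O) {r : ℕ}
    (hκc : Module.finrank κ (kc (Jκ O π JO) (π c)) = r)
    (hκi : Module.finrank κ (kinf (Jκ O π JO) e e') ≤ r)
    (hLc : Module.finrank L (kc (JL O JO) (algebraMap O L c)) ≤ r)
    (T : ℕ) (hT : Module.finrank κ (Mk (Jκ O π JO) e T) ≤ Module.finrank L (Mk (JL O JO) e T))
    (hvf : Function.Surjective (Phi Euκ (π c))) :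
    (∀ a ≤ T, Module.finrank L (Mk (JL O JO) e a) = Module.finrank κ (Mk (Jκ O π JO) e a)) ∧
      Module.finrank L (kc (JL O JO) (algebraMap O L c)) = r ∧
      Function.Surjective (Phi EuL (algebraMap O L c)) := by
  have hfree := evc_surj (deg_map e e' π hdeg) Euκ hvf
  have hstepκ : ∀ a, r + Module.finrank κ (Mk (Jκ O π JO) e a) =
      Module.finrank κ (Mk (Jκ O π JO) e (a + 1)) := fun a =>
    finrank_succ (e' := e') (deg_map e e' π hdeg) hκi hκc hfree a
  have hstepL : ∀ a, Module.finrank L (Mk (JL O JO) e (a + 1)) ≤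
      r + Module.finrank L (Mk (JL O JO) e a) := fun a => by
    have h1 := finrank_evc (Jac := JL O JO) (e := e) (algebraMap O L c) a
    have h2 := Submodule.finrank_le
      (LinearMap.range (evc (Jac := JL O JO) (e := e) (algebraMap O L c) (a + 1)))
    omega
  have hge : ∀ j ≤ T, Module.finrank κ (Mk (Jκ O π JO) e (T - j)) ≤
      Module.finrank L (Mk (JL O JO) e (T - j)) := by
    intro j
    induction j with
    | zero => intro _; simpa using hT
    | succ j ih =>
      intro hj
      have h1 := ih (by omega)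
      have h2 : T - j = (T - (j + 1)) + 1 := by omega
      rw [h2] at h1
      have h3 := hstepκ (T - (j + 1))
      have h4 := hstepL (T - (j + 1))
      omega
  have heq : ∀ a ≤ T, Module.finrank L (Mk (JL O JO) e a) =
      Module.finrank κ (Mk (Jκ O π JO) e a) := fun a ha => by
    refine le_antisymm (finrank_Mk_le O π e a) ?_
    have := hge (T - a) (by omega)
    rwa [show T - (T - a) = a by omega] at this
  have h0 := heq 0 (Nat.zero_le _)
  -- ranks of `Phi`
  have hk := finrank_ker_le O π e EuL Euκ EuO hL hκ c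
  have h1 := LinearMap.finrank_range_add_finrank_ker (Phi EuL (algebraMap O L c))
  have h2 := LinearMap.finrank_range_add_finrank_ker (Phi Euκ (π c))
  rw [Module.finrank_prod, Module.finrank_fintype_fun_eq_card] at h1 h2
  rw [LinearMap.range_eq_top.2 hvf, finrank_top, hκc] at h2
  have h3 := Submodule.finrank_le (LinearMap.range (Phi EuL (algebraMap O L c)))
  have h4 : Module.finrank L (LinearMap.range (Phi EuL (algebraMap O L c))) =
      Module.finrank L (kc (JL O JO) (algebraMap O L c)) := by omega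
  refine ⟨heq, by omega, ?_⟩
  rw [← LinearMap.range_eq_top]
  exact Submodule.eq_top_of_finrank_eq h4

end open_

section frame

variable {K : Type*} [Field K] {σ E I : Type*} [Fintype σ] [Fintype I]
variable {Jac : E → σ → K[X]} {e : σ → ℕ} {e' : E → ℕ}
variable (hdeg : ∀ p x, Jac p x ≠ 0 → (Jac p x).natDegree + e x ≤ e' p)

/-- the kernel of `Phi` is the line of `((X - c) F' - ∑ b i E i, b)`. -/
theorem ker_Phi (Eu : I → Mk Jac e 1) {c : K} (h0 : Function.Surjective (Phi Eu c)) {r : ℕ}
    (hc : Module.finrank K (kc Jac c) = r)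
    (hdim : Module.finrank K (Mk Jac e 0) + Fintype.card I = r + 1)
    {z : Mk Jac e 0 × (I → K)} (hz : Phi Eu c z = 0) (hz2 : z.2 ≠ 0)
    {w : Mk Jac e 0 × (I → K)} (hw : Phi Eu c w = 0) : ∃ t : K, w = t • z := by
  have h1 := LinearMap.finrank_range_add_finrank_ker (Phi Eu c)
  rw [Module.finrank_prod, Module.finrank_fintype_fun_eq_card, LinearMap.range_eq_top.2 h0,
    finrank_top, hc] at h1
  have h2 : Module.finrank K (LinearMap.ker (Phi Eu c)) = 1 := by omega
  have hz' : (⟨z, hz⟩ : LinearMap.ker (Phi Eu c)) ≠ 0 := by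
    intro h
    have : z = 0 := congrArg Subtype.val h
    exact hz2 (by rw [this]; rfl)
  obtain ⟨t, ht⟩ := exists_smul_eq_of_finrank_eq_one (K := K) (V := LinearMap.ker (Phi Eu c)) h2
    (x := ⟨z, hz⟩) hz' ⟨w, hw⟩
  exact ⟨t, (congrArg Subtype.val ht).symm⟩

/-- **(F)** a tangent field of degree `< e` which vanishes at `c` modulo the Euler vectors
`Eu i`, `i ≠ i₀`, is zero. -/
theorem frame_inj (Eu : I → Mk Jac e 1) {c : K} (h0 : Function.Surjective (Phi Eu c)) {r : ℕ}
    (hc : Module.finrank K (kc Jac c) = r)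
    (hdim : Module.finrank K (Mk Jac e 0) + Fintype.card I = r + 1)
    {z : Mk Jac e 0 × (I → K)} (hz : Phi Eu c z = 0) {i₀ : I} (hz2 : z.2 i₀ ≠ 0)
    (G : Mk Jac e 0) (lam : I → K) (hlam : lam i₀ = 0) (h : Phi Eu c (G, lam) = 0) :
    G = 0 ∧ lam = 0 := by
  obtain ⟨t, ht⟩ := ker_Phi Eu h0 hc hdim hz (fun h => hz2 (by rw [h]; rfl)) h
  have h1 : lam i₀ = t * z.2 i₀ := congrFun (congrArg Prod.snd ht) i₀
  rw [hlam] at h1
  have h2 : t = 0 := by
    rcases mul_eq_zero.1 h1.symm with h | h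
    · exact h
    · exact absurd h hz2
  rw [h2, zero_smul] at ht
  exact ⟨congrArg Prod.fst ht, congrArg Prod.snd ht⟩

/-- the same, surjectivity: every tangent vector is uniquely a sum. -/
theorem frame_surj (Eu : I → Mk Jac e 1) {c : K} (h0 : Function.Surjective (Phi Eu c))
    {z : Mk Jac e 0 × (I → K)} (hz : Phi Eu c z = 0) {i₀ : I} (hz2 : z.2 i₀ ≠ 0)
    (g : kc Jac c) : ∃ (G : Mk Jac e 0) (lam : I → K), lam i₀ = 0 ∧ Phi Eu c (G, lam) = g := by
  obtain ⟨w, hw⟩ := h0 g
  refine ⟨(w - (w.2 i₀ / z.2 i₀) • z).1, (w - (w.2 i₀ / z.2 i₀) • z).2, ?_, ?_⟩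
  · change w.2 i₀ - (w.2 i₀ / z.2 i₀) * z.2 i₀ = 0
    rw [div_mul_cancel₀ _ hz2, sub_self]
  · change Phi Eu c (w - (w.2 i₀ / z.2 i₀) • z) = g
    rw [map_sub, map_smul, hz, smul_zero, sub_zero, hw]

end frame

end Crest.Agent.R260.Vf_703
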